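import Mathlib
import Vale.Agent.P100.Pack.Expr

/-!
# Coefficients of the closed forms in `(r, v, d)`, `a = (3 - 5 d + r)/10`

The arguments are scaled: `2000 r`, `5000000 v`, `d`, and `100000` times the others.
-/

set_option linter.unusedVariables false

namespace Vale.Agent.P100.Calib.NegCert

open Pack

/-- `eTA0000_0`, scaled by `1220703125000000000000000000000000000000000000`. -/
def eTA0000_0 (v d : Ex) : Ex := (.add (.mul (.add (.mul (.add (.mul (.add (.mul (.add (.mul
  (.add (.mul (.mul (.mul (.mul (.mul (.add (.mul (.num 25) (.mul (.add (.mul (.add (.mul (.num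
  25) (.mul (.add (.mul (.add (.mul (.num 25) (.mul (.add (.mul (.num 14112) d) (.num (-33600)))
  d)) (.num 622976)) d) (.num 4800)) d)) (.num (-5642784))) d) (.num 2678400)) d)) (.num
  (-9963648))) d) d) d) d) v) (.mul (.num 5000000) (.mul (.mul (.mul (.add (.mul (.num 25) (.mul
  (.add (.mul (.add (.mul (.num 25) (.mul (.add (.mul (.add (.mul (.num 25) (.mul (.add (.mul
  (.num 112896) d) (.num 67200)) d)) (.num (-2044992))) d) (.num (-4489600))) d)) (.num
  58576128)) d) (.num 34963200)) d)) (.num (-443841984))) d) d) d))) v) (.mul (.num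
  25000000000000) (.mul (.mul (.add (.mul (.num 25) (.mul (.add (.mul (.add (.mul (.num 25)
  (.mul (.add (.mul (.add (.mul (.num 25) (.mul (.add (.mul (.num 338688) d) (.num 1478400)) d))
  (.num (-7952576))) d) (.num (-36211200))) d)) (.num 224125184)) d) (.num 206150400)) d)) (.num
  (-1619871552))) d) d))) v) (.mul (.num 125000000000000000000) (.mul (.add (.mul (.num 25)
  (.mul (.add (.mul (.add (.mul (.num 25) (.mul (.add (.mul (.add (.mul (.num 25) (.mul (.add
  (.mul (.num 451584) d) (.num 4569600)) d)) (.num (-3815168))) d) (.num (-99852800))) d)) (.num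
  259098112)) d) (.num 528537600)) d)) (.num (-2352059136))) d))) v) (.mul (.num
  625000000000000000000000000) (.add (.mul (.num 25) (.mul (.add (.mul (.add (.mul (.num 25)
  (.mul (.add (.mul (.add (.mul (.num 25) (.mul (.add (.mul (.num 225792) d) (.num 5376000)) d))
  (.num 18092416)) d) (.num (-113568000))) d)) (.num (-50450944))) d) (.num 586656000)) d))
  (.num (-1176029568))))) v) (.mul (.num 1953125000000000000000000000000000000) (.add (.mul
  (.num 25) (.mul (.add (.mul (.add (.mul (.num 5) (.mul (.add (.mul (.num 430080) d) (.num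
  192000)) d)) (.num (-1817088))) d) (.num (-345600))) d)) (.num 9386496)))) v) (.mul (.num
  1220703125000000000000000000000000000000000000) (.add (.mul (.mul (.num 64000) d) d) (.num
  (-23040)))))

/-- `eTA0000_1`, scaled by `1220703125000000000000000000000000000000000000`. -/
def eTA0000_1 (v d : Ex) : Ex := (.add (.mul (.add (.mul (.add (.mul (.add (.mul (.add (.mul
  (.add (.mul (.mul (.mul (.mul (.mul (.add (.mul (.num 125) (.mul (.add (.mul (.add (.mul (.num
  5) (.mul (.add (.mul (.add (.mul (.num 25) (.mul (.add (.mul (.num 1764) d) (.num (-4200)))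
  d)) (.num (-8144))) d) (.num 203800)) d)) (.num (-1041012))) d) (.num 421200)) d)) (.num
  (-7780752))) d) d) d) d) v) (.mul (.num 5000000) (.mul (.mul (.mul (.add (.mul (.num 125)
  (.mul (.add (.mul (.add (.mul (.num 5) (.mul (.add (.mul (.add (.mul (.num 25) (.mul (.add
  (.mul (.num 14112) d) (.num (-33600))) d)) (.num (-3519952))) d) (.num (-2131600))) d)) (.num
  18648304)) d) (.num 8317200)) d)) (.num (-859545216))) d) d) d))) v) (.mul (.num
  25000000000000) (.mul (.mul (.add (.mul (.num 125) (.mul (.add (.mul (.add (.mul (.num 5)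
  (.mul (.add (.mul (.add (.mul (.num 25) (.mul (.add (.mul (.num 42336) d) (.num (-109200)))
  d)) (.num (-13379456))) d) (.num (-24975200))) d)) (.num 78017712)) d) (.num 58244400)) d))
  (.num (-3437604048))) d) d))) v) (.mul (.num 125000000000000000000) (.mul (.add (.mul (.num
  125) (.mul (.add (.mul (.add (.mul (.num 5) (.mul (.add (.mul (.add (.mul (.num 25) (.mul
  (.add (.mul (.num 56448) d) (.num (-184800))) d)) (.num (-18719008))) d) (.num (-74508800)))
  d)) (.num 107338816)) d) (.num 158229600)) d)) (.num (-5156117664))) d))) v) (.mul (.num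
  625000000000000000000000000) (.add (.mul (.num 125) (.mul (.add (.mul (.add (.mul (.num 5)
  (.mul (.add (.mul (.add (.mul (.num 25) (.mul (.add (.mul (.num 28224) d) (.num (-168000)))
  d)) (.num (-6859504))) d) (.num (-86788000))) d)) (.num 25169408)) d) (.num 179100000)) d))
  (.num (-2578058832))))) v) (.mul (.num 48828125000000000000000000000000000000) (.add (.mul
  (.add (.mul (.add (.mul (.num 5) (.mul (.add (.mul (.num (-13440)) d) (.num 24000)) d)) (.num
  (-1388608))) d) (.num (-273600))) d) (.num 573120)))) v) (.mul (.num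
  1220703125000000000000000000000000000000000000) (.add (.mul (.mul (.num 8000) d) d) (.num
  (-18240)))))

/-- `eTA0000_2`, scaled by `1220703125000000000000000000000000000000000000`. -/
def eTA0000_2 (v d : Ex) : Ex := (.add (.mul (.add (.mul (.add (.mul (.add (.mul (.add (.mul
  (.add (.mul (.mul (.mul (.mul (.mul (.add (.mul (.num 125) (.mul (.add (.mul (.add (.mul (.num
  5) (.mul (.add (.mul (.num (-53088)) d) (.num 92600)) d)) (.num (-260064))) d) (.num 41400))
  d)) (.num 397008)) d) d) d) d) v) (.mul (.num 5000000) (.mul (.mul (.mul (.add (.mul (.num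
  125) (.mul (.add (.mul (.add (.mul (.num 5) (.mul (.add (.mul (.num (-788304)) d) (.num
  158800)) d)) (.num 9791488)) d) (.num 3170000)) d)) (.num (-661949136))) d) d) d))) v) (.mul
  (.num 25000000000000) (.mul (.mul (.add (.mul (.num 125) (.mul (.add (.mul (.add (.mul (.num
  5) (.mul (.add (.mul (.num (-2612112)) d) (.num (-2246400))) d)) (.num 43198464)) d) (.num
  27648000)) d)) (.num (-2895817808))) d) d))) v) (.mul (.num 125000000000000000000) (.mul (.add
  (.mul (.num 125) (.mul (.add (.mul (.add (.mul (.num 5) (.mul (.add (.mul (.num (-3647616)) d)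
  (.num (-8721600))) d)) (.num 64013952)) d) (.num 79720000)) d)) (.num (-4467737344))) d))) v)
  (.mul (.num 625000000000000000000000000) (.add (.mul (.num 125) (.mul (.add (.mul (.add (.mul
  (.num 5) (.mul (.add (.mul (.num (-1823808)) d) (.num (-10836000))) d)) (.num 25006976)) d)
  (.num 91932000)) d)) (.num (-2233868672))))) v) (.mul (.num
  9765625000000000000000000000000000000) (.add (.mul (.num 5) (.mul (.add (.mul (.num (-173376))
  d) (.num (-67200))) d)) (.num 1470912)))) v) (.num
  (-5468750000000000000000000000000000000000000000000)))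

/-- `eTA0000_3`, scaled by `244140625000000000000000000000000000000000000`. -/
def eTA0000_3 (v d : Ex) : Ex := (.add (.mul (.add (.mul (.add (.mul (.add (.mul (.add (.mul
  (.add (.mul (.mul (.mul (.mul (.mul (.add (.mul (.num 125) (.mul (.add (.mul (.add (.mul (.add
  (.mul (.num (-5292)) d) (.num 8400)) d) (.num 3192)) d) (.num (-8200))) d)) (.num 330252)) d)
  d) d) d) v) (.mul (.num 5000000) (.mul (.mul (.mul (.add (.mul (.num 125) (.mul (.add (.mul
  (.add (.mul (.add (.mul (.num (-55736)) d) (.num 77200)) d) (.num 462096)) d) (.num 59680))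
  d)) (.num (-52959784))) d) d) d))) v) (.mul (.num 25000000000000) (.mul (.mul (.add (.mul
  (.num 125) (.mul (.add (.mul (.add (.mul (.add (.mul (.num (-174008)) d) (.num 268400)) d)
  (.num 1951408)) d) (.num 967760)) d)) (.num (-249062952))) d) d))) v) (.mul (.num
  125000000000000000000) (.mul (.add (.mul (.num 125) (.mul (.add (.mul (.add (.mul (.add (.mul
  (.num (-236544)) d) (.num 469600)) d) (.num 2938624)) d) (.num 3110240)) d)) (.num
  (-392206336))) d))) v) (.mul (.num 625000000000000000000000000) (.add (.mul (.num 125) (.mul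
  (.add (.mul (.add (.mul (.add (.mul (.num (-118272)) d) (.num 436000)) d) (.num 1369312)) d)
  (.num 3697600)) d)) (.num (-196103168))))) v) (.mul (.num
  1953125000000000000000000000000000000) (.add (.mul (.num 5) (.mul (.add (.mul (.num 6976) d)
  (.num (-4800))) d)) (.num 295808)))) v) (.num
  (-78125000000000000000000000000000000000000000000)))

/-- `eTA0000_4`, scaled by `244140625000000000000000000000000000000000000`. -/
def eTA0000_4 (v d : Ex) : Ex := (.mul (.add (.mul (.add (.mul (.add (.mul (.add (.mul (.add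
  (.mul (.mul (.mul (.mul (.mul (.add (.mul (.num 25) (.mul (.add (.mul (.num 12768) d) (.num
  (-11800))) d)) (.num 60464)) d) d) d) d) v) (.mul (.num 5000000) (.mul (.mul (.mul (.add (.mul
  (.num 25) (.mul (.add (.mul (.num 269744) d) (.num (-57200))) d)) (.num (-12079888))) d) d)
  d))) v) (.mul (.num 25000000000000) (.mul (.mul (.add (.mul (.num 25) (.mul (.add (.mul (.num
  1004432) d) (.num 93600)) d)) (.num (-58826864))) d) d))) v) (.mul (.num
  125000000000000000000) (.mul (.add (.mul (.num 25) (.mul (.add (.mul (.num 1469376) d) (.num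
  710400)) d)) (.num (-93493952))) d))) v) (.mul (.num 625000000000000000000000000) (.add (.mul
  (.num 25) (.mul (.add (.mul (.num 734688) d) (.num 972000)) d)) (.num (-46746976))))) v) (.num
  30375000000000000000000000000000000000000)) v)

/-- `eTA0000_5`, scaled by `1220703125000000000000000000000000000000000000`. -/
def eTA0000_5 (v d : Ex) : Ex := (.mul (.add (.mul (.add (.mul (.add (.mul (.add (.mul (.add
  (.mul (.mul (.mul (.mul (.mul (.add (.mul (.num 25) (.mul (.add (.mul (.num 5292) d) (.num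
  (-4200))) d)) (.num (-71656))) d) d) d) d) v) (.mul (.num 5000000) (.mul (.mul (.mul (.add
  (.mul (.num 25) (.mul (.add (.mul (.num 69136) d) (.num (-43600))) d)) (.num (-8214848))) d)
  d) d))) v) (.mul (.num 25000000000000) (.mul (.mul (.add (.mul (.num 25) (.mul (.add (.mul
  (.num 231008) d) (.num (-159200))) d)) (.num (-38687744))) d) d))) v) (.mul (.num
  125000000000000000000) (.mul (.add (.mul (.num 25) (.mul (.add (.mul (.num 323744) d) (.num
  (-284800))) d)) (.num (-60945792))) d))) v) (.mul (.num 625000000000000000000000000) (.add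
  (.mul (.num 25) (.mul (.add (.mul (.num 161872) d) (.num (-268000))) d)) (.num (-30472896)))))
  v) (.num (-8375000000000000000000000000000000000000))) v)

/-- `eTA0000_6`, scaled by `1220703125000000000000000000000000000000000000`. -/
def eTA0000_6 (v d : Ex) : Ex := (.mul (.mul (.add (.mul (.add (.mul (.add (.mul (.add (.mul
  (.mul (.mul (.mul (.mul (.num (-24864)) d) d) d) d) v) (.mul (.num 5000000) (.mul (.mul (.mul
  (.num (-673312)) d) d) d))) v) (.mul (.num 25000000000000) (.mul (.mul (.num (-2808736)) d)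
  d))) v) (.mul (.num 125000000000000000000) (.mul (.num (-4270848)) d))) v) (.num
  (-1334640000000000000000000000000000))) v) v)

/-- `eTA0000_7`, scaled by `1220703125000000000000000000000000000000000000`. -/
def eTA0000_7 (v d : Ex) : Ex := (.mul (.mul (.add (.mul (.add (.mul (.add (.mul (.add (.mul
  (.mul (.mul (.mul (.mul (.num (-1764)) d) d) d) d) v) (.mul (.num 5000000) (.mul (.mul (.mul
  (.num (-27512)) d) d) d))) v) (.mul (.num 25000000000000) (.mul (.mul (.num (-99336)) d) d)))
  v) (.mul (.num 125000000000000000000) (.mul (.num (-143648)) d))) v) (.num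
  (-44890000000000000000000000000000))) v) v)

/-- `cTA0000`, scaled by `156250000000000000000000000000000000000000000000000000000000000000000`. -/
def cTA0000 (r v d : Ex) : Ex := (.add (.mul (.add (.mul (.add (.mul (.add (.mul (.add (.mul
  (.add (.mul (.add (.mul (eTA0000_7 v d) r) (.mul (.num 2000) (eTA0000_6 v d))) r) (.mul (.num
  4000000) (eTA0000_5 v d))) r) (.mul (.num 40000000000) (eTA0000_4 v d))) r) (.mul (.num
  80000000000000) (eTA0000_3 v d))) r) (.mul (.num 32000000000000000) (eTA0000_2 v d))) r) (.mul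
  (.num 64000000000000000000) (eTA0000_1 v d))) r) (.mul (.num 128000000000000000000000)
  (eTA0000_0 v d)))

/-- `cTA0000_d2`, scaled by `39062500000000000000000000000000000000000000000000000000000000`. -/
def cTA0000_d2 (r v d : Ex) : Ex := (.add (.mul (.add (.mul (.add (.mul (.add (.mul (.add (.mul
  (.mul (eTA0000_7 v d) (.num 42)) r) (.mul (.num 2000) (.mul (eTA0000_6 v d) (.num 30)))) r)
  (.mul (.num 4000000) (.mul (eTA0000_5 v d) (.num 20)))) r) (.mul (.num 40000000000) (.mul
  (eTA0000_4 v d) (.num 12)))) r) (.mul (.num 80000000000000) (.mul (eTA0000_3 v d) (.num 6))))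
  r) (.mul (.num 32000000000000000) (.mul (eTA0000_2 v d) (.num 2))))

/-- `eTA0001_0`, scaled by `625000000000000000000000000`. -/
def eTA0001_0 (v d : Ex) : Ex := (.mul (.mul (.add (.mul (.add (.mul (.mul (.mul (.add (.mul
  (.add (.mul (.add (.mul (.num (-64000)) d) (.num 38400)) d) (.num 23040)) d) (.num (-13824)))
  d) d) v) (.mul (.num 5000000) (.mul (.add (.mul (.add (.mul (.add (.mul (.num (-192000)) d)
  (.num 115200)) d) (.num 69120)) d) (.num (-41472))) d))) v) (.mul (.num 25000000000000) (.add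
  (.mul (.add (.mul (.add (.mul (.num (-128000)) d) (.num 76800)) d) (.num 46080)) d) (.num
  (-27648))))) v) v)

/-- `eTA0001_1`, scaled by `625000000000000000000000000`. -/
def eTA0001_1 (v d : Ex) : Ex := (.mul (.mul (.add (.mul (.add (.mul (.mul (.mul (.add (.mul
  (.add (.mul (.add (.mul (.num 32000) d) (.num (-6400))) d) (.num 3840)) d) (.num (-6912))) d)
  d) v) (.mul (.num 5000000) (.mul (.add (.mul (.add (.mul (.add (.mul (.num 96000) d) (.num
  (-19200))) d) (.num 11520)) d) (.num (-20736))) d))) v) (.mul (.num 25000000000000) (.add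
  (.mul (.add (.mul (.add (.mul (.num 64000) d) (.num (-12800))) d) (.num 7680)) d) (.num
  (-13824))))) v) v)

/-- `eTA0001_2`, scaled by `625000000000000000000000000`. -/
def eTA0001_2 (v d : Ex) : Ex := (.mul (.mul (.add (.mul (.add (.mul (.mul (.mul (.add (.mul
  (.add (.mul (.num (-6400)) d) (.num (-5120))) d) (.num 2304)) d) d) v) (.mul (.num 5000000)
  (.mul (.add (.mul (.add (.mul (.num (-19200)) d) (.num (-15360))) d) (.num 6912)) d))) v)
  (.mul (.num 25000000000000) (.add (.mul (.add (.mul (.num (-12800)) d) (.num (-10240))) d)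
  (.num 4608)))) v) v)

/-- `eTA0001_3`, scaled by `625000000000000000000000000`. -/
def eTA0001_3 (v d : Ex) : Ex := (.mul (.mul (.add (.mul (.add (.mul (.mul (.mul (.add (.mul
  (.num (-1280)) d) (.num 1792)) d) d) v) (.mul (.num 5000000) (.mul (.add (.mul (.num (-3840))
  d) (.num 5376)) d))) v) (.mul (.num 25000000000000) (.add (.mul (.num (-2560)) d) (.num
  3584)))) v) v)

/-- `eTA0001_4`, scaled by `625000000000000000000000000`. -/
def eTA0001_4 (v d : Ex) : Ex := (.mul (.mul (.add (.mul (.add (.mul (.mul (.mul (.num 256) d)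
  d) v) (.mul (.num 5000000) (.mul (.num 768) d))) v) (.num 12800000000000000)) v) v)

/-- `cTA0001`, scaled by `10000000000000000000000000000000000000000`. -/
def cTA0001 (r v d : Ex) : Ex := (.add (.mul (.add (.mul (.add (.mul (.add (.mul (eTA0001_4 v d)
  r) (.mul (.num 2000) (eTA0001_3 v d))) r) (.mul (.num 4000000) (eTA0001_2 v d))) r) (.mul
  (.num 8000000000) (eTA0001_1 v d))) r) (.mul (.num 16000000000000) (eTA0001_0 v d)))

/-- `cTA0001_d2`, scaled by `2500000000000000000000000000000000`. -/
def cTA0001_d2 (r v d : Ex) : Ex := (.add (.mul (.add (.mul (.mul (eTA0001_4 v d) (.num 12)) r)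
  (.mul (.num 2000) (.mul (eTA0001_3 v d) (.num 6)))) r) (.mul (.num 4000000) (.mul (eTA0001_2 v
  d) (.num 2))))

/-- `eTA0010_0`, scaled by `625000000000000000000`. -/
def eTA0010_0 (v d : Ex) : Ex := (.mul (.add (.mul (.add (.mul (.mul (.mul (.add (.mul (.num 5)
  (.mul (.add (.mul (.mul (.add (.mul (.num 8000) d) (.num 9600)) d) d) (.num (-3456))) d))
  (.num (-5184))) d) d) v) (.mul (.num 5000000) (.mul (.add (.mul (.num 5) (.mul (.add (.mul
  (.mul (.add (.mul (.num 24000) d) (.num 28800)) d) d) (.num (-10368))) d)) (.num (-15552)))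
  d))) v) (.mul (.num 25000000000000) (.add (.mul (.num 5) (.mul (.add (.mul (.mul (.add (.mul
  (.num 16000) d) (.num 19200)) d) d) (.num (-6912))) d)) (.num (-10368))))) v)

/-- `eTA0010_1`, scaled by `125000000000000000000`. -/
def eTA0010_1 (v d : Ex) : Ex := (.mul (.add (.mul (.add (.mul (.mul (.mul (.add (.mul (.add
  (.mul (.mul (.add (.mul (.num 1000) d) (.num 4400)) d) d) (.num (-3888))) d) (.num (-1512)))
  d) d) v) (.mul (.num 5000000) (.mul (.add (.mul (.add (.mul (.mul (.add (.mul (.num 3000) d)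
  (.num 13200)) d) d) (.num (-11664))) d) (.num (-4536))) d))) v) (.mul (.num 25000000000000)
  (.add (.mul (.add (.mul (.mul (.add (.mul (.num 2000) d) (.num 8800)) d) d) (.num (-7776))) d)
  (.num (-3024))))) v)

/-- `eTA0010_2`, scaled by `125000000000000000000`. -/
def eTA0010_2 (v d : Ex) : Ex := (.mul (.add (.mul (.add (.mul (.mul (.mul (.add (.mul (.add
  (.mul (.mul (.num 400) d) d) (.num (-1584))) d) (.num (-864))) d) d) v) (.mul (.num 5000000)
  (.mul (.add (.mul (.add (.mul (.mul (.num 1200) d) d) (.num (-4752))) d) (.num (-2592))) d)))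
  v) (.mul (.num 25000000000000) (.add (.mul (.add (.mul (.mul (.num 800) d) d) (.num (-3168)))
  d) (.num (-1728))))) v)

/-- `eTA0010_3`, scaled by `125000000000000000000`. -/
def eTA0010_3 (v d : Ex) : Ex := (.mul (.add (.mul (.add (.mul (.mul (.mul (.add (.mul (.num
  (-272)) d) (.num (-240))) d) d) v) (.mul (.num 5000000) (.mul (.add (.mul (.num (-816)) d)
  (.num (-720))) d))) v) (.mul (.num 25000000000000) (.add (.mul (.num (-544)) d) (.num
  (-480))))) v)

/-- `eTA0010_4`, scaled by `125000000000000000000`. -/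
def eTA0010_4 (v d : Ex) : Ex := (.mul (.add (.mul (.add (.mul (.mul (.mul (.add (.mul (.num
  (-16)) d) (.num (-32))) d) d) v) (.mul (.num 5000000) (.mul (.add (.mul (.num (-48)) d) (.num
  (-96))) d))) v) (.mul (.num 25000000000000) (.add (.mul (.num (-32)) d) (.num (-64))))) v)

/-- `eTA0010_5`, scaled by `625000000000000000000`. -/
def eTA0010_5 (v d : Ex) : Ex := (.mul (.add (.mul (.add (.mul (.mul (.mul (.num (-8)) d) d) v)
  (.mul (.num 5000000) (.mul (.num (-24)) d))) v) (.num (-400000000000000))) v)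

/-- `cTA0010`, scaled by `20000000000000000000000000000000000000`. -/
def cTA0010 (r v d : Ex) : Ex := (.add (.mul (.add (.mul (.add (.mul (.add (.mul (.add (.mul
  (eTA0010_5 v d) r) (.mul (.num 10000) (eTA0010_4 v d))) r) (.mul (.num 20000000) (eTA0010_3 v
  d))) r) (.mul (.num 40000000000) (eTA0010_2 v d))) r) (.mul (.num 80000000000000) (eTA0010_1 v
  d))) r) (.mul (.num 32000000000000000) (eTA0010_0 v d)))

/-- `cTA0010_d2`, scaled by `5000000000000000000000000000000`. -/
def cTA0010_d2 (r v d : Ex) : Ex := (.add (.mul (.add (.mul (.add (.mul (.mul (eTA0010_5 v d)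
  (.num 20)) r) (.mul (.num 10000) (.mul (eTA0010_4 v d) (.num 12)))) r) (.mul (.num 20000000)
  (.mul (eTA0010_3 v d) (.num 6)))) r) (.mul (.num 40000000000) (.mul (eTA0010_2 v d) (.num
  2))))

/-- `eTA0100_0`, scaled by `15625000000000000000000000000`. -/
def eTA0100_0 (v d : Ex) : Ex := (.mul (.add (.mul (.add (.mul (.add (.mul (.mul (.mul (.mul
  (.add (.mul (.num 5) (.mul (.add (.mul (.num 5) (.mul (.add (.mul (.add (.mul (.num 16000) d)
  (.num (-43520))) d) (.num 14592)) d)) (.num 78336)) d)) (.num (-183168))) d) d) d) v) (.mul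
  (.num 5000000) (.mul (.mul (.add (.mul (.num 5) (.mul (.add (.mul (.num 5) (.mul (.add (.mul
  (.add (.mul (.num 48000) d) (.num (-101120))) d) (.num 26112)) d)) (.num 182016)) d)) (.num
  (-390528))) d) d))) v) (.mul (.num 125000000000000) (.mul (.add (.mul (.num 5) (.mul (.add
  (.mul (.add (.mul (.add (.mul (.num 32000) d) (.num (-32000))) d) (.num (-3840))) d) (.num
  11520)) d)) (.num (-13824))) d))) v) (.mul (.num 625000000000000000000) (.add (.mul (.num 5)
  (.mul (.add (.mul (.add (.mul (.num 25600) d) (.num (-15360))) d) (.num (-9216))) d)) (.num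
  27648)))) v)

/-- `eTA0100_1`, scaled by `15625000000000000000000000000`. -/
def eTA0100_1 (v d : Ex) : Ex := (.mul (.add (.mul (.add (.mul (.add (.mul (.mul (.mul (.mul
  (.add (.mul (.num 25) (.mul (.add (.mul (.add (.mul (.add (.mul (.num (-8000)) d) (.num
  10880)) d) (.num 256)) d) (.num 6528)) d)) (.num (-133056))) d) d) d) v) (.mul (.num 5000000)
  (.mul (.mul (.add (.mul (.num 25) (.mul (.add (.mul (.add (.mul (.add (.mul (.num (-24000)) d)
  (.num 20480)) d) (.num 2176)) d) (.num 16896)) d)) (.num (-305856))) d) d))) v) (.mul (.num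
  625000000000000) (.mul (.add (.mul (.add (.mul (.add (.mul (.add (.mul (.num (-16000)) d)
  (.num (-16000))) d) (.num 12160)) d) (.num 13440)) d) (.num (-6912))) d))) v) (.mul (.num
  3125000000000000000000) (.mul (.add (.mul (.add (.mul (.num (-25600)) d) (.num 10240)) d)
  (.num 3072)) d))) v)

/-- `eTA0100_2`, scaled by `3125000000000000000000000000`. -/
def eTA0100_2 (v d : Ex) : Ex := (.mul (.add (.mul (.add (.mul (.add (.mul (.mul (.mul (.mul
  (.add (.mul (.num 5) (.mul (.add (.mul (.add (.mul (.num 5760) d) (.num (-3072))) d) (.num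
  (-2944))) d)) (.num 2304)) d) d) d) v) (.mul (.num 5000000) (.mul (.mul (.add (.mul (.num 5)
  (.mul (.add (.mul (.add (.mul (.num 15360) d) (.num (-5632))) d) (.num (-6400))) d)) (.num
  2304)) d) d))) v) (.mul (.num 125000000000000) (.mul (.add (.mul (.add (.mul (.add (.mul (.num
  16000) d) (.num (-1280))) d) (.num (-640))) d) (.num (-2304))) d))) v) (.mul (.num
  625000000000000000000) (.add (.mul (.add (.mul (.add (.mul (.num 6400) d) (.num 1280)) d)
  (.num 2816)) d) (.num (-2304))))) v)

/-- `eTA0100_3`, scaled by `3125000000000000000000000000`. -/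
def eTA0100_3 (v d : Ex) : Ex := (.mul (.add (.mul (.add (.mul (.add (.mul (.mul (.mul (.mul
  (.add (.mul (.num 5) (.mul (.add (.mul (.add (.mul (.num (-160)) d) (.num (-416))) d) (.num
  (-1760))) d)) (.num 6304)) d) d) d) v) (.mul (.num 5000000) (.mul (.mul (.add (.mul (.num 5)
  (.mul (.add (.mul (.add (.mul (.num (-160)) d) (.num (-1056))) d) (.num (-4448))) d)) (.num
  13984)) d) d))) v) (.mul (.num 125000000000000) (.mul (.add (.mul (.add (.mul (.num (-1920))
  d) (.num (-3200))) d) (.num 1280)) d))) v) (.mul (.num 625000000000000000000) (.add (.mul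
  (.add (.mul (.num (-1280)) d) (.num (-512))) d) (.num (-256))))) v)

/-- `eTA0100_4`, scaled by `3125000000000000000000000000`. -/
def eTA0100_4 (v d : Ex) : Ex := (.mul (.add (.mul (.add (.mul (.add (.mul (.mul (.mul (.mul
  (.add (.mul (.num 5) (.mul (.add (.mul (.num 32) d) (.num (-192))) d)) (.num 1696)) d) d) d)
  v) (.mul (.num 5000000) (.mul (.mul (.add (.mul (.num 5) (.mul (.add (.mul (.num 32) d) (.num
  (-576))) d)) (.num 4256)) d) d))) v) (.mul (.num 125000000000000) (.mul (.add (.mul (.num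
  (-640)) d) (.num 768)) d))) v) (.mul (.num 625000000000000000000) (.add (.mul (.num (-256)) d)
  (.num 256)))) v)

/-- `eTA0100_5`, scaled by `15625000000000000000000000000`. -/
def eTA0100_5 (v d : Ex) : Ex := (.mul (.add (.mul (.add (.mul (.add (.mul (.mul (.mul (.mul
  (.add (.mul (.num 5) (.mul (.num 32) d)) (.num 544)) d) d) d) v) (.mul (.num 5000000) (.mul
  (.mul (.add (.mul (.num 5) (.mul (.num 32) d)) (.num 1824)) d) d))) v) (.mul (.num
  125000000000000) (.mul (.num 512) d))) v) (.num 160000000000000000000000)) v)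

/-- `eTA0100_6`, scaled by `15625000000000000000000000000`. -/
def eTA0100_6 (v d : Ex) : Ex := (.mul (.mul (.mul (.add (.mul (.mul (.mul (.mul (.num (-32)) d)
  d) d) v) (.mul (.num 5000000) (.mul (.mul (.num (-32)) d) d))) v) v) v)

/-- `cTA0100`, scaled by `1000000000000000000000000000000000000000000000000`. -/
def cTA0100 (r v d : Ex) : Ex := (.add (.mul (.add (.mul (.add (.mul (.add (.mul (.add (.mul
  (.add (.mul (eTA0100_6 v d) r) (.mul (.num 2000) (eTA0100_5 v d))) r) (.mul (.num 20000000)
  (eTA0100_4 v d))) r) (.mul (.num 40000000000) (eTA0100_3 v d))) r) (.mul (.num 80000000000000)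
  (eTA0100_2 v d))) r) (.mul (.num 32000000000000000) (eTA0100_1 v d))) r) (.mul (.num
  64000000000000000000) (eTA0100_0 v d)))

/-- `cTA0100_d2`, scaled by `250000000000000000000000000000000000000000`. -/
def cTA0100_d2 (r v d : Ex) : Ex := (.add (.mul (.add (.mul (.add (.mul (.add (.mul (.mul
  (eTA0100_6 v d) (.num 30)) r) (.mul (.num 2000) (.mul (eTA0100_5 v d) (.num 20)))) r) (.mul
  (.num 20000000) (.mul (eTA0100_4 v d) (.num 12)))) r) (.mul (.num 40000000000) (.mul
  (eTA0100_3 v d) (.num 6)))) r) (.mul (.num 80000000000000) (.mul (eTA0100_2 v d) (.num 2))))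

/-- `eTA0200_0`, scaled by `625000000000000000000`. -/
def eTA0200_0 (v d : Ex) : Ex := (.mul (.mul (.add (.mul (.mul (.mul (.mul (.add (.mul (.num 5)
  (.mul (.add (.mul (.num (-5120)) d) (.num 6144)) d)) (.num (-9216))) d) d) d) v) (.mul (.num
  5000000) (.mul (.mul (.add (.mul (.num 5) (.mul (.add (.mul (.num (-5120)) d) (.num 6144)) d))
  (.num (-9216))) d) d))) v) v)

/-- `eTA0200_1`, scaled by `125000000000000000000`. -/
def eTA0200_1 (v d : Ex) : Ex := (.mul (.mul (.add (.mul (.mul (.mul (.mul (.add (.mul (.add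
  (.mul (.num 4480) d) (.num (-3328))) d) (.num 384)) d) d) d) v) (.mul (.num 5000000) (.mul
  (.mul (.add (.mul (.add (.mul (.num 4480) d) (.num (-3328))) d) (.num 384)) d) d))) v) v)

/-- `eTA0200_2`, scaled by `125000000000000000000`. -/
def eTA0200_2 (v d : Ex) : Ex := (.mul (.mul (.add (.mul (.mul (.mul (.mul (.add (.mul (.add
  (.mul (.num (-640)) d) (.num (-1024))) d) (.num 640)) d) d) d) v) (.mul (.num 5000000) (.mul
  (.mul (.add (.mul (.add (.mul (.num (-640)) d) (.num (-1024))) d) (.num 640)) d) d))) v) v)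

/-- `eTA0200_3`, scaled by `125000000000000000000`. -/
def eTA0200_3 (v d : Ex) : Ex := (.mul (.mul (.add (.mul (.mul (.mul (.mul (.add (.mul (.add
  (.mul (.num (-160)) d) (.num 448)) d) (.num (-32))) d) d) d) v) (.mul (.num 5000000) (.mul
  (.mul (.add (.mul (.add (.mul (.num (-160)) d) (.num 448)) d) (.num (-32))) d) d))) v) v)

/-- `eTA0200_4`, scaled by `125000000000000000000`. -/
def eTA0200_4 (v d : Ex) : Ex := (.mul (.mul (.add (.mul (.mul (.mul (.mul (.add (.mul (.num 64)
  d) (.num (-64))) d) d) d) v) (.mul (.num 5000000) (.mul (.mul (.add (.mul (.num 64) d) (.num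
  (-64))) d) d))) v) v)

/-- `eTA0200_5`, scaled by `625000000000000000000`. -/
def eTA0200_5 (v d : Ex) : Ex := (.mul (.mul (.add (.mul (.mul (.mul (.mul (.num (-32)) d) d) d)
  v) (.mul (.num 5000000) (.mul (.mul (.num (-32)) d) d))) v) v)

/-- `cTA0200`, scaled by `20000000000000000000000000000000000000`. -/
def cTA0200 (r v d : Ex) : Ex := (.add (.mul (.add (.mul (.add (.mul (.add (.mul (.add (.mul
  (eTA0200_5 v d) r) (.mul (.num 10000) (eTA0200_4 v d))) r) (.mul (.num 20000000) (eTA0200_3 v
  d))) r) (.mul (.num 40000000000) (eTA0200_2 v d))) r) (.mul (.num 80000000000000) (eTA0200_1 v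
  d))) r) (.mul (.num 32000000000000000) (eTA0200_0 v d)))

/-- `cTA0200_d2`, scaled by `5000000000000000000000000000000`. -/
def cTA0200_d2 (r v d : Ex) : Ex := (.add (.mul (.add (.mul (.add (.mul (.mul (eTA0200_5 v d)
  (.num 20)) r) (.mul (.num 10000) (.mul (eTA0200_4 v d) (.num 12)))) r) (.mul (.num 20000000)
  (.mul (eTA0200_3 v d) (.num 6)))) r) (.mul (.num 40000000000) (.mul (eTA0200_2 v d) (.num
  2))))

/-- `eTA1000_0`, scaled by `1953125000000000000000000000000000000`. -/
def eTA1000_0 (v d : Ex) : Ex := (.add (.mul (.add (.mul (.add (.mul (.add (.mul (.add (.mul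
  (.mul (.mul (.mul (.mul (.add (.mul (.num 5) (.mul (.add (.mul (.num 5) (.mul (.add (.mul
  (.num 5) (.mul (.add (.mul (.num 5) (.mul (.add (.mul (.num 2520) d) (.num 3512)) d)) (.num
  (-9072))) d)) (.num (-63216))) d)) (.num 40824)) d)) (.num 284472)) d) d) d) d) v) (.mul (.num
  5000000) (.mul (.mul (.mul (.add (.mul (.num 5) (.mul (.add (.mul (.num 5) (.mul (.add (.mul
  (.num 5) (.mul (.add (.mul (.num 5) (.mul (.add (.mul (.num (-3360)) d) (.num 384)) d)) (.num
  104096)) d)) (.num 269088)) d)) (.num (-882432))) d)) (.num (-2452896))) d) d) d))) v) (.mul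
  (.num 25000000000000) (.mul (.mul (.add (.mul (.num 5) (.mul (.add (.mul (.num 5) (.mul (.add
  (.mul (.num 5) (.mul (.add (.mul (.num 5) (.mul (.add (.mul (.num (-57120)) d) (.num
  (-47072))) d)) (.num 397632)) d)) (.num 1423296)) d)) (.num (-2653344))) d)) (.num
  (-8996832))) d) d))) v) (.mul (.num 125000000000000000000) (.mul (.add (.mul (.num 5) (.mul
  (.add (.mul (.num 5) (.mul (.add (.mul (.num 5) (.mul (.add (.mul (.num 5) (.mul (.add (.mul
  (.num (-107520)) d) (.num (-99712))) d)) (.num 492672)) d)) (.num 2111616)) d)) (.num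
  (-2692224))) d)) (.num (-10927872))) d))) v) (.mul (.num 625000000000000000000000000) (.add
  (.mul (.num 5) (.mul (.add (.mul (.num 5) (.mul (.add (.mul (.num 5) (.mul (.add (.mul (.num
  5) (.mul (.add (.mul (.num (-53760)) d) (.num (-72256))) d)) (.num 139136)) d)) (.num
  1137408)) d)) (.num (-381312))) d)) (.num (-4383936))))) v) (.mul (.num
  1953125000000000000000000000000000000) (.add (.mul (.add (.mul (.add (.mul (.num (-16000)) d)
  (.num (-9600))) d) (.num 5760)) d) (.num 3456))))

/-- `eTA1000_1`, scaled by `1953125000000000000000000000000000000`. -/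
def eTA1000_1 (v d : Ex) : Ex := (.add (.mul (.add (.mul (.add (.mul (.add (.mul (.add (.mul
  (.mul (.mul (.mul (.mul (.add (.mul (.num 25) (.mul (.add (.mul (.add (.mul (.num 5) (.mul
  (.add (.mul (.num 5) (.mul (.add (.mul (.num (-210)) d) (.num 628)) d)) (.num (-5292))) d))
  (.num (-53448))) d) (.num 10206)) d)) (.num 430164)) d) d) d) d) v) (.mul (.num 5000000) (.mul
  (.mul (.mul (.add (.mul (.num 25) (.mul (.add (.mul (.add (.mul (.num 5) (.mul (.add (.mul
  (.num 5) (.mul (.add (.mul (.num (-420)) d) (.num 176)) d)) (.num 41076)) d)) (.num 178724))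
  d) (.num (-182976))) d)) (.num (-3278772))) d) d) d))) v) (.mul (.num 25000000000000) (.mul
  (.mul (.add (.mul (.num 25) (.mul (.add (.mul (.add (.mul (.num 5) (.mul (.add (.mul (.num 5)
  (.mul (.add (.mul (.num 1260) d) (.num (-9868))) d)) (.num 196552)) d)) (.num 1126488)) d)
  (.num (-588276))) d)) (.num (-12795084))) d) d))) v) (.mul (.num 125000000000000000000) (.mul
  (.add (.mul (.num 25) (.mul (.add (.mul (.add (.mul (.num 5) (.mul (.add (.mul (.num 5) (.mul
  (.add (.mul (.num 3360) d) (.num (-22288))) d)) (.num 289552)) d)) (.num 1834128)) d) (.num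
  (-658800))) d)) (.num (-16602624))) d))) v) (.mul (.num 625000000000000000000000000) (.add
  (.mul (.num 25) (.mul (.add (.mul (.add (.mul (.num 5) (.mul (.add (.mul (.num 5) (.mul (.add
  (.mul (.num 1680) d) (.num (-14744))) d)) (.num 106576)) d)) (.num 1028864)) d) (.num
  (-132000))) d)) (.num (-7086312))))) v) (.mul (.num 1953125000000000000000000000000000000)
  (.add (.mul (.add (.mul (.add (.mul (.num (-2000)) d) (.num (-4400))) d) (.num 4560)) d) (.num
  3888))))

/-- `eTA1000_2`, scaled by `390625000000000000000000000000000000`. -/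
def eTA1000_2 (v d : Ex) : Ex := (.add (.mul (.add (.mul (.add (.mul (.add (.mul (.add (.mul
  (.mul (.mul (.mul (.mul (.add (.mul (.num 5) (.mul (.add (.mul (.add (.mul (.num 5) (.mul
  (.add (.mul (.num 5) (.mul (.num (-42)) d)) (.num (-504))) d)) (.num (-13804))) d) (.num
  4536)) d)) (.num 50814)) d) d) d) d) v) (.mul (.num 5000000) (.mul (.mul (.mul (.add (.mul
  (.num 5) (.mul (.add (.mul (.add (.mul (.num 5) (.mul (.add (.mul (.num 5) (.mul (.num 16) d))
  (.num 6852)) d)) (.num 41832)) d) (.num (-73372))) d)) (.num (-351792))) d) d) d))) v) (.mul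
  (.num 25000000000000) (.mul (.mul (.add (.mul (.num 5) (.mul (.add (.mul (.add (.mul (.num 5)
  (.mul (.add (.mul (.num 5) (.mul (.num 552) d)) (.num 26824)) d)) (.num 287624)) d) (.num
  (-245736))) d)) (.num (-1441584))) d) d))) v) (.mul (.num 125000000000000000000) (.mul (.add
  (.mul (.num 5) (.mul (.add (.mul (.add (.mul (.num 5) (.mul (.add (.mul (.num 5) (.mul (.num
  872) d)) (.num 37144)) d)) (.num 501384)) d) (.num (-295128))) d)) (.num (-1981584))) d))) v)
  (.mul (.num 625000000000000000000000000) (.add (.mul (.num 5) (.mul (.add (.mul (.add (.mul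
  (.num 5) (.mul (.add (.mul (.num 5) (.mul (.num 336) d)) (.num 14672)) d)) (.num 290592)) d)
  (.num (-73264))) d)) (.num (-891792))))) v) (.mul (.num 390625000000000000000000000000000000)
  (.add (.mul (.add (.mul (.num (-400)) d) (.num 1120)) d) (.num 1584))))

/-- `eTA1000_3`, scaled by `390625000000000000000000000000000000`. -/
def eTA1000_3 (v d : Ex) : Ex := (.add (.mul (.add (.mul (.add (.mul (.add (.mul (.add (.mul
  (.mul (.mul (.mul (.mul (.add (.mul (.num 5) (.mul (.add (.mul (.add (.mul (.num 5) (.mul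
  (.num 84) d)) (.num (-752))) d) (.num 756)) d)) (.num 14304)) d) d) d) d) v) (.mul (.num
  5000000) (.mul (.mul (.mul (.add (.mul (.num 5) (.mul (.add (.mul (.add (.mul (.num 5) (.mul
  (.num 418) d)) (.num 4706)) d) (.num (-14670))) d)) (.num (-97582))) d) d) d))) v) (.mul (.num
  25000000000000) (.mul (.mul (.add (.mul (.num 5) (.mul (.add (.mul (.add (.mul (.num 5) (.mul
  (.num (-254)) d)) (.num 20862)) d) (.num (-46346))) d)) (.num (-400374))) d) d))) v) (.mul
  (.num 125000000000000000000) (.mul (.add (.mul (.num 5) (.mul (.add (.mul (.add (.mul (.num 5)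
  (.mul (.num (-1544)) d)) (.num 35712)) d) (.num (-55352))) d)) (.num (-571584))) d))) v) (.mul
  (.num 625000000000000000000000000) (.add (.mul (.num 5) (.mul (.add (.mul (.add (.mul (.num 5)
  (.mul (.num (-872)) d)) (.num 22056)) d) (.num (-15176))) d)) (.num (-268792))))) v) (.mul
  (.num 390625000000000000000000000000000000) (.add (.mul (.num 80) d) (.num 272))))

/-- `eTA1000_4`, scaled by `390625000000000000000000000000000000`. -/
def eTA1000_4 (v d : Ex) : Ex := (.add (.mul (.add (.mul (.add (.mul (.add (.mul (.add (.mul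
  (.mul (.mul (.mul (.mul (.add (.mul (.num 5) (.mul (.mul (.num 84) d) d)) (.num 1756)) d) d)
  d) d) v) (.mul (.num 5000000) (.mul (.mul (.mul (.add (.mul (.num 5) (.mul (.add (.mul (.num
  218) d) (.num (-1536))) d)) (.num (-15078))) d) d) d))) v) (.mul (.num 25000000000000) (.mul
  (.mul (.add (.mul (.num 5) (.mul (.add (.mul (.num (-854)) d) (.num (-3380))) d)) (.num
  (-53886))) d) d))) v) (.mul (.num 125000000000000000000) (.mul (.add (.mul (.num 5) (.mul
  (.add (.mul (.num (-1944)) d) (.num (-2888))) d)) (.num (-75616))) d))) v) (.mul (.num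
  625000000000000000000000000) (.add (.mul (.num 5) (.mul (.add (.mul (.num (-872)) d) (.num
  (-544))) d)) (.num (-36808))))) v) (.num 6250000000000000000000000000000000000))

/-- `eTA1000_5`, scaled by `1953125000000000000000000000000000000`. -/
def eTA1000_5 (v d : Ex) : Ex := (.mul (.add (.mul (.add (.mul (.add (.mul (.add (.mul (.mul
  (.mul (.mul (.mul (.add (.mul (.num 5) (.mul (.num (-42)) d)) (.num 124)) d) d) d) d) v) (.mul
  (.num 5000000) (.mul (.mul (.mul (.add (.mul (.num 5) (.mul (.num (-334)) d)) (.num (-6382)))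
  d) d) d))) v) (.mul (.num 25000000000000) (.mul (.mul (.add (.mul (.num 5) (.mul (.num 2) d))
  (.num (-12494))) d) d))) v) (.mul (.num 125000000000000000000) (.mul (.add (.mul (.num 5)
  (.mul (.num 872) d)) (.num (-12224))) d))) v) (.mul (.num 625000000000000000000000000) (.add
  (.mul (.num 5) (.mul (.num 536) d)) (.num (-6112))))) v)

/-- `eTA1000_6`, scaled by `1953125000000000000000000000000000000`. -/
def eTA1000_6 (v d : Ex) : Ex := (.mul (.add (.mul (.add (.mul (.add (.mul (.add (.mul (.mul
  (.mul (.mul (.mul (.num (-42)) d) d) d) d) v) (.mul (.num 5000000) (.mul (.mul (.mul (.num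
  (-234)) d) d) d))) v) (.mul (.num 25000000000000) (.mul (.mul (.num 302) d) d))) v) (.mul
  (.num 125000000000000000000) (.mul (.num 1072) d))) v) (.num 335000000000000000000000000000))
  v)

/-- `cTA1000`, scaled by `125000000000000000000000000000000000000000000000000000000`. -/
def cTA1000 (r v d : Ex) : Ex := (.add (.mul (.add (.mul (.add (.mul (.add (.mul (.add (.mul
  (.add (.mul (eTA1000_6 v d) r) (.mul (.num 2000) (eTA1000_5 v d))) r) (.mul (.num 20000000)
  (eTA1000_4 v d))) r) (.mul (.num 40000000000) (eTA1000_3 v d))) r) (.mul (.num 80000000000000)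
  (eTA1000_2 v d))) r) (.mul (.num 32000000000000000) (eTA1000_1 v d))) r) (.mul (.num
  64000000000000000000) (eTA1000_0 v d)))

/-- `cTA1000_d2`, scaled by `31250000000000000000000000000000000000000000000000`. -/
def cTA1000_d2 (r v d : Ex) : Ex := (.add (.mul (.add (.mul (.add (.mul (.add (.mul (.mul
  (eTA1000_6 v d) (.num 30)) r) (.mul (.num 2000) (.mul (eTA1000_5 v d) (.num 20)))) r) (.mul
  (.num 20000000) (.mul (eTA1000_4 v d) (.num 12)))) r) (.mul (.num 40000000000) (.mul
  (eTA1000_3 v d) (.num 6)))) r) (.mul (.num 80000000000000) (.mul (eTA1000_2 v d) (.num 2))))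

/-- `eTA1100_0`, scaled by `625000000000000000000`. -/
def eTA1100_0 (v d : Ex) : Ex := (.mul (.mul (.add (.mul (.mul (.mul (.mul (.add (.mul (.num 5)
  (.mul (.mul (.num 2560) d) d)) (.num (-4608))) d) d) d) v) (.mul (.num 5000000) (.mul (.mul
  (.add (.mul (.num 5) (.mul (.mul (.num 2560) d) d)) (.num (-4608))) d) d))) v) v)

/-- `eTA1100_1`, scaled by `125000000000000000000`. -/
def eTA1100_1 (v d : Ex) : Ex := (.mul (.mul (.add (.mul (.mul (.mul (.mul (.add (.mul (.mul
  (.num (-640)) d) d) (.num (-384))) d) d) d) v) (.mul (.num 5000000) (.mul (.mul (.add (.mul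
  (.mul (.num (-640)) d) d) (.num (-384))) d) d))) v) v)

/-- `eTA1100_2`, scaled by `125000000000000000000`. -/
def eTA1100_2 (v d : Ex) : Ex := (.mul (.mul (.add (.mul (.mul (.mul (.mul (.add (.mul (.mul
  (.num (-280)) d) d) (.num 152)) d) d) d) v) (.mul (.num 5000000) (.mul (.mul (.add (.mul (.mul
  (.num (-280)) d) d) (.num 152)) d) d))) v) v)

/-- `eTA1100_3`, scaled by `125000000000000000000`. -/
def eTA1100_3 (v d : Ex) : Ex := (.mul (.mul (.add (.mul (.mul (.mul (.mul (.add (.mul (.mul
  (.num (-20)) d) d) (.num 100)) d) d) d) v) (.mul (.num 5000000) (.mul (.mul (.add (.mul (.mul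
  (.num (-20)) d) d) (.num 100)) d) d))) v) v)

/-- `eTA1100_4`, scaled by `125000000000000000000`. -/
def eTA1100_4 (v d : Ex) : Ex := (.mul (.mul (.add (.mul (.mul (.mul (.mul (.num 16) d) d) d) v)
  (.mul (.num 5000000) (.mul (.mul (.num 16) d) d))) v) v)

/-- `eTA1100_5`, scaled by `625000000000000000000`. -/
def eTA1100_5 (v d : Ex) : Ex := (.mul (.mul (.add (.mul (.mul (.mul (.mul (.num 4) d) d) d) v)
  (.mul (.num 5000000) (.mul (.mul (.num 4) d) d))) v) v)

/-- `cTA1100`, scaled by `20000000000000000000000000000000000000`. -/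
def cTA1100 (r v d : Ex) : Ex := (.add (.mul (.add (.mul (.add (.mul (.add (.mul (.add (.mul
  (eTA1100_5 v d) r) (.mul (.num 10000) (eTA1100_4 v d))) r) (.mul (.num 20000000) (eTA1100_3 v
  d))) r) (.mul (.num 40000000000) (eTA1100_2 v d))) r) (.mul (.num 80000000000000) (eTA1100_1 v
  d))) r) (.mul (.num 32000000000000000) (eTA1100_0 v d)))

/-- `cTA1100_d2`, scaled by `5000000000000000000000000000000`. -/
def cTA1100_d2 (r v d : Ex) : Ex := (.add (.mul (.add (.mul (.add (.mul (.mul (eTA1100_5 v d)
  (.num 20)) r) (.mul (.num 10000) (.mul (eTA1100_4 v d) (.num 12)))) r) (.mul (.num 20000000)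
  (.mul (eTA1100_3 v d) (.num 6)))) r) (.mul (.num 40000000000) (.mul (eTA1100_2 v d) (.num
  2))))

/-- `eTA2000_0`, scaled by `3125000000000000000000000000`. -/
def eTA2000_0 (v d : Ex) : Ex := (.add (.mul (.add (.mul (.add (.mul (.add (.mul (.mul (.mul
  (.mul (.mul (.add (.mul (.num 5) (.mul (.add (.mul (.mul (.add (.mul (.num 250) d) (.num 300))
  d) d) (.num (-108))) d)) (.num (-162))) d) d) d) d) v) (.mul (.num 5000000) (.mul (.mul (.mul
  (.add (.mul (.num 5) (.mul (.add (.mul (.add (.mul (.add (.mul (.num (-1000)) d) (.num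
  (-1200))) d) (.num (-320))) d) (.num 48)) d)) (.num 72)) d) d) d))) v) (.mul (.num
  25000000000000) (.mul (.mul (.add (.mul (.num 5) (.mul (.add (.mul (.num (-320)) d) (.num
  (-384))) d)) (.num (-576))) d) d))) v) (.mul (.num 125000000000000000000) (.mul (.add (.mul
  (.num 5) (.mul (.add (.mul (.mul (.add (.mul (.num 2000) d) (.num 2400)) d) d) (.num (-864)))
  d)) (.num (-1296))) d))) v) (.mul (.num 625000000000000000000000000) (.add (.mul (.num 5)
  (.mul (.add (.mul (.mul (.add (.mul (.num 1000) d) (.num 1200)) d) d) (.num (-432))) d)) (.num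
  (-648)))))

/-- `eTA2000_1`, scaled by `2500000000000000000000000000`. -/
def eTA2000_1 (v d : Ex) : Ex := (.add (.mul (.add (.mul (.add (.mul (.add (.mul (.mul (.mul
  (.mul (.mul (.add (.mul (.add (.mul (.mul (.add (.mul (.num 125) d) (.num 550)) d) d) (.num
  (-486))) d) (.num (-189))) d) d) d) d) v) (.mul (.num 20000000) (.mul (.mul (.mul (.add (.mul
  (.add (.mul (.add (.mul (.add (.mul (.num (-125)) d) (.num (-550))) d) (.num (-120))) d) (.num
  214)) d) (.num 69)) d) d) d))) v) (.mul (.num 100000000000000) (.mul (.mul (.add (.mul (.add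
  (.mul (.num (-120)) d) (.num (-272))) d) (.num (-120))) d) d))) v) (.mul (.num
  500000000000000000000) (.mul (.add (.mul (.add (.mul (.mul (.add (.mul (.num 250) d) (.num
  1100)) d) d) (.num (-972))) d) (.num (-378))) d))) v) (.mul (.num
  2500000000000000000000000000) (.add (.mul (.add (.mul (.mul (.add (.mul (.num 125) d) (.num
  550)) d) d) (.num (-486))) d) (.num (-189)))))

/-- `eTA2000_2`, scaled by `1250000000000000000000000000`. -/
def eTA2000_2 (v d : Ex) : Ex := (.add (.mul (.add (.mul (.add (.mul (.add (.mul (.mul (.mul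
  (.mul (.mul (.add (.mul (.add (.mul (.mul (.num 25) d) d) (.num (-99))) d) (.num (-54))) d) d)
  d) d) v) (.mul (.num 10000000) (.mul (.mul (.mul (.add (.mul (.add (.mul (.add (.mul (.num
  (-50)) d) (.num (-15))) d) (.num 132)) d) (.num 61)) d) d) d))) v) (.mul (.num 50000000000000)
  (.mul (.mul (.add (.mul (.add (.mul (.num (-15)) d) (.num (-66))) d) (.num (-47))) d) d))) v)
  (.mul (.num 250000000000000000000) (.mul (.add (.mul (.add (.mul (.mul (.num 100) d) d) (.num
  (-396))) d) (.num (-216))) d))) v) (.mul (.num 1250000000000000000000000000) (.add (.mul (.add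
  (.mul (.mul (.num 50) d) d) (.num (-198))) d) (.num (-108)))))

/-- `eTA2000_3`, scaled by `1250000000000000000000000000`. -/
def eTA2000_3 (v d : Ex) : Ex := (.add (.mul (.add (.mul (.add (.mul (.add (.mul (.mul (.mul
  (.mul (.mul (.add (.mul (.num (-17)) d) (.num (-15))) d) d) d) d) v) (.mul (.num 1250000)
  (.mul (.mul (.mul (.add (.mul (.add (.mul (.num (-5)) d) (.num 218)) d) (.num 171)) d) d) d)))
  v) (.mul (.num 6250000000000) (.mul (.mul (.add (.mul (.add (.mul (.num (-5)) d) (.num (-54)))
  d) (.num (-69))) d) d))) v) (.mul (.num 250000000000000000000) (.mul (.add (.mul (.num (-68))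
  d) (.num (-60))) d))) v) (.mul (.num 1250000000000000000000000000) (.add (.mul (.num (-34)) d)
  (.num (-30)))))

/-- `eTA2000_4`, scaled by `1250000000000000000000000000`. -/
def eTA2000_4 (v d : Ex) : Ex := (.add (.mul (.add (.mul (.add (.mul (.add (.mul (.mul (.mul
  (.mul (.mul (.add (.mul (.num (-1)) d) (.num (-2))) d) d) d) d) v) (.mul (.num 2500000) (.mul
  (.mul (.mul (.add (.mul (.num 7) d) (.num 13)) d) d) d))) v) (.mul (.num 12500000000000) (.mul
  (.mul (.add (.mul (.num (-1)) d) (.num (-3))) d) d))) v) (.mul (.num 250000000000000000000)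
  (.mul (.add (.mul (.num (-4)) d) (.num (-8))) d))) v) (.mul (.num
  1250000000000000000000000000) (.add (.mul (.num (-2)) d) (.num (-4)))))

/-- `eTA2000_5`, scaled by `12500000000000000000000000000`. -/
def eTA2000_5 (v d : Ex) : Ex := (.add (.mul (.add (.mul (.add (.mul (.add (.mul (.mul (.mul
  (.mul (.mul (.num (-1)) d) d) d) d) v) (.mul (.num 2500000) (.mul (.mul (.mul (.num 7) d) d)
  d))) v) (.mul (.num 12500000000000) (.mul (.mul (.num (-1)) d) d))) v) (.mul (.num
  500000000000000000000) (.mul (.num (-2)) d))) v) (.num (-2500000000000000000000000000)))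

/-- `cTA2000`, scaled by `400000000000000000000000000000000000000000000`. -/
def cTA2000 (r v d : Ex) : Ex := (.add (.mul (.add (.mul (.add (.mul (.add (.mul (.add (.mul
  (eTA2000_5 v d) r) (.mul (.num 20000) (eTA2000_4 v d))) r) (.mul (.num 40000000) (eTA2000_3 v
  d))) r) (.mul (.num 80000000000) (eTA2000_2 v d))) r) (.mul (.num 80000000000000) (eTA2000_1 v
  d))) r) (.mul (.num 128000000000000000) (eTA2000_0 v d)))

/-- `cTA2000_d2`, scaled by `100000000000000000000000000000000000000`. -/
def cTA2000_d2 (r v d : Ex) : Ex := (.add (.mul (.add (.mul (.add (.mul (.mul (eTA2000_5 v d)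
  (.num 20)) r) (.mul (.num 20000) (.mul (eTA2000_4 v d) (.num 12)))) r) (.mul (.num 40000000)
  (.mul (eTA2000_3 v d) (.num 6)))) r) (.mul (.num 80000000000) (.mul (eTA2000_2 v d) (.num
  2))))

/-- `eGG0000_0`, scaled by `48828125000000000000000000000000000000000000`. -/
def eGG0000_0 (v d : Ex) : Ex := (.add (.mul (.add (.mul (.add (.mul (.add (.mul (.add (.mul
  (.add (.mul (.mul (.mul (.mul (.mul (.add (.mul (.num 25) (.mul (.mul (.add (.mul (.num 25)
  (.mul (.mul (.num (-1764)) d) d)) (.num 31752)) d) d)) (.num (-142884))) d) d) d) d) v) (.mul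
  (.num 5000000) (.mul (.mul (.mul (.add (.mul (.num 25) (.mul (.add (.mul (.add (.mul (.num 25)
  (.mul (.add (.mul (.num 10608) d) (.num (-6640))) d)) (.num (-20944))) d) (.num 59760)) d))
  (.num (-670752))) d) d) d))) v) (.mul (.num 25000000000000) (.mul (.mul (.add (.mul (.num 25)
  (.mul (.add (.mul (.add (.mul (.num 25) (.mul (.add (.mul (.num (-21136)) d) (.num (-50320)))
  d)) (.num (-520352))) d) (.num 272880)) d)) (.num 3335184)) d) d))) v) (.mul (.num
  125000000000000000000) (.mul (.add (.mul (.num 25) (.mul (.add (.mul (.add (.mul (.num 25)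
  (.mul (.add (.mul (.num (-63488)) d) (.num (-134880))) d)) (.num (-1998816))) d) (.num
  493920)) d)) (.num 8011872)) d))) v) (.mul (.num 625000000000000000000000000) (.add (.mul
  (.num 25) (.mul (.add (.mul (.add (.mul (.num 25) (.mul (.add (.mul (.num (-31744)) d) (.num
  (-152000))) d)) (.num (-3499408))) d) (.num 468000)) d)) (.num 4005936)))) v) (.mul (.num
  1953125000000000000000000000000000000) (.add (.mul (.num 5) (.mul (.add (.mul (.num (-12160))
  d) (.num (-24000))) d)) (.num 7488)))) v) (.num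
  (-390625000000000000000000000000000000000000000000)))

/-- `eGG0000_1`, scaled by `19531250000000000000000000000000000000000000`. -/
def eGG0000_1 (v d : Ex) : Ex := (.add (.mul (.add (.mul (.add (.mul (.add (.mul (.add (.mul
  (.add (.mul (.mul (.mul (.mul (.mul (.add (.mul (.num 5) (.mul (.mul (.add (.mul (.num 25)
  (.mul (.mul (.num (-441)) d) d)) (.num 50274)) d) d)) (.num (-83349))) d) d) d) d) v) (.mul
  (.num 10000000) (.mul (.mul (.mul (.add (.mul (.num 5) (.mul (.add (.mul (.add (.mul (.num 25)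
  (.mul (.add (.mul (.num 6416) d) (.num 2530)) d)) (.num (-115934))) d) (.num 17070)) d)) (.num
  (-99258))) d) d) d))) v) (.mul (.num 50000000000000) (.mul (.mul (.add (.mul (.num 5) (.mul
  (.add (.mul (.add (.mul (.num 25) (.mul (.add (.mul (.num (-2792)) d) (.num (-4210))) d))
  (.num (-63112))) d) (.num 197310)) d)) (.num 647292)) d) d))) v) (.mul (.num
  1250000000000000000000) (.mul (.add (.mul (.add (.mul (.add (.mul (.num 25) (.mul (.add (.mul
  (.num (-18416)) d) (.num (-42140))) d)) (.num (-19356))) d) (.num 618540)) d) (.num 298620))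
  d))) v) (.mul (.num 6250000000000000000000000000) (.add (.mul (.add (.mul (.add (.mul (.num
  25) (.mul (.add (.mul (.num (-9208)) d) (.num (-59000))) d)) (.num (-322178))) d) (.num
  730500)) d) (.num 149310)))) v) (.mul (.num 781250000000000000000000000000000000) (.add (.mul
  (.num 5) (.mul (.add (.mul (.num (-4720)) d) (.num (-3000))) d)) (.num 11688)))) v) (.num
  (-19531250000000000000000000000000000000000000000)))

/-- `eGG0000_2`, scaled by `9765625000000000000000000000000000000000000`. -/
def eGG0000_2 (v d : Ex) : Ex := (.mul (.add (.mul (.add (.mul (.add (.mul (.add (.mul (.add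
  (.mul (.mul (.mul (.mul (.mul (.add (.mul (.num 5) (.mul (.mul (.num 6174) d) d)) (.num
  (-23814))) d) d) d) d) v) (.mul (.num 5000000) (.mul (.mul (.mul (.add (.mul (.num 5) (.mul
  (.add (.mul (.add (.mul (.num 125) (.mul (.add (.mul (.num 36) d) (.num 468)) d)) (.num
  (-29248))) d) (.num (-29600))) d)) (.num (-60112))) d) d) d))) v) (.mul (.num 25000000000000)
  (.mul (.mul (.add (.mul (.num 5) (.mul (.add (.mul (.add (.mul (.num 125) (.mul (.add (.mul
  (.num (-780)) d) (.num 1204)) d)) (.num 213976)) d) (.num (-13600))) d)) (.num (-76096))) d)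
  d))) v) (.mul (.num 125000000000000000000) (.mul (.add (.mul (.num 5) (.mul (.add (.mul (.add
  (.mul (.num 125) (.mul (.add (.mul (.num (-1632)) d) (.num 136)) d)) (.num 486448)) d) (.num
  241600)) d)) (.num (-31968))) d))) v) (.mul (.num 625000000000000000000000000) (.add (.mul
  (.num 5) (.mul (.add (.mul (.add (.mul (.num 125) (.mul (.add (.mul (.num (-816)) d) (.num
  (-1000))) d)) (.num 243224)) d) (.num 376000)) d)) (.num (-15984))))) v) (.mul (.num
  390625000000000000000000000000000000) (.add (.mul (.num 5) (.mul (.mul (.num (-400)) d) d))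
  (.num 6016)))) v)

/-- `eGG0000_3`, scaled by `1953125000000000000000000000000000000000000`. -/
def eGG0000_3 (v d : Ex) : Ex := (.mul (.add (.mul (.add (.mul (.add (.mul (.add (.mul (.add
  (.mul (.mul (.mul (.mul (.mul (.add (.mul (.mul (.num 441) d) d) (.num (-1323))) d) d) d) d)
  v) (.mul (.num 5000000) (.mul (.mul (.mul (.add (.mul (.add (.mul (.add (.mul (.num 125) (.mul
  (.add (.mul (.num 5) d) (.num 64)) d)) (.num 2733)) d) (.num (-19450))) d) (.num (-9136))) d)
  d) d))) v) (.mul (.num 25000000000000) (.mul (.mul (.add (.mul (.add (.mul (.add (.mul (.num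
  125) (.mul (.add (.mul (.num (-15)) d) (.num 192)) d)) (.num 102609)) d) (.num (-43050))) d)
  (.num (-61252))) d) d))) v) (.mul (.num 125000000000000000000) (.mul (.add (.mul (.add (.mul
  (.add (.mul (.num 125) (.mul (.add (.mul (.num (-40)) d) (.num 128)) d)) (.num 199752)) d)
  (.num 22300)) d) (.num (-104232))) d))) v) (.mul (.num 625000000000000000000000000) (.add
  (.mul (.add (.mul (.add (.mul (.num 125) (.mul (.mul (.num (-20)) d) d)) (.num 99876)) d)
  (.num 76500)) d) (.num (-52116))))) v) (.num 95625000000000000000000000000000000000)) v)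

/-- `eGG0000_4`, scaled by `9765625000000000000000000000000000000000000`. -/
def eGG0000_4 (v d : Ex) : Ex := (.mul (.add (.mul (.add (.mul (.add (.mul (.add (.mul (.add
  (.mul (.mul (.mul (.mul (.mul (.num (-882)) d) d) d) d) v) (.mul (.num 5000000) (.mul (.mul
  (.mul (.add (.mul (.num 25) (.mul (.add (.mul (.add (.mul (.num 25) (.mul (.num 2) d)) (.num
  218)) d) (.num (-870))) d)) (.num (-19396))) d) d) d))) v) (.mul (.num 25000000000000) (.mul
  (.mul (.add (.mul (.num 125) (.mul (.add (.mul (.add (.mul (.num 5) (.mul (.num 6) d)) (.num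
  578)) d) (.num (-482))) d)) (.num (-142268))) d) d))) v) (.mul (.num 125000000000000000000)
  (.mul (.add (.mul (.num 25) (.mul (.add (.mul (.add (.mul (.num 25) (.mul (.num 4) d)) (.num
  5344)) d) (.num (-940))) d)) (.num (-245744))) d))) v) (.mul (.num
  625000000000000000000000000) (.add (.mul (.num 25) (.mul (.add (.mul (.num 2672) d) (.num
  1000)) d)) (.num (-122872))))) v) (.num 31250000000000000000000000000000000000)) v)

/-- `eGG0000_5`, scaled by `97656250000000000000000000000000000000000000`. -/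
def eGG0000_5 (v d : Ex) : Ex := (.mul (.mul (.add (.mul (.add (.mul (.add (.mul (.add (.mul
  (.mul (.mul (.mul (.mul (.num (-441)) d) d) d) d) v) (.mul (.num 10000000) (.mul (.mul (.mul
  (.add (.mul (.num 125) (.mul (.num (-76)) d)) (.num (-19199))) d) d) d))) v) (.mul (.num
  50000000000000) (.mul (.mul (.add (.mul (.num 125) (.mul (.add (.mul (.num 5) (.mul (.num 12)
  d)) (.num (-228))) d)) (.num (-139617))) d) d))) v) (.mul (.num 250000000000000000000) (.mul
  (.add (.mul (.num 125) (.mul (.add (.mul (.num 5) (.mul (.num 24) d)) (.num (-152))) d)) (.num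
  (-240836))) d))) v) (.mul (.num 1250000000000000000000000000) (.add (.mul (.num 625) (.mul
  (.mul (.num 12) d) d)) (.num (-120418))))) v) v)

/-- `eGG0000_6`, scaled by `1953125000000000000000000000000000000`. -/
def eGG0000_6 (v d : Ex) : Ex := (.mul (.mul (.add (.mul (.add (.mul (.add (.mul (.mul (.mul
  (.mul (.add (.mul (.num 25) (.mul (.num (-2)) d)) (.num (-314))) d) d) d) v) (.mul (.num
  25000000) (.mul (.mul (.add (.mul (.num 5) (.mul (.num (-6)) d)) (.num (-458))) d) d))) v)
  (.mul (.num 25000000000000) (.mul (.add (.mul (.num 25) (.mul (.num (-4)) d)) (.num (-3952)))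
  d))) v) (.num (-247000000000000000000000))) v) v)

/-- `eGG0000_7`, scaled by `390625000000000000000000000000000000`. -/
def eGG0000_7 (v d : Ex) : Ex := (.mul (.mul (.add (.mul (.add (.mul (.add (.mul (.mul (.mul
  (.mul (.num (-1)) d) d) d) v) (.mul (.num 5000000) (.mul (.mul (.num (-9)) d) d))) v) (.mul
  (.num 25000000000000) (.mul (.num (-16)) d))) v) (.num (-1000000000000000000000))) v) v)

/-- `cGG0000`, scaled by `6250000000000000000000000000000000000000000000000000000000000`. -/
def cGG0000 (r v d : Ex) : Ex := (.add (.mul (.add (.mul (.add (.mul (.add (.mul (.add (.mul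
  (.add (.mul (.num 125) (.mul (.add (.mul (eGG0000_7 v d) r) (.mul (.num 400) (eGG0000_6 v d)))
  r)) (.mul (.num 2) (eGG0000_5 v d))) r) (.mul (.num 40000) (eGG0000_4 v d))) r) (.mul (.num
  400000000) (eGG0000_3 v d))) r) (.mul (.num 160000000000) (eGG0000_2 v d))) r) (.mul (.num
  160000000000000) (eGG0000_1 v d))) r) (.mul (.num 128000000000000000) (eGG0000_0 v d)))

/-- `cGG0000_d2`, scaled by `1562500000000000000000000000000000000000000000000000000`. -/
def cGG0000_d2 (r v d : Ex) : Ex := (.add (.mul (.add (.mul (.add (.mul (.add (.mul (.num 125)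
  (.mul (.add (.mul (.mul (eGG0000_7 v d) (.num 42)) r) (.mul (.num 400) (.mul (eGG0000_6 v d)
  (.num 30)))) r)) (.mul (.num 2) (.mul (eGG0000_5 v d) (.num 20)))) r) (.mul (.num 40000) (.mul
  (eGG0000_4 v d) (.num 12)))) r) (.mul (.num 400000000) (.mul (eGG0000_3 v d) (.num 6)))) r)
  (.mul (.num 160000000000) (.mul (eGG0000_2 v d) (.num 2))))

/-- `eGG1000_0`, scaled by `15625000000000000000000000000`. -/
def eGG1000_0 (v d : Ex) : Ex := (.add (.mul (.add (.mul (.add (.mul (.add (.mul (.mul (.mul
  (.mul (.add (.mul (.num 5) (.mul (.add (.mul (.num 5) (.mul (.add (.mul (.add (.mul (.num 400)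
  d) (.num (-1540))) d) (.num (-1212))) d)) (.num 2772)) d)) (.num 9612)) d) d) d) v) (.mul
  (.num 5000000) (.mul (.mul (.add (.mul (.num 5) (.mul (.add (.mul (.num 5) (.mul (.add (.mul
  (.add (.mul (.num 1200) d) (.num 460)) d) (.num 412)) d)) (.num 3972)) d)) (.num 6804)) d)
  d))) v) (.mul (.num 25000000000000) (.mul (.add (.mul (.num 5) (.mul (.add (.mul (.num 5)
  (.mul (.add (.mul (.add (.mul (.num 800) d) (.num 3520)) d) (.num 5536)) d)) (.num 9264)) d))
  (.num (-5616))) d))) v) (.mul (.num 125000000000000000000) (.add (.mul (.num 5) (.mul (.add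
  (.mul (.num 5) (.mul (.add (.mul (.num 1520) d) (.num 5912)) d)) (.num 14064)) d)) (.num
  (-2808))))) v) (.mul (.num 15625000000000000000000000000) (.add (.mul (.num 2000) d) (.num
  1200))))

/-- `eGG1000_1`, scaled by `31250000000000000000000000000`. -/
def eGG1000_1 (v d : Ex) : Ex := (.add (.mul (.add (.mul (.add (.mul (.add (.mul (.mul (.mul
  (.mul (.add (.mul (.num 5) (.mul (.add (.mul (.num 5) (.mul (.add (.mul (.add (.mul (.num 2)
  (.mul (.num (-150)) d)) (.num (-945))) d) (.num (-1351))) d)) (.num 5397)) d)) (.num 24219))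
  d) d) d) v) (.mul (.num 5000000) (.mul (.mul (.add (.mul (.num 25) (.mul (.add (.mul (.add
  (.mul (.add (.mul (.num 2) (.mul (.num (-450)) d)) (.num 195)) d) (.num 47)) d) (.num 829))
  d)) (.num 13581)) d) d))) v) (.mul (.num 50000000000000) (.mul (.add (.mul (.num 5) (.mul
  (.add (.mul (.num 5) (.mul (.add (.mul (.add (.mul (.num (-300)) d) (.num 1160)) d) (.num
  1732)) d)) (.num 2038)) d)) (.num (-10638))) d))) v) (.mul (.num 250000000000000000000) (.add
  (.mul (.num 5) (.mul (.add (.mul (.num 5) (.mul (.add (.mul (.num 590) d) (.num 1283)) d))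
  (.num 5414)) d)) (.num (-5319))))) v) (.mul (.num 31250000000000000000000000000) (.add (.mul
  (.num 250) d) (.num 550))))

/-- `eGG1000_2`, scaled by `31250000000000000000000000000`. -/
def eGG1000_2 (v d : Ex) : Ex := (.add (.mul (.add (.mul (.add (.mul (.add (.mul (.mul (.mul
  (.mul (.add (.mul (.num 5) (.mul (.add (.mul (.num 5) (.mul (.add (.mul (.num 2) (.mul (.add
  (.mul (.num (-25)) d) (.num (-115))) d)) (.num (-211))) d)) (.num 2164)) d)) (.num 12159)) d)
  d) d) v) (.mul (.num 125000000) (.mul (.mul (.add (.mul (.add (.mul (.add (.mul (.num 2) (.mul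
  (.add (.mul (.num (-75)) d) (.num (-155))) d)) (.num 201)) d) (.num 218)) d) (.num 189)) d)
  d))) v) (.mul (.num 50000000000000) (.mul (.add (.mul (.num 5) (.mul (.add (.mul (.num 5)
  (.mul (.add (.mul (.add (.mul (.num (-50)) d) (.num 10)) d) (.num 354)) d)) (.num (-914))) d))
  (.num (-7434))) d))) v) (.mul (.num 250000000000000000000) (.add (.mul (.num 5) (.mul (.add
  (.mul (.num 5) (.mul (.add (.mul (.num 50) d) (.num 148)) d)) (.num (-127))) d)) (.num
  (-3717))))) v) (.num 1562500000000000000000000000000))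

/-- `eGG1000_3`, scaled by `31250000000000000000000000000`. -/
def eGG1000_3 (v d : Ex) : Ex := (.mul (.add (.mul (.add (.mul (.add (.mul (.mul (.mul (.mul
  (.add (.mul (.num 5) (.mul (.add (.mul (.num 10) (.mul (.add (.mul (.num (-10)) d) (.num
  (-5))) d)) (.num 501)) d)) (.num 3187)) d) d) d) v) (.mul (.num 25000000) (.mul (.mul (.add
  (.mul (.num 5) (.mul (.add (.mul (.num 2) (.mul (.add (.mul (.num (-20)) d) (.num 29)) d))
  (.num 91)) d)) (.num 153)) d) d))) v) (.mul (.num 50000000000000) (.mul (.add (.mul (.num 5)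
  (.mul (.add (.mul (.num 5) (.mul (.add (.mul (.num (-10)) d) (.num 44)) d)) (.num (-176))) d))
  (.num (-2422))) d))) v) (.mul (.num 250000000000000000000) (.add (.mul (.num 5) (.mul (.add
  (.mul (.num 5) (.mul (.num 10) d)) (.num (-153))) d)) (.num (-1211))))) v)

/-- `eGG1000_4`, scaled by `31250000000000000000000000000`. -/
def eGG1000_4 (v d : Ex) : Ex := (.mul (.add (.mul (.add (.mul (.add (.mul (.mul (.mul (.mul
  (.add (.mul (.num 50) (.mul (.num 7) d)) (.num 491)) d) d) d) v) (.mul (.num 125000000) (.mul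
  (.mul (.add (.mul (.num 2) (.mul (.add (.mul (.num 2) d) (.num 11)) d)) (.num 5)) d) d))) v)
  (.mul (.num 50000000000000) (.mul (.add (.mul (.num 25) (.mul (.add (.mul (.num 2) d) (.num
  2)) d)) (.num (-366))) d))) v) (.mul (.num 250000000000000000000) (.add (.mul (.num 25) (.mul
  (.num (-2)) d)) (.num (-183))))) v)

/-- `eGG1000_5`, scaled by `15625000000000000000000000000`. -/
def eGG1000_5 (v d : Ex) : Ex := (.mul (.add (.mul (.add (.mul (.add (.mul (.mul (.mul (.mul
  (.add (.mul (.num 5) (.mul (.num 2) d)) (.num 23)) d) d) d) v) (.mul (.num 5000000) (.mul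
  (.mul (.add (.mul (.num 5) (.mul (.num 4) d)) (.num 13)) d) d))) v) (.mul (.num
  125000000000000) (.mul (.add (.mul (.num 2) d) (.num (-4))) d))) v) (.num
  (-1250000000000000000000))) v)

/-- `eGG1000_6`, scaled by `15625000000000000000000000000`. -/
def eGG1000_6 (v d : Ex) : Ex := (.mul (.mul (.mul (.add (.mul (.mul (.mul d d) d) v) (.mul
  (.num 5000000) (.mul d d))) v) v) v)

/-- `cGG1000`, scaled by `1000000000000000000000000000000000000000000000000`. -/
def cGG1000 (r v d : Ex) : Ex := (.add (.mul (.add (.mul (.add (.mul (.add (.mul (.add (.mul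
  (.add (.mul (eGG1000_6 v d) r) (.mul (.num 2000) (eGG1000_5 v d))) r) (.mul (.num 2000000)
  (eGG1000_4 v d))) r) (.mul (.num 4000000000) (eGG1000_3 v d))) r) (.mul (.num 8000000000000)
  (eGG1000_2 v d))) r) (.mul (.num 16000000000000000) (eGG1000_1 v d))) r) (.mul (.num
  64000000000000000000) (eGG1000_0 v d)))

/-- `cGG1000_d2`, scaled by `250000000000000000000000000000000000000000`. -/
def cGG1000_d2 (r v d : Ex) : Ex := (.add (.mul (.add (.mul (.add (.mul (.add (.mul (.mul
  (eGG1000_6 v d) (.num 30)) r) (.mul (.num 2000) (.mul (eGG1000_5 v d) (.num 20)))) r) (.mul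
  (.num 2000000) (.mul (eGG1000_4 v d) (.num 12)))) r) (.mul (.num 4000000000) (.mul (eGG1000_3
  v d) (.num 6)))) r) (.mul (.num 8000000000000) (.mul (eGG1000_2 v d) (.num 2))))

/-- `eGG2000_0`, scaled by `625000000000000000000`. -/
def eGG2000_0 (v d : Ex) : Ex := (.add (.mul (.add (.mul (.add (.mul (.mul (.mul (.mul (.add
  (.mul (.num 5) (.mul (.add (.mul (.mul (.add (.mul (.num 250) d) (.num 300)) d) d) (.num
  (-108))) d)) (.num (-162))) d) d) d) v) (.mul (.num 5000000) (.mul (.mul (.add (.mul (.num 5)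
  (.mul (.add (.mul (.add (.mul (.add (.mul (.num 250) d) (.num 300)) d) (.num (-125))) d) (.num
  (-258))) d)) (.num (-387))) d) d))) v) (.mul (.num 125000000000000) (.mul (.add (.mul (.add
  (.mul (.num (-250)) d) (.num (-300))) d) (.num (-90))) d))) v) (.mul (.num
  625000000000000000000) (.add (.mul (.add (.mul (.num (-125)) d) (.num (-150))) d) (.num
  (-45)))))

/-- `eGG2000_1`, scaled by `500000000000000000000`. -/
def eGG2000_1 (v d : Ex) : Ex := (.add (.mul (.add (.mul (.add (.mul (.mul (.mul (.mul (.add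
  (.mul (.add (.mul (.mul (.add (.mul (.num 125) d) (.num 550)) d) d) (.num (-486))) d) (.num
  (-189))) d) d) d) v) (.mul (.num 2500000) (.mul (.mul (.add (.mul (.add (.mul (.add (.mul
  (.num 2) (.mul (.add (.mul (.num 125) d) (.num 550)) d)) (.num (-125))) d) (.num (-1522))) d)
  (.num (-663))) d) d))) v) (.mul (.num 25000000000000) (.mul (.add (.mul (.add (.mul (.num
  (-125)) d) (.num (-550))) d) (.num (-285))) d))) v) (.mul (.num 62500000000000000000) (.add
  (.mul (.add (.mul (.num (-125)) d) (.num (-550))) d) (.num (-285)))))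

/-- `eGG2000_2`, scaled by `250000000000000000000`. -/
def eGG2000_2 (v d : Ex) : Ex := (.add (.mul (.add (.mul (.add (.mul (.mul (.mul (.mul (.add
  (.mul (.add (.mul (.mul (.num 25) d) d) (.num (-99))) d) (.num (-54))) d) d) d) v) (.mul (.num
  2500000) (.mul (.mul (.add (.mul (.add (.mul (.num 2) (.mul (.mul (.num 25) d) d)) (.num
  (-223))) d) (.num (-143))) d) d))) v) (.mul (.num 25000000000000) (.mul (.add (.mul (.num
  (-25)) d) (.num (-35))) d))) v) (.mul (.num 62500000000000000000) (.add (.mul (.num (-25)) d)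
  (.num (-35)))))

/-- `eGG2000_3`, scaled by `250000000000000000000`. -/
def eGG2000_3 (v d : Ex) : Ex := (.add (.mul (.add (.mul (.add (.mul (.mul (.mul (.mul (.add
  (.mul (.num (-17)) d) (.num (-15))) d) d) d) v) (.mul (.num 1250000) (.mul (.mul (.add (.mul
  (.num 4) (.mul (.num (-17)) d)) (.num (-65))) d) d))) v) (.mul (.num 12500000000000) (.mul
  (.num (-5)) d))) v) (.num (-156250000000000000000)))

/-- `eGG2000_4`, scaled by `250000000000000000000`. -/
def eGG2000_4 (v d : Ex) : Ex := (.mul (.mul (.add (.mul (.mul (.mul (.mul (.add (.mul (.num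
  (-1)) d) (.num (-2))) d) d) d) v) (.mul (.num 5000000) (.mul (.mul (.add (.mul (.num (-1)) d)
  (.num (-2))) d) d))) v) v)

/-- `eGG2000_5`, scaled by `2500000000000000000000`. -/
def eGG2000_5 (v d : Ex) : Ex := (.mul (.mul (.add (.mul (.mul (.mul (.mul (.num (-1)) d) d) d)
  v) (.mul (.num 5000000) (.mul (.mul (.num (-1)) d) d))) v) v)

/-- `cGG2000`, scaled by `80000000000000000000000000000000000000`. -/
def cGG2000 (r v d : Ex) : Ex := (.add (.mul (.add (.mul (.add (.mul (.add (.mul (.add (.mul
  (eGG2000_5 v d) r) (.mul (.num 20000) (eGG2000_4 v d))) r) (.mul (.num 40000000) (eGG2000_3 v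
  d))) r) (.mul (.num 80000000000) (eGG2000_2 v d))) r) (.mul (.num 80000000000000) (eGG2000_1 v
  d))) r) (.mul (.num 128000000000000000) (eGG2000_0 v d)))

/-- `cGG2000_d2`, scaled by `20000000000000000000000000000000`. -/
def cGG2000_d2 (r v d : Ex) : Ex := (.add (.mul (.add (.mul (.add (.mul (.mul (eGG2000_5 v d)
  (.num 20)) r) (.mul (.num 20000) (.mul (eGG2000_4 v d) (.num 12)))) r) (.mul (.num 40000000)
  (.mul (eGG2000_3 v d) (.num 6)))) r) (.mul (.num 80000000000) (.mul (eGG2000_2 v d) (.num
  2))))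

/-- `eEG0000_0`, scaled by `48828125000000000000000000000000`. -/
def eEG0000_0 (v d : Ex) : Ex := (.add (.mul (.add (.mul (.add (.mul (.add (.mul (.mul (.mul
  (.add (.mul (.num 5) (.mul (.add (.mul (.num 5) (.mul (.add (.mul (.num 5) (.mul (.add (.mul
  (.num 5) (.mul (.add (.mul (.num 5) (.mul (.num 11424) d)) (.num (-74528))) d)) (.num
  (-45632))) d)) (.num 861504)) d)) (.num (-514656))) d)) (.num (-1716768))) d) d) v) (.mul
  (.num 5000000) (.mul (.add (.mul (.num 5) (.mul (.add (.mul (.num 5) (.mul (.add (.mul (.num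
  5) (.mul (.add (.mul (.num 5) (.mul (.add (.mul (.num 5) (.mul (.num 68544) d)) (.num
  (-269312))) d)) (.num (-174592))) d)) (.num 3097216)) d)) (.num (-3980736))) d)) (.num
  (-6060672))) d))) v) (.mul (.num 25000000000000) (.add (.mul (.num 5) (.mul (.add (.mul (.num
  5) (.mul (.add (.mul (.num 5) (.mul (.add (.mul (.num 5) (.mul (.add (.mul (.num 5) (.mul
  (.num 137088) d)) (.num (-973312))) d)) (.num (-249984))) d)) (.num 9433216)) d)) (.num
  (-8854272))) d)) (.num (-6060672))))) v) (.mul (.num 625000000000000000000) (.add (.mul (.num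
  25) (.mul (.add (.mul (.add (.mul (.num 25) (.mul (.add (.mul (.num 91392) d) (.num
  (-281600))) d)) (.num (-166656))) d) (.num 2534400)) d)) (.num (-5902848))))) v) (.mul (.num
  1953125000000000000000000000000) (.add (.mul (.num 25) (.mul (.mul (.num (-5632)) d) d)) (.num
  50688))))

/-- `eEG0000_1`, scaled by `48828125000000000000000000000000`. -/
def eEG0000_1 (v d : Ex) : Ex := (.add (.mul (.add (.mul (.add (.mul (.add (.mul (.mul (.mul
  (.add (.mul (.num 5) (.mul (.add (.mul (.num 25) (.mul (.add (.mul (.add (.mul (.num 5) (.mul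
  (.add (.mul (.num 5) (.mul (.num (-1344)) d)) (.num (-23208))) d)) (.num (-72896))) d) (.num
  206416)) d)) (.num (-195072))) d)) (.num (-4528872))) d) d) v) (.mul (.num 5000000) (.mul
  (.add (.mul (.num 5) (.mul (.add (.mul (.num 25) (.mul (.add (.mul (.add (.mul (.num 5) (.mul
  (.add (.mul (.num 5) (.mul (.num (-8064)) d)) (.num (-30032))) d)) (.num (-357776))) d) (.num
  553264)) d)) (.num (-2482032))) d)) (.num (-11961888))) d))) v) (.mul (.num 25000000000000)
  (.add (.mul (.num 5) (.mul (.add (.mul (.num 25) (.mul (.add (.mul (.add (.mul (.num 5) (.mul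
  (.add (.mul (.num 5) (.mul (.num (-16128)) d)) (.num (-86032))) d)) (.num (-635952))) d) (.num
  1498864)) d)) (.num (-6275664))) d)) (.num (-11961888))))) v) (.mul (.num
  625000000000000000000) (.add (.mul (.num 25) (.mul (.add (.mul (.add (.mul (.num 25) (.mul
  (.add (.mul (.num (-10752)) d) (.num (-22400))) d)) (.num (-423968))) d) (.num 1891200)) d))
  (.num (-4183776))))) v) (.mul (.num 1953125000000000000000000000000) (.add (.mul (.num 25)
  (.mul (.mul (.num (-448)) d) d)) (.num 37824))))

/-- `eEG0000_2`, scaled by `48828125000000000000000000000000`. -/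
def eEG0000_2 (v d : Ex) : Ex := (.add (.mul (.add (.mul (.add (.mul (.add (.mul (.mul (.mul
  (.add (.mul (.num 25) (.mul (.add (.mul (.num 5) (.mul (.add (.mul (.add (.mul (.num 5) (.mul
  (.add (.mul (.num 5) (.mul (.num (-84)) d)) (.num (-1096))) d)) (.num (-2708))) d) (.num
  79956)) d)) (.num 8488)) d)) (.num (-4032252))) d) d) v) (.mul (.num 5000000) (.mul (.add
  (.mul (.num 25) (.mul (.add (.mul (.num 5) (.mul (.add (.mul (.add (.mul (.num 5) (.mul (.add
  (.mul (.num 5) (.mul (.num (-504)) d)) (.num 6216)) d)) (.num 30552)) d) (.num 179024)) d))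
  (.num (-148672))) d)) (.num (-10468408))) d))) v) (.mul (.num 25000000000000) (.add (.mul
  (.num 25) (.mul (.add (.mul (.num 5) (.mul (.add (.mul (.add (.mul (.num 5) (.mul (.add (.mul
  (.num 5) (.mul (.num (-1008)) d)) (.num 10216)) d)) (.num 107904)) d) (.num 379824)) d)) (.num
  (-496944))) d)) (.num (-10468408))))) v) (.mul (.num 3125000000000000000000) (.add (.mul (.num
  5) (.mul (.add (.mul (.add (.mul (.num 25) (.mul (.add (.mul (.num (-672)) d) (.num 1600)) d))
  (.num 71936)) d) (.num 401600)) d)) (.num (-331296))))) v) (.mul (.num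
  1953125000000000000000000000000) (.add (.mul (.num 25) (.mul (.mul (.num 32) d) d)) (.num
  8032))))

/-- `eEG0000_3`, scaled by `9765625000000000000000000000000`. -/
def eEG0000_3 (v d : Ex) : Ex := (.add (.mul (.add (.mul (.add (.mul (.add (.mul (.mul (.mul
  (.add (.mul (.num 5) (.mul (.add (.mul (.num 5) (.mul (.add (.mul (.add (.mul (.num 5) (.mul
  (.num (-84)) d)) (.num 3696)) d) (.num 11716)) d)) (.num 88)) d)) (.num (-337048))) d) d) v)
  (.mul (.num 5000000) (.mul (.add (.mul (.num 5) (.mul (.add (.mul (.num 5) (.mul (.add (.mul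
  (.add (.mul (.num 5) (.mul (.num 64) d)) (.num 28576)) d) (.num 13864)) d)) (.num (-83072)))
  d)) (.num (-916792))) d))) v) (.mul (.num 25000000000000) (.add (.mul (.num 5) (.mul (.add
  (.mul (.num 5) (.mul (.add (.mul (.add (.mul (.num 5) (.mul (.num 64) d)) (.num 63552)) d)
  (.num 20264)) d)) (.num (-249744))) d)) (.num (-916792))))) v) (.mul (.num
  625000000000000000000) (.add (.mul (.num 5) (.mul (.add (.mul (.num 42368) d) (.num 12800))
  d)) (.num (-166496))))) v) (.num 100000000000000000000000000000000))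

/-- `eEG0000_4`, scaled by `9765625000000000000000000000000`. -/
def eEG0000_4 (v d : Ex) : Ex := (.add (.mul (.add (.mul (.add (.mul (.add (.mul (.mul (.mul
  (.add (.mul (.num 5) (.mul (.add (.mul (.num 5) (.mul (.add (.mul (.num 168) d) (.num 640))
  d)) (.num (-2348))) d)) (.num (-71756))) d) d) v) (.mul (.num 5000000) (.mul (.add (.mul (.num
  5) (.mul (.add (.mul (.num 5) (.mul (.add (.mul (.num 1208) d) (.num (-840))) d)) (.num
  (-31488))) d)) (.num (-197224))) d))) v) (.mul (.num 25000000000000) (.add (.mul (.num 5)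
  (.mul (.add (.mul (.num 5) (.mul (.add (.mul (.num 2616) d) (.num (-1640))) d)) (.num
  (-80376))) d)) (.num (-197224))))) v) (.mul (.num 625000000000000000000) (.add (.mul (.num 5)
  (.mul (.add (.mul (.num 1744) d) (.num (-1600))) d)) (.num (-53584))))) v) (.num
  (-12500000000000000000000000000000)))

/-- `eEG0000_5`, scaled by `48828125000000000000000000000000`. -/
def eEG0000_5 (v d : Ex) : Ex := (.mul (.add (.mul (.add (.mul (.add (.mul (.mul (.mul (.add
  (.mul (.num 5) (.mul (.add (.mul (.num 5) (.mul (.num 168) d)) (.num (-2352))) d)) (.num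
  (-38396))) d) d) v) (.mul (.num 5000000) (.mul (.add (.mul (.num 5) (.mul (.add (.mul (.num 5)
  (.mul (.num 72) d)) (.num (-21712))) d)) (.num (-92784))) d))) v) (.mul (.num 25000000000000)
  (.add (.mul (.num 5) (.mul (.add (.mul (.num 5) (.mul (.num 72) d)) (.num (-51024))) d)) (.num
  (-92784))))) v) (.num (-21260000000000000000000000))) v)

/-- `eEG0000_6`, scaled by `48828125000000000000000000000000`. -/
def eEG0000_6 (v d : Ex) : Ex := (.mul (.add (.mul (.add (.mul (.add (.mul (.mul (.mul (.add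
  (.mul (.num 5) (.mul (.num (-84)) d)) (.num (-2104))) d) d) v) (.mul (.num 5000000) (.mul
  (.add (.mul (.num 5) (.mul (.num (-704)) d)) (.num (-3216))) d))) v) (.mul (.num
  25000000000000) (.add (.mul (.num 5) (.mul (.num (-1608)) d)) (.num (-3216))))) v) (.num
  (-670000000000000000000000))) v)

/-- `eEG0000_7`, scaled by `48828125000000000000000000000000`. -/
def eEG0000_7 (v d : Ex) : Ex := (.mul (.mul (.add (.mul (.add (.mul (.mul (.mul (.num (-84)) d)
  d) v) (.mul (.num 5000000) (.mul (.num (-136)) d))) v) (.num (-3400000000000000))) v) v)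

/-- `cEG0000`, scaled by `6250000000000000000000000000000000000000000000000000000`. -/
def cEG0000 (r v d : Ex) : Ex := (.add (.mul (.add (.mul (.add (.mul (.add (.mul (.add (.mul
  (.add (.mul (.add (.mul (eEG0000_7 v d) r) (.mul (.num 2000) (eEG0000_6 v d))) r) (.mul (.num
  4000000) (eEG0000_5 v d))) r) (.mul (.num 40000000000) (eEG0000_4 v d))) r) (.mul (.num
  80000000000000) (eEG0000_3 v d))) r) (.mul (.num 32000000000000000) (eEG0000_2 v d))) r) (.mul
  (.num 64000000000000000000) (eEG0000_1 v d))) r) (.mul (.num 128000000000000000000000)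
  (eEG0000_0 v d)))

/-- `cEG0000_d1`, scaled by `3125000000000000000000000000000000000000000000000000`. -/
def cEG0000_d1 (r v d : Ex) : Ex := (.add (.mul (.add (.mul (.add (.mul (.add (.mul (.add (.mul
  (.add (.mul (.mul (eEG0000_7 v d) (.num 7)) r) (.mul (.num 2000) (.mul (eEG0000_6 v d) (.num
  6)))) r) (.mul (.num 4000000) (.mul (eEG0000_5 v d) (.num 5)))) r) (.mul (.num 40000000000)
  (.mul (eEG0000_4 v d) (.num 4)))) r) (.mul (.num 80000000000000) (.mul (eEG0000_3 v d) (.num
  3)))) r) (.mul (.num 32000000000000000) (.mul (eEG0000_2 v d) (.num 2)))) r) (.mul (.num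
  64000000000000000000) (eEG0000_1 v d)))

/-- `eEG0100_0`, scaled by `390625000000000000000000`. -/
def eEG0100_0 (v d : Ex) : Ex := (.add (.mul (.add (.mul (.add (.mul (.mul (.mul (.add (.mul
  (.num 5) (.mul (.add (.mul (.num 5) (.mul (.add (.mul (.num 5) (.mul (.num (-2688)) d)) (.num
  8064)) d)) (.num 24192)) d)) (.num (-72576))) d) d) v) (.mul (.num 5000000) (.mul (.add (.mul
  (.num 5) (.mul (.add (.mul (.num 5) (.mul (.add (.mul (.num 5) (.mul (.num 13568) d)) (.num
  (-8704))) d)) (.num (-160512))) d)) (.num 193536)) d))) v) (.mul (.num 25000000000000) (.add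
  (.mul (.num 5) (.mul (.add (.mul (.num 5) (.mul (.add (.mul (.num 5) (.mul (.num 13568) d))
  (.num 55296)) d)) (.num (-352512))) d)) (.num 193536)))) v) (.mul (.num
  78125000000000000000000) (.add (.mul (.num 5) (.mul (.num 512) d)) (.num (-1536)))))

/-- `eEG0100_1`, scaled by `78125000000000000000000`. -/
def eEG0100_1 (v d : Ex) : Ex := (.add (.mul (.add (.mul (.add (.mul (.mul (.mul (.add (.mul
  (.add (.mul (.num 5) (.mul (.add (.mul (.num 5) (.mul (.num 1008) d)) (.num (-336))) d)) (.num
  7056)) d) (.num (-9072))) d) d) v) (.mul (.num 5000000) (.mul (.add (.mul (.add (.mul (.num 5)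
  (.mul (.add (.mul (.num 5) (.mul (.num (-3648)) d)) (.num (-14624))) d)) (.num (-27776))) d)
  (.num 31968)) d))) v) (.mul (.num 25000000000000) (.add (.mul (.add (.mul (.num 5) (.mul (.add
  (.mul (.num 5) (.mul (.num (-3648)) d)) (.num (-38624))) d)) (.num (-19776))) d) (.num
  31968)))) v) (.mul (.num 15625000000000000000000) (.add (.mul (.num 5) (.mul (.num (-192)) d))
  (.num 64))))

/-- `eEG0100_2`, scaled by `78125000000000000000000`. -/
def eEG0100_2 (v d : Ex) : Ex := (.add (.mul (.add (.mul (.add (.mul (.mul (.mul (.add (.mul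
  (.add (.mul (.num 5) (.mul (.add (.mul (.num 5) (.mul (.num 168) d)) (.num (-1512))) d)) (.num
  (-4872))) d) (.num 1512)) d) d) v) (.mul (.num 5000000) (.mul (.add (.mul (.add (.mul (.num 5)
  (.mul (.add (.mul (.num 5) (.mul (.num (-1888)) d)) (.num 7312)) d)) (.num 31712)) d) (.num
  (-1872))) d))) v) (.mul (.num 25000000000000) (.add (.mul (.add (.mul (.num 5) (.mul (.add
  (.mul (.num 5) (.mul (.num (-1888)) d)) (.num 3312)) d)) (.num 67712)) d) (.num (-1872))))) v)
  (.mul (.num 15625000000000000000000) (.add (.mul (.num 5) (.mul (.num (-32)) d)) (.num 288))))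

/-- `eEG0100_3`, scaled by `78125000000000000000000`. -/
def eEG0100_3 (v d : Ex) : Ex := (.add (.mul (.add (.mul (.add (.mul (.mul (.mul (.add (.mul
  (.add (.mul (.num 5) (.mul (.num (-168)) d)) (.num (-2016))) d) (.num 2184)) d) d) v) (.mul
  (.num 5000000) (.mul (.add (.mul (.add (.mul (.num 5) (.mul (.add (.mul (.num 25) (.mul (.num
  32) d)) (.num 1408)) d)) (.num 10736)) d) (.num (-7984))) d))) v) (.mul (.num 25000000000000)
  (.add (.mul (.add (.mul (.num 5) (.mul (.add (.mul (.num 25) (.mul (.num 32) d)) (.num 1408))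
  d)) (.num 14736)) d) (.num (-7984))))) v) (.num 500000000000000000000000))

/-- `eEG0100_4`, scaled by `78125000000000000000000`. -/
def eEG0100_4 (v d : Ex) : Ex := (.mul (.add (.mul (.add (.mul (.mul (.mul (.add (.mul (.num
  (-168)) d) (.num 504)) d) d) v) (.mul (.num 5000000) (.mul (.add (.mul (.add (.mul (.num 25)
  (.mul (.num (-32)) d)) (.num 528)) d) (.num (-2064))) d))) v) (.mul (.num 25000000000000)
  (.add (.mul (.add (.mul (.num 25) (.mul (.num (-32)) d)) (.num 528)) d) (.num (-2064))))) v)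

/-- `eEG0100_5`, scaled by `390625000000000000000000`. -/
def eEG0100_5 (v d : Ex) : Ex := (.mul (.add (.mul (.add (.mul (.mul (.mul (.num 168) d) d) v)
  (.mul (.num 5000000) (.mul (.add (.mul (.num 25) (.mul (.num (-32)) d)) (.num (-48))) d))) v)
  (.mul (.num 25000000000000) (.add (.mul (.num 25) (.mul (.num (-32)) d)) (.num (-48))))) v)

/-- `eEG0100_6`, scaled by `15625000000000000`. -/
def eEG0100_6 (v d : Ex) : Ex := (.mul (.add (.mul (.mul (.num 32) d) v) (.num 160000000)) v)

/-- `cEG0100`, scaled by `12500000000000000000000000000000000000000`. -/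
def cEG0100 (r v d : Ex) : Ex := (.add (.mul (.add (.mul (.add (.mul (.add (.mul (.add (.mul
  (.add (.mul (.num 12500) (.mul (eEG0100_6 v d) r)) (eEG0100_5 v d)) r) (.mul (.num 10000)
  (eEG0100_4 v d))) r) (.mul (.num 20000000) (eEG0100_3 v d))) r) (.mul (.num 40000000000)
  (eEG0100_2 v d))) r) (.mul (.num 80000000000000) (eEG0100_1 v d))) r) (.mul (.num
  32000000000000000) (eEG0100_0 v d)))

/-- `cEG0100_d1`, scaled by `6250000000000000000000000000000000000`. -/
def cEG0100_d1 (r v d : Ex) : Ex := (.add (.mul (.add (.mul (.add (.mul (.add (.mul (.add (.mul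
  (.num 12500) (.mul (.mul (eEG0100_6 v d) (.num 6)) r)) (.mul (eEG0100_5 v d) (.num 5))) r)
  (.mul (.num 10000) (.mul (eEG0100_4 v d) (.num 4)))) r) (.mul (.num 20000000) (.mul (eEG0100_3
  v d) (.num 3)))) r) (.mul (.num 40000000000) (.mul (eEG0100_2 v d) (.num 2)))) r) (.mul (.num
  80000000000000) (eEG0100_1 v d)))

/-- `eEG1000_0`, scaled by `1953125000000000000000000`. -/
def eEG1000_0 (v d : Ex) : Ex := (.add (.mul (.add (.mul (.add (.mul (.mul (.mul (.add (.mul
  (.num 5) (.mul (.add (.mul (.num 5) (.mul (.add (.mul (.num 5) (.mul (.add (.mul (.num 5)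
  (.mul (.add (.mul (.num 5) (.mul (.num (-504)) d)) (.num (-3912))) d)) (.num 18032)) d)) (.num
  97296)) d)) (.num (-121464))) d)) (.num (-558792))) d) d) v) (.mul (.num 5000000) (.mul (.add
  (.mul (.num 5) (.mul (.add (.mul (.num 5) (.mul (.add (.mul (.num 5) (.mul (.add (.mul (.num
  5) (.mul (.add (.mul (.num 5) (.mul (.num (-2016)) d)) (.num (-6048))) d)) (.num (-45472)))
  d)) (.num (-176416))) d)) (.num 380544)) d)) (.num 1501632)) d))) v) (.mul (.num
  25000000000000) (.add (.mul (.num 5) (.mul (.add (.mul (.num 5) (.mul (.add (.mul (.num 5)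
  (.mul (.add (.mul (.num 5) (.mul (.add (.mul (.num 5) (.mul (.num (-2016)) d)) (.num 8352))
  d)) (.num (-2272))) d)) (.num (-386016))) d)) (.num (-248256))) d)) (.num 1501632)))) v) (.mul
  (.num 15625000000000000000000) (.add (.mul (.num 5) (.mul (.add (.mul (.num 5) (.mul (.add
  (.mul (.num 5) (.mul (.num 384) d)) (.num 1152)) d)) (.num (-6656))) d)) (.num (-19968)))))

/-- `eEG1000_1`, scaled by `1953125000000000000000000`. -/
def eEG1000_1 (v d : Ex) : Ex := (.add (.mul (.add (.mul (.add (.mul (.mul (.mul (.add (.mul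
  (.num 25) (.mul (.add (.mul (.add (.mul (.num 5) (.mul (.add (.mul (.num 5) (.mul (.add (.mul
  (.num 5) (.mul (.num 42) d)) (.num (-478))) d)) (.num 8232)) d)) (.num 73328)) d) (.num
  (-26250))) d)) (.num (-782514))) d) d) v) (.mul (.num 5000000) (.mul (.add (.mul (.num 25)
  (.mul (.add (.mul (.add (.mul (.num 5) (.mul (.add (.mul (.num 5) (.mul (.add (.mul (.num 5)
  (.mul (.num 168) d)) (.num (-1512))) d)) (.num 1828)) d)) (.num (-49988))) d) (.num 64900))
  d)) (.num 1684044)) d))) v) (.mul (.num 25000000000000) (.add (.mul (.num 25) (.mul (.add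
  (.mul (.add (.mul (.num 5) (.mul (.add (.mul (.num 5) (.mul (.add (.mul (.num 5) (.mul (.num
  168) d)) (.num (-912))) d)) (.num 18028)) d)) (.num (-161788))) d) (.num (-44100))) d)) (.num
  1684044)))) v) (.mul (.num 78125000000000000000000) (.add (.mul (.add (.mul (.num 5) (.mul
  (.add (.mul (.num 5) (.mul (.num 16) d)) (.num 432)) d)) (.num (-3248))) d) (.num (-3280)))))

/-- `eEG1000_2`, scaled by `781250000000000000000000`. -/
def eEG1000_2 (v d : Ex) : Ex := (.add (.mul (.add (.mul (.add (.mul (.mul (.mul (.add (.mul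
  (.num 5) (.mul (.add (.mul (.add (.mul (.num 5) (.mul (.add (.mul (.num 10) (.mul (.num 67)
  d)) (.num 2263)) d)) (.num 34353)) d) (.num (-21971))) d)) (.num (-173763))) d) d) v) (.mul
  (.num 10000000) (.mul (.add (.mul (.num 5) (.mul (.add (.mul (.add (.mul (.num 5) (.mul (.add
  (.mul (.num 5) (.mul (.num 168) d)) (.num 76)) d)) (.num 1431)) d) (.num 18308)) d)) (.num
  140949)) d))) v) (.mul (.num 50000000000000) (.add (.mul (.num 5) (.mul (.add (.mul (.add
  (.mul (.num 5) (.mul (.add (.mul (.num 5) (.mul (.num 18) d)) (.num 226)) d)) (.num (-16469)))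
  d) (.num (-14792))) d)) (.num 140949)))) v) (.mul (.num 31250000000000000000000) (.add (.mul
  (.add (.mul (.num 5) (.mul (.add (.mul (.num 5) (.mul (.num (-4)) d)) (.num 4)) d)) (.num
  (-494))) d) (.num (-946)))))

/-- `eEG1000_3`, scaled by `781250000000000000000000`. -/
def eEG1000_3 (v d : Ex) : Ex := (.add (.mul (.add (.mul (.add (.mul (.mul (.mul (.add (.mul
  (.num 5) (.mul (.add (.mul (.add (.mul (.num 10) (.mul (.num (-34)) d)) (.num 1859)) d) (.num
  (-4374))) d)) (.num (-47693))) d) d) v) (.mul (.num 10000000) (.mul (.add (.mul (.num 5) (.mul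
  (.add (.mul (.add (.mul (.num 5) (.mul (.num (-436)) d)) (.num (-1232))) d) (.num 2677)) d))
  (.num 29089)) d))) v) (.mul (.num 50000000000000) (.add (.mul (.num 5) (.mul (.add (.mul (.add
  (.mul (.num 5) (.mul (.num (-586)) d)) (.num (-932))) d) (.num (-723))) d)) (.num 29089)))) v)
  (.mul (.num 31250000000000000000000) (.add (.mul (.add (.mul (.num 5) (.mul (.num (-4)) d))
  (.num 8)) d) (.num (-94)))))

/-- `eEG1000_4`, scaled by `781250000000000000000000`. -/
def eEG1000_4 (v d : Ex) : Ex := (.add (.mul (.add (.mul (.add (.mul (.mul (.mul (.add (.mul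
  (.num 5) (.mul (.add (.mul (.num 2) (.mul (.num (-84)) d)) (.num (-371))) d)) (.num (-6387)))
  d) d) v) (.mul (.num 10000000) (.mul (.add (.mul (.num 5) (.mul (.add (.mul (.num (-436)) d)
  (.num 483)) d)) (.num 4251)) d))) v) (.mul (.num 50000000000000) (.add (.mul (.num 5) (.mul
  (.add (.mul (.num (-286)) d) (.num 633)) d)) (.num 4251)))) v) (.mul (.num
  31250000000000000000000) (.add (.mul (.num 4) d) (.num 4))))

/-- `eEG1000_5`, scaled by `3906250000000000000000000`. -/
def eEG1000_5 (v d : Ex) : Ex := (.add (.mul (.add (.mul (.add (.mul (.mul (.mul (.add (.mul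
  (.num 10) (.mul (.num (-8)) d)) (.num (-1503))) d) d) v) (.mul (.num 10000000) (.mul (.add
  (.mul (.num 5) (.mul (.num 268) d)) (.num 3219)) d))) v) (.mul (.num 50000000000000) (.add
  (.mul (.num 5) (.mul (.num 418) d)) (.num 3219)))) v) (.num 125000000000000000000000))

/-- `eEG1000_6`, scaled by `1953125000000000000000000`. -/
def eEG1000_6 (v d : Ex) : Ex := (.mul (.add (.mul (.add (.mul (.mul (.mul (.num 17) d) d) v)
  (.mul (.num 5000000) (.mul (.num 268) d))) v) (.num 6700000000000000)) v)

/-- `cEG1000`, scaled by `125000000000000000000000000000000000000000000`. -/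
def cEG1000 (r v d : Ex) : Ex := (.add (.mul (.add (.mul (.add (.mul (.add (.mul (.add (.mul
  (.add (.mul (eEG1000_6 v d) r) (.mul (.num 1000) (eEG1000_5 v d))) r) (.mul (.num 10000000)
  (eEG1000_4 v d))) r) (.mul (.num 20000000000) (eEG1000_3 v d))) r) (.mul (.num 40000000000000)
  (eEG1000_2 v d))) r) (.mul (.num 32000000000000000) (eEG1000_1 v d))) r) (.mul (.num
  64000000000000000000) (eEG1000_0 v d)))

/-- `cEG1000_d1`, scaled by `62500000000000000000000000000000000000000`. -/
def cEG1000_d1 (r v d : Ex) : Ex := (.add (.mul (.add (.mul (.add (.mul (.add (.mul (.add (.mul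
  (.mul (eEG1000_6 v d) (.num 6)) r) (.mul (.num 1000) (.mul (eEG1000_5 v d) (.num 5)))) r)
  (.mul (.num 10000000) (.mul (eEG1000_4 v d) (.num 4)))) r) (.mul (.num 20000000000) (.mul
  (eEG1000_3 v d) (.num 3)))) r) (.mul (.num 40000000000000) (.mul (eEG1000_2 v d) (.num 2))))
  r) (.mul (.num 32000000000000000) (eEG1000_1 v d)))

/-- `eEG1100_0`, scaled by `125000000`. -/
def eEG1100_0 (v d : Ex) : Ex := (.add (.mul (.mul (.add (.mul (.num 25) (.mul (.mul (.num
  (-64)) d) d)) (.num 576)) d) v) (.mul (.num 5000000) (.add (.mul (.num 25) (.mul (.mul (.num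
  (-64)) d) d)) (.num 576))))

/-- `eEG1100_1`, scaled by `125000000`. -/
def eEG1100_1 (v d : Ex) : Ex := (.add (.mul (.mul (.add (.mul (.num 25) (.mul (.mul (.num 24)
  d) d)) (.num 168)) d) v) (.mul (.num 5000000) (.add (.mul (.num 25) (.mul (.mul (.num 24) d)
  d)) (.num 168))))

/-- `eEG1100_2`, scaled by `125000000`. -/
def eEG1100_2 (v d : Ex) : Ex := (.add (.mul (.mul (.add (.mul (.num 25) (.mul (.mul (.num 4) d)
  d)) (.num (-116))) d) v) (.mul (.num 5000000) (.add (.mul (.num 25) (.mul (.mul (.num 4) d)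
  d)) (.num (-116)))))

/-- `eEG1100_3`, scaled by `125000000`. -/
def eEG1100_3 (v d : Ex) : Ex := (.add (.mul (.mul (.num (-48)) d) v) (.num (-240000000)))

/-- `eEG1100_4`, scaled by `125000000`. -/
def eEG1100_4 (v d : Ex) : Ex := (.add (.mul (.mul (.num (-4)) d) v) (.num (-20000000)))

/-- `cEG1100`, scaled by `2000000000000000000000`. -/
def cEG1100 (r v d : Ex) : Ex := (.add (.mul (.add (.mul (.add (.mul (.add (.mul (eEG1100_4 v d)
  r) (.mul (.num 2000) (eEG1100_3 v d))) r) (.mul (.num 4000000) (eEG1100_2 v d))) r) (.mul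
  (.num 8000000000) (eEG1100_1 v d))) r) (.mul (.num 16000000000000) (eEG1100_0 v d)))

/-- `cEG1100_d1`, scaled by `1000000000000000000`. -/
def cEG1100_d1 (r v d : Ex) : Ex := (.add (.mul (.add (.mul (.add (.mul (.mul (eEG1100_4 v d)
  (.num 4)) r) (.mul (.num 2000) (.mul (eEG1100_3 v d) (.num 3)))) r) (.mul (.num 4000000) (.mul
  (eEG1100_2 v d) (.num 2)))) r) (.mul (.num 8000000000) (eEG1100_1 v d)))

/-- `eEG2000_0`, scaled by `3125000000000000`. -/
def eEG2000_0 (v d : Ex) : Ex := (.add (.mul (.add (.mul (.mul (.mul (.add (.mul (.num 5) (.mul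
  (.add (.mul (.num 25) (.mul (.mul (.add (.mul (.num (-20)) d) (.num (-24))) d) d)) (.num 216))
  d)) (.num 324)) d) d) v) (.mul (.num 5000000) (.mul (.add (.mul (.num 5) (.mul (.add (.mul
  (.num 25) (.mul (.add (.mul (.add (.mul (.num 40) d) (.num 48)) d) (.num 16)) d)) (.num 48))
  d)) (.num 72)) d))) v) (.mul (.num 25000000000000) (.add (.mul (.num 5) (.mul (.add (.mul
  (.num 25) (.mul (.add (.mul (.add (.mul (.num 40) d) (.num 48)) d) (.num 16)) d)) (.num 48))
  d)) (.num 72))))

/-- `eEG2000_1`, scaled by `1250000000000000`. -/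
def eEG2000_1 (v d : Ex) : Ex := (.add (.mul (.add (.mul (.mul (.mul (.add (.mul (.add (.mul
  (.num 25) (.mul (.mul (.add (.mul (.num (-5)) d) (.num (-22))) d) d)) (.num 486)) d) (.num
  189)) d) d) v) (.mul (.num 10000000) (.mul (.add (.mul (.add (.mul (.num 25) (.mul (.add (.mul
  (.add (.mul (.num 5) d) (.num 22)) d) (.num 4)) d)) (.num (-206))) d) (.num (-57))) d))) v)
  (.mul (.num 50000000000000) (.add (.mul (.add (.mul (.num 25) (.mul (.add (.mul (.add (.mul
  (.num 5) d) (.num 22)) d) (.num 4)) d)) (.num (-206))) d) (.num (-57)))))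

/-- `eEG2000_2`, scaled by `625000000000000`. -/
def eEG2000_2 (v d : Ex) : Ex := (.add (.mul (.add (.mul (.mul (.mul (.add (.mul (.add (.mul
  (.num 25) (.mul (.mul (.num (-1)) d) d)) (.num 99)) d) (.num 54)) d) d) v) (.mul (.num
  1250000) (.mul (.add (.mul (.add (.mul (.num 25) (.mul (.add (.mul (.num 4) (.mul (.num 2) d))
  (.num 1)) d)) (.num (-602))) d) (.num (-263))) d))) v) (.mul (.num 6250000000000) (.add (.mul
  (.add (.mul (.num 25) (.mul (.add (.mul (.num 4) (.mul (.num 2) d)) (.num 1)) d)) (.num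
  (-602))) d) (.num (-263)))))

/-- `eEG2000_3`, scaled by `625000000000000`. -/
def eEG2000_3 (v d : Ex) : Ex := (.add (.mul (.add (.mul (.mul (.mul (.add (.mul (.num 17) d)
  (.num 15)) d) d) v) (.mul (.num 2500000) (.mul (.add (.mul (.num (-63)) d) (.num (-49))) d)))
  v) (.mul (.num 12500000000000) (.add (.mul (.num (-63)) d) (.num (-49)))))

/-- `eEG2000_4`, scaled by `625000000000000`. -/
def eEG2000_4 (v d : Ex) : Ex := (.add (.mul (.add (.mul (.mul (.mul (.add d (.num 2)) d) d) v)
  (.mul (.num 1250000) (.mul (.add (.mul (.num 4) (.mul (.num (-2)) d)) (.num (-15))) d))) v)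
  (.mul (.num 6250000000000) (.add (.mul (.num 4) (.mul (.num (-2)) d)) (.num (-15)))))

/-- `eEG2000_5`, scaled by `6250000000000000`. -/
def eEG2000_5 (v d : Ex) : Ex := (.add (.mul (.add (.mul (.mul d d) v) (.mul (.num 10000000)
  (.mul (.num (-1)) d))) v) (.num (-50000000000000)))

/-- `cEG2000`, scaled by `200000000000000000000000000000000`. -/
def cEG2000 (r v d : Ex) : Ex := (.add (.mul (.add (.mul (.add (.mul (.add (.mul (.add (.mul
  (eEG2000_5 v d) r) (.mul (.num 20000) (eEG2000_4 v d))) r) (.mul (.num 40000000) (eEG2000_3 v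
  d))) r) (.mul (.num 80000000000) (eEG2000_2 v d))) r) (.mul (.num 80000000000000) (eEG2000_1 v
  d))) r) (.mul (.num 64000000000000000) (eEG2000_0 v d)))

/-- `cEG2000_d1`, scaled by `100000000000000000000000000000`. -/
def cEG2000_d1 (r v d : Ex) : Ex := (.add (.mul (.add (.mul (.add (.mul (.add (.mul (.mul
  (eEG2000_5 v d) (.num 5)) r) (.mul (.num 20000) (.mul (eEG2000_4 v d) (.num 4)))) r) (.mul
  (.num 40000000) (.mul (eEG2000_3 v d) (.num 3)))) r) (.mul (.num 80000000000) (.mul (eEG2000_2
  v d) (.num 2)))) r) (.mul (.num 80000000000000) (eEG2000_1 v d)))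

/-- `eME0001_0`, scaled by `125000000000000000000`. -/
def eME0001_0 (v d : Ex) : Ex := (.mul (.mul (.add (.mul (.mul (.add (.mul (.num (-80)) d) (.num
  48)) d) v) (.mul (.num 5000000) (.add (.mul (.num (-160)) d) (.num 96)))) v) v)

/-- `eME0001_1`, scaled by `125000000000000000000`. -/
def eME0001_1 (v d : Ex) : Ex := (.mul (.mul (.add (.mul (.mul (.add (.mul (.num 40) d) (.num
  (-8))) d) v) (.mul (.num 5000000) (.add (.mul (.num 80) d) (.num (-16))))) v) v)

/-- `eME0001_2`, scaled by `125000000000000000000`. -/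
def eME0001_2 (v d : Ex) : Ex := (.mul (.mul (.add (.mul (.mul (.num (-8)) d) v) (.num
  (-80000000))) v) v)

/-- `cME0001`, scaled by `500000000000000000000000000`. -/
def cME0001 (r v d : Ex) : Ex := (.add (.mul (.add (.mul (eME0001_2 v d) r) (.mul (.num 2000)
  (eME0001_1 v d))) r) (.mul (.num 4000000) (eME0001_0 v d)))

/-- `cME0001_d1`, scaled by `250000000000000000000000`. -/
def cME0001_d1 (r v d : Ex) : Ex := (.add (.mul (.mul (eME0001_2 v d) (.num 2)) r) (.mul (.num
  2000) (eME0001_1 v d)))

/-- `eME0010_0`, scaled by `125000000000000`. -/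
def eME0010_0 (v d : Ex) : Ex := (.mul (.add (.mul (.mul (.add (.mul (.num 5) (.mul (.add (.mul
  (.num 10) d) (.num 12)) d)) (.num 18)) d) v) (.mul (.num 5000000) (.add (.mul (.num 5) (.mul
  (.add (.mul (.num 20) d) (.num 24)) d)) (.num 36)))) v)

/-- `eME0010_1`, scaled by `500000000000000`. -/
def eME0010_1 (v d : Ex) : Ex := (.mul (.add (.mul (.mul (.add (.mul (.num 5) (.mul (.add (.mul
  (.num 5) d) (.num 22)) d)) (.num 57)) d) v) (.mul (.num 10000000) (.add (.mul (.num 5) (.mul
  (.add (.mul (.num 5) d) (.num 22)) d)) (.num 57)))) v)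

/-- `eME0010_2`, scaled by `250000000000000`. -/
def eME0010_2 (v d : Ex) : Ex := (.mul (.add (.mul (.mul (.add (.mul (.num 5) d) (.num 7)) d) v)
  (.mul (.num 10000000) (.add (.mul (.num 5) d) (.num 7)))) v)

/-- `eME0010_3`, scaled by `500000000000000`. -/
def eME0010_3 (v d : Ex) : Ex := (.mul (.add (.mul d v) (.num 10000000)) v)

/-- `cME0010`, scaled by `4000000000000000000000000`. -/
def cME0010 (r v d : Ex) : Ex := (.add (.mul (.add (.mul (.add (.mul (eME0010_3 v d) r) (.mul
  (.num 4000) (eME0010_2 v d))) r) (.mul (.num 4000000) (eME0010_1 v d))) r) (.mul (.num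
  32000000000) (eME0010_0 v d)))

/-- `cME0010_d1`, scaled by `2000000000000000000000`. -/
def cME0010_d1 (r v d : Ex) : Ex := (.add (.mul (.add (.mul (.mul (eME0010_3 v d) (.num 3)) r)
  (.mul (.num 4000) (.mul (eME0010_2 v d) (.num 2)))) r) (.mul (.num 4000000) (eME0010_1 v d)))

/-- `eME0100_0`, scaled by `25000000000000`. -/
def eME0100_0 (v d : Ex) : Ex := (.add (.mul (.add (.mul (.mul (.mul (.add (.mul (.num (-80)) d)
  (.num 48)) d) d) v) (.mul (.num 5000000) (.add (.mul (.add (.mul (.num (-240)) d) (.num 224))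
  d) (.num (-48))))) v) (.mul (.num 25000000000000) (.add (.mul (.num (-160)) d) (.num 96))))

/-- `eME0100_1`, scaled by `25000000000000`. -/
def eME0100_1 (v d : Ex) : Ex := (.add (.mul (.add (.mul (.mul (.mul (.add (.mul (.num 40) d)
  (.num (-8))) d) d) v) (.mul (.num 5000000) (.add (.mul (.add (.mul (.num 120) d) (.num (-64)))
  d) (.num 8)))) v) (.mul (.num 25000000000000) (.add (.mul (.num 80) d) (.num (-16)))))

/-- `eME0100_2`, scaled by `25000000000000`. -/
def eME0100_2 (v d : Ex) : Ex := (.add (.mul (.add (.mul (.mul (.mul (.num (-8)) d) d) v) (.mul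
  (.num 5000000) (.add (.mul (.num (-24)) d) (.num 8)))) v) (.num (-400000000000000)))

/-- `cME0100`, scaled by `100000000000000000000`. -/
def cME0100 (r v d : Ex) : Ex := (.add (.mul (.add (.mul (eME0100_2 v d) r) (.mul (.num 2000)
  (eME0100_1 v d))) r) (.mul (.num 4000000) (eME0100_0 v d)))

/-- `cME0100_d1`, scaled by `50000000000000000`. -/
def cME0100_d1 (r v d : Ex) : Ex := (.add (.mul (.mul (eME0100_2 v d) (.num 2)) r) (.mul (.num
  2000) (eME0100_1 v d)))

/-- `eME1000_0`, scaled by `78125000000000000000000`. -/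
def eME1000_0 (v d : Ex) : Ex := (.mul (.add (.mul (.add (.mul (.mul (.mul (.add (.mul (.num 5)
  (.mul (.add (.mul (.num 5) (.mul (.add (.mul (.num 5) (.mul (.num (-63)) d)) (.num (-189)))
  d)) (.num 567)) d)) (.num 1701)) d) d) v) (.mul (.num 5000000) (.mul (.add (.mul (.num 5)
  (.mul (.add (.mul (.num 5) (.mul (.add (.mul (.num 5) (.mul (.num (-252)) d)) (.num (-756)))
  d)) (.num 5368)) d)) (.num 16104)) d))) v) (.mul (.num 25000000000000) (.add (.mul (.num 5)
  (.mul (.add (.mul (.num 5) (.mul (.add (.mul (.num 5) (.mul (.num (-252)) d)) (.num (-756)))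
  d)) (.num 2868)) d)) (.num 8604)))) v)

/-- `eME1000_1`, scaled by `312500000000000000000000`. -/
def eME1000_1 (v d : Ex) : Ex := (.mul (.add (.mul (.add (.mul (.mul (.mul (.add (.mul (.num 5)
  (.mul (.add (.mul (.num 5) (.mul (.add (.mul (.num 5) (.mul (.num 21) d)) (.num (-189))) d))
  (.num 1323)) d)) (.num 6237)) d) d) v) (.mul (.num 10000000) (.mul (.add (.mul (.num 5) (.mul
  (.add (.mul (.num 10) (.mul (.add (.mul (.num 5) (.mul (.num 21) d)) (.num (-189))) d)) (.num
  3221)) d)) (.num 20399)) d))) v) (.mul (.num 100000000000000) (.add (.mul (.num 5) (.mul (.add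
  (.mul (.num 5) (.mul (.add (.mul (.num 5) (.mul (.num 21) d)) (.num (-189))) d)) (.num 1298))
  d)) (.num 6762)))) v)

/-- `eME1000_2`, scaled by `312500000000000000000000`. -/
def eME1000_2 (v d : Ex) : Ex := (.mul (.add (.mul (.add (.mul (.mul (.mul (.add (.mul (.num 5)
  (.mul (.add (.mul (.num 5) (.mul (.num 21) d)) (.num 126)) d)) (.num 1701)) d) d) v) (.mul
  (.num 10000000) (.mul (.add (.mul (.num 5) (.mul (.add (.mul (.num 10) (.mul (.num 21) d))
  (.num 27)) d)) (.num 3302)) d))) v) (.mul (.num 50000000000000) (.add (.mul (.num 5) (.mul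
  (.add (.mul (.num 10) (.mul (.num 21) d)) (.num 27)) d)) (.num 2677)))) v)

/-- `eME1000_3`, scaled by `312500000000000000000000`. -/
def eME1000_3 (v d : Ex) : Ex := (.mul (.add (.mul (.add (.mul (.mul (.mul (.add (.mul (.num 5)
  (.mul (.num (-21)) d)) (.num 63)) d) d) v) (.mul (.num 10000000) (.mul (.add (.mul (.num 5)
  (.mul (.num (-67)) d)) (.num (-174))) d))) v) (.mul (.num 50000000000000) (.add (.mul (.num 5)
  (.mul (.num (-67)) d)) (.num (-174))))) v)

/-- `eME1000_4`, scaled by `312500000000000000000000`. -/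
def eME1000_4 (v d : Ex) : Ex := (.mul (.add (.mul (.add (.mul (.mul (.mul (.num (-21)) d) d) v)
  (.mul (.num 10000000) (.mul (.num (-67)) d))) v) (.num (-3350000000000000))) v)

/-- `cME1000`, scaled by `5000000000000000000000000000000000000`. -/
def cME1000 (r v d : Ex) : Ex := (.add (.mul (.add (.mul (.add (.mul (.add (.mul (eME1000_4 v d)
  r) (.mul (.num 2000) (eME1000_3 v d))) r) (.mul (.num 4000000) (eME1000_2 v d))) r) (.mul
  (.num 8000000000) (eME1000_1 v d))) r) (.mul (.num 64000000000000) (eME1000_0 v d)))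

/-- `cME1000_d1`, scaled by `2500000000000000000000000000000000`. -/
def cME1000_d1 (r v d : Ex) : Ex := (.add (.mul (.add (.mul (.add (.mul (.mul (eME1000_4 v d)
  (.num 4)) r) (.mul (.num 2000) (.mul (eME1000_3 v d) (.num 3)))) r) (.mul (.num 4000000) (.mul
  (eME1000_2 v d) (.num 2)))) r) (.mul (.num 8000000000) (eME1000_1 v d)))

/-- `eME1100_0`, scaled by `25000000`. -/
def eME1100_0 (v d : Ex) : Ex := (.add (.mul (.mul (.add (.mul (.num 5) (.mul (.mul (.num 20) d)
  d)) (.num (-36))) d) v) (.mul (.num 5000000) (.add (.mul (.num 5) (.mul (.mul (.num 20) d) d))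
  (.num (-36)))))

/-- `eME1100_1`, scaled by `25000000`. -/
def eME1100_1 (v d : Ex) : Ex := (.add (.mul (.mul (.add (.mul (.num 5) (.mul (.mul (.num (-10))
  d) d)) (.num (-6))) d) v) (.mul (.num 5000000) (.add (.mul (.num 5) (.mul (.mul (.num (-10))
  d) d)) (.num (-6)))))

/-- `eME1100_2`, scaled by `25000000`. -/
def eME1100_2 (v d : Ex) : Ex := (.add (.mul (.mul (.num 8) d) v) (.num 40000000))

/-- `eME1100_3`, scaled by `25000000`. -/
def eME1100_3 (v d : Ex) : Ex := (.add (.mul (.mul (.num 2) d) v) (.num 10000000))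

/-- `cME1100`, scaled by `200000000000000000`. -/
def cME1100 (r v d : Ex) : Ex := (.add (.mul (.add (.mul (.add (.mul (eME1100_3 v d) r) (.mul
  (.num 2000) (eME1100_2 v d))) r) (.mul (.num 4000000) (eME1100_1 v d))) r) (.mul (.num
  8000000000) (eME1100_0 v d)))

/-- `cME1100_d1`, scaled by `100000000000000`. -/
def cME1100_d1 (r v d : Ex) : Ex := (.add (.mul (.add (.mul (.mul (eME1100_3 v d) (.num 3)) r)
  (.mul (.num 2000) (.mul (eME1100_2 v d) (.num 2)))) r) (.mul (.num 4000000) (eME1100_1 v d)))

/-- `eMG0000_0`, scaled by `244140625000000000000000000000000000000000000`. -/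
def eMG0000_0 (v d : Ex) : Ex := (.add (.mul (.add (.mul (.add (.mul (.add (.mul (.add (.mul
  (.add (.mul (.mul (.mul (.mul (.mul (.add (.mul (.num 25) (.mul (.add (.mul (.add (.mul (.num
  25) (.mul (.add (.mul (.add (.mul (.num 25) (.mul (.add (.mul (.num 1764) d) (.num (-4200)))
  d)) (.num 77872)) d) (.num 600)) d)) (.num (-705348))) d) (.num 334800)) d)) (.num
  (-1245456))) d) d) d) d) v) (.mul (.num 5000000) (.mul (.mul (.mul (.add (.mul (.num 25) (.mul
  (.add (.mul (.add (.mul (.num 25) (.mul (.add (.mul (.add (.mul (.num 25) (.mul (.add (.mul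
  (.num (-65888)) d) (.num 64000)) d)) (.num 1247376)) d) (.num (-1562000))) d)) (.num
  (-291984))) d) (.num 8874000)) d)) (.num (-50377248))) d) d) d))) v) (.mul (.num
  25000000000000) (.mul (.mul (.add (.mul (.num 25) (.mul (.add (.mul (.add (.mul (.num 25)
  (.mul (.add (.mul (.add (.mul (.num 25) (.mul (.add (.mul (.num (-357664)) d) (.num 318000))
  d)) (.num 6520928)) d) (.num (-6644000))) d)) (.num (-22654352))) d) (.num 34038000)) d))
  (.num (-63568944))) d) d))) v) (.mul (.num 125000000000000000000) (.mul (.add (.mul (.num 25)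
  (.mul (.add (.mul (.add (.mul (.num 25) (.mul (.add (.mul (.add (.mul (.num 25) (.mul (.add
  (.mul (.num (-583552)) d) (.num 548000)) d)) (.num 11547104)) d) (.num (-10944000))) d)) (.num
  (-53724736))) d) (.num 54108000)) d)) (.num (-26383392))) d))) v) (.mul (.num
  625000000000000000000000000) (.add (.mul (.num 25) (.mul (.add (.mul (.add (.mul (.num 25)
  (.mul (.add (.mul (.add (.mul (.num 25) (.mul (.add (.mul (.num (-291776)) d) (.num 504000))
  d)) (.num 8273552)) d) (.num (-9772000))) d)) (.num (-49362368))) d) (.num 47124000)) d))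
  (.num (-13191696))))) v) (.mul (.num 1953125000000000000000000000000000000) (.add (.mul (.num
  25) (.mul (.add (.mul (.add (.mul (.add (.mul (.num 201600) d) (.num 120000)) d) (.num
  (-156352))) d) (.num (-43200))) d)) (.num 753984)))) v) (.mul (.num
  244140625000000000000000000000000000000000000) (.add (.mul (.mul (.num 40000) d) d) (.num
  (-14400)))))

/-- `eMG0000_1`, scaled by `244140625000000000000000000000000000000000000`. -/
def eMG0000_1 (v d : Ex) : Ex := (.add (.mul (.add (.mul (.add (.mul (.add (.mul (.add (.mul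
  (.add (.mul (.mul (.mul (.mul (.mul (.add (.mul (.num 25) (.mul (.add (.mul (.add (.mul (.num
  25) (.mul (.add (.mul (.num (-10752)) d) (.num 25400)) d)) (.num (-562464))) d) (.num 221400))
  d)) (.num (-816912))) d) d) d) d) v) (.mul (.num 5000000) (.mul (.mul (.mul (.add (.mul (.num
  25) (.mul (.add (.mul (.add (.mul (.num 25) (.mul (.add (.mul (.add (.mul (.num 25) (.mul
  (.num 8000) d)) (.num 533584)) d) (.num (-1102000))) d)) (.num 1674688)) d) (.num 11730000))
  d)) (.num (-95192496))) d) d) d))) v) (.mul (.num 25000000000000) (.mul (.mul (.add (.mul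
  (.num 25) (.mul (.add (.mul (.add (.mul (.num 25) (.mul (.add (.mul (.add (.mul (.num 25)
  (.mul (.num 24000) d)) (.num 3159952)) d) (.num (-4728000))) d)) (.num (-6667136))) d) (.num
  46128000)) d)) (.num (-242811888))) d) d))) v) (.mul (.num 125000000000000000000) (.mul (.add
  (.mul (.num 25) (.mul (.add (.mul (.add (.mul (.num 25) (.mul (.add (.mul (.add (.mul (.num
  25) (.mul (.num 16000) d)) (.num 5252736)) d) (.num (-7384000))) d)) (.num (-22683648))) d)
  (.num 71640000)) d)) (.num (-295238784))) d))) v) (.mul (.num 625000000000000000000000000)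
  (.add (.mul (.num 25) (.mul (.add (.mul (.add (.mul (.num 25) (.mul (.add (.mul (.num 2626368)
  d) (.num (-6348000))) d)) (.num (-26341824))) d) (.num 61332000)) d)) (.num (-147619392)))))
  v) (.mul (.num 1953125000000000000000000000000000000) (.add (.mul (.num 25) (.mul (.add (.mul
  (.num (-101568)) d) (.num (-28800))) d)) (.num 981312)))) v) (.num
  (-2343750000000000000000000000000000000000000000000)))

/-- `eMG0000_2`, scaled by `48828125000000000000000000000000000000000000`. -/
def eMG0000_2 (v d : Ex) : Ex := (.add (.mul (.add (.mul (.add (.mul (.add (.mul (.add (.mul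
  (.add (.mul (.mul (.mul (.mul (.mul (.add (.mul (.num 5) (.mul (.add (.mul (.add (.mul (.num
  25) (.mul (.add (.mul (.num (-5292)) d) (.num 8400)) d)) (.num (-92232))) d) (.num (-1800)))
  d)) (.num 30348)) d) d) d) d) v) (.mul (.num 5000000) (.mul (.mul (.mul (.add (.mul (.num 5)
  (.mul (.add (.mul (.add (.mul (.num 25) (.mul (.add (.mul (.num 104264) d) (.num (-214000)))
  d)) (.num 699344)) d) (.num 5780000)) d)) (.num (-13885416))) d) d) d))) v) (.mul (.num
  25000000000000) (.mul (.mul (.add (.mul (.num 5) (.mul (.add (.mul (.add (.mul (.num 25) (.mul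
  (.add (.mul (.num 625992) d) (.num (-954000))) d)) (.num 752432)) d) (.num 23834000)) d))
  (.num (-50732648))) d) d))) v) (.mul (.num 125000000000000000000) (.mul (.add (.mul (.num 5)
  (.mul (.add (.mul (.add (.mul (.num 25) (.mul (.add (.mul (.num 1043456) d) (.num (-1508000)))
  d)) (.num (-893824))) d) (.num 37500000)) d)) (.num (-73694464))) d))) v) (.mul (.num
  625000000000000000000000000) (.add (.mul (.num 5) (.mul (.add (.mul (.add (.mul (.num 25)
  (.mul (.add (.mul (.num 521728) d) (.num (-1308000))) d)) (.num (-2946912))) d) (.num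
  32416000)) d)) (.num (-36847232))))) v) (.mul (.num 390625000000000000000000000000000000)
  (.add (.mul (.num 25) (.mul (.add (.mul (.num (-20928)) d) (.num (-4800))) d)) (.num
  518656)))) v) (.num (-78125000000000000000000000000000000000000000000)))

/-- `eMG0000_3`, scaled by `48828125000000000000000000000000000000000000`. -/
def eMG0000_3 (v d : Ex) : Ex := (.mul (.add (.mul (.add (.mul (.add (.mul (.add (.mul (.add
  (.mul (.mul (.mul (.mul (.mul (.add (.mul (.num 5) (.mul (.add (.mul (.num 21504) d) (.num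
  (-25400))) d)) (.num 37488)) d) d) d) d) v) (.mul (.num 5000000) (.mul (.mul (.mul (.add (.mul
  (.num 5) (.mul (.add (.mul (.add (.mul (.num 625) (.mul (.num (-640)) d)) (.num 3632)) d)
  (.num 1330000)) d)) (.num (-5073296))) d) d) d))) v) (.mul (.num 25000000000000) (.mul (.mul
  (.add (.mul (.num 5) (.mul (.add (.mul (.add (.mul (.num 625) (.mul (.num (-1920)) d)) (.num
  (-585904))) d) (.num 5772000)) d)) (.num (-23186288))) d) d))) v) (.mul (.num
  125000000000000000000) (.mul (.add (.mul (.num 5) (.mul (.add (.mul (.add (.mul (.num 625)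
  (.mul (.num (-1280)) d)) (.num (-1179072))) d) (.num 9280000)) d)) (.num (-36225984))) d))) v)
  (.mul (.num 625000000000000000000000000) (.add (.mul (.num 5) (.mul (.add (.mul (.num
  (-589536)) d) (.num 8148000)) d)) (.num (-18112992))))) v) (.num
  50925000000000000000000000000000000000000)) v)

/-- `eMG0000_4`, scaled by `48828125000000000000000000000000000000000000`. -/
def eMG0000_4 (v d : Ex) : Ex := (.mul (.add (.mul (.add (.mul (.add (.mul (.add (.mul (.add
  (.mul (.mul (.mul (.mul (.mul (.add (.mul (.num 5) (.mul (.add (.mul (.num 5292) d) (.num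
  (-4200))) d)) (.num 2872)) d) d) d) d) v) (.mul (.num 5000000) (.mul (.mul (.mul (.add (.mul
  (.num 5) (.mul (.add (.mul (.num (-10864)) d) (.num 150000)) d)) (.num (-1001824))) d) d) d)))
  v) (.mul (.num 25000000000000) (.mul (.mul (.add (.mul (.num 5) (.mul (.add (.mul (.num
  (-168992)) d) (.num 636000)) d)) (.num (-5135072))) d) d))) v) (.mul (.num
  125000000000000000000) (.mul (.add (.mul (.num 5) (.mul (.add (.mul (.num (-316256)) d) (.num
  960000)) d)) (.num (-8266496))) d))) v) (.mul (.num 625000000000000000000000000) (.add (.mul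
  (.num 5) (.mul (.add (.mul (.num (-158128)) d) (.num 804000)) d)) (.num (-4133248))))) v)
  (.num 5025000000000000000000000000000000000000)) v)

/-- `eMG0000_5`, scaled by `244140625000000000000000000000000000000000000`. -/
def eMG0000_5 (v d : Ex) : Ex := (.mul (.mul (.add (.mul (.add (.mul (.add (.mul (.add (.mul
  (.mul (.mul (.mul (.mul (.num (-10752)) d) d) d) d) v) (.mul (.num 5000000) (.mul (.mul (.mul
  (.add (.mul (.num 3125) (.mul (.num 64) d)) (.num (-537216))) d) d) d))) v) (.mul (.num
  25000000000000) (.mul (.mul (.add (.mul (.num 3125) (.mul (.num 192) d)) (.num (-2634048))) d)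
  d))) v) (.mul (.num 125000000000000000000) (.mul (.add (.mul (.num 3125) (.mul (.num 128) d))
  (.num (-4193664))) d))) v) (.num (-1310520000000000000000000000000000))) v) v)

/-- `eMG0000_6`, scaled by `244140625000000000000000000000000000000000000`. -/
def eMG0000_6 (v d : Ex) : Ex := (.mul (.mul (.add (.mul (.add (.mul (.add (.mul (.add (.mul
  (.mul (.mul (.mul (.mul (.num (-1764)) d) d) d) d) v) (.mul (.num 5000000) (.mul (.mul (.mul
  (.num (-27512)) d) d) d))) v) (.mul (.num 25000000000000) (.mul (.mul (.num (-99336)) d) d)))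
  v) (.mul (.num 125000000000000000000) (.mul (.num (-143648)) d))) v) (.num
  (-44890000000000000000000000000000))) v) v)

/-- `cMG0000`, scaled by `15625000000000000000000000000000000000000000000000000000000000000`. -/
def cMG0000 (r v d : Ex) : Ex := (.add (.mul (.add (.mul (.add (.mul (.add (.mul (.add (.mul
  (.add (.mul (eMG0000_6 v d) r) (.mul (.num 2000) (eMG0000_5 v d))) r) (.mul (.num 20000000)
  (eMG0000_4 v d))) r) (.mul (.num 40000000000) (eMG0000_3 v d))) r) (.mul (.num 80000000000000)
  (eMG0000_2 v d))) r) (.mul (.num 32000000000000000) (eMG0000_1 v d))) r) (.mul (.num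
  64000000000000000000) (eMG0000_0 v d)))

/-- `eMG0001_0`, scaled by `625000000000000000000000000`. -/
def eMG0001_0 (v d : Ex) : Ex := (.mul (.mul (.add (.mul (.add (.mul (.mul (.mul (.add (.mul
  (.add (.mul (.add (.mul (.num (-64000)) d) (.num 38400)) d) (.num 23040)) d) (.num (-13824)))
  d) d) v) (.mul (.num 5000000) (.mul (.add (.mul (.add (.mul (.add (.mul (.num (-192000)) d)
  (.num 115200)) d) (.num 69120)) d) (.num (-41472))) d))) v) (.mul (.num 25000000000000) (.add
  (.mul (.add (.mul (.add (.mul (.num (-128000)) d) (.num 76800)) d) (.num 46080)) d) (.num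
  (-27648))))) v) v)

/-- `eMG0001_1`, scaled by `625000000000000000000000000`. -/
def eMG0001_1 (v d : Ex) : Ex := (.mul (.mul (.add (.mul (.add (.mul (.mul (.mul (.add (.mul
  (.add (.mul (.add (.mul (.num 32000) d) (.num (-6400))) d) (.num 3840)) d) (.num (-6912))) d)
  d) v) (.mul (.num 5000000) (.mul (.add (.mul (.add (.mul (.add (.mul (.num 96000) d) (.num
  (-19200))) d) (.num 11520)) d) (.num (-20736))) d))) v) (.mul (.num 25000000000000) (.add
  (.mul (.add (.mul (.add (.mul (.num 64000) d) (.num (-12800))) d) (.num 7680)) d) (.num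
  (-13824))))) v) v)

/-- `eMG0001_2`, scaled by `625000000000000000000000000`. -/
def eMG0001_2 (v d : Ex) : Ex := (.mul (.mul (.add (.mul (.add (.mul (.mul (.mul (.add (.mul
  (.add (.mul (.num (-6400)) d) (.num (-5120))) d) (.num 2304)) d) d) v) (.mul (.num 5000000)
  (.mul (.add (.mul (.add (.mul (.num (-19200)) d) (.num (-15360))) d) (.num 6912)) d))) v)
  (.mul (.num 25000000000000) (.add (.mul (.add (.mul (.num (-12800)) d) (.num (-10240))) d)
  (.num 4608)))) v) v)

/-- `eMG0001_3`, scaled by `625000000000000000000000000`. -/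
def eMG0001_3 (v d : Ex) : Ex := (.mul (.mul (.add (.mul (.add (.mul (.mul (.mul (.add (.mul
  (.num (-1280)) d) (.num 1792)) d) d) v) (.mul (.num 5000000) (.mul (.add (.mul (.num (-3840))
  d) (.num 5376)) d))) v) (.mul (.num 25000000000000) (.add (.mul (.num (-2560)) d) (.num
  3584)))) v) v)

/-- `eMG0001_4`, scaled by `625000000000000000000000000`. -/
def eMG0001_4 (v d : Ex) : Ex := (.mul (.mul (.add (.mul (.add (.mul (.mul (.mul (.num 256) d)
  d) v) (.mul (.num 5000000) (.mul (.num 768) d))) v) (.num 12800000000000000)) v) v)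

/-- `cMG0001`, scaled by `10000000000000000000000000000000000000000`. -/
def cMG0001 (r v d : Ex) : Ex := (.add (.mul (.add (.mul (.add (.mul (.add (.mul (eMG0001_4 v d)
  r) (.mul (.num 2000) (eMG0001_3 v d))) r) (.mul (.num 4000000) (eMG0001_2 v d))) r) (.mul
  (.num 8000000000) (eMG0001_1 v d))) r) (.mul (.num 16000000000000) (eMG0001_0 v d)))

/-- `eMG0010_0`, scaled by `625000000000000000000`. -/
def eMG0010_0 (v d : Ex) : Ex := (.mul (.add (.mul (.add (.mul (.mul (.mul (.add (.mul (.num 5)
  (.mul (.add (.mul (.mul (.add (.mul (.num (-2000)) d) (.num (-2400))) d) d) (.num 864)) d))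
  (.num 1296)) d) d) v) (.mul (.num 5000000) (.mul (.add (.mul (.num 5) (.mul (.add (.mul (.mul
  (.add (.mul (.num (-6000)) d) (.num (-7200))) d) d) (.num 2592)) d)) (.num 3888)) d))) v)
  (.mul (.num 25000000000000) (.add (.mul (.num 5) (.mul (.add (.mul (.mul (.add (.mul (.num
  (-4000)) d) (.num (-4800))) d) d) (.num 1728)) d)) (.num 2592)))) v)

/-- `eMG0010_1`, scaled by `125000000000000000000`. -/
def eMG0010_1 (v d : Ex) : Ex := (.mul (.add (.mul (.add (.mul (.mul (.mul (.add (.mul (.add
  (.mul (.mul (.add (.mul (.num 1000) d) (.num 400)) d) d) (.num 432)) d) (.num 216)) d) d) v)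
  (.mul (.num 5000000) (.mul (.add (.mul (.add (.mul (.mul (.add (.mul (.num 3000) d) (.num
  1200)) d) d) (.num 1296)) d) (.num 648)) d))) v) (.mul (.num 25000000000000) (.add (.mul (.add
  (.mul (.mul (.add (.mul (.num 2000) d) (.num 800)) d) d) (.num 864)) d) (.num 432)))) v)

/-- `eMG0010_2`, scaled by `125000000000000000000`. -/
def eMG0010_2 (v d : Ex) : Ex := (.mul (.add (.mul (.add (.mul (.mul (.mul (.mul (.add (.mul
  (.mul (.num 400) d) d) (.num (-144))) d) d) d) v) (.mul (.num 5000000) (.mul (.mul (.add (.mul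
  (.mul (.num 1200) d) d) (.num (-432))) d) d))) v) (.mul (.num 25000000000000) (.mul (.add
  (.mul (.mul (.num 800) d) d) (.num (-288))) d))) v)

/-- `eMG0010_3`, scaled by `125000000000000000000`. -/
def eMG0010_3 (v d : Ex) : Ex := (.mul (.add (.mul (.add (.mul (.mul (.mul (.add (.mul (.num
  (-112)) d) (.num (-48))) d) d) v) (.mul (.num 5000000) (.mul (.add (.mul (.num (-336)) d)
  (.num (-144))) d))) v) (.mul (.num 25000000000000) (.add (.mul (.num (-224)) d) (.num
  (-96))))) v)

/-- `eMG0010_4`, scaled by `125000000000000000000`. -/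
def eMG0010_4 (v d : Ex) : Ex := (.mul (.add (.mul (.add (.mul (.mul (.mul (.add (.mul (.num
  (-16)) d) (.num (-16))) d) d) v) (.mul (.num 5000000) (.mul (.add (.mul (.num (-48)) d) (.num
  (-48))) d))) v) (.mul (.num 25000000000000) (.add (.mul (.num (-32)) d) (.num (-32))))) v)

/-- `eMG0010_5`, scaled by `625000000000000000000`. -/
def eMG0010_5 (v d : Ex) : Ex := (.mul (.add (.mul (.add (.mul (.mul (.mul (.num (-8)) d) d) v)
  (.mul (.num 5000000) (.mul (.num (-24)) d))) v) (.num (-400000000000000))) v)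

/-- `cMG0010`, scaled by `20000000000000000000000000000000000000`. -/
def cMG0010 (r v d : Ex) : Ex := (.add (.mul (.add (.mul (.add (.mul (.add (.mul (.add (.mul
  (eMG0010_5 v d) r) (.mul (.num 10000) (eMG0010_4 v d))) r) (.mul (.num 20000000) (eMG0010_3 v
  d))) r) (.mul (.num 40000000000) (eMG0010_2 v d))) r) (.mul (.num 80000000000000) (eMG0010_1 v
  d))) r) (.mul (.num 32000000000000000) (eMG0010_0 v d)))

/-- `eMG0100_0`, scaled by `3125000000000000000000000000`. -/
def eMG0100_0 (v d : Ex) : Ex := (.mul (.add (.mul (.add (.mul (.add (.mul (.mul (.mul (.mul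
  (.add (.mul (.num 5) (.mul (.add (.mul (.add (.mul (.add (.mul (.num (-16000)) d) (.num 6400))
  d) (.num 7680)) d) (.num (-2304))) d)) (.num (-3456))) d) d) d) v) (.mul (.num 5000000) (.mul
  (.mul (.add (.mul (.num 5) (.mul (.add (.mul (.add (.mul (.add (.mul (.num (-48000)) d) (.num
  (-12800))) d) (.num 42240)) d) (.num 4608)) d)) (.num (-44928))) d) d))) v) (.mul (.num
  25000000000000) (.mul (.add (.mul (.num 5) (.mul (.add (.mul (.add (.mul (.add (.mul (.num
  (-32000)) d) (.num 6400)) d) (.num 19200)) d) (.num (-2304))) d)) (.num (-13824))) d))) v)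
  (.mul (.num 125000000000000000000) (.add (.mul (.num 5) (.mul (.add (.mul (.add (.mul (.num
  25600) d) (.num (-15360))) d) (.num (-9216))) d)) (.num 27648)))) v)

/-- `eMG0100_1`, scaled by `625000000000000000000000000`. -/
def eMG0100_1 (v d : Ex) : Ex := (.mul (.add (.mul (.add (.mul (.add (.mul (.mul (.mul (.mul
  (.mul (.add (.mul (.add (.mul (.add (.mul (.num 8000) d) (.num 1600)) d) (.num (-320))) d)
  (.num (-2112))) d) d) d) d) v) (.mul (.num 5000000) (.mul (.mul (.add (.mul (.add (.mul (.add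
  (.mul (.add (.mul (.num 24000) d) (.num 4800)) d) (.num 5440)) d) (.num 1344)) d) (.num
  (-6912))) d) d))) v) (.mul (.num 25000000000000) (.mul (.add (.mul (.add (.mul (.add (.mul
  (.add (.mul (.num 16000) d) (.num (-22400))) d) (.num 16000)) d) (.num 6528)) d) (.num
  (-6912))) d))) v) (.mul (.num 125000000000000000000) (.mul (.add (.mul (.add (.mul (.num
  (-25600)) d) (.num 10240)) d) (.num 3072)) d))) v)

/-- `eMG0100_2`, scaled by `625000000000000000000000000`. -/
def eMG0100_2 (v d : Ex) : Ex := (.mul (.add (.mul (.add (.mul (.add (.mul (.mul (.mul (.mul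
  (.add (.mul (.add (.mul (.add (.mul (.num (-2400)) d) (.num (-1440))) d) (.num 224)) d) (.num
  288)) d) d) d) v) (.mul (.num 5000000) (.mul (.mul (.add (.mul (.add (.mul (.add (.mul (.num
  800) d) (.num (-9120))) d) (.num (-928))) d) (.num 288)) d) d))) v) (.mul (.num
  25000000000000) (.mul (.add (.mul (.add (.mul (.add (.mul (.num 9600) d) (.num (-6400))) d)
  (.num 1664)) d) (.num (-2304))) d))) v) (.mul (.num 125000000000000000000) (.add (.mul (.add
  (.mul (.add (.mul (.num 6400) d) (.num 1280)) d) (.num 2816)) d) (.num (-2304))))) v)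

/-- `eMG0100_3`, scaled by `625000000000000000000000000`. -/
def eMG0100_3 (v d : Ex) : Ex := (.mul (.add (.mul (.add (.mul (.add (.mul (.mul (.mul (.mul
  (.add (.mul (.add (.mul (.num (-160)) d) (.num 512)) d) (.num 32)) d) d) d) v) (.mul (.num
  5000000) (.mul (.mul (.add (.mul (.add (.mul (.num (-2080)) d) (.num (-384))) d) (.num 1568))
  d) d))) v) (.mul (.num 25000000000000) (.mul (.add (.mul (.add (.mul (.num (-3200)) d) (.num
  (-1408))) d) (.num 1280)) d))) v) (.mul (.num 125000000000000000000) (.add (.mul (.add (.mul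
  (.num (-1280)) d) (.num (-512))) d) (.num (-256))))) v)

/-- `eMG0100_4`, scaled by `625000000000000000000000000`. -/
def eMG0100_4 (v d : Ex) : Ex := (.mul (.add (.mul (.add (.mul (.add (.mul (.mul (.mul (.mul
  (.add (.mul (.num 96) d) (.num (-32))) d) d) d) v) (.mul (.num 5000000) (.mul (.mul (.add
  (.mul (.num (-32)) d) (.num 480)) d) d))) v) (.mul (.num 25000000000000) (.mul (.add (.mul
  (.num (-384)) d) (.num 768)) d))) v) (.mul (.num 125000000000000000000) (.add (.mul (.num
  (-256)) d) (.num 256)))) v)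

/-- `eMG0100_5`, scaled by `3125000000000000000000000000`. -/
def eMG0100_5 (v d : Ex) : Ex := (.mul (.add (.mul (.add (.mul (.add (.mul (.mul (.mul (.mul
  (.num (-32)) d) d) d) v) (.mul (.num 5000000) (.mul (.mul (.num 224) d) d))) v) (.mul (.num
  25000000000000) (.mul (.num 512) d))) v) (.num 32000000000000000000000)) v)

/-- `cMG0100`, scaled by `100000000000000000000000000000000000000000000`. -/
def cMG0100 (r v d : Ex) : Ex := (.add (.mul (.add (.mul (.add (.mul (.add (.mul (.add (.mul
  (eMG0100_5 v d) r) (.mul (.num 10000) (eMG0100_4 v d))) r) (.mul (.num 20000000) (eMG0100_3 v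
  d))) r) (.mul (.num 40000000000) (eMG0100_2 v d))) r) (.mul (.num 80000000000000) (eMG0100_1 v
  d))) r) (.mul (.num 32000000000000000) (eMG0100_0 v d)))

/-- `eMG0200_0`, scaled by `125000000000000000000`. -/
def eMG0200_0 (v d : Ex) : Ex := (.mul (.mul (.add (.mul (.mul (.mul (.mul (.add (.mul (.add
  (.mul (.num (-3200)) d) (.num 3840)) d) (.num (-1152))) d) d) d) v) (.mul (.num 5000000) (.mul
  (.mul (.add (.mul (.add (.mul (.num (-3200)) d) (.num 3840)) d) (.num (-1152))) d) d))) v) v)

/-- `eMG0200_1`, scaled by `125000000000000000000`. -/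
def eMG0200_1 (v d : Ex) : Ex := (.mul (.mul (.add (.mul (.mul (.mul (.mul (.add (.mul (.add
  (.mul (.num 3200) d) (.num (-2560))) d) (.num 384)) d) d) d) v) (.mul (.num 5000000) (.mul
  (.mul (.add (.mul (.add (.mul (.num 3200) d) (.num (-2560))) d) (.num 384)) d) d))) v) v)

/-- `eMG0200_2`, scaled by `125000000000000000000`. -/
def eMG0200_2 (v d : Ex) : Ex := (.mul (.mul (.add (.mul (.mul (.mul (.mul (.add (.mul (.add
  (.mul (.num (-800)) d) (.num (-320))) d) (.num 352)) d) d) d) v) (.mul (.num 5000000) (.mul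
  (.mul (.add (.mul (.add (.mul (.num (-800)) d) (.num (-320))) d) (.num 352)) d) d))) v) v)

/-- `eMG0200_3`, scaled by `125000000000000000000`. -/
def eMG0200_3 (v d : Ex) : Ex := (.mul (.mul (.add (.mul (.mul (.mul (.mul (.add (.mul (.num
  320) d) (.num (-64))) d) d) d) v) (.mul (.num 5000000) (.mul (.mul (.add (.mul (.num 320) d)
  (.num (-64))) d) d))) v) v)

/-- `eMG0200_4`, scaled by `125000000000000000000`. -/
def eMG0200_4 (v d : Ex) : Ex := (.mul (.mul (.add (.mul (.mul (.mul (.mul (.num (-32)) d) d) d)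
  v) (.mul (.num 5000000) (.mul (.mul (.num (-32)) d) d))) v) v)

/-- `cMG0200`, scaled by `2000000000000000000000000000000000`. -/
def cMG0200 (r v d : Ex) : Ex := (.add (.mul (.add (.mul (.add (.mul (.add (.mul (eMG0200_4 v d)
  r) (.mul (.num 2000) (eMG0200_3 v d))) r) (.mul (.num 4000000) (eMG0200_2 v d))) r) (.mul
  (.num 8000000000) (eMG0200_1 v d))) r) (.mul (.num 16000000000000) (eMG0200_0 v d)))

/-- `eMG1000_0`, scaled by `390625000000000000000000000000000000`. -/
def eMG1000_0 (v d : Ex) : Ex := (.add (.mul (.add (.mul (.add (.mul (.add (.mul (.add (.mul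
  (.mul (.mul (.mul (.mul (.add (.mul (.num 5) (.mul (.add (.mul (.num 5) (.mul (.add (.mul
  (.num 5) (.mul (.add (.mul (.add (.mul (.num (-1050)) d) (.num 620)) d) (.num 756)) d)) (.num
  (-2232))) d)) (.num (-3402))) d)) (.num 10044)) d) d) d) d) v) (.mul (.num 25000000) (.mul
  (.mul (.mul (.add (.mul (.num 5) (.mul (.add (.mul (.num 5) (.mul (.add (.mul (.add (.mul
  (.add (.mul (.num (-10500)) d) (.num (-17400))) d) (.num 12340)) d) (.num 15396)) d)) (.num
  (-15408))) d)) (.num (-82188))) d) d) d))) v) (.mul (.num 25000000000000) (.mul (.mul (.add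
  (.mul (.num 5) (.mul (.add (.mul (.num 5) (.mul (.add (.mul (.num 5) (.mul (.add (.mul (.add
  (.mul (.num (-35700)) d) (.num (-67220))) d) (.num 5464)) d)) (.num 181272)) d)) (.num 66492))
  d)) (.num (-542484))) d) d))) v) (.mul (.num 125000000000000000000) (.mul (.add (.mul (.num 5)
  (.mul (.add (.mul (.num 5) (.mul (.add (.mul (.num 5) (.mul (.add (.mul (.add (.mul (.num
  (-50400)) d) (.num (-77440))) d) (.num 3568)) d)) (.num 180624)) d)) (.num 131184)) d)) (.num
  (-371088))) d))) v) (.mul (.num 625000000000000000000000000) (.add (.mul (.num 5) (.mul (.add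
  (.mul (.num 5) (.mul (.add (.mul (.num 5) (.mul (.add (.mul (.add (.mul (.num (-25200)) d)
  (.num (-40120))) d) (.num 2944)) d)) (.num 98832)) d)) (.num 55152)) d)) (.num (-239544)))))
  v) (.mul (.num 390625000000000000000000000000000000) (.add (.mul (.add (.mul (.add (.mul (.num
  (-10000)) d) (.num (-6000))) d) (.num 3600)) d) (.num 2160))))

/-- `eMG1000_1`, scaled by `78125000000000000000000000000000000`. -/
def eMG1000_1 (v d : Ex) : Ex := (.add (.mul (.add (.mul (.add (.mul (.add (.mul (.add (.mul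
  (.mul (.mul (.mul (.mul (.add (.mul (.add (.mul (.num 5) (.mul (.add (.mul (.num 5) (.mul
  (.add (.mul (.num (-210)) d) (.num 504)) d)) (.num (-732))) d)) (.num (-4536))) d) (.num
  1998)) d) d) d) d) v) (.mul (.num 5000000) (.mul (.mul (.mul (.add (.mul (.num 5) (.mul (.add
  (.mul (.num 5) (.mul (.add (.mul (.add (.mul (.num (-500)) d) (.num 5420)) d) (.num 9896)) d))
  (.num (-15492))) d)) (.num (-104652))) d) d) d))) v) (.mul (.num 25000000000000) (.mul (.mul
  (.add (.mul (.add (.mul (.num 5) (.mul (.add (.mul (.num 5) (.mul (.add (.mul (.num (-2340))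
  d) (.num 16696)) d)) (.num 148192)) d)) (.num (-28824))) d) (.num (-186300))) d) d))) v) (.mul
  (.num 125000000000000000000) (.mul (.add (.mul (.add (.mul (.num 5) (.mul (.add (.mul (.num 5)
  (.mul (.add (.mul (.num (-6880)) d) (.num 23072)) d)) (.num 174544)) d)) (.num (-11328))) d)
  (.num (-174096))) d))) v) (.mul (.num 625000000000000000000000000) (.add (.mul (.add (.mul
  (.num 5) (.mul (.add (.mul (.num 5) (.mul (.add (.mul (.num (-5040)) d) (.num 9296)) d)) (.num
  90832)) d)) (.num 7536)) d) (.num (-92448))))) v) (.mul (.num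
  78125000000000000000000000000000000) (.add (.mul (.add (.mul (.num (-2000)) d) (.num 2400)) d)
  (.num 2160))))

/-- `eMG1000_2`, scaled by `78125000000000000000000000000000000`. -/
def eMG1000_2 (v d : Ex) : Ex := (.add (.mul (.add (.mul (.add (.mul (.add (.mul (.add (.mul
  (.mul (.mul (.mul (.mul (.add (.mul (.add (.mul (.num 5) (.mul (.add (.mul (.num 5) (.mul
  (.num 84) d)) (.num 256)) d)) (.num (-2268))) d) (.num 432)) d) d) d) d) v) (.mul (.num
  25000000) (.mul (.mul (.mul (.add (.mul (.add (.mul (.num 5) (.mul (.add (.mul (.add (.mul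
  (.num 100) d) (.num 1250)) d) (.num 1882)) d)) (.num (-6686))) d) (.num (-10458))) d) d) d)))
  v) (.mul (.num 25000000000000) (.mul (.mul (.add (.mul (.add (.mul (.num 5) (.mul (.add (.mul
  (.num 5) (.mul (.add (.mul (.num 300) d) (.num 4226)) d)) (.num 35094)) d)) (.num (-66562)))
  d) (.num (-122922))) d) d))) v) (.mul (.num 125000000000000000000) (.mul (.add (.mul (.add
  (.mul (.num 5) (.mul (.add (.mul (.num 5) (.mul (.add (.mul (.num 200) d) (.num 5192)) d))
  (.num 49128)) d)) (.num (-79864))) d) (.num (-137664))) d))) v) (.mul (.num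
  625000000000000000000000000) (.add (.mul (.add (.mul (.num 5) (.mul (.add (.mul (.num 5) (.mul
  (.num 2216) d)) (.num 25944)) d)) (.num (-24232))) d) (.num (-67032))))) v) (.mul (.num
  78125000000000000000000000000000000) (.add (.mul (.num 400) d) (.num 720))))

/-- `eMG1000_3`, scaled by `78125000000000000000000000000000000`. -/
def eMG1000_3 (v d : Ex) : Ex := (.add (.mul (.add (.mul (.add (.mul (.add (.mul (.add (.mul
  (.mul (.mul (.mul (.mul (.add (.mul (.add (.mul (.num 5) (.mul (.num 84) d)) (.num (-504))) d)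
  (.num (-156))) d) d) d) d) v) (.mul (.num 25000000) (.mul (.mul (.mul (.add (.mul (.add (.mul
  (.num 5) (.mul (.add (.mul (.num 40) d) (.num 98)) d)) (.num (-1648))) d) (.num (-2614))) d)
  d) d))) v) (.mul (.num 25000000000000) (.mul (.mul (.add (.mul (.add (.mul (.num 5) (.mul
  (.add (.mul (.num 5) (.mul (.num 80) d)) (.num 1826)) d)) (.num (-25636))) d) (.num (-39014)))
  d) d))) v) (.mul (.num 125000000000000000000) (.mul (.add (.mul (.add (.mul (.num 5) (.mul
  (.add (.mul (.num 5) (.mul (.num 40) d)) (.num 3552)) d)) (.num (-30392))) d) (.num (-49088)))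
  d))) v) (.mul (.num 625000000000000000000000000) (.add (.mul (.add (.mul (.num 5) (.mul (.num
  2216) d)) (.num (-10496))) d) (.num (-23144))))) v) (.num
  6250000000000000000000000000000000000))

/-- `eMG1000_4`, scaled by `78125000000000000000000000000000000`. -/
def eMG1000_4 (v d : Ex) : Ex := (.mul (.add (.mul (.add (.mul (.add (.mul (.add (.mul (.mul
  (.mul (.mul (.mul (.add (.mul (.num (-42)) d) (.num (-76))) d) d) d) d) v) (.mul (.num
  25000000) (.mul (.mul (.mul (.add (.mul (.num (-214)) d) (.num (-350))) d) d) d))) v) (.mul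
  (.num 25000000000000) (.mul (.mul (.add (.mul (.add (.mul (.num 25) (.mul (.num (-8)) d))
  (.num (-3278))) d) (.num (-5974))) d) d))) v) (.mul (.num 125000000000000000000) (.mul (.add
  (.mul (.add (.mul (.num 25) (.mul (.num (-8)) d)) (.num (-3416))) d) (.num (-8048))) d))) v)
  (.mul (.num 625000000000000000000000000) (.add (.mul (.num (-1208)) d) (.num (-3824))))) v)

/-- `eMG1000_5`, scaled by `390625000000000000000000000000000000`. -/
def eMG1000_5 (v d : Ex) : Ex := (.mul (.add (.mul (.add (.mul (.add (.mul (.add (.mul (.mul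
  (.mul (.mul (.mul (.num (-42)) d) d) d) d) v) (.mul (.num 25000000) (.mul (.mul (.mul (.add
  (.mul (.num 5) (.mul (.num (-8)) d)) (.num (-126))) d) d) d))) v) (.mul (.num 25000000000000)
  (.mul (.mul (.add (.mul (.num 25) (.mul (.num (-16)) d)) (.num (-1838))) d) d))) v) (.mul
  (.num 125000000000000000000) (.mul (.add (.mul (.num 25) (.mul (.num (-8)) d)) (.num (-2416)))
  d))) v) (.num (-755000000000000000000000000000))) v)

/-- `eMG1000_6`, scaled by `15625000000000000000000000000`. -/
def eMG1000_6 (v d : Ex) : Ex := (.mul (.mul (.mul (.add (.mul (.mul (.mul (.mul (.num (-4)) d)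
  d) d) v) (.mul (.num 5000000) (.mul (.mul (.num (-4)) d) d))) v) v) v)

/-- `cMG1000`, scaled by `12500000000000000000000000000000000000000000000000000`. -/
def cMG1000 (r v d : Ex) : Ex := (.add (.mul (.add (.mul (.add (.mul (.add (.mul (.add (.mul
  (.add (.mul (.num 12500) (.mul (eMG1000_6 v d) r)) (eMG1000_5 v d)) r) (.mul (.num 10000)
  (eMG1000_4 v d))) r) (.mul (.num 20000000) (eMG1000_3 v d))) r) (.mul (.num 40000000000)
  (eMG1000_2 v d))) r) (.mul (.num 80000000000000) (eMG1000_1 v d))) r) (.mul (.num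
  32000000000000000) (eMG1000_0 v d)))

/-- `eMG1100_0`, scaled by `125000000000000000000`. -/
def eMG1100_0 (v d : Ex) : Ex := (.mul (.mul (.add (.mul (.mul (.mul (.mul (.add (.mul (.mul
  (.num 1600) d) d) (.num (-576))) d) d) d) v) (.mul (.num 5000000) (.mul (.mul (.add (.mul
  (.mul (.num 1600) d) d) (.num (-576))) d) d))) v) v)

/-- `eMG1100_1`, scaled by `125000000000000000000`. -/
def eMG1100_1 (v d : Ex) : Ex := (.mul (.mul (.add (.mul (.mul (.mul (.mul (.add (.mul (.mul
  (.num (-600)) d) d) (.num (-168))) d) d) d) v) (.mul (.num 5000000) (.mul (.mul (.add (.mul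
  (.mul (.num (-600)) d) d) (.num (-168))) d) d))) v) v)

/-- `eMG1100_2`, scaled by `125000000000000000000`. -/
def eMG1100_2 (v d : Ex) : Ex := (.mul (.mul (.add (.mul (.mul (.mul (.mul (.add (.mul (.mul
  (.num (-100)) d) d) (.num 116)) d) d) d) v) (.mul (.num 5000000) (.mul (.mul (.add (.mul (.mul
  (.num (-100)) d) d) (.num 116)) d) d))) v) v)

/-- `eMG1100_3`, scaled by `125000000000000000000`. -/
def eMG1100_3 (v d : Ex) : Ex := (.mul (.mul (.add (.mul (.mul (.mul (.mul (.num 48) d) d) d) v)
  (.mul (.num 5000000) (.mul (.mul (.num 48) d) d))) v) v)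

/-- `eMG1100_4`, scaled by `125000000000000000000`. -/
def eMG1100_4 (v d : Ex) : Ex := (.mul (.mul (.add (.mul (.mul (.mul (.mul (.num 4) d) d) d) v)
  (.mul (.num 5000000) (.mul (.mul (.num 4) d) d))) v) v)

/-- `cMG1100`, scaled by `2000000000000000000000000000000000`. -/
def cMG1100 (r v d : Ex) : Ex := (.add (.mul (.add (.mul (.add (.mul (.add (.mul (eMG1100_4 v d)
  r) (.mul (.num 2000) (eMG1100_3 v d))) r) (.mul (.num 4000000) (eMG1100_2 v d))) r) (.mul
  (.num 8000000000) (eMG1100_1 v d))) r) (.mul (.num 16000000000000) (eMG1100_0 v d)))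

/-- `eMG2000_0`, scaled by `2500000000000000000000000000`. -/
def eMG2000_0 (v d : Ex) : Ex := (.add (.mul (.add (.mul (.add (.mul (.add (.mul (.mul (.mul
  (.mul (.mul (.add (.mul (.add (.mul (.mul (.add (.mul (.num 625) d) (.num 750)) d) d) (.num
  (-270))) d) (.num (-81))) d) d) d) d) v) (.mul (.num 20000000) (.mul (.mul (.mul (.add (.mul
  (.add (.mul (.add (.mul (.add (.mul (.num (-625)) d) (.num (-750))) d) (.num (-200))) d) (.num
  30)) d) (.num 9)) d) d) d))) v) (.mul (.num 100000000000000) (.mul (.mul (.add (.mul (.add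
  (.mul (.num (-200)) d) (.num (-240))) d) (.num (-72))) d) d))) v) (.mul (.num
  500000000000000000000) (.mul (.add (.mul (.add (.mul (.mul (.add (.mul (.num 1250) d) (.num
  1500)) d) d) (.num (-540))) d) (.num (-162))) d))) v) (.mul (.num
  2500000000000000000000000000) (.add (.mul (.add (.mul (.mul (.add (.mul (.num 625) d) (.num
  750)) d) d) (.num (-270))) d) (.num (-81)))))

/-- `eMG2000_1`, scaled by `1250000000000000000000000000`. -/
def eMG2000_1 (v d : Ex) : Ex := (.add (.mul (.add (.mul (.add (.mul (.add (.mul (.mul (.mul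
  (.mul (.mul (.add (.mul (.add (.mul (.mul (.num 125) d) d) (.num (-135))) d) (.num (-54))) d)
  d) d) d) v) (.mul (.num 10000000) (.mul (.mul (.mul (.add (.mul (.add (.mul (.add (.mul (.num
  (-250)) d) (.num (-50))) d) (.num 130)) d) (.num 42)) d) d) d))) v) (.mul (.num
  50000000000000) (.mul (.mul (.add (.mul (.add (.mul (.num (-50)) d) (.num (-140))) d) (.num
  (-66))) d) d))) v) (.mul (.num 250000000000000000000) (.mul (.add (.mul (.add (.mul (.mul
  (.num 500) d) d) (.num (-540))) d) (.num (-216))) d))) v) (.mul (.num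
  1250000000000000000000000000) (.add (.mul (.add (.mul (.mul (.num 250) d) d) (.num (-270))) d)
  (.num (-108)))))

/-- `eMG2000_2`, scaled by `1250000000000000000000000000`. -/
def eMG2000_2 (v d : Ex) : Ex := (.add (.mul (.add (.mul (.add (.mul (.add (.mul (.mul (.mul
  (.mul (.mul (.add (.mul (.num (-45)) d) (.num (-27))) d) d) d) d) v) (.mul (.num 1250000)
  (.mul (.mul (.mul (.add (.mul (.add (.mul (.num (-25)) d) (.num 530)) d) (.num 263)) d) d)
  d))) v) (.mul (.num 6250000000000) (.mul (.mul (.add (.mul (.add (.mul (.num (-25)) d) (.num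
  (-190))) d) (.num (-169))) d) d))) v) (.mul (.num 250000000000000000000) (.mul (.add (.mul
  (.num (-180)) d) (.num (-108))) d))) v) (.mul (.num 1250000000000000000000000000) (.add (.mul
  (.num (-90)) d) (.num (-54)))))

/-- `eMG2000_3`, scaled by `1250000000000000000000000000`. -/
def eMG2000_3 (v d : Ex) : Ex := (.add (.mul (.add (.mul (.add (.mul (.add (.mul (.mul (.mul
  (.mul (.mul (.add (.mul (.num (-5)) d) (.num (-6))) d) d) d) d) v) (.mul (.num 2500000) (.mul
  (.mul (.mul (.add (.mul (.num 35) d) (.num 37)) d) d) d))) v) (.mul (.num 12500000000000)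
  (.mul (.mul (.add (.mul (.num (-5)) d) (.num (-11))) d) d))) v) (.mul (.num
  250000000000000000000) (.mul (.add (.mul (.num (-20)) d) (.num (-24))) d))) v) (.mul (.num
  1250000000000000000000000000) (.add (.mul (.num (-10)) d) (.num (-12)))))

/-- `eMG2000_4`, scaled by `2500000000000000000000000000`. -/
def eMG2000_4 (v d : Ex) : Ex := (.add (.mul (.add (.mul (.add (.mul (.add (.mul (.mul (.mul
  (.mul (.mul (.num (-1)) d) d) d) d) v) (.mul (.num 2500000) (.mul (.mul (.mul (.num 7) d) d)
  d))) v) (.mul (.num 12500000000000) (.mul (.mul (.num (-1)) d) d))) v) (.mul (.num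
  500000000000000000000) (.mul (.num (-2)) d))) v) (.num (-2500000000000000000000000000)))

/-- `cMG2000`, scaled by `40000000000000000000000000000000000000000`. -/
def cMG2000 (r v d : Ex) : Ex := (.add (.mul (.add (.mul (.add (.mul (.add (.mul (eMG2000_4 v d)
  r) (.mul (.num 4000) (eMG2000_3 v d))) r) (.mul (.num 8000000) (eMG2000_2 v d))) r) (.mul
  (.num 16000000000) (eMG2000_1 v d))) r) (.mul (.num 16000000000000) (eMG2000_0 v d)))

/-- `qTA`, scaled by `156250000000000000000000000000000000000000000000000000000000000000000`. -/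
def qTA (r v d X Y Z Q : Ex) : Ex := (.add (.add (.add (.add (.add (.add (.add (cTA0000 r v d)
  (.mul (.num 156250000000000000000000) (.mul (cTA0001 r v d) Q))) (.mul (.num
  78125000000000000000000000) (.mul (cTA0010 r v d) Z))) (.mul (.num 1562500000000000) (.mul
  (cTA0100 r v d) Y))) (.mul (.num 781250000000000000000) (.mul (.mul (cTA0200 r v d) Y) Y)))
  (.mul (.num 12500000) (.mul (cTA1000 r v d) X))) (.mul (.num 781250000000000000000) (.mul
  (.mul (cTA1100 r v d) X) Y))) (.mul (.num 39062500000000) (.mul (.mul (cTA2000 r v d) X) X)))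

/-- `qGG`, scaled by `6250000000000000000000000000000000000000000000000000000000000`. -/
def qGG (r v d X : Ex) : Ex := (.add (.add (cGG0000 r v d) (.mul (.num 62500000) (.mul (cGG1000
  r v d) X))) (.mul (.num 7812500000000) (.mul (.mul (cGG2000 r v d) X) X)))

/-- `qEG`, scaled by `6250000000000000000000000000000000000000000000000000000`. -/
def qEG (r v d X Y : Ex) : Ex := (.add (.add (.add (.add (cEG0000 r v d) (.mul (.num 5000000000)
  (.mul (cEG0100 r v d) Y))) (.mul (.num 500000) (.mul (cEG1000 r v d) X))) (.mul (.num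
  312500000000000000000000) (.mul (.mul (cEG1100 r v d) X) Y))) (.mul (.num 3125000000000) (.mul
  (.mul (cEG2000 r v d) X) X)))

/-- `qME`, scaled by `500000000000000000000000000000000000000000`. -/
def qME (r v d X Y Z Q : Ex) : Ex := (.add (.add (.mul (.num 10000000000) (.add (.add (.mul
  (cME0001 r v d) Q) (.mul (.num 125) (.mul (cME0010 r v d) Z))) (.mul (.num 5000000) (.mul
  (cME0100 r v d) Y)))) (.mul (cME1000 r v d) X)) (.mul (.num 250000000000000) (.mul (.mul
  (cME1100 r v d) X) Y)))

/-- `qMG`, scaled by `15625000000000000000000000000000000000000000000000000000000000000`. -/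
def qMG (r v d X Y Z Q : Ex) : Ex := (.add (.add (.add (.add (.add (.add (.add (cMG0000 r v d)
  (.mul (.num 15625000000000000000) (.mul (cMG0001 r v d) Q))) (.mul (.num
  7812500000000000000000) (.mul (cMG0010 r v d) Z))) (.mul (.num 1562500000000000) (.mul
  (cMG0100 r v d) Y))) (.mul (.num 781250000000000000000) (.mul (.mul (cMG0200 r v d) Y) Y)))
  (.mul (.num 12500000) (.mul (cMG1000 r v d) X))) (.mul (.num 781250000000000000000) (.mul
  (.mul (cMG1100 r v d) X) Y))) (.mul (.num 39062500000000) (.mul (.mul (cMG2000 r v d) X) X)))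

end Vale.Agent.P100.Calib.NegCert
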