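import Mathlib
import Vale.Agent.P100.Pack.Expr

/-!
# Templates of the bounds on the chart values
-/

set_option linter.unusedVariables false

namespace Vale.Agent.P100.Calib.NegCert

open Pack

/-- `tT0`, scaled by `10000000`. -/
def tT0 (d u : Ex) : Ex := (.add (.mul (.num 100000) (.add (.sub (.num 131) (.mul (.num 20)
  (.mul (.num 26) d))) (.mul (.num 20) (.mul (.num 43) (.mul d d))))) (.mul (.add (.sub (.num
  93) (.mul (.num 50) (.mul (.num 9) d))) (.mul (.num 100) (.mul (.num 7) (.mul d d)))) u))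

/-- `tT1raw`, scaled by `100`. -/
def tT1raw (d : Ex) : Ex := (.add (.sub (.num 143) (.mul (.num 100) (.mul (.num 5) d))) (.mul
  (.num 25) (.mul (.num 25) (.mul d d))))

/-- `tT1`, scaled by `10000000`. -/
def tT1 (d : Ex) : Ex := (.mul (.num 100000) (tT1raw d))

/-- `tH0`, scaled by `1000000000000000`. -/
def tH0 (S v a : Ex) : Ex := (.mul S (.add (.num 100000000000) (.mul (.sub (.num 20000) a) v)))

/-- `tBC`, scaled by `200000000`. -/
def tBC (b S : Ex) : Ex := (.mul b (.sub (.num 20000) S))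

/-- `tHn`, scaled by `200000000000000000000`. -/
def tHn (S u v a b t : Ex) : Ex := (.add (.mul (.num 200000) (tH0 S v a)) (.mul (.mul (tBC b S)
  u) t))

/-- `tBCH`, scaled by `200000000000000000000`. -/
def tBCH (b S : Ex) : Ex := (.mul (.num 1000000000000) (tBC b S))

/-- `tN4`, scaled by `5000000000000000`. -/
def tN4 (d S u v b : Ex) : Ex := (.mul (.num 4) (.sub (.mul (.num 50000) (.mul (.add (.num
  10000000) (.mul d v)) b)) (.mul (.mul S u) (.add (.num 5000000) (.mul d v)))))

/-- `tDn`, scaled by `100000000000`. -/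
def tDn (d u v b hn hd : Ex) : Ex := (.mul b (.sub (.mul (.add (.num 10000000) (.mul d v)) hd)
  (.mul (.num 50) (.mul (.mul d u) hn))))

/-- `bXl`, scaled by `100000000000000000000`. -/
def bXl (d S u v b f hn hd : Ex) : Ex := (.sub (.mul (.num 20000) (.mul (tN4 d S u v b) hn))
  (.mul (.mul f S) (tDn d u v b hn hd)))

/-- `bXu`, scaled by `100000000000000000000`. -/
def bXu (d S u v b f hn hd : Ex) : Ex := (.sub (.mul (.mul f S) (tDn d u v b hn hd)) (.mul (.num
  20000) (.mul (tN4 d S u v b) hn)))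

/-- `bYl`, scaled by `500000000000000000000000`. -/
def bYl (d S u v b f hn hd : Ex) : Ex := (.sub (.mul (tN4 d S u v b) (.add (.mul (.add (.num
  1000000000) (.mul v (.add (.num 1) (.mul (.num 20) d)))) hd) (.mul (.num 50) (.mul (.mul u
  (.sub (.num 1) (.mul (.num 20) (.mul (.num 9) d)))) hn)))) (.mul (.num 5000) (.mul (.mul f
  (.sub (.num 10000) S)) (tDn d u v b hn hd))))

/-- `bYu`, scaled by `500000000000000000000000`. -/
def bYu (d S u v b f hn hd : Ex) : Ex := (.sub (.mul (.num 5000) (.mul (.mul f (.sub (.num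
  10000) S)) (tDn d u v b hn hd))) (.mul (tN4 d S u v b) (.add (.mul (.add (.num 1000000000)
  (.mul v (.add (.num 1) (.mul (.num 20) d)))) hd) (.mul (.num 50) (.mul (.mul u (.sub (.num 1)
  (.mul (.num 20) (.mul (.num 9) d)))) hn)))))

/-- `bQl`, scaled by `10000000000000000000000`. -/
def bQl (d S u v b f hn hd : Ex) : Ex := (.sub (.mul (tN4 d S u v b) (.mul (.sub (.num 1) (.mul
  (.num 20) (.mul (.num 9) d))) (.sub (.mul (.num 100000) hd) (.mul (.mul d u) hn)))) (.mul
  (.num 100) (.mul (.mul f (.sub (.num 10000) S)) (tDn d u v b hn hd))))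

/-- `bQu`, scaled by `10000000000000000000000`. -/
def bQu (d S u v b f hn hd : Ex) : Ex := (.sub (.mul (.num 100) (.mul (.mul f (.sub (.num 10000)
  S)) (tDn d u v b hn hd))) (.mul (tN4 d S u v b) (.mul (.sub (.num 1) (.mul (.num 20) (.mul
  (.num 9) d))) (.sub (.mul (.num 100000) hd) (.mul (.mul d u) hn)))))

/-- `bZl`, scaled by `1000000000000000000000000000000000000000000000000000`. -/
def bZl (d S u v a b f t : Ex) : Ex := (.sub (.mul (tN4 d S u v b) (.sub (.mul (.mul (tHn S u v
  a b t) (.sub (.mul (.num 5000000) a) (.mul (.mul (.sub (.num 20000) a) d) v))) S) (.mul (.num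
  500000000000) (.mul (.mul (.mul (.sub (.num 20000) S) t) b) (tBC b S))))) (.mul (.num 250)
  (.mul (.mul (.mul (.mul f S) S) b) (tDn d u v b (tHn S u v a b t) (tBCH b S)))))

/-- `bZu`, scaled by `1000000000000000000000000000000000000000000000000000`. -/
def bZu (d S u v a b f t : Ex) : Ex := (.sub (.mul (.num 250) (.mul (.mul (.mul (.mul f S) S) b)
  (tDn d u v b (tHn S u v a b t) (tBCH b S)))) (.mul (tN4 d S u v b) (.sub (.mul (.mul (tHn S u
  v a b t) (.sub (.mul (.num 5000000) a) (.mul (.mul (.sub (.num 20000) a) d) v))) S) (.mul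
  (.num 500000000000) (.mul (.mul (.mul (.sub (.num 20000) S) t) b) (tBC b S))))))

/-- `tUm`, scaled by `400000`. -/
def tUm (d w : Ex) : Ex := (.add (.mul (.num 400) (.add (.num 2) (.mul (.num 25) (.mul (.num 7)
  d)))) (.mul (.add (.num 25) (.mul (.num 8) d)) w))

/-- `tF`, scaled by `1250000000000000000000000000000000000`. -/
def tF (d v S A G H M X Y : Ex) : Ex := (.sub (.mul (.num 12500000000000000000) (.sub (.mul
  (.mul (.mul (.num 4) A) G) (.mul (.sub (.num 10000) S) (.mul X Y))) (.mul (.num 1000000000000)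
  (.mul (.mul (.num 16) (.mul M M)) G)))) (.mul (.mul (.mul (.mul (.num 625) (.mul (.mul d v)
  (.mul d v))) (.add (.num 5000000) (.mul d v))) (.mul H H)) (.mul (.sub (.num 10000) S) (.mul X
  Y))))

/-- `tCut`, scaled by `3200000000000000000000`. -/
def tCut (d S w U a b t : Ex) : Ex := (.sub (.num 0) (.add (.mul (.num 800000) (.mul (.add (.mul
  (.num 2000) w) (.mul (.num 9) (.sub (.num 0) (.add (.mul (.num 4) U) (.mul t (.sub (tUm d w)
  (.mul (.num 4) U))))))) (.mul b (.sub (.num 20000) S)))) (.mul (.sub (.num 0) (.add (.mul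
  (.num 4) U) (.mul t (.sub (tUm d w) (.mul (.num 4) U))))) (.add (.mul (.num 2) (.mul S (.add
  (.num 400000000000) (.mul (.sub (.num 20000) a) (.add (.mul (.num 2000) w) (.mul (.num 9)
  (.sub (.num 0) (.add (.mul (.num 4) U) (.mul t (.sub (tUm d w) (.mul (.num 4) U)))))))))))
  (.mul (.mul (.mul b (.sub (.num 20000) S)) (.sub (.num 0) (.add (.mul (.num 4) U) (.mul t
  (.sub (tUm d w) (.mul (.num 4) U)))))) (tT1raw d))))))

end Vale.Agent.P100.Calib.NegCert
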