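import Mathlib
import Vale.Agent.P100.Pack.FastFour
import Vale.Agent.P100.Calib.NegCert.Coef
import Vale.Agent.P100.Calib.NegCert.Tpl

/-!
# Piece AH of the region `u ≤ 0`: data and checks
-/

set_option linter.unusedVariables false

namespace Vale.Agent.P100.Calib.NegCert

open Pack

def AHS0 : Ex := (.num 6000)

def AHS1 : Ex := (.num 6056)

def AHS : Ex := (.add AHS0 (.mul (.var 3) (.sub AHS1 AHS0)))

def AHU : Ex := (.add (.mul (.add (.mul (.num (-3675)) (.var 1)) (.num 29370)) (.var 0)) (.add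
  (.mul (.num 13047) (.var 1)) (.num 22014)))

def AHu : Ex := (.sub (.num 0) (.mul (.var 2) AHU))

def AHW0 : Ex := (.sub (.add (.num 9560) (.mul (.num 625) (.var 0))) AHS1)

def AHW : Ex := (.add AHW0 (.mul (.var 1) (.sub (.sub (.num 5600) (.mul (.num 500) (.var 0)))
  AHW0)))

def AHv : Ex := (.add (.mul (.num 500) AHW) (.mul (.num 9) AHu))

def AHa : Ex := (.sub AHS (.mul (.num 10000) (.var 0)))

def AHb : Ex := (.add AHS (.mul (.num 10000) (.var 0)))

def AHZl : Ex := (.add (.mul (.add (.mul (.num 1276672) (.var 0)) (.add (.mul (.num (-313916))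
  (.var 1)) (.add (.mul (.num 2946286) (.var 2)) (.num 930147)))) (.var 0)) (.add (.mul (.add
  (.mul (.num (-6817)) (.var 1)) (.add (.mul (.num (-214869)) (.var 2)) (.num 104405))) (.var
  1)) (.add (.mul (.add (.mul (.num (-78386)) (.var 2)) (.num (-499137))) (.var 2)) (.num
  (-1030972)))))

def AHT0 : Ex := (tT0 (.var 0) AHu)

def AHZu : Ex := (.add (.mul (.add (.mul (.num (-1692899)) (.var 0)) (.add (.mul (.num
  (-1261086)) (.var 1)) (.add (.mul (.num 142262) (.var 2)) (.num 1791614)))) (.var 0)) (.add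
  (.mul (.add (.mul (.num 5557) (.var 1)) (.add (.mul (.num 84434) (.var 2)) (.num 131019)))
  (.var 1)) (.add (.mul (.add (.mul (.num 109442) (.var 2)) (.num (-125055))) (.var 2)) (.num
  (-807943)))))

def AHXl : Ex := (.add (.mul (.add (.mul (.num 2620132) (.var 0)) (.add (.mul (.num (-159151))
  (.var 1)) (.add (.mul (.num 97793) (.var 2)) (.num (-1832420))))) (.var 0)) (.add (.mul (.add
  (.mul (.num (-2349)) (.var 1)) (.add (.mul (.num (-8425)) (.var 2)) (.num 145402))) (.var 1))
  (.add (.mul (.add (.mul (.num (-88912)) (.var 2)) (.num 55540)) (.var 2)) (.num 1172954))))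

def AHHn0 : Ex := (tHn AHS AHu AHv AHa AHb AHT0)

def AHHd : Ex := (tBCH AHb AHS)

def AHYl : Ex := (.add (.mul (.add (.mul (.num 959390) (.var 0)) (.add (.mul (.num (-51099))
  (.var 1)) (.add (.mul (.num 901223) (.var 2)) (.num 403303)))) (.var 0)) (.add (.mul (.add
  (.mul (.num 9413) (.var 1)) (.add (.mul (.num 1262056) (.var 2)) (.num 12867))) (.var 1))
  (.add (.mul (.add (.mul (.num (-15105)) (.var 2)) (.num 2217035)) (.var 2)) (.num 10002611))))

def AHQl : Ex := (.add (.mul (.add (.mul (.num (-969183)) (.var 0)) (.add (.mul (.num (-591680))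
  (.var 1)) (.add (.mul (.num (-2953389)) (.var 2)) (.num (-8620102))))) (.var 0)) (.add (.mul
  (.add (.mul (.num (-968)) (.var 1)) (.add (.mul (.num (-64513)) (.var 2)) (.num 36846))) (.var
  1)) (.add (.mul (.add (.mul (.num (-276)) (.var 2)) (.num 57524)) (.var 2)) (.num 13048))))

def AHXu : Ex := (.add (.mul (.add (.mul (.num 2574402) (.var 0)) (.add (.mul (.num (-286717))
  (.var 1)) (.add (.mul (.num (-181976)) (.var 2)) (.num (-1709586))))) (.var 0)) (.add (.mul
  (.add (.mul (.num 10261) (.var 1)) (.add (.mul (.num 59784) (.var 2)) (.num 132811))) (.var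
  1)) (.add (.mul (.add (.mul (.num (-7642)) (.var 2)) (.num 40776)) (.var 2)) (.num 1188422))))

def AHYu : Ex := (.add (.mul (.add (.mul (.num 933463) (.var 0)) (.add (.mul (.num 19261) (.var
  1)) (.add (.mul (.num 1090263) (.var 2)) (.num 367983)))) (.var 0)) (.add (.mul (.add (.mul
  (.num 7300) (.var 1)) (.add (.mul (.num 1291354) (.var 2)) (.num 11803))) (.var 1)) (.add
  (.mul (.add (.mul (.num (-1276)) (.var 2)) (.num 2229023)) (.var 2)) (.num 10162417))))

def AHQu : Ex := (.add (.mul (.add (.mul (.num (-560564)) (.var 0)) (.add (.mul (.num (-572221))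
  (.var 1)) (.add (.mul (.num (-2888718)) (.var 2)) (.num (-8565947))))) (.var 0)) (.add (.mul
  (.add (.mul (.num (-689)) (.var 1)) (.add (.mul (.num (-62085)) (.var 2)) (.num 35319))) (.var
  1)) (.add (.mul (.add (.mul (.num 1980) (.var 2)) (.num 53901)) (.var 2)) (.num 41181))))

def AHT1 : Ex := (tT1 (.var 0))

def AHHn1 : Ex := (tHn AHS AHu AHv AHa AHb AHT1)

def AHr0 : Ex := (.sub AHS0 (.num 6000))

def AHTA : Ex := (.add (.mul (.add (.mul (.add (.mul (.num 14008664) (.var 0)) (.add (.mul (.num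
  (-3706570)) (.var 1)) (.add (.mul (.num (-951886)) (.var 2)) (.num (-4071991))))) (.var 0))
  (.add (.mul (.add (.mul (.num (-42653)) (.var 1)) (.add (.mul (.num (-318524)) (.var 2)) (.num
  325444))) (.var 1)) (.add (.mul (.add (.mul (.num 9689) (.var 2)) (.num 95042)) (.var 2))
  (.num (-59479))))) (.var 0)) (.add (.mul (.add (.mul (.add (.mul (.num (-4079)) (.var 1))
  (.add (.mul (.num 6890) (.var 2)) (.num 7283))) (.var 1)) (.add (.mul (.add (.mul (.num
  (-8553)) (.var 2)) (.num 51771)) (.var 2)) (.num 95895))) (.var 1)) (.add (.mul (.add (.mul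
  (.add (.mul (.num 804) (.var 2)) (.num (-6296))) (.var 2)) (.num 15345)) (.var 2)) (.num
  195758))))

def AHGG : Ex := (.add (.mul (.add (.mul (.add (.mul (.add (.mul (.num 25911776) (.var 0)) (.add
  (.mul (.num (-15327895)) (.var 1)) (.add (.mul (.num 3625930) (.var 2)) (.num 400640)))) (.var
  0)) (.add (.mul (.add (.mul (.num 1669016) (.var 1)) (.add (.mul (.num 1813175) (.var 2))
  (.num (-1316936)))) (.var 1)) (.add (.mul (.add (.mul (.num (-287724)) (.var 2)) (.num
  (-917931))) (.var 2)) (.num (-1177756))))) (.var 0)) (.add (.mul (.add (.mul (.add (.mul (.num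
  (-811144)) (.var 1)) (.add (.mul (.num 19543) (.var 2)) (.num 1754908))) (.var 1)) (.add (.mul
  (.add (.mul (.num 346941) (.var 2)) (.num (-321055))) (.var 2)) (.num (-734721)))) (.var 1))
  (.add (.mul (.add (.mul (.add (.mul (.num 40610) (.var 2)) (.num (-295157))) (.var 2)) (.num
  145650)) (.var 2)) (.num 237135)))) (.var 0)) (.add (.mul (.add (.mul (.add (.mul (.add (.mul
  (.num 325707) (.var 1)) (.add (.mul (.num (-132630)) (.var 2)) (.num (-799734)))) (.var 1))
  (.add (.mul (.add (.mul (.num (-257846)) (.var 2)) (.num 229196)) (.var 2)) (.num 603354)))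
  (.var 1)) (.add (.mul (.add (.mul (.add (.mul (.num 93060) (.var 2)) (.num 227595)) (.var 2))
  (.num (-255189))) (.var 2)) (.num 142073))) (.var 1)) (.add (.mul (.add (.mul (.add (.mul
  (.add (.mul (.num (-23551)) (.var 2)) (.num (-30504))) (.var 2)) (.num (-66396))) (.var 2))
  (.num 35305)) (.var 2)) (.num 120986))))

def AHr1 : Ex := (.sub AHS1 (.num 6000))

def AHEG : Ex := (.add (.mul (.add (.mul (.add (.mul (.add (.mul (.num (-1261469)) (.var 0))
  (.add (.mul (.num 408691) (.var 1)) (.add (.mul (.num 443659) (.var 2)) (.num 1082662))))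
  (.var 0)) (.add (.mul (.add (.mul (.num (-51897)) (.var 1)) (.add (.mul (.num (-104538)) (.var
  2)) (.num (-113020)))) (.var 1)) (.add (.mul (.add (.mul (.num (-3849)) (.var 2)) (.num
  (-65254))) (.var 2)) (.num (-195527))))) (.var 0)) (.add (.mul (.add (.mul (.add (.mul (.num
  995) (.var 1)) (.add (.mul (.num (-9933)) (.var 2)) (.num 10029))) (.var 1)) (.add (.mul (.add
  (.mul (.num (-1847)) (.var 2)) (.num (-7935))) (.var 2)) (.num (-111547)))) (.var 1)) (.add
  (.mul (.add (.mul (.add (.mul (.num (-306)) (.var 2)) (.num (-6769))) (.var 2)) (.num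
  (-29742))) (.var 2)) (.num 22676)))) (.var 0)) (.add (.mul (.add (.mul (.add (.mul (.add (.mul
  (.num (-33)) (.var 1)) (.add (.mul (.num 385) (.var 2)) (.num 108))) (.var 1)) (.add (.mul
  (.add (.mul (.num 1649) (.var 2)) (.num 6215)) (.var 2)) (.num 2566))) (.var 1)) (.add (.mul
  (.add (.mul (.add (.mul (.num (-255)) (.var 2)) (.num 3577)) (.var 2)) (.num 20576)) (.var 2))
  (.num 44842))) (.var 1)) (.add (.mul (.add (.mul (.add (.mul (.add (.mul (.num 3) (.var 2))
  (.num (-394))) (.var 2)) (.num (-176))) (.var 2)) (.num 4388)) (.var 2)) (.num (-3902)))))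

def AHME : Ex := (.add (.mul (.add (.mul (.add (.mul (.num 327158) (.var 0)) (.add (.mul (.num
  (-52749)) (.var 1)) (.add (.mul (.num (-22488)) (.var 2)) (.num (-27006))))) (.var 0)) (.add
  (.mul (.add (.mul (.num 2985) (.var 1)) (.add (.mul (.num (-14532)) (.var 2)) (.num
  (-31522)))) (.var 1)) (.add (.mul (.add (.mul (.num (-3442)) (.var 2)) (.num (-6136))) (.var
  2)) (.num (-2328))))) (.var 0)) (.add (.mul (.add (.mul (.add (.mul (.num 13) (.var 1)) (.add
  (.mul (.num 3154) (.var 2)) (.num 781))) (.var 1)) (.add (.mul (.add (.mul (.num 1231) (.var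
  2)) (.num 8514)) (.var 2)) (.num 19405))) (.var 1)) (.add (.mul (.add (.mul (.add (.mul (.num
  (-167)) (.var 2)) (.num (-353))) (.var 2)) (.num 2735)) (.var 2)) (.num 7014))))

/-- Scaled by `1000000000000000000000000000000000000000000000000000`. -/
def AHZl0 : Ex := (bZl (.var 0) AHS AHu AHv AHa AHb AHZl AHT0)

/-- Scaled by `1000000000000000000000000000000000000000000000000000`. -/
def AHZu0 : Ex := (bZu (.var 0) AHS AHu AHv AHa AHb AHZu AHT0)

/-- Scaled by `20000000000000000000000000000000000000000`. -/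
def AHXl0 : Ex := (bXl (.var 0) AHS AHu AHv AHb AHXl AHHn0 AHHd)

/-- Scaled by `100000000000000000000000000000000000000000000`. -/
def AHYl0 : Ex := (bYl (.var 0) AHS AHu AHv AHb AHYl AHHn0 AHHd)

/-- Scaled by `2000000000000000000000000000000000000000000`. -/
def AHQl0 : Ex := (bQl (.var 0) AHS AHu AHv AHb AHQl AHHn0 AHHd)

/-- Scaled by `20000000000000000000000000000000000000000`. -/
def AHXu0 : Ex := (bXu (.var 0) AHS AHu AHv AHb AHXu AHHn0 AHHd)

/-- Scaled by `100000000000000000000000000000000000000000000`. -/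
def AHYu0 : Ex := (bYu (.var 0) AHS AHu AHv AHb AHYu AHHn0 AHHd)

/-- Scaled by `2000000000000000000000000000000000000000000`. -/
def AHQu0 : Ex := (bQu (.var 0) AHS AHu AHv AHb AHQu AHHn0 AHHd)

/-- Scaled by `1000000000000000000000000000000000000000000000000000`. -/
def AHZl1 : Ex := (bZl (.var 0) AHS AHu AHv AHa AHb AHZl AHT1)

/-- Scaled by `1000000000000000000000000000000000000000000000000000`. -/
def AHZu1 : Ex := (bZu (.var 0) AHS AHu AHv AHa AHb AHZu AHT1)

/-- Scaled by `20000000000000000000000000000000000000000`. -/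
def AHXl1 : Ex := (bXl (.var 0) AHS AHu AHv AHb AHXl AHHn1 AHHd)

/-- Scaled by `100000000000000000000000000000000000000000000`. -/
def AHYl1 : Ex := (bYl (.var 0) AHS AHu AHv AHb AHYl AHHn1 AHHd)

/-- Scaled by `2000000000000000000000000000000000000000000`. -/
def AHQl1 : Ex := (bQl (.var 0) AHS AHu AHv AHb AHQl AHHn1 AHHd)

/-- Scaled by `20000000000000000000000000000000000000000`. -/
def AHXu1 : Ex := (bXu (.var 0) AHS AHu AHv AHb AHXu AHHn1 AHHd)

/-- Scaled by `100000000000000000000000000000000000000000000`. -/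
def AHYu1 : Ex := (bYu (.var 0) AHS AHu AHv AHb AHYu AHHn1 AHHd)

/-- Scaled by `2000000000000000000000000000000000000000000`. -/
def AHQu1 : Ex := (bQu (.var 0) AHS AHu AHv AHb AHQu AHHn1 AHHd)

/-- Scaled by `156250000000000000000000000000000000000000000000000000000000000000000`. -/
def AHTA0l : Ex := (.sub (qTA AHr0 AHv (.var 0) AHXu AHYl AHZu AHQu) (.mul (.num
  156250000000000000000000000000000000000000000000000000000000000000000) AHTA))

/-- Scaled by `6250000000000000000000000000000000000000000000000000000000000`. -/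
def AHGG0l : Ex := (.sub (qGG AHr0 AHv (.var 0) AHXl) (.mul (.num
  6250000000000000000000000000000000000000000000000000000000) AHGG))

/-- Scaled by `156250000000000000000000000000000000000000000000000000000000000000000`. -/
def AHTA0u : Ex := (.sub (qTA AHr0 AHv (.var 0) AHXu AHYu AHZu AHQu) (.mul (.num
  156250000000000000000000000000000000000000000000000000000000000000000) AHTA))

/-- Scaled by `6250000000000000000000000000000000000000000000000000000000000`. -/
def AHGG0u : Ex := (.sub (qGG AHr0 AHv (.var 0) AHXu) (.mul (.num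
  6250000000000000000000000000000000000000000000000000000000) AHGG))

/-- Scaled by `156250000000000000000000000000000000000000000000000000000000000000000`. -/
def AHTA1l : Ex := (.sub (qTA AHr1 AHv (.var 0) AHXu AHYl AHZu AHQu) (.mul (.num
  156250000000000000000000000000000000000000000000000000000000000000000) AHTA))

/-- Scaled by `6250000000000000000000000000000000000000000000000000000000000`. -/
def AHGG1l : Ex := (.sub (qGG AHr1 AHv (.var 0) AHXl) (.mul (.num
  6250000000000000000000000000000000000000000000000000000000) AHGG))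

/-- Scaled by `156250000000000000000000000000000000000000000000000000000000000000000`. -/
def AHTA1u : Ex := (.sub (qTA AHr1 AHv (.var 0) AHXu AHYu AHZu AHQu) (.mul (.num
  156250000000000000000000000000000000000000000000000000000000000000000) AHTA))

/-- Scaled by `6250000000000000000000000000000000000000000000000000000000000`. -/
def AHGG1u : Ex := (.sub (qGG AHr1 AHv (.var 0) AHXu) (.mul (.num
  6250000000000000000000000000000000000000000000000000000000) AHGG))

/-- Scaled by `6250000000000000000000000000000000000000000000000000000`. -/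
def AHEGul : Ex := (.sub (.mul (.num 625000000000000000000000000000000000000000000000000000)
  AHEG) (qEG AHr1 AHv (.var 0) AHXu AHYl))

/-- Scaled by `6250000000000000000000000000000000000000000000000000000`. -/
def AHEGll : Ex := (.add (.mul (.num 625000000000000000000000000000000000000000000000000000)
  AHEG) (qEG AHr0 AHv (.var 0) AHXl AHYl))

/-- Scaled by `6250000000000000000000000000000000000000000000000000000`. -/
def AHEGuu : Ex := (.sub (.mul (.num 625000000000000000000000000000000000000000000000000000)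
  AHEG) (qEG AHr1 AHv (.var 0) AHXu AHYu))

/-- Scaled by `6250000000000000000000000000000000000000000000000000000`. -/
def AHEGlu : Ex := (.add (.mul (.num 625000000000000000000000000000000000000000000000000000)
  AHEG) (qEG AHr0 AHv (.var 0) AHXl AHYu))

/-- Scaled by `500000000000000000000000000000000000000000`. -/
def AHMEnl : Ex := (.add (.mul (.num 50000000000000000000000000000000000000000) AHME) (qME AHr1
  AHv (.var 0) AHXu AHYl AHZl AHQl))

/-- Scaled by `500000000000000000000000000000000000000000`. -/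
def AHMEpl : Ex := (.sub (.mul (.num 50000000000000000000000000000000000000000) AHME) (qME AHr0
  AHv (.var 0) AHXl AHYl AHZu AHQu))

/-- Scaled by `500000000000000000000000000000000000000000`. -/
def AHMEnu : Ex := (.add (.mul (.num 50000000000000000000000000000000000000000) AHME) (qME AHr1
  AHv (.var 0) AHXu AHYu AHZl AHQl))

/-- Scaled by `500000000000000000000000000000000000000000`. -/
def AHMEpu : Ex := (.sub (.mul (.num 50000000000000000000000000000000000000000) AHME) (qME AHr0
  AHv (.var 0) AHXl AHYu AHZu AHQu))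

/-- Scaled by `100000`. -/
def AHrgXl : Ex := (.sub AHXl (.num 900000))

/-- Scaled by `100000`. -/
def AHrgXu : Ex := (.sub (.num 1430000) AHXu)

/-- Scaled by `100000`. -/
def AHrgYl : Ex := (.sub AHYl (.num 9900000))

/-- Scaled by `100000`. -/
def AHrgYu : Ex := (.sub (.num 14000000) AHYu)

/-- Scaled by `100000`. -/
def AHrgZl : Ex := (.sub AHZl (.num (-1750000)))

/-- Scaled by `100000`. -/
def AHrgZu : Ex := (.sub (.num (-500000)) AHZu)

/-- Scaled by `100000`. -/
def AHrgQl : Ex := (.sub AHQl (.num (-2500000)))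

/-- Scaled by `100000`. -/
def AHrgQu : Ex := (.sub (.num 100000) AHQu)

/-- Scaled by `1`. -/
def AHgpos : Ex := (.sub AHGG (.num 1))

/-- Scaled by `1`. -/
def AHUpos : Ex := (.sub AHU (.num 1))

/-- Scaled by `1250000000000000000000000000000000000`. -/
def AHF : Ex := (.sub (tF (.var 0) AHv AHS1 AHTA AHGG AHEG AHME AHXl AHYl) (.num 1))

/-- Scaled by `3200000000000000000000`. -/
def AHcut : Ex := (.sub (tCut (.var 0) AHS AHW AHU AHa AHb (.var 2)) (.num 1))

def AHC0 : ℕ → Chart
  | 0 => ⟨0, 16, 1, 133⟩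
  | 1 => ⟨3, 501, 10, 500⟩
  | 2 => ⟨0, 501, 1, 500⟩
  | _ => ⟨0, 501, 1, 500⟩

def AHC1 : ℕ → Chart
  | 0 => ⟨0, 16, 1, 133⟩
  | 1 => ⟨3, 501, 10, 500⟩
  | 2 => ⟨0, 1, 1, 2⟩
  | _ => ⟨0, 501, 1, 500⟩

def AHC2 : ℕ → Chart
  | 0 => ⟨0, 16, 1, 133⟩
  | 1 => ⟨3, 501, 10, 500⟩
  | 2 => ⟨1, 501, 2, 500⟩
  | _ => ⟨0, 501, 1, 500⟩

def AHC3 : ℕ → Chart
  | 0 => ⟨0, 16, 1, 133⟩
  | 1 => ⟨3, 19, 10, 40⟩
  | 2 => ⟨0, 501, 1, 500⟩
  | _ => ⟨0, 501, 1, 500⟩

def AHC4 : ℕ → Chart
  | 0 => ⟨0, 16, 1, 133⟩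
  | 1 => ⟨19, 28, 40, 43⟩
  | 2 => ⟨0, 501, 1, 500⟩
  | _ => ⟨0, 501, 1, 500⟩

def AHC5 : ℕ → Chart
  | 0 => ⟨0, 16, 1, 133⟩
  | 1 => ⟨28, 19, 43, 23⟩
  | 2 => ⟨0, 501, 1, 500⟩
  | _ => ⟨0, 501, 1, 500⟩

def AHC6 : ℕ → Chart
  | 0 => ⟨0, 16, 1, 133⟩
  | 1 => ⟨19, 501, 23, 500⟩
  | 2 => ⟨0, 501, 1, 500⟩
  | _ => ⟨0, 501, 1, 500⟩

def AHC7 : ℕ → Chart
  | 0 => ⟨0, 3, 1, 50⟩
  | 1 => ⟨3, 28, 10, 43⟩
  | 2 => ⟨0, 501, 1, 500⟩
  | _ => ⟨0, 501, 1, 500⟩

def AHC8 : ℕ → Chart
  | 0 => ⟨0, 3, 1, 50⟩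
  | 1 => ⟨28, 501, 43, 500⟩
  | 2 => ⟨0, 501, 1, 500⟩
  | _ => ⟨0, 501, 1, 500⟩

def AHC9 : ℕ → Chart
  | 0 => ⟨3, 16, 50, 133⟩
  | 1 => ⟨3, 28, 10, 43⟩
  | 2 => ⟨0, 501, 1, 500⟩
  | _ => ⟨0, 501, 1, 500⟩

def AHC10 : ℕ → Chart
  | 0 => ⟨3, 16, 50, 133⟩
  | 1 => ⟨28, 501, 43, 500⟩
  | 2 => ⟨0, 501, 1, 500⟩
  | _ => ⟨0, 501, 1, 500⟩

theorem AHZl0_ok0 :
    checkFour AHC0 403 11 5 5 6 AHZl0 = true := by decide +kernel

theorem AHZu0_ok0 :
    checkFour AHC1 366 11 5 5 6 AHZu0 = true := by decide +kernel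

theorem AHZu0_ok1 :
    checkFour AHC2 403 11 5 5 6 AHZu0 = true := by decide +kernel

theorem AHXl0_ok0 :
    checkFour AHC0 341 10 5 5 4 AHXl0 = true := by decide +kernel

theorem AHYl0_ok0 :
    checkFour AHC0 356 10 5 5 4 AHYl0 = true := by decide +kernel

theorem AHQl0_ok0 :
    checkFour AHC0 354 11 5 5 4 AHQl0 = true := by decide +kernel

theorem AHXu0_ok0 :
    checkFour AHC0 341 10 5 5 4 AHXu0 = true := by decide +kernel

theorem AHYu0_ok0 :
    checkFour AHC0 356 10 5 5 4 AHYu0 = true := by decide +kernel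

theorem AHQu0_ok0 :
    checkFour AHC0 354 11 5 5 4 AHQu0 = true := by decide +kernel

theorem AHZl1_ok0 :
    checkFour AHC0 378 10 4 4 6 AHZl1 = true := by decide +kernel

theorem AHZu1_ok0 :
    checkFour AHC0 378 10 4 4 6 AHZu1 = true := by decide +kernel

theorem AHXl1_ok0 :
    checkFour AHC1 286 9 4 4 4 AHXl1 = true := by decide +kernel

theorem AHXl1_ok1 :
    checkFour AHC2 316 9 4 4 4 AHXl1 = true := by decide +kernel

theorem AHYl1_ok0 :
    checkFour AHC0 331 9 4 4 4 AHYl1 = true := by decide +kernel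

theorem AHQl1_ok0 :
    checkFour AHC0 329 10 4 4 4 AHQl1 = true := by decide +kernel

theorem AHXu1_ok0 :
    checkFour AHC0 316 9 4 4 4 AHXu1 = true := by decide +kernel

theorem AHYu1_ok0 :
    checkFour AHC0 331 9 4 4 4 AHYu1 = true := by decide +kernel

theorem AHQu1_ok0 :
    checkFour AHC0 329 10 4 4 4 AHQu1 = true := by decide +kernel

theorem AHTA0l_ok0 :
    checkFour AHC0 517 16 8 8 0 AHTA0l = true := by decide +kernel

theorem AHGG0l_ok0 :
    checkFour AHC0 453 14 7 7 0 AHGG0l = true := by decide +kernel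

theorem AHTA0u_ok0 :
    checkFour AHC0 517 16 8 8 0 AHTA0u = true := by decide +kernel

theorem AHGG0u_ok0 :
    checkFour AHC0 453 14 7 7 0 AHGG0u = true := by decide +kernel

theorem AHTA1l_ok0 :
    checkFour AHC0 517 16 8 8 0 AHTA1l = true := by decide +kernel

theorem AHGG1l_ok0 :
    checkFour AHC0 453 14 7 7 0 AHGG1l = true := by decide +kernel

theorem AHTA1u_ok0 :
    checkFour AHC0 517 16 8 8 0 AHTA1u = true := by decide +kernel

theorem AHGG1u_ok0 :
    checkFour AHC3 428 14 7 7 0 AHGG1u = true := by decide +kernel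

theorem AHGG1u_ok1 :
    checkFour AHC4 434 14 7 7 0 AHGG1u = true := by decide +kernel

theorem AHGG1u_ok2 :
    checkFour AHC5 432 14 7 7 0 AHGG1u = true := by decide +kernel

theorem AHGG1u_ok3 :
    checkFour AHC6 453 14 7 7 0 AHGG1u = true := by decide +kernel

theorem AHEGul_ok0 :
    checkFour AHC0 400 12 6 6 0 AHEGul = true := by decide +kernel

theorem AHEGll_ok0 :
    checkFour AHC0 400 12 6 6 0 AHEGll = true := by decide +kernel

theorem AHEGuu_ok0 :
    checkFour AHC0 400 12 6 6 0 AHEGuu = true := by decide +kernel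

theorem AHEGlu_ok0 :
    checkFour AHC0 400 12 6 6 0 AHEGlu = true := by decide +kernel

theorem AHMEnl_ok0 :
    checkFour AHC0 321 10 5 5 0 AHMEnl = true := by decide +kernel

theorem AHMEpl_ok0 :
    checkFour AHC0 321 10 5 5 0 AHMEpl = true := by decide +kernel

theorem AHMEnu_ok0 :
    checkFour AHC1 284 10 5 5 0 AHMEnu = true := by decide +kernel

theorem AHMEnu_ok1 :
    checkFour AHC2 321 10 5 5 0 AHMEnu = true := by decide +kernel

theorem AHMEpu_ok0 :
    checkFour AHC0 321 10 5 5 0 AHMEpu = true := by decide +kernel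

theorem AHrgXl_ok0 :
    checkFour AHC0 73 2 2 2 0 AHrgXl = true := by decide +kernel

theorem AHrgXu_ok0 :
    checkFour AHC0 73 2 2 2 0 AHrgXu = true := by decide +kernel

theorem AHrgYl_ok0 :
    checkFour AHC0 76 2 2 2 0 AHrgYl = true := by decide +kernel

theorem AHrgYu_ok0 :
    checkFour AHC0 76 2 2 2 0 AHrgYu = true := by decide +kernel

theorem AHrgZl_ok0 :
    checkFour AHC0 74 2 2 2 0 AHrgZl = true := by decide +kernel

theorem AHrgZu_ok0 :
    checkFour AHC0 73 2 2 2 0 AHrgZu = true := by decide +kernel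

theorem AHrgQl_ok0 :
    checkFour AHC0 74 2 2 2 0 AHrgQl = true := by decide +kernel

theorem AHrgQu_ok0 :
    checkFour AHC0 72 2 2 2 0 AHrgQu = true := by decide +kernel

theorem AHgpos_ok0 :
    checkFour AHC0 124 4 4 4 0 AHgpos = true := by decide +kernel

theorem AHUpos_ok0 :
    checkFour AHC0 33 1 1 0 0 AHUpos = true := by decide +kernel

theorem AHF_ok0 :
    checkFour AHC0 565 18 15 15 0 AHF = true := by decide +kernel

theorem AHcut_ok0 :
    checkFour AHC7 166 7 2 2 2 AHcut = true := by decide +kernel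

theorem AHcut_ok1 :
    checkFour AHC8 174 7 2 2 2 AHcut = true := by decide +kernel

theorem AHcut_ok2 :
    checkFour AHC9 179 7 2 2 2 AHcut = true := by decide +kernel

theorem AHcut_ok3 :
    checkFour AHC10 187 7 2 2 2 AHcut = true := by decide +kernel

end Vale.Agent.P100.Calib.NegCert
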