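import Mathlib

/-!
# Extremes at the ends of the interval, and signs from bounds

Polynomials of degree at most seven on `[0, 3/100]`, quadratics, and the block sign from the bounds
on its entries.
-/

namespace Vale.Agent.P100.Calib.NegCert

open Set

/-- A polynomial of degree seven. -/
def p7 (c₀ c₁ c₂ c₃ c₄ c₅ c₆ c₇ r : ℝ) : ℝ :=
  c₀ + c₁ * r + c₂ * r ^ 2 + c₃ * r ^ 3 + c₄ * r ^ 4 + c₅ * r ^ 5 + c₆ * r ^ 6 + c₇ * r ^ 7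

/-- Its derivative. -/
def p7d (c₁ c₂ c₃ c₄ c₅ c₆ c₇ r : ℝ) : ℝ :=
  c₁ + 2 * c₂ * r + 3 * c₃ * r ^ 2 + 4 * c₄ * r ^ 3 + 5 * c₅ * r ^ 4 + 6 * c₆ * r ^ 5 +
    7 * c₇ * r ^ 6

/-- Its second derivative. -/
def p7dd (c₂ c₃ c₄ c₅ c₆ c₇ r : ℝ) : ℝ :=
  2 * c₂ + 6 * c₃ * r + 12 * c₄ * r ^ 2 + 20 * c₅ * r ^ 3 + 30 * c₆ * r ^ 4 + 42 * c₇ * r ^ 5

variable {c₀ c₁ c₂ c₃ c₄ c₅ c₆ c₇ r r₀ r₁ : ℝ}

theorem hasDerivAt_p7 (x : ℝ) :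
    HasDerivAt (p7 c₀ c₁ c₂ c₃ c₄ c₅ c₆ c₇) (p7d c₁ c₂ c₃ c₄ c₅ c₆ c₇ x) x := by
  have P : ∀ (c : ℝ) (n : ℕ), HasDerivAt (fun y => c * y ^ n) (c * (n * x ^ (n - 1))) x :=
    fun c n => (hasDerivAt_pow n x).const_mul c
  have h := (((((((hasDerivAt_const x c₀).add ((hasDerivAt_id x).const_mul c₁)).add (P c₂ 2)).add
    (P c₃ 3)).add (P c₄ 4)).add (P c₅ 5)).add (P c₆ 6)).add (P c₇ 7)
  refine h.congr_deriv ?_ |>.congr_of_eventuallyEq ?_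
  · simp only [p7d]; push_cast; ring
  · exact Filter.Eventually.of_forall fun y => by simp [p7]

theorem hasDerivAt_p7d (x : ℝ) :
    HasDerivAt (p7d c₁ c₂ c₃ c₄ c₅ c₆ c₇) (p7dd c₂ c₃ c₄ c₅ c₆ c₇ x) x := by
  have h := hasDerivAt_p7 (c₀ := c₁) (c₁ := 2 * c₂) (c₂ := 3 * c₃) (c₃ := 4 * c₄) (c₄ := 5 * c₅)
    (c₅ := 6 * c₆) (c₆ := 7 * c₇) (c₇ := 0) x
  refine h.congr_deriv ?_ |>.congr_of_eventuallyEq ?_
  · simp only [p7d, p7dd]; ring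
  · exact Filter.Eventually.of_forall fun y => by simp only [p7, p7d]; ring

/-- A concave polynomial is least at an end. -/
theorem ge_of_ends {f : ℝ → ℝ} {m : ℝ} (hf : ∀ x, f x = p7 c₀ c₁ c₂ c₃ c₄ c₅ c₆ c₇ x)
    (hc : ∀ x, 0 ≤ x → x < 3 / 100 → p7dd c₂ c₃ c₄ c₅ c₆ c₇ x ≤ 0)
    (hr₀ : 0 ≤ r₀) (hr₁ : r₁ ≤ 3 / 100) (h₀ : r₀ ≤ r) (h₁ : r ≤ r₁)
    (m₀ : m ≤ f r₀) (m₁ : m ≤ f r₁) : m ≤ f r := by
  have hcc : ConcaveOn ℝ (Icc (0 : ℝ) (3 / 100)) (p7 c₀ c₁ c₂ c₃ c₄ c₅ c₆ c₇) := by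
    refine concaveOn_of_hasDerivWithinAt2_nonpos (convex_Icc _ _)
      (fun x _ => (hasDerivAt_p7 x).continuousAt.continuousWithinAt)
      (fun x _ => (hasDerivAt_p7 x).hasDerivWithinAt)
      (fun x _ => (hasDerivAt_p7d x).hasDerivWithinAt) fun x hx => ?_
    rw [interior_Icc] at hx
    exact hc x hx.1.le hx.2
  rw [hf] at m₀ m₁ ⊢
  exact (le_min m₀ m₁).trans (hcc.min_le_of_mem_Icc ⟨hr₀, by linarith⟩ ⟨by linarith, hr₁⟩ ⟨h₀, h₁⟩)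

/-- A polynomial with nonnegative derivative increases. -/
theorem le_of_deriv {f : ℝ → ℝ} (hf : ∀ x, f x = p7 c₀ c₁ c₂ c₃ c₄ c₅ c₆ c₇ x)
    (hc : ∀ x, 0 ≤ x → x < 3 / 100 → 0 ≤ p7d c₁ c₂ c₃ c₄ c₅ c₆ c₇ x)
    (hr₀ : 0 ≤ r₀) (hr₁ : r₁ ≤ 3 / 100) (h : r₀ ≤ r₁) : f r₀ ≤ f r₁ := by
  have hm : MonotoneOn (p7 c₀ c₁ c₂ c₃ c₄ c₅ c₆ c₇) (Icc (0 : ℝ) (3 / 100)) := by
    refine monotoneOn_of_hasDerivWithinAt_nonneg (convex_Icc _ _)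
      (fun x _ => (hasDerivAt_p7 x).continuousAt.continuousWithinAt)
      (fun x _ => (hasDerivAt_p7 x).hasDerivWithinAt) fun x hx => ?_
    rw [interior_Icc] at hx
    exact hc x hx.1.le hx.2
  rw [hf, hf]
  exact hm ⟨hr₀, h.trans hr₁⟩ ⟨hr₀.trans h, hr₁⟩ h

/-- A concave quadratic is least at an end. -/
theorem quad_ge {A B C l u x m : ℝ} (hA : A ≤ 0) (hl : l ≤ x) (hu : x ≤ u)
    (h₀ : m ≤ A * l ^ 2 + B * l + C) (h₁ : m ≤ A * u ^ 2 + B * u + C) :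
    m ≤ A * x ^ 2 + B * x + C := by
  rcases eq_or_lt_of_le (hl.trans hu) with e | e
  · rw [show x = l by linarith]; exact h₀
  refine le_of_mul_le_mul_left (a := u - l) ?_ (by linarith)
  have hp := mul_nonneg (mul_nonneg (sub_nonneg.2 hl) (sub_nonneg.2 hu))
    (mul_nonneg (neg_nonneg.2 hA) (sub_nonneg.2 e.le))
  have g₀ := mul_le_mul_of_nonneg_left h₀ (sub_nonneg.2 hu)
  have g₁ := mul_le_mul_of_nonneg_left h₁ (sub_nonneg.2 hl)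
  nlinarith [hp, g₀, g₁]

/-- An affine function is at least its smaller end value. -/
theorem affine_ge {B C l u x m : ℝ} (hl : l ≤ x) (hu : x ≤ u) (h₀ : m ≤ B * l + C)
    (h₁ : m ≤ B * u + C) : m ≤ B * x + C := by
  have := quad_ge (A := 0) le_rfl hl hu (by simpa using h₀) (by simpa using h₁)
  simpa using this

/-- The arrow sign from bounds on the entries. -/
theorem arrow_pos {TA GG EG ME α γ η μ P π s k c : ℝ} (hTA : α ≤ TA) (hα : 0 < α)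
    (hGG : γ ≤ GG) (hγ : 0 < γ) (hEG : |EG| ≤ η) (hME : |ME| ≤ μ) (hπ : 0 < π) (hP : π ≤ P)
    (hs : 0 < s) (hk : s ≤ k) (hc : 0 ≤ c)
    (hF : 0 < 4 * α * γ * (s * π) - 16 * μ ^ 2 * γ - c * η ^ 2 * (s * π)) :
    0 < 4 * TA * GG * (k * P) - 16 * ME ^ 2 * GG - c * EG ^ 2 * (k * P) := by
  have hE : EG ^ 2 ≤ η ^ 2 := sq_le_sq' (abs_le.1 hEG).1 (abs_le.1 hEG).2
  have hM : ME ^ 2 ≤ μ ^ 2 := sq_le_sq' (abs_le.1 hME).1 (abs_le.1 hME).2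
  have hsπ : 0 < s * π := mul_pos hs hπ
  have hkP : s * π ≤ k * P := mul_le_mul hk hP hπ.le (hs.le.trans hk)
  have hμ : 0 ≤ 16 * μ ^ 2 * γ := by positivity
  have hη : 0 ≤ c * η ^ 2 := by positivity
  have q₁ : 0 ≤ 4 * α * γ - c * η ^ 2 := by
    by_contra hh
    have := mul_pos (neg_pos.2 (not_le.1 hh)) hsπ
    linarith
  have q₂ : 0 < 4 * α * (s * π) - 16 * μ ^ 2 := by
    by_contra hh
    have := mul_nonneg hγ.le (neg_nonneg.2 (not_lt.1 hh))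
    have := mul_nonneg hη hsπ.le
    linarith
  have e₁ : 0 ≤ (GG - γ) * (4 * α * (s * π) - 16 * μ ^ 2) := mul_nonneg (by linarith) q₂.le
  have hGG0 : 0 < GG := hγ.trans_le hGG
  have e₂ : 0 ≤ (4 * α * GG - c * η ^ 2) * (k * P - s * π) :=
    mul_nonneg (by nlinarith [mul_le_mul_of_nonneg_left hGG hα.le]) (by linarith)
  have e₃ : 0 ≤ 4 * GG * (k * P) * (TA - α) :=
    mul_nonneg (mul_nonneg (by linarith) (hsπ.le.trans hkP)) (by linarith)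
  have e₄ : 0 ≤ 16 * GG * (μ ^ 2 - ME ^ 2) := mul_nonneg (by linarith) (by linarith)
  have e₅ : 0 ≤ c * (k * P) * (η ^ 2 - EG ^ 2) :=
    mul_nonneg (mul_nonneg hc (hsπ.le.trans hkP)) (by linarith)
  nlinarith [e₁, e₂, e₃, e₄, e₅, hF]

end Vale.Agent.P100.Calib.NegCert
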