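import Mathlib
import Vale.Agent.P100.Calib.NegCert.Tpl
import Vale.Agent.P100.Calib.NegCert.Shape
import Vale.Agent.P100.Calib.SlabChart

/-!
# Bounds on the normalised arguments in the chart

With `g = chG`: `X = g W`, `Y = -(g E)`, `Z = g W₁`, `Q = g K`. Cleared of denominators, the
differences to a bound are linear in a pair `(n, m)` with `n / m = h/d`, and for `Z` affine in the
slope `t`; so a bound holds on an interval when it holds at the two ends.
-/

set_option linter.unusedVariables false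

namespace Vale.Agent.P100.Calib.NegCert

open Pack

/-- The numerator of `g`, without the `h/d` part. -/
noncomputable def N4r (d S u v : ℝ) : ℝ :=
  4 * ((2 + d * v) * ((S + d) / 2) - S * u * (1 + d * v))

/-- The denominator of `g`, without `1 - S`. -/
noncomputable def Dr (d S u v n m : ℝ) : ℝ := (S + d) / 2 * ((2 + d * v) * m - d * u * n)

/-- `(S + d)/2 (2 - S)`. -/
noncomputable def bcr (d S : ℝ) : ℝ := (S + d) / 2 * (2 - S)

/-- The numerator of `h/d` over `bcr`. -/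
noncomputable def hnr (d S u v t : ℝ) : ℝ := S * (1 + (1 - (S - d) / 2) * v) + bcr d S * u * t

/-- `X - f`, cleared. -/
noncomputable def Xlo (d S u v f n m : ℝ) : ℝ := N4r d S u v * n - f * S * Dr d S u v n m

/-- `Y - f`, cleared. -/
noncomputable def Ylo (d S u v f n m : ℝ) : ℝ :=
  N4r d S u v * ((10 + v * (1 / 20 + d)) * m + u * (1 / 20 - 9 * d) * n) -
    f * (1 - S) * Dr d S u v n m

/-- `Q - f`, cleared. -/
noncomputable def Qlo (d S u v f n m : ℝ) : ℝ :=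
  N4r d S u v * ((1 / 20 - 9 * d) * (m - d * u * n)) - f * (1 - S) * Dr d S u v n m

/-- `Z - f`, cleared. -/
noncomputable def Zlo (d S u v f t : ℝ) : ℝ :=
  N4r d S u v * (hnr d S u v t * ((S - d) / 2 - (1 - (S - d) / 2) * d * v) * S -
      (2 - S) * t * ((S + d) / 2) * bcr d S) -
    f * S * S * ((S + d) / 2) * Dr d S u v (hnr d S u v t) (bcr d S)

/-- The upper bound of `-u`. -/
noncomputable def umr (d w : ℝ) : ℝ := 1 / 500 + 7 / 40 * d + (5 / 8 + 1 / 5 * d) * w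

/-- The lower end of `t`. -/
noncomputable def t0r (d u : ℝ) : ℝ :=
  131 / 100 - 26 / 5 * d + 43 / 5 * (d * d) + (93 / 100 - 9 / 2 * d + 7 * (d * d)) * u

/-- The upper end of `t`. -/
noncomputable def t1r (d : ℝ) : ℝ := 143 / 100 - 5 * d + 25 / 4 * (d * d)

theorem bcr_mul_chH {d S u v t : ℝ} (hb : bcr d S ≠ 0) :
    bcr d S * Closed.chH d S u v t = hnr d S u v t := by
  unfold bcr at hb
  rw [Closed.chH, hnr, bcr, mul_add, mul_div_cancel₀ _ hb]
  ring

section Eval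

variable {D SE UE VE AE BE FE NE ME TE : Ex} {x : ℕ → ℝ} {d S u v f n m t : ℝ}

theorem tT0_eval (hD : D.eval x = d) (hU : UE.eval x = 100000 * u) :
    (tT0 D UE).eval x = 10000000 * t0r d u := by
  simp only [tT0, t0r, Ex.eval, hD, hU]
  push_cast
  ring

theorem tT1_eval (hD : D.eval x = d) : (tT1 D).eval x = 10000000 * t1r d := by
  simp only [tT1, tT1raw, t1r, Ex.eval, hD]
  push_cast
  ring

theorem tHn_eval (hS : SE.eval x = 10000 * S) (hU : UE.eval x = 100000 * u)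
    (hV : VE.eval x = 5000000 * v) (hA : AE.eval x = 10000 * (S - d))
    (hB : BE.eval x = 10000 * (S + d)) (hT : TE.eval x = 10000000 * t) :
    (tHn SE UE VE AE BE TE).eval x = 200000000000000000000 * hnr d S u v t := by
  simp only [tHn, tH0, tBC, hnr, bcr, Ex.eval, hS, hU, hV, hA, hB, hT]
  push_cast
  ring

theorem tBCH_eval (hS : SE.eval x = 10000 * S) (hB : BE.eval x = 10000 * (S + d)) :
    (tBCH BE SE).eval x = 200000000000000000000 * bcr d S := by
  simp only [tBCH, tBC, bcr, Ex.eval, hS, hB]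
  push_cast
  ring

theorem bXl_eval (hD : D.eval x = d) (hS : SE.eval x = 10000 * S) (hU : UE.eval x = 100000 * u)
    (hV : VE.eval x = 5000000 * v) (hB : BE.eval x = 10000 * (S + d))
    (hF : FE.eval x = 100000 * f) (hN : NE.eval x = n) (hM : ME.eval x = m) :
    (bXl D SE UE VE BE FE NE ME).eval x = 100000000000000000000 * Xlo d S u v f n m := by
  simp only [bXl, tN4, tDn, Xlo, N4r, Dr, Ex.eval, hD, hS, hU, hV, hB, hF, hN, hM]
  push_cast
  ring

theorem bXu_eval (hD : D.eval x = d) (hS : SE.eval x = 10000 * S) (hU : UE.eval x = 100000 * u)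
    (hV : VE.eval x = 5000000 * v) (hB : BE.eval x = 10000 * (S + d))
    (hF : FE.eval x = 100000 * f) (hN : NE.eval x = n) (hM : ME.eval x = m) :
    (bXu D SE UE VE BE FE NE ME).eval x = -(100000000000000000000 * Xlo d S u v f n m) := by
  simp only [bXu, tN4, tDn, Xlo, N4r, Dr, Ex.eval, hD, hS, hU, hV, hB, hF, hN, hM]
  push_cast
  ring

theorem bYl_eval (hD : D.eval x = d) (hS : SE.eval x = 10000 * S) (hU : UE.eval x = 100000 * u)
    (hV : VE.eval x = 5000000 * v) (hB : BE.eval x = 10000 * (S + d))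
    (hF : FE.eval x = 100000 * f) (hN : NE.eval x = n) (hM : ME.eval x = m) :
    (bYl D SE UE VE BE FE NE ME).eval x = 500000000000000000000000 * Ylo d S u v f n m := by
  simp only [bYl, tN4, tDn, Ylo, N4r, Dr, Ex.eval, hD, hS, hU, hV, hB, hF, hN, hM]
  push_cast
  ring

theorem bYu_eval (hD : D.eval x = d) (hS : SE.eval x = 10000 * S) (hU : UE.eval x = 100000 * u)
    (hV : VE.eval x = 5000000 * v) (hB : BE.eval x = 10000 * (S + d))
    (hF : FE.eval x = 100000 * f) (hN : NE.eval x = n) (hM : ME.eval x = m) :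
    (bYu D SE UE VE BE FE NE ME).eval x = -(500000000000000000000000 * Ylo d S u v f n m) := by
  simp only [bYu, tN4, tDn, Ylo, N4r, Dr, Ex.eval, hD, hS, hU, hV, hB, hF, hN, hM]
  push_cast
  ring

theorem bQl_eval (hD : D.eval x = d) (hS : SE.eval x = 10000 * S) (hU : UE.eval x = 100000 * u)
    (hV : VE.eval x = 5000000 * v) (hB : BE.eval x = 10000 * (S + d))
    (hF : FE.eval x = 100000 * f) (hN : NE.eval x = n) (hM : ME.eval x = m) :
    (bQl D SE UE VE BE FE NE ME).eval x = 10000000000000000000000 * Qlo d S u v f n m := by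
  simp only [bQl, tN4, tDn, Qlo, N4r, Dr, Ex.eval, hD, hS, hU, hV, hB, hF, hN, hM]
  push_cast
  ring

theorem bQu_eval (hD : D.eval x = d) (hS : SE.eval x = 10000 * S) (hU : UE.eval x = 100000 * u)
    (hV : VE.eval x = 5000000 * v) (hB : BE.eval x = 10000 * (S + d))
    (hF : FE.eval x = 100000 * f) (hN : NE.eval x = n) (hM : ME.eval x = m) :
    (bQu D SE UE VE BE FE NE ME).eval x = -(10000000000000000000000 * Qlo d S u v f n m) := by
  simp only [bQu, tN4, tDn, Qlo, N4r, Dr, Ex.eval, hD, hS, hU, hV, hB, hF, hN, hM]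
  push_cast
  ring

theorem bZl_eval (hD : D.eval x = d) (hS : SE.eval x = 10000 * S) (hU : UE.eval x = 100000 * u)
    (hV : VE.eval x = 5000000 * v) (hA : AE.eval x = 10000 * (S - d))
    (hB : BE.eval x = 10000 * (S + d)) (hF : FE.eval x = 100000 * f)
    (hT : TE.eval x = 10000000 * t) :
    (bZl D SE UE VE AE BE FE TE).eval x =
      1000000000000000000000000000000000000000000000000000 * Zlo d S u v f t := by
  simp only [bZl, tN4, tDn, tHn, tH0, tBCH, tBC, Zlo, N4r, Dr, hnr, bcr, Ex.eval, hD, hS, hU, hV,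
    hA, hB, hF, hT]
  push_cast
  ring

theorem bZu_eval (hD : D.eval x = d) (hS : SE.eval x = 10000 * S) (hU : UE.eval x = 100000 * u)
    (hV : VE.eval x = 5000000 * v) (hA : AE.eval x = 10000 * (S - d))
    (hB : BE.eval x = 10000 * (S + d)) (hF : FE.eval x = 100000 * f)
    (hT : TE.eval x = 10000000 * t) :
    (bZu D SE UE VE AE BE FE TE).eval x =
      -(1000000000000000000000000000000000000000000000000000 * Zlo d S u v f t) := by
  simp only [bZu, tN4, tDn, tHn, tH0, tBCH, tBC, Zlo, N4r, Dr, hnr, bcr, Ex.eval, hD, hS, hU, hV,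
    hA, hB, hF, hT]
  push_cast
  ring

end Eval

/-- The bound data of a piece at a point: a pair `(n₀, m₀)` above `h/d`. -/
structure BoundData (d S u v n₀ m₀ xl xu yl yu zl zu ql qu : ℝ) : Prop where
  Xl₀ : 0 ≤ Xlo d S u v xl n₀ m₀
  Xu₀ : Xlo d S u v xu n₀ m₀ ≤ 0
  Yl₀ : 0 ≤ Ylo d S u v yl n₀ m₀
  Yu₀ : Ylo d S u v yu n₀ m₀ ≤ 0
  Ql₀ : 0 ≤ Qlo d S u v ql n₀ m₀
  Qu₀ : Qlo d S u v qu n₀ m₀ ≤ 0
  Xl₁ : 0 ≤ Xlo d S u v xl (hnr d S u v (t1r d)) (bcr d S)
  Xu₁ : Xlo d S u v xu (hnr d S u v (t1r d)) (bcr d S) ≤ 0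
  Yl₁ : 0 ≤ Ylo d S u v yl (hnr d S u v (t1r d)) (bcr d S)
  Yu₁ : Ylo d S u v yu (hnr d S u v (t1r d)) (bcr d S) ≤ 0
  Ql₁ : 0 ≤ Qlo d S u v ql (hnr d S u v (t1r d)) (bcr d S)
  Qu₁ : Qlo d S u v qu (hnr d S u v (t1r d)) (bcr d S) ≤ 0
  Zl₀ : 0 ≤ Zlo d S u v zl (t0r d u)
  Zu₀ : Zlo d S u v zu (t0r d u) ≤ 0
  Zl₁ : 0 ≤ Zlo d S u v zl (t1r d)
  Zu₁ : Zlo d S u v zu (t1r d) ≤ 0

/-- A linear form of two variables is nonnegative between two ratios where it is. -/
theorem hom_ge {L : ℝ → ℝ → ℝ} (hL : ∀ n m, L n m = L 1 0 * n + L 0 1 * m) {n₀ m₀ n₁ m₁ H : ℝ}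
    (p₀ : 0 < m₀) (p₁ : 0 < m₁) (h₁ : n₁ / m₁ ≤ H) (h₀ : H ≤ n₀ / m₀) (g₀ : 0 ≤ L n₀ m₀)
    (g₁ : 0 ≤ L n₁ m₁) : 0 ≤ L H 1 := by
  rw [hL, mul_one]
  have e : ∀ {n m : ℝ}, 0 < m → 0 ≤ L n m → 0 ≤ L 1 0 * (n / m) + L 0 1 := fun {n m} hm hg => by
    have he : L 1 0 * (n / m) + L 0 1 = L n m / m := by
      rw [hL n m]; field_simp
    rw [he]; exact div_nonneg hg hm.le
  exact affine_ge h₁ h₀ (e p₁ g₁) (e p₀ g₀)

/-- An affine function is nonnegative between two points where it is. -/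
theorem aff_ge {L : ℝ → ℝ} (hL : ∀ t, L t = (L 1 - L 0) * t + L 0) {t₀ t₁ t : ℝ} (h₀ : t₀ ≤ t)
    (h₁ : t ≤ t₁) (g₀ : 0 ≤ L t₀) (g₁ : 0 ≤ L t₁) : 0 ≤ L t := by
  rw [hL] at g₀ g₁ ⊢
  exact affine_ge h₀ h₁ g₀ g₁

/-- The normalised arguments lie in the bounds. -/
theorem args_mem {d S u v t n₀ m₀ xl xu yl yu zl zu ql qu : ℝ} (hd : 0 ≤ d) (hS₀ : 0 < S)
    (hS₁ : S < 1) (hu : u ≤ 0) (hv : 0 ≤ v) (hH : 0 ≤ Closed.chH d S u v t) (hm : 0 < m₀)
    (hH₀ : Closed.chH d S u v t ≤ n₀ / m₀) (ht₀ : t0r d u ≤ t) (ht₁ : t ≤ t1r d)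
    (b : BoundData d S u v n₀ m₀ xl xu yl yu zl zu ql qu) :
    let g := Closed.chG d S u v t
    let W := Closed.chW d S u v t
    let R := Closed.chR S u
    0 < g ∧ (xl ≤ g * W ∧ g * W ≤ xu) ∧
      (yl ≤ -(g * Closed.eVal d v W R) ∧ -(g * Closed.eVal d v W R) ≤ yu) ∧
      (zl ≤ g * Closed.chW1 d S u v t ∧ g * Closed.chW1 d S u v t ≤ zu) ∧
      (ql ≤ g * Closed.kVal d W R ∧ g * Closed.kVal d W R ≤ qu) := by
  intro g W R
  have hb : 0 < (S + d) / 2 := by linarith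
  have hbc : 0 < bcr d S := mul_pos hb (by linarith)
  set H := Closed.chH d S u v t with hHd
  have eH : bcr d S * H = hnr d S u v t := bcr_mul_chH hbc.ne'
  have hH₁ : hnr d S u v (t1r d) / bcr d S ≤ H := by
    rw [div_le_iff₀ hbc, mul_comm H, eH]
    have := mul_le_mul_of_nonpos_left ht₁ (mul_nonpos_of_nonneg_of_nonpos hbc.le hu)
    simp only [hnr]
    linarith
  have hD : 0 < 2 + d * v - d * u * H := by
    nlinarith [mul_nonneg hd hv, mul_nonneg (mul_nonneg hd (neg_nonneg.2 hu)) hH]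
  have hDr : 0 < Dr d S u v H 1 := by
    simp only [Dr, mul_one]; exact mul_pos hb hD
  have hN : 0 < N4r d S u v := by
    simp only [N4r]
    nlinarith [mul_pos hb (by nlinarith [mul_nonneg hd hv] : (0 : ℝ) < 2 + d * v),
      mul_nonneg (mul_nonneg hS₀.le (neg_nonneg.2 hu)) (by nlinarith [mul_nonneg hd hv] :
        (0 : ℝ) ≤ 1 + d * v)]
  have h1S : 0 < 1 - S := by linarith
  have eg : g = N4r d S u v / ((1 - S) * Dr d S u v H 1) := by
    simp only [g, Closed.chG, N4r, Dr, ← hHd]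
    congr 1
    ring
  have hg : 0 < g := eg ▸ div_pos hN (mul_pos h1S hDr)
  refine ⟨hg, ?_⟩
  have hSD : 0 < S * Dr d S u v H 1 := mul_pos hS₀ hDr
  have h1D : 0 < (1 - S) * Dr d S u v H 1 := mul_pos h1S hDr
  -- the linear forms at `(H, 1)`
  have up : ∀ {L : ℝ → ℝ → ℝ}, (∀ n m, L n m = L 1 0 * n + L 0 1 * m) → L n₀ m₀ ≤ 0 →
      L (hnr d S u v (t1r d)) (bcr d S) ≤ 0 → L H 1 ≤ 0 := fun {L} hL g₀ g₁ => by
    have := hom_ge (L := fun n m => -L n m) (fun n m => by rw [hL n m]; ring) hm hbc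
      hH₁ hH₀ (by linarith) (by linarith)
    linarith
  have lX : ∀ f n m, Xlo d S u v f n m = Xlo d S u v f 1 0 * n + Xlo d S u v f 0 1 * m :=
    fun f n m => by simp only [Xlo, Dr]; ring
  have lY : ∀ f n m, Ylo d S u v f n m = Ylo d S u v f 1 0 * n + Ylo d S u v f 0 1 * m :=
    fun f n m => by simp only [Ylo, Dr]; ring
  have lQ : ∀ f n m, Qlo d S u v f n m = Qlo d S u v f 1 0 * n + Qlo d S u v f 0 1 * m :=
    fun f n m => by simp only [Qlo, Dr]; ring
  have lZ : ∀ f s, Zlo d S u v f s =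
      (Zlo d S u v f 1 - Zlo d S u v f 0) * s + Zlo d S u v f 0 :=
    fun f s => by simp only [Zlo, Dr, hnr, N4r]; ring
  have eX : ∀ f, g * W - f = Xlo d S u v f H 1 / (S * Dr d S u v H 1) := fun f => by
    simp only [W, Closed.chW, ← hHd, eg, Xlo]
    have := hDr.ne'
    field_simp
  have eY : ∀ f, -(g * Closed.eVal d v W R) - f =
      Ylo d S u v f H 1 / ((1 - S) * Dr d S u v H 1) := fun f => by
    simp only [W, R, Closed.eVal, Closed.chW, Closed.chR, ← hHd, eg, Ylo]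
    have := hDr.ne'
    field_simp
  have eQ : ∀ f, g * Closed.kVal d W R - f =
      Qlo d S u v f H 1 / ((1 - S) * Dr d S u v H 1) := fun f => by
    simp only [W, R, Closed.kVal, Closed.chW, Closed.chR, ← hHd, eg, Qlo]
    have := hDr.ne'
    field_simp
  have eZ : ∀ f, g * Closed.chW1 d S u v t - f =
      Zlo d S u v f t / (S * S * ((S + d) / 2) * (bcr d S * Dr d S u v H 1)) := fun f => by
    rw [eq_div_iff (by positivity)]
    simp only [Closed.chW1, ← hHd, eg, Zlo, ← eH, bcr]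
    have := hDr.ne'
    simp only [Dr] at this ⊢
    field_simp
  have pZ : 0 < S * S * ((S + d) / 2) * (bcr d S * Dr d S u v H 1) := by positivity
  refine ⟨⟨?_, ?_⟩, ⟨?_, ?_⟩, ⟨?_, ?_⟩, ?_, ?_⟩
  · have := div_nonneg (hom_ge (lX xl) hm hbc hH₁ hH₀ b.Xl₀ b.Xl₁) hSD.le
    rw [← eX] at this; linarith
  · have := div_nonpos_of_nonpos_of_nonneg (up (lX xu) b.Xu₀ b.Xu₁) hSD.le
    rw [← eX] at this; linarith
  · have := div_nonneg (hom_ge (lY yl) hm hbc hH₁ hH₀ b.Yl₀ b.Yl₁) h1D.le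
    rw [← eY] at this; linarith
  · have := div_nonpos_of_nonpos_of_nonneg (up (lY yu) b.Yu₀ b.Yu₁) h1D.le
    rw [← eY] at this; linarith
  · have := div_nonneg (aff_ge (lZ zl) ht₀ ht₁ b.Zl₀ b.Zl₁) pZ.le
    rw [← eZ] at this; linarith
  · have h := aff_ge (L := fun s => -Zlo d S u v zu s)
      (fun s => by rw [lZ zu s]; ring) ht₀ ht₁ (by simpa using b.Zu₀) (by simpa using b.Zu₁)
    have := div_nonpos_of_nonpos_of_nonneg (neg_nonneg.1 h) pZ.le
    rw [← eZ] at this; linarith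
  · have := div_nonneg (hom_ge (lQ ql) hm hbc hH₁ hH₀ b.Ql₀ b.Ql₁) h1D.le
    rw [← eQ] at this; linarith
  · have := div_nonpos_of_nonpos_of_nonneg (up (lQ qu) b.Qu₀ b.Qu₁) h1D.le
    rw [← eQ] at this; linarith

end Vale.Agent.P100.Calib.NegCert
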