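import Mathlib
import Vale.Agent.P100.Pack.FastFour

/-!
# Points in the charts
-/

set_option linter.unusedVariables false

namespace Vale.Agent.P100.Calib.NegCert

open Pack

/-- A point in four variables. -/
def pt (x₀ x₁ x₂ x₃ : ℝ) : ℕ → ℝ
  | 0 => x₀
  | 1 => x₁
  | 2 => x₂
  | _ => x₃

/-- Membership in the interval of a chart. -/
def InChart (c : Chart) (x : ℝ) : Prop := (c.a : ℝ) / c.c ≤ x ∧ x < (c.b : ℝ) / c.d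

theorem mem4 {C : ℕ → Chart} {x₀ x₁ x₂ x₃ : ℝ}
    (p₀ : 0 < (C 0).c ∧ 0 < (C 0).d) (p₁ : 0 < (C 1).c ∧ 0 < (C 1).d)
    (p₂ : 0 < (C 2).c ∧ 0 < (C 2).d) (p₃ : 0 < (C 3).c ∧ 0 < (C 3).d)
    (h₀ : InChart (C 0) x₀) (h₁ : InChart (C 1) x₁) (h₂ : InChart (C 2) x₂)
    (h₃ : InChart (C 3) x₃) :
    ∀ i < 4, ∃ t : ℝ, 0 ≤ t ∧ 0 < ((C i).c : ℝ) + (C i).d * t ∧
      ((C i).a : ℝ) + (C i).b * t = pt x₀ x₁ x₂ x₃ i * (((C i).c : ℝ) + (C i).d * t) := by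
  have key : ∀ {c : Chart} {x : ℝ}, 0 < c.c ∧ 0 < c.d → InChart c x → ∃ t : ℝ, 0 ≤ t ∧
      0 < (c.c : ℝ) + c.d * t ∧ (c.a : ℝ) + c.b * t = x * (c.c + c.d * t) := fun hp h => by
    have hc : (0 : ℝ) < _ := Int.cast_pos.2 hp.1
    have hd : (0 : ℝ) < _ := Int.cast_pos.2 hp.2
    exact mem_chart hp.1 hp.2 ((div_le_iff₀ hc).1 h.1) ((lt_div_iff₀ hd).1 h.2)
  intro i hi
  interval_cases i
  exacts [key p₀ h₀, key p₁ h₁, key p₂ h₂, key p₃ h₃]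

theorem unused_mem : InChart ⟨0, 1, 1, 1⟩ 0 := by simp [InChart]

end Vale.Agent.P100.Calib.NegCert
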