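import Mathlib
import Vale.Agent.P100.Calib.NegCert.Coef

/-!
# The coefficient templates as real functions
-/

set_option linter.unusedVariables false

namespace Vale.Agent.P100.Calib.NegCert

open Pack

/-- Substitution. -/
def subst (σ : ℕ → Ex) : Ex → Ex
  | .var i => σ i
  | .num z => .num z
  | .add e f => .add (subst σ e) (subst σ f)
  | .sub e f => .sub (subst σ e) (subst σ f)
  | .mul e f => .mul (subst σ e) (subst σ f)
  | .pow e n => .pow (subst σ e) n

theorem eval_subst (σ : ℕ → Ex) (x : ℕ → ℝ) :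
    ∀ e : Ex, (subst σ e).eval x = e.eval fun i => (σ i).eval x
  | .var _ => rfl
  | .num _ => rfl
  | .add e f => by simp [subst, Ex.eval, eval_subst σ x e, eval_subst σ x f]
  | .sub e f => by simp [subst, Ex.eval, eval_subst σ x e, eval_subst σ x f]
  | .mul e f => by simp [subst, Ex.eval, eval_subst σ x e, eval_subst σ x f]
  | .pow e n => by simp [subst, Ex.eval, eval_subst σ x e]

/-- The scaled point of a coefficient. -/
def scaled (r v d : ℝ) : ℕ → ℝ
  | 0 => 2000 * r
  | 1 => 5000000 * v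
  | _ => d

/-- Three arguments as a substitution. -/
def args3 (R V D : Ex) : ℕ → Ex
  | 0 => R
  | 1 => V
  | _ => D

theorem eval_args3 {R V D : Ex} {x : ℕ → ℝ} {r v d : ℝ} (hR : R.eval x = 2000 * r)
    (hV : V.eval x = 5000000 * v) (hD : D.eval x = d) (e : Ex) :
    (subst (args3 R V D) e).eval x = e.eval (scaled r v d) := by
  rw [eval_subst]
  congr 1
  funext i
  match i with
  | 0 => exact hR
  | 1 => exact hV
  | _ + 2 => exact hD

/-- The coefficient `eTA0000_0` at `(v, d)`. -/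
noncomputable def ETA0000_0 (v d : ℝ) : ℝ :=
  (eTA0000_0 (.var 1) (.var 2)).eval (scaled 0 v d) / 1220703125000000000000000000000000000000000000

theorem eTA0000_0_eval {V D : Ex} {x : ℕ → ℝ} {v d : ℝ} (hV : V.eval x = 5000000 * v)
    (hD : D.eval x = d) : (eTA0000_0 V D).eval x = 1220703125000000000000000000000000000000000000 * ETA0000_0 v d := by
  have h := eval_args3 (R := .num 0) (x := x) (r := 0) (by simp [Ex.eval]) hV hD
    (eTA0000_0 (.var 1) (.var 2))
  rw [ETA0000_0, mul_div_cancel₀ _ (by norm_num)]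
  exact h

/-- The coefficient `eTA0000_1` at `(v, d)`. -/
noncomputable def ETA0000_1 (v d : ℝ) : ℝ :=
  (eTA0000_1 (.var 1) (.var 2)).eval (scaled 0 v d) / 1220703125000000000000000000000000000000000000

theorem eTA0000_1_eval {V D : Ex} {x : ℕ → ℝ} {v d : ℝ} (hV : V.eval x = 5000000 * v)
    (hD : D.eval x = d) : (eTA0000_1 V D).eval x = 1220703125000000000000000000000000000000000000 * ETA0000_1 v d := by
  have h := eval_args3 (R := .num 0) (x := x) (r := 0) (by simp [Ex.eval]) hV hD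
    (eTA0000_1 (.var 1) (.var 2))
  rw [ETA0000_1, mul_div_cancel₀ _ (by norm_num)]
  exact h

/-- The coefficient `eTA0000_2` at `(v, d)`. -/
noncomputable def ETA0000_2 (v d : ℝ) : ℝ :=
  (eTA0000_2 (.var 1) (.var 2)).eval (scaled 0 v d) / 1220703125000000000000000000000000000000000000

theorem eTA0000_2_eval {V D : Ex} {x : ℕ → ℝ} {v d : ℝ} (hV : V.eval x = 5000000 * v)
    (hD : D.eval x = d) : (eTA0000_2 V D).eval x = 1220703125000000000000000000000000000000000000 * ETA0000_2 v d := by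
  have h := eval_args3 (R := .num 0) (x := x) (r := 0) (by simp [Ex.eval]) hV hD
    (eTA0000_2 (.var 1) (.var 2))
  rw [ETA0000_2, mul_div_cancel₀ _ (by norm_num)]
  exact h

/-- The coefficient `eTA0000_3` at `(v, d)`. -/
noncomputable def ETA0000_3 (v d : ℝ) : ℝ :=
  (eTA0000_3 (.var 1) (.var 2)).eval (scaled 0 v d) / 244140625000000000000000000000000000000000000

theorem eTA0000_3_eval {V D : Ex} {x : ℕ → ℝ} {v d : ℝ} (hV : V.eval x = 5000000 * v)
    (hD : D.eval x = d) : (eTA0000_3 V D).eval x = 244140625000000000000000000000000000000000000 * ETA0000_3 v d := by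
  have h := eval_args3 (R := .num 0) (x := x) (r := 0) (by simp [Ex.eval]) hV hD
    (eTA0000_3 (.var 1) (.var 2))
  rw [ETA0000_3, mul_div_cancel₀ _ (by norm_num)]
  exact h

/-- The coefficient `eTA0000_4` at `(v, d)`. -/
noncomputable def ETA0000_4 (v d : ℝ) : ℝ :=
  (eTA0000_4 (.var 1) (.var 2)).eval (scaled 0 v d) / 244140625000000000000000000000000000000000000

theorem eTA0000_4_eval {V D : Ex} {x : ℕ → ℝ} {v d : ℝ} (hV : V.eval x = 5000000 * v)
    (hD : D.eval x = d) : (eTA0000_4 V D).eval x = 244140625000000000000000000000000000000000000 * ETA0000_4 v d := by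
  have h := eval_args3 (R := .num 0) (x := x) (r := 0) (by simp [Ex.eval]) hV hD
    (eTA0000_4 (.var 1) (.var 2))
  rw [ETA0000_4, mul_div_cancel₀ _ (by norm_num)]
  exact h

/-- The coefficient `eTA0000_5` at `(v, d)`. -/
noncomputable def ETA0000_5 (v d : ℝ) : ℝ :=
  (eTA0000_5 (.var 1) (.var 2)).eval (scaled 0 v d) / 1220703125000000000000000000000000000000000000

theorem eTA0000_5_eval {V D : Ex} {x : ℕ → ℝ} {v d : ℝ} (hV : V.eval x = 5000000 * v)
    (hD : D.eval x = d) : (eTA0000_5 V D).eval x = 1220703125000000000000000000000000000000000000 * ETA0000_5 v d := by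
  have h := eval_args3 (R := .num 0) (x := x) (r := 0) (by simp [Ex.eval]) hV hD
    (eTA0000_5 (.var 1) (.var 2))
  rw [ETA0000_5, mul_div_cancel₀ _ (by norm_num)]
  exact h

/-- The coefficient `eTA0000_6` at `(v, d)`. -/
noncomputable def ETA0000_6 (v d : ℝ) : ℝ :=
  (eTA0000_6 (.var 1) (.var 2)).eval (scaled 0 v d) / 1220703125000000000000000000000000000000000000

theorem eTA0000_6_eval {V D : Ex} {x : ℕ → ℝ} {v d : ℝ} (hV : V.eval x = 5000000 * v)
    (hD : D.eval x = d) : (eTA0000_6 V D).eval x = 1220703125000000000000000000000000000000000000 * ETA0000_6 v d := by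
  have h := eval_args3 (R := .num 0) (x := x) (r := 0) (by simp [Ex.eval]) hV hD
    (eTA0000_6 (.var 1) (.var 2))
  rw [ETA0000_6, mul_div_cancel₀ _ (by norm_num)]
  exact h

/-- The coefficient `eTA0000_7` at `(v, d)`. -/
noncomputable def ETA0000_7 (v d : ℝ) : ℝ :=
  (eTA0000_7 (.var 1) (.var 2)).eval (scaled 0 v d) / 1220703125000000000000000000000000000000000000

theorem eTA0000_7_eval {V D : Ex} {x : ℕ → ℝ} {v d : ℝ} (hV : V.eval x = 5000000 * v)
    (hD : D.eval x = d) : (eTA0000_7 V D).eval x = 1220703125000000000000000000000000000000000000 * ETA0000_7 v d := by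
  have h := eval_args3 (R := .num 0) (x := x) (r := 0) (by simp [Ex.eval]) hV hD
    (eTA0000_7 (.var 1) (.var 2))
  rw [ETA0000_7, mul_div_cancel₀ _ (by norm_num)]
  exact h

/-- The coefficient `eTA0001_0` at `(v, d)`. -/
noncomputable def ETA0001_0 (v d : ℝ) : ℝ :=
  (eTA0001_0 (.var 1) (.var 2)).eval (scaled 0 v d) / 625000000000000000000000000

theorem eTA0001_0_eval {V D : Ex} {x : ℕ → ℝ} {v d : ℝ} (hV : V.eval x = 5000000 * v)
    (hD : D.eval x = d) : (eTA0001_0 V D).eval x = 625000000000000000000000000 * ETA0001_0 v d := by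
  have h := eval_args3 (R := .num 0) (x := x) (r := 0) (by simp [Ex.eval]) hV hD
    (eTA0001_0 (.var 1) (.var 2))
  rw [ETA0001_0, mul_div_cancel₀ _ (by norm_num)]
  exact h

/-- The coefficient `eTA0001_1` at `(v, d)`. -/
noncomputable def ETA0001_1 (v d : ℝ) : ℝ :=
  (eTA0001_1 (.var 1) (.var 2)).eval (scaled 0 v d) / 625000000000000000000000000

theorem eTA0001_1_eval {V D : Ex} {x : ℕ → ℝ} {v d : ℝ} (hV : V.eval x = 5000000 * v)
    (hD : D.eval x = d) : (eTA0001_1 V D).eval x = 625000000000000000000000000 * ETA0001_1 v d := by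
  have h := eval_args3 (R := .num 0) (x := x) (r := 0) (by simp [Ex.eval]) hV hD
    (eTA0001_1 (.var 1) (.var 2))
  rw [ETA0001_1, mul_div_cancel₀ _ (by norm_num)]
  exact h

/-- The coefficient `eTA0001_2` at `(v, d)`. -/
noncomputable def ETA0001_2 (v d : ℝ) : ℝ :=
  (eTA0001_2 (.var 1) (.var 2)).eval (scaled 0 v d) / 625000000000000000000000000

theorem eTA0001_2_eval {V D : Ex} {x : ℕ → ℝ} {v d : ℝ} (hV : V.eval x = 5000000 * v)
    (hD : D.eval x = d) : (eTA0001_2 V D).eval x = 625000000000000000000000000 * ETA0001_2 v d := by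
  have h := eval_args3 (R := .num 0) (x := x) (r := 0) (by simp [Ex.eval]) hV hD
    (eTA0001_2 (.var 1) (.var 2))
  rw [ETA0001_2, mul_div_cancel₀ _ (by norm_num)]
  exact h

/-- The coefficient `eTA0001_3` at `(v, d)`. -/
noncomputable def ETA0001_3 (v d : ℝ) : ℝ :=
  (eTA0001_3 (.var 1) (.var 2)).eval (scaled 0 v d) / 625000000000000000000000000

theorem eTA0001_3_eval {V D : Ex} {x : ℕ → ℝ} {v d : ℝ} (hV : V.eval x = 5000000 * v)
    (hD : D.eval x = d) : (eTA0001_3 V D).eval x = 625000000000000000000000000 * ETA0001_3 v d := by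
  have h := eval_args3 (R := .num 0) (x := x) (r := 0) (by simp [Ex.eval]) hV hD
    (eTA0001_3 (.var 1) (.var 2))
  rw [ETA0001_3, mul_div_cancel₀ _ (by norm_num)]
  exact h

/-- The coefficient `eTA0001_4` at `(v, d)`. -/
noncomputable def ETA0001_4 (v d : ℝ) : ℝ :=
  (eTA0001_4 (.var 1) (.var 2)).eval (scaled 0 v d) / 625000000000000000000000000

theorem eTA0001_4_eval {V D : Ex} {x : ℕ → ℝ} {v d : ℝ} (hV : V.eval x = 5000000 * v)
    (hD : D.eval x = d) : (eTA0001_4 V D).eval x = 625000000000000000000000000 * ETA0001_4 v d := by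
  have h := eval_args3 (R := .num 0) (x := x) (r := 0) (by simp [Ex.eval]) hV hD
    (eTA0001_4 (.var 1) (.var 2))
  rw [ETA0001_4, mul_div_cancel₀ _ (by norm_num)]
  exact h

/-- The coefficient `eTA0010_0` at `(v, d)`. -/
noncomputable def ETA0010_0 (v d : ℝ) : ℝ :=
  (eTA0010_0 (.var 1) (.var 2)).eval (scaled 0 v d) / 625000000000000000000

theorem eTA0010_0_eval {V D : Ex} {x : ℕ → ℝ} {v d : ℝ} (hV : V.eval x = 5000000 * v)
    (hD : D.eval x = d) : (eTA0010_0 V D).eval x = 625000000000000000000 * ETA0010_0 v d := by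
  have h := eval_args3 (R := .num 0) (x := x) (r := 0) (by simp [Ex.eval]) hV hD
    (eTA0010_0 (.var 1) (.var 2))
  rw [ETA0010_0, mul_div_cancel₀ _ (by norm_num)]
  exact h

/-- The coefficient `eTA0010_1` at `(v, d)`. -/
noncomputable def ETA0010_1 (v d : ℝ) : ℝ :=
  (eTA0010_1 (.var 1) (.var 2)).eval (scaled 0 v d) / 125000000000000000000

theorem eTA0010_1_eval {V D : Ex} {x : ℕ → ℝ} {v d : ℝ} (hV : V.eval x = 5000000 * v)
    (hD : D.eval x = d) : (eTA0010_1 V D).eval x = 125000000000000000000 * ETA0010_1 v d := by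
  have h := eval_args3 (R := .num 0) (x := x) (r := 0) (by simp [Ex.eval]) hV hD
    (eTA0010_1 (.var 1) (.var 2))
  rw [ETA0010_1, mul_div_cancel₀ _ (by norm_num)]
  exact h

/-- The coefficient `eTA0010_2` at `(v, d)`. -/
noncomputable def ETA0010_2 (v d : ℝ) : ℝ :=
  (eTA0010_2 (.var 1) (.var 2)).eval (scaled 0 v d) / 125000000000000000000

theorem eTA0010_2_eval {V D : Ex} {x : ℕ → ℝ} {v d : ℝ} (hV : V.eval x = 5000000 * v)
    (hD : D.eval x = d) : (eTA0010_2 V D).eval x = 125000000000000000000 * ETA0010_2 v d := by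
  have h := eval_args3 (R := .num 0) (x := x) (r := 0) (by simp [Ex.eval]) hV hD
    (eTA0010_2 (.var 1) (.var 2))
  rw [ETA0010_2, mul_div_cancel₀ _ (by norm_num)]
  exact h

/-- The coefficient `eTA0010_3` at `(v, d)`. -/
noncomputable def ETA0010_3 (v d : ℝ) : ℝ :=
  (eTA0010_3 (.var 1) (.var 2)).eval (scaled 0 v d) / 125000000000000000000

theorem eTA0010_3_eval {V D : Ex} {x : ℕ → ℝ} {v d : ℝ} (hV : V.eval x = 5000000 * v)
    (hD : D.eval x = d) : (eTA0010_3 V D).eval x = 125000000000000000000 * ETA0010_3 v d := by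
  have h := eval_args3 (R := .num 0) (x := x) (r := 0) (by simp [Ex.eval]) hV hD
    (eTA0010_3 (.var 1) (.var 2))
  rw [ETA0010_3, mul_div_cancel₀ _ (by norm_num)]
  exact h

/-- The coefficient `eTA0010_4` at `(v, d)`. -/
noncomputable def ETA0010_4 (v d : ℝ) : ℝ :=
  (eTA0010_4 (.var 1) (.var 2)).eval (scaled 0 v d) / 125000000000000000000

theorem eTA0010_4_eval {V D : Ex} {x : ℕ → ℝ} {v d : ℝ} (hV : V.eval x = 5000000 * v)
    (hD : D.eval x = d) : (eTA0010_4 V D).eval x = 125000000000000000000 * ETA0010_4 v d := by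
  have h := eval_args3 (R := .num 0) (x := x) (r := 0) (by simp [Ex.eval]) hV hD
    (eTA0010_4 (.var 1) (.var 2))
  rw [ETA0010_4, mul_div_cancel₀ _ (by norm_num)]
  exact h

/-- The coefficient `eTA0010_5` at `(v, d)`. -/
noncomputable def ETA0010_5 (v d : ℝ) : ℝ :=
  (eTA0010_5 (.var 1) (.var 2)).eval (scaled 0 v d) / 625000000000000000000

theorem eTA0010_5_eval {V D : Ex} {x : ℕ → ℝ} {v d : ℝ} (hV : V.eval x = 5000000 * v)
    (hD : D.eval x = d) : (eTA0010_5 V D).eval x = 625000000000000000000 * ETA0010_5 v d := by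
  have h := eval_args3 (R := .num 0) (x := x) (r := 0) (by simp [Ex.eval]) hV hD
    (eTA0010_5 (.var 1) (.var 2))
  rw [ETA0010_5, mul_div_cancel₀ _ (by norm_num)]
  exact h

/-- The coefficient `eTA0100_0` at `(v, d)`. -/
noncomputable def ETA0100_0 (v d : ℝ) : ℝ :=
  (eTA0100_0 (.var 1) (.var 2)).eval (scaled 0 v d) / 15625000000000000000000000000

theorem eTA0100_0_eval {V D : Ex} {x : ℕ → ℝ} {v d : ℝ} (hV : V.eval x = 5000000 * v)
    (hD : D.eval x = d) : (eTA0100_0 V D).eval x = 15625000000000000000000000000 * ETA0100_0 v d := by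
  have h := eval_args3 (R := .num 0) (x := x) (r := 0) (by simp [Ex.eval]) hV hD
    (eTA0100_0 (.var 1) (.var 2))
  rw [ETA0100_0, mul_div_cancel₀ _ (by norm_num)]
  exact h

/-- The coefficient `eTA0100_1` at `(v, d)`. -/
noncomputable def ETA0100_1 (v d : ℝ) : ℝ :=
  (eTA0100_1 (.var 1) (.var 2)).eval (scaled 0 v d) / 15625000000000000000000000000

theorem eTA0100_1_eval {V D : Ex} {x : ℕ → ℝ} {v d : ℝ} (hV : V.eval x = 5000000 * v)
    (hD : D.eval x = d) : (eTA0100_1 V D).eval x = 15625000000000000000000000000 * ETA0100_1 v d := by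
  have h := eval_args3 (R := .num 0) (x := x) (r := 0) (by simp [Ex.eval]) hV hD
    (eTA0100_1 (.var 1) (.var 2))
  rw [ETA0100_1, mul_div_cancel₀ _ (by norm_num)]
  exact h

/-- The coefficient `eTA0100_2` at `(v, d)`. -/
noncomputable def ETA0100_2 (v d : ℝ) : ℝ :=
  (eTA0100_2 (.var 1) (.var 2)).eval (scaled 0 v d) / 3125000000000000000000000000

theorem eTA0100_2_eval {V D : Ex} {x : ℕ → ℝ} {v d : ℝ} (hV : V.eval x = 5000000 * v)
    (hD : D.eval x = d) : (eTA0100_2 V D).eval x = 3125000000000000000000000000 * ETA0100_2 v d := by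
  have h := eval_args3 (R := .num 0) (x := x) (r := 0) (by simp [Ex.eval]) hV hD
    (eTA0100_2 (.var 1) (.var 2))
  rw [ETA0100_2, mul_div_cancel₀ _ (by norm_num)]
  exact h

/-- The coefficient `eTA0100_3` at `(v, d)`. -/
noncomputable def ETA0100_3 (v d : ℝ) : ℝ :=
  (eTA0100_3 (.var 1) (.var 2)).eval (scaled 0 v d) / 3125000000000000000000000000

theorem eTA0100_3_eval {V D : Ex} {x : ℕ → ℝ} {v d : ℝ} (hV : V.eval x = 5000000 * v)
    (hD : D.eval x = d) : (eTA0100_3 V D).eval x = 3125000000000000000000000000 * ETA0100_3 v d := by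
  have h := eval_args3 (R := .num 0) (x := x) (r := 0) (by simp [Ex.eval]) hV hD
    (eTA0100_3 (.var 1) (.var 2))
  rw [ETA0100_3, mul_div_cancel₀ _ (by norm_num)]
  exact h

/-- The coefficient `eTA0100_4` at `(v, d)`. -/
noncomputable def ETA0100_4 (v d : ℝ) : ℝ :=
  (eTA0100_4 (.var 1) (.var 2)).eval (scaled 0 v d) / 3125000000000000000000000000

theorem eTA0100_4_eval {V D : Ex} {x : ℕ → ℝ} {v d : ℝ} (hV : V.eval x = 5000000 * v)
    (hD : D.eval x = d) : (eTA0100_4 V D).eval x = 3125000000000000000000000000 * ETA0100_4 v d := by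
  have h := eval_args3 (R := .num 0) (x := x) (r := 0) (by simp [Ex.eval]) hV hD
    (eTA0100_4 (.var 1) (.var 2))
  rw [ETA0100_4, mul_div_cancel₀ _ (by norm_num)]
  exact h

/-- The coefficient `eTA0100_5` at `(v, d)`. -/
noncomputable def ETA0100_5 (v d : ℝ) : ℝ :=
  (eTA0100_5 (.var 1) (.var 2)).eval (scaled 0 v d) / 15625000000000000000000000000

theorem eTA0100_5_eval {V D : Ex} {x : ℕ → ℝ} {v d : ℝ} (hV : V.eval x = 5000000 * v)
    (hD : D.eval x = d) : (eTA0100_5 V D).eval x = 15625000000000000000000000000 * ETA0100_5 v d := by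
  have h := eval_args3 (R := .num 0) (x := x) (r := 0) (by simp [Ex.eval]) hV hD
    (eTA0100_5 (.var 1) (.var 2))
  rw [ETA0100_5, mul_div_cancel₀ _ (by norm_num)]
  exact h

/-- The coefficient `eTA0100_6` at `(v, d)`. -/
noncomputable def ETA0100_6 (v d : ℝ) : ℝ :=
  (eTA0100_6 (.var 1) (.var 2)).eval (scaled 0 v d) / 15625000000000000000000000000

theorem eTA0100_6_eval {V D : Ex} {x : ℕ → ℝ} {v d : ℝ} (hV : V.eval x = 5000000 * v)
    (hD : D.eval x = d) : (eTA0100_6 V D).eval x = 15625000000000000000000000000 * ETA0100_6 v d := by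
  have h := eval_args3 (R := .num 0) (x := x) (r := 0) (by simp [Ex.eval]) hV hD
    (eTA0100_6 (.var 1) (.var 2))
  rw [ETA0100_6, mul_div_cancel₀ _ (by norm_num)]
  exact h

/-- The coefficient `eTA0200_0` at `(v, d)`. -/
noncomputable def ETA0200_0 (v d : ℝ) : ℝ :=
  (eTA0200_0 (.var 1) (.var 2)).eval (scaled 0 v d) / 625000000000000000000

theorem eTA0200_0_eval {V D : Ex} {x : ℕ → ℝ} {v d : ℝ} (hV : V.eval x = 5000000 * v)
    (hD : D.eval x = d) : (eTA0200_0 V D).eval x = 625000000000000000000 * ETA0200_0 v d := by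
  have h := eval_args3 (R := .num 0) (x := x) (r := 0) (by simp [Ex.eval]) hV hD
    (eTA0200_0 (.var 1) (.var 2))
  rw [ETA0200_0, mul_div_cancel₀ _ (by norm_num)]
  exact h

/-- The coefficient `eTA0200_1` at `(v, d)`. -/
noncomputable def ETA0200_1 (v d : ℝ) : ℝ :=
  (eTA0200_1 (.var 1) (.var 2)).eval (scaled 0 v d) / 125000000000000000000

theorem eTA0200_1_eval {V D : Ex} {x : ℕ → ℝ} {v d : ℝ} (hV : V.eval x = 5000000 * v)
    (hD : D.eval x = d) : (eTA0200_1 V D).eval x = 125000000000000000000 * ETA0200_1 v d := by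
  have h := eval_args3 (R := .num 0) (x := x) (r := 0) (by simp [Ex.eval]) hV hD
    (eTA0200_1 (.var 1) (.var 2))
  rw [ETA0200_1, mul_div_cancel₀ _ (by norm_num)]
  exact h

/-- The coefficient `eTA0200_2` at `(v, d)`. -/
noncomputable def ETA0200_2 (v d : ℝ) : ℝ :=
  (eTA0200_2 (.var 1) (.var 2)).eval (scaled 0 v d) / 125000000000000000000

theorem eTA0200_2_eval {V D : Ex} {x : ℕ → ℝ} {v d : ℝ} (hV : V.eval x = 5000000 * v)
    (hD : D.eval x = d) : (eTA0200_2 V D).eval x = 125000000000000000000 * ETA0200_2 v d := by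
  have h := eval_args3 (R := .num 0) (x := x) (r := 0) (by simp [Ex.eval]) hV hD
    (eTA0200_2 (.var 1) (.var 2))
  rw [ETA0200_2, mul_div_cancel₀ _ (by norm_num)]
  exact h

/-- The coefficient `eTA0200_3` at `(v, d)`. -/
noncomputable def ETA0200_3 (v d : ℝ) : ℝ :=
  (eTA0200_3 (.var 1) (.var 2)).eval (scaled 0 v d) / 125000000000000000000

theorem eTA0200_3_eval {V D : Ex} {x : ℕ → ℝ} {v d : ℝ} (hV : V.eval x = 5000000 * v)
    (hD : D.eval x = d) : (eTA0200_3 V D).eval x = 125000000000000000000 * ETA0200_3 v d := by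
  have h := eval_args3 (R := .num 0) (x := x) (r := 0) (by simp [Ex.eval]) hV hD
    (eTA0200_3 (.var 1) (.var 2))
  rw [ETA0200_3, mul_div_cancel₀ _ (by norm_num)]
  exact h

/-- The coefficient `eTA0200_4` at `(v, d)`. -/
noncomputable def ETA0200_4 (v d : ℝ) : ℝ :=
  (eTA0200_4 (.var 1) (.var 2)).eval (scaled 0 v d) / 125000000000000000000

theorem eTA0200_4_eval {V D : Ex} {x : ℕ → ℝ} {v d : ℝ} (hV : V.eval x = 5000000 * v)
    (hD : D.eval x = d) : (eTA0200_4 V D).eval x = 125000000000000000000 * ETA0200_4 v d := by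
  have h := eval_args3 (R := .num 0) (x := x) (r := 0) (by simp [Ex.eval]) hV hD
    (eTA0200_4 (.var 1) (.var 2))
  rw [ETA0200_4, mul_div_cancel₀ _ (by norm_num)]
  exact h

/-- The coefficient `eTA0200_5` at `(v, d)`. -/
noncomputable def ETA0200_5 (v d : ℝ) : ℝ :=
  (eTA0200_5 (.var 1) (.var 2)).eval (scaled 0 v d) / 625000000000000000000

theorem eTA0200_5_eval {V D : Ex} {x : ℕ → ℝ} {v d : ℝ} (hV : V.eval x = 5000000 * v)
    (hD : D.eval x = d) : (eTA0200_5 V D).eval x = 625000000000000000000 * ETA0200_5 v d := by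
  have h := eval_args3 (R := .num 0) (x := x) (r := 0) (by simp [Ex.eval]) hV hD
    (eTA0200_5 (.var 1) (.var 2))
  rw [ETA0200_5, mul_div_cancel₀ _ (by norm_num)]
  exact h

/-- The coefficient `eTA1000_0` at `(v, d)`. -/
noncomputable def ETA1000_0 (v d : ℝ) : ℝ :=
  (eTA1000_0 (.var 1) (.var 2)).eval (scaled 0 v d) / 1953125000000000000000000000000000000

theorem eTA1000_0_eval {V D : Ex} {x : ℕ → ℝ} {v d : ℝ} (hV : V.eval x = 5000000 * v)
    (hD : D.eval x = d) : (eTA1000_0 V D).eval x = 1953125000000000000000000000000000000 * ETA1000_0 v d := by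
  have h := eval_args3 (R := .num 0) (x := x) (r := 0) (by simp [Ex.eval]) hV hD
    (eTA1000_0 (.var 1) (.var 2))
  rw [ETA1000_0, mul_div_cancel₀ _ (by norm_num)]
  exact h

/-- The coefficient `eTA1000_1` at `(v, d)`. -/
noncomputable def ETA1000_1 (v d : ℝ) : ℝ :=
  (eTA1000_1 (.var 1) (.var 2)).eval (scaled 0 v d) / 1953125000000000000000000000000000000

theorem eTA1000_1_eval {V D : Ex} {x : ℕ → ℝ} {v d : ℝ} (hV : V.eval x = 5000000 * v)
    (hD : D.eval x = d) : (eTA1000_1 V D).eval x = 1953125000000000000000000000000000000 * ETA1000_1 v d := by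
  have h := eval_args3 (R := .num 0) (x := x) (r := 0) (by simp [Ex.eval]) hV hD
    (eTA1000_1 (.var 1) (.var 2))
  rw [ETA1000_1, mul_div_cancel₀ _ (by norm_num)]
  exact h

/-- The coefficient `eTA1000_2` at `(v, d)`. -/
noncomputable def ETA1000_2 (v d : ℝ) : ℝ :=
  (eTA1000_2 (.var 1) (.var 2)).eval (scaled 0 v d) / 390625000000000000000000000000000000

theorem eTA1000_2_eval {V D : Ex} {x : ℕ → ℝ} {v d : ℝ} (hV : V.eval x = 5000000 * v)
    (hD : D.eval x = d) : (eTA1000_2 V D).eval x = 390625000000000000000000000000000000 * ETA1000_2 v d := by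
  have h := eval_args3 (R := .num 0) (x := x) (r := 0) (by simp [Ex.eval]) hV hD
    (eTA1000_2 (.var 1) (.var 2))
  rw [ETA1000_2, mul_div_cancel₀ _ (by norm_num)]
  exact h

/-- The coefficient `eTA1000_3` at `(v, d)`. -/
noncomputable def ETA1000_3 (v d : ℝ) : ℝ :=
  (eTA1000_3 (.var 1) (.var 2)).eval (scaled 0 v d) / 390625000000000000000000000000000000

theorem eTA1000_3_eval {V D : Ex} {x : ℕ → ℝ} {v d : ℝ} (hV : V.eval x = 5000000 * v)
    (hD : D.eval x = d) : (eTA1000_3 V D).eval x = 390625000000000000000000000000000000 * ETA1000_3 v d := by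
  have h := eval_args3 (R := .num 0) (x := x) (r := 0) (by simp [Ex.eval]) hV hD
    (eTA1000_3 (.var 1) (.var 2))
  rw [ETA1000_3, mul_div_cancel₀ _ (by norm_num)]
  exact h

/-- The coefficient `eTA1000_4` at `(v, d)`. -/
noncomputable def ETA1000_4 (v d : ℝ) : ℝ :=
  (eTA1000_4 (.var 1) (.var 2)).eval (scaled 0 v d) / 390625000000000000000000000000000000

theorem eTA1000_4_eval {V D : Ex} {x : ℕ → ℝ} {v d : ℝ} (hV : V.eval x = 5000000 * v)
    (hD : D.eval x = d) : (eTA1000_4 V D).eval x = 390625000000000000000000000000000000 * ETA1000_4 v d := by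
  have h := eval_args3 (R := .num 0) (x := x) (r := 0) (by simp [Ex.eval]) hV hD
    (eTA1000_4 (.var 1) (.var 2))
  rw [ETA1000_4, mul_div_cancel₀ _ (by norm_num)]
  exact h

/-- The coefficient `eTA1000_5` at `(v, d)`. -/
noncomputable def ETA1000_5 (v d : ℝ) : ℝ :=
  (eTA1000_5 (.var 1) (.var 2)).eval (scaled 0 v d) / 1953125000000000000000000000000000000

theorem eTA1000_5_eval {V D : Ex} {x : ℕ → ℝ} {v d : ℝ} (hV : V.eval x = 5000000 * v)
    (hD : D.eval x = d) : (eTA1000_5 V D).eval x = 1953125000000000000000000000000000000 * ETA1000_5 v d := by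
  have h := eval_args3 (R := .num 0) (x := x) (r := 0) (by simp [Ex.eval]) hV hD
    (eTA1000_5 (.var 1) (.var 2))
  rw [ETA1000_5, mul_div_cancel₀ _ (by norm_num)]
  exact h

/-- The coefficient `eTA1000_6` at `(v, d)`. -/
noncomputable def ETA1000_6 (v d : ℝ) : ℝ :=
  (eTA1000_6 (.var 1) (.var 2)).eval (scaled 0 v d) / 1953125000000000000000000000000000000

theorem eTA1000_6_eval {V D : Ex} {x : ℕ → ℝ} {v d : ℝ} (hV : V.eval x = 5000000 * v)
    (hD : D.eval x = d) : (eTA1000_6 V D).eval x = 1953125000000000000000000000000000000 * ETA1000_6 v d := by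
  have h := eval_args3 (R := .num 0) (x := x) (r := 0) (by simp [Ex.eval]) hV hD
    (eTA1000_6 (.var 1) (.var 2))
  rw [ETA1000_6, mul_div_cancel₀ _ (by norm_num)]
  exact h

/-- The coefficient `eTA1100_0` at `(v, d)`. -/
noncomputable def ETA1100_0 (v d : ℝ) : ℝ :=
  (eTA1100_0 (.var 1) (.var 2)).eval (scaled 0 v d) / 625000000000000000000

theorem eTA1100_0_eval {V D : Ex} {x : ℕ → ℝ} {v d : ℝ} (hV : V.eval x = 5000000 * v)
    (hD : D.eval x = d) : (eTA1100_0 V D).eval x = 625000000000000000000 * ETA1100_0 v d := by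
  have h := eval_args3 (R := .num 0) (x := x) (r := 0) (by simp [Ex.eval]) hV hD
    (eTA1100_0 (.var 1) (.var 2))
  rw [ETA1100_0, mul_div_cancel₀ _ (by norm_num)]
  exact h

/-- The coefficient `eTA1100_1` at `(v, d)`. -/
noncomputable def ETA1100_1 (v d : ℝ) : ℝ :=
  (eTA1100_1 (.var 1) (.var 2)).eval (scaled 0 v d) / 125000000000000000000

theorem eTA1100_1_eval {V D : Ex} {x : ℕ → ℝ} {v d : ℝ} (hV : V.eval x = 5000000 * v)
    (hD : D.eval x = d) : (eTA1100_1 V D).eval x = 125000000000000000000 * ETA1100_1 v d := by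
  have h := eval_args3 (R := .num 0) (x := x) (r := 0) (by simp [Ex.eval]) hV hD
    (eTA1100_1 (.var 1) (.var 2))
  rw [ETA1100_1, mul_div_cancel₀ _ (by norm_num)]
  exact h

/-- The coefficient `eTA1100_2` at `(v, d)`. -/
noncomputable def ETA1100_2 (v d : ℝ) : ℝ :=
  (eTA1100_2 (.var 1) (.var 2)).eval (scaled 0 v d) / 125000000000000000000

theorem eTA1100_2_eval {V D : Ex} {x : ℕ → ℝ} {v d : ℝ} (hV : V.eval x = 5000000 * v)
    (hD : D.eval x = d) : (eTA1100_2 V D).eval x = 125000000000000000000 * ETA1100_2 v d := by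
  have h := eval_args3 (R := .num 0) (x := x) (r := 0) (by simp [Ex.eval]) hV hD
    (eTA1100_2 (.var 1) (.var 2))
  rw [ETA1100_2, mul_div_cancel₀ _ (by norm_num)]
  exact h

/-- The coefficient `eTA1100_3` at `(v, d)`. -/
noncomputable def ETA1100_3 (v d : ℝ) : ℝ :=
  (eTA1100_3 (.var 1) (.var 2)).eval (scaled 0 v d) / 125000000000000000000

theorem eTA1100_3_eval {V D : Ex} {x : ℕ → ℝ} {v d : ℝ} (hV : V.eval x = 5000000 * v)
    (hD : D.eval x = d) : (eTA1100_3 V D).eval x = 125000000000000000000 * ETA1100_3 v d := by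
  have h := eval_args3 (R := .num 0) (x := x) (r := 0) (by simp [Ex.eval]) hV hD
    (eTA1100_3 (.var 1) (.var 2))
  rw [ETA1100_3, mul_div_cancel₀ _ (by norm_num)]
  exact h

/-- The coefficient `eTA1100_4` at `(v, d)`. -/
noncomputable def ETA1100_4 (v d : ℝ) : ℝ :=
  (eTA1100_4 (.var 1) (.var 2)).eval (scaled 0 v d) / 125000000000000000000

theorem eTA1100_4_eval {V D : Ex} {x : ℕ → ℝ} {v d : ℝ} (hV : V.eval x = 5000000 * v)
    (hD : D.eval x = d) : (eTA1100_4 V D).eval x = 125000000000000000000 * ETA1100_4 v d := by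
  have h := eval_args3 (R := .num 0) (x := x) (r := 0) (by simp [Ex.eval]) hV hD
    (eTA1100_4 (.var 1) (.var 2))
  rw [ETA1100_4, mul_div_cancel₀ _ (by norm_num)]
  exact h

/-- The coefficient `eTA1100_5` at `(v, d)`. -/
noncomputable def ETA1100_5 (v d : ℝ) : ℝ :=
  (eTA1100_5 (.var 1) (.var 2)).eval (scaled 0 v d) / 625000000000000000000

theorem eTA1100_5_eval {V D : Ex} {x : ℕ → ℝ} {v d : ℝ} (hV : V.eval x = 5000000 * v)
    (hD : D.eval x = d) : (eTA1100_5 V D).eval x = 625000000000000000000 * ETA1100_5 v d := by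
  have h := eval_args3 (R := .num 0) (x := x) (r := 0) (by simp [Ex.eval]) hV hD
    (eTA1100_5 (.var 1) (.var 2))
  rw [ETA1100_5, mul_div_cancel₀ _ (by norm_num)]
  exact h

/-- The coefficient `eTA2000_0` at `(v, d)`. -/
noncomputable def ETA2000_0 (v d : ℝ) : ℝ :=
  (eTA2000_0 (.var 1) (.var 2)).eval (scaled 0 v d) / 3125000000000000000000000000

theorem eTA2000_0_eval {V D : Ex} {x : ℕ → ℝ} {v d : ℝ} (hV : V.eval x = 5000000 * v)
    (hD : D.eval x = d) : (eTA2000_0 V D).eval x = 3125000000000000000000000000 * ETA2000_0 v d := by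
  have h := eval_args3 (R := .num 0) (x := x) (r := 0) (by simp [Ex.eval]) hV hD
    (eTA2000_0 (.var 1) (.var 2))
  rw [ETA2000_0, mul_div_cancel₀ _ (by norm_num)]
  exact h

/-- The coefficient `eTA2000_1` at `(v, d)`. -/
noncomputable def ETA2000_1 (v d : ℝ) : ℝ :=
  (eTA2000_1 (.var 1) (.var 2)).eval (scaled 0 v d) / 2500000000000000000000000000

theorem eTA2000_1_eval {V D : Ex} {x : ℕ → ℝ} {v d : ℝ} (hV : V.eval x = 5000000 * v)
    (hD : D.eval x = d) : (eTA2000_1 V D).eval x = 2500000000000000000000000000 * ETA2000_1 v d := by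
  have h := eval_args3 (R := .num 0) (x := x) (r := 0) (by simp [Ex.eval]) hV hD
    (eTA2000_1 (.var 1) (.var 2))
  rw [ETA2000_1, mul_div_cancel₀ _ (by norm_num)]
  exact h

/-- The coefficient `eTA2000_2` at `(v, d)`. -/
noncomputable def ETA2000_2 (v d : ℝ) : ℝ :=
  (eTA2000_2 (.var 1) (.var 2)).eval (scaled 0 v d) / 1250000000000000000000000000

theorem eTA2000_2_eval {V D : Ex} {x : ℕ → ℝ} {v d : ℝ} (hV : V.eval x = 5000000 * v)
    (hD : D.eval x = d) : (eTA2000_2 V D).eval x = 1250000000000000000000000000 * ETA2000_2 v d := by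
  have h := eval_args3 (R := .num 0) (x := x) (r := 0) (by simp [Ex.eval]) hV hD
    (eTA2000_2 (.var 1) (.var 2))
  rw [ETA2000_2, mul_div_cancel₀ _ (by norm_num)]
  exact h

/-- The coefficient `eTA2000_3` at `(v, d)`. -/
noncomputable def ETA2000_3 (v d : ℝ) : ℝ :=
  (eTA2000_3 (.var 1) (.var 2)).eval (scaled 0 v d) / 1250000000000000000000000000

theorem eTA2000_3_eval {V D : Ex} {x : ℕ → ℝ} {v d : ℝ} (hV : V.eval x = 5000000 * v)
    (hD : D.eval x = d) : (eTA2000_3 V D).eval x = 1250000000000000000000000000 * ETA2000_3 v d := by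
  have h := eval_args3 (R := .num 0) (x := x) (r := 0) (by simp [Ex.eval]) hV hD
    (eTA2000_3 (.var 1) (.var 2))
  rw [ETA2000_3, mul_div_cancel₀ _ (by norm_num)]
  exact h

/-- The coefficient `eTA2000_4` at `(v, d)`. -/
noncomputable def ETA2000_4 (v d : ℝ) : ℝ :=
  (eTA2000_4 (.var 1) (.var 2)).eval (scaled 0 v d) / 1250000000000000000000000000

theorem eTA2000_4_eval {V D : Ex} {x : ℕ → ℝ} {v d : ℝ} (hV : V.eval x = 5000000 * v)
    (hD : D.eval x = d) : (eTA2000_4 V D).eval x = 1250000000000000000000000000 * ETA2000_4 v d := by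
  have h := eval_args3 (R := .num 0) (x := x) (r := 0) (by simp [Ex.eval]) hV hD
    (eTA2000_4 (.var 1) (.var 2))
  rw [ETA2000_4, mul_div_cancel₀ _ (by norm_num)]
  exact h

/-- The coefficient `eTA2000_5` at `(v, d)`. -/
noncomputable def ETA2000_5 (v d : ℝ) : ℝ :=
  (eTA2000_5 (.var 1) (.var 2)).eval (scaled 0 v d) / 12500000000000000000000000000

theorem eTA2000_5_eval {V D : Ex} {x : ℕ → ℝ} {v d : ℝ} (hV : V.eval x = 5000000 * v)
    (hD : D.eval x = d) : (eTA2000_5 V D).eval x = 12500000000000000000000000000 * ETA2000_5 v d := by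
  have h := eval_args3 (R := .num 0) (x := x) (r := 0) (by simp [Ex.eval]) hV hD
    (eTA2000_5 (.var 1) (.var 2))
  rw [ETA2000_5, mul_div_cancel₀ _ (by norm_num)]
  exact h

/-- The value of `ATA0000` in the variable `r`. -/
noncomputable def ATA0000 (r v d : ℝ) : ℝ := ETA0000_0 v d + ETA0000_1 v d * r + ETA0000_2 v d *
  r ^ 2 + ETA0000_3 v d * r ^ 3 + ETA0000_4 v d * r ^ 4 + ETA0000_5 v d * r ^ 5 + ETA0000_6 v d
  * r ^ 6 + ETA0000_7 v d * r ^ 7

theorem cTA0000_eval {R V D : Ex} {x : ℕ → ℝ} {r v d : ℝ} (hR : R.eval x = 2000 * r)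
    (hV : V.eval x = 5000000 * v) (hD : D.eval x = d) :
    (cTA0000 R V D).eval x = 156250000000000000000000000000000000000000000000000000000000000000000 * ATA0000 r v d := by
  simp only [cTA0000, ATA0000, Ex.eval, hR, eTA0000_0_eval hV hD, eTA0000_1_eval hV hD,
    eTA0000_2_eval hV hD, eTA0000_3_eval hV hD, eTA0000_4_eval hV hD, eTA0000_5_eval hV hD,
    eTA0000_6_eval hV hD, eTA0000_7_eval hV hD]
  push_cast
  ring

/-- Derivative 2 of `ATA0000` in the variable `r`. -/
noncomputable def BTA0000 (r v d : ℝ) : ℝ := 2 * ETA0000_2 v d + 6 * ETA0000_3 v d * r + 12 *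
  ETA0000_4 v d * r ^ 2 + 20 * ETA0000_5 v d * r ^ 3 + 30 * ETA0000_6 v d * r ^ 4 + 42 *
  ETA0000_7 v d * r ^ 5

theorem cTA0000_d2_eval {R V D : Ex} {x : ℕ → ℝ} {r v d : ℝ} (hR : R.eval x = 2000 * r)
    (hV : V.eval x = 5000000 * v) (hD : D.eval x = d) :
    (cTA0000_d2 R V D).eval x = 39062500000000000000000000000000000000000000000000000000000000 * BTA0000 r v d := by
  simp only [cTA0000_d2, BTA0000, Ex.eval, hR, eTA0000_2_eval hV hD, eTA0000_3_eval hV hD,
    eTA0000_4_eval hV hD, eTA0000_5_eval hV hD, eTA0000_6_eval hV hD, eTA0000_7_eval hV hD]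
  push_cast
  ring

/-- The value of `ATA0001` in the variable `r`. -/
noncomputable def ATA0001 (r v d : ℝ) : ℝ := ETA0001_0 v d + ETA0001_1 v d * r + ETA0001_2 v d *
  r ^ 2 + ETA0001_3 v d * r ^ 3 + ETA0001_4 v d * r ^ 4

theorem cTA0001_eval {R V D : Ex} {x : ℕ → ℝ} {r v d : ℝ} (hR : R.eval x = 2000 * r)
    (hV : V.eval x = 5000000 * v) (hD : D.eval x = d) :
    (cTA0001 R V D).eval x = 10000000000000000000000000000000000000000 * ATA0001 r v d := by
  simp only [cTA0001, ATA0001, Ex.eval, hR, eTA0001_0_eval hV hD, eTA0001_1_eval hV hD,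
    eTA0001_2_eval hV hD, eTA0001_3_eval hV hD, eTA0001_4_eval hV hD]
  push_cast
  ring

/-- Derivative 2 of `ATA0001` in the variable `r`. -/
noncomputable def BTA0001 (r v d : ℝ) : ℝ := 2 * ETA0001_2 v d + 6 * ETA0001_3 v d * r + 12 *
  ETA0001_4 v d * r ^ 2

theorem cTA0001_d2_eval {R V D : Ex} {x : ℕ → ℝ} {r v d : ℝ} (hR : R.eval x = 2000 * r)
    (hV : V.eval x = 5000000 * v) (hD : D.eval x = d) :
    (cTA0001_d2 R V D).eval x = 2500000000000000000000000000000000 * BTA0001 r v d := by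
  simp only [cTA0001_d2, BTA0001, Ex.eval, hR, eTA0001_2_eval hV hD, eTA0001_3_eval hV hD,
    eTA0001_4_eval hV hD]
  push_cast
  ring

/-- The value of `ATA0010` in the variable `r`. -/
noncomputable def ATA0010 (r v d : ℝ) : ℝ := ETA0010_0 v d + ETA0010_1 v d * r + ETA0010_2 v d *
  r ^ 2 + ETA0010_3 v d * r ^ 3 + ETA0010_4 v d * r ^ 4 + ETA0010_5 v d * r ^ 5

theorem cTA0010_eval {R V D : Ex} {x : ℕ → ℝ} {r v d : ℝ} (hR : R.eval x = 2000 * r)
    (hV : V.eval x = 5000000 * v) (hD : D.eval x = d) :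
    (cTA0010 R V D).eval x = 20000000000000000000000000000000000000 * ATA0010 r v d := by
  simp only [cTA0010, ATA0010, Ex.eval, hR, eTA0010_0_eval hV hD, eTA0010_1_eval hV hD,
    eTA0010_2_eval hV hD, eTA0010_3_eval hV hD, eTA0010_4_eval hV hD, eTA0010_5_eval hV hD]
  push_cast
  ring

/-- Derivative 2 of `ATA0010` in the variable `r`. -/
noncomputable def BTA0010 (r v d : ℝ) : ℝ := 2 * ETA0010_2 v d + 6 * ETA0010_3 v d * r + 12 *
  ETA0010_4 v d * r ^ 2 + 20 * ETA0010_5 v d * r ^ 3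

theorem cTA0010_d2_eval {R V D : Ex} {x : ℕ → ℝ} {r v d : ℝ} (hR : R.eval x = 2000 * r)
    (hV : V.eval x = 5000000 * v) (hD : D.eval x = d) :
    (cTA0010_d2 R V D).eval x = 5000000000000000000000000000000 * BTA0010 r v d := by
  simp only [cTA0010_d2, BTA0010, Ex.eval, hR, eTA0010_2_eval hV hD, eTA0010_3_eval hV hD,
    eTA0010_4_eval hV hD, eTA0010_5_eval hV hD]
  push_cast
  ring

/-- The value of `ATA0100` in the variable `r`. -/
noncomputable def ATA0100 (r v d : ℝ) : ℝ := ETA0100_0 v d + ETA0100_1 v d * r + ETA0100_2 v d *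
  r ^ 2 + ETA0100_3 v d * r ^ 3 + ETA0100_4 v d * r ^ 4 + ETA0100_5 v d * r ^ 5 + ETA0100_6 v d
  * r ^ 6

theorem cTA0100_eval {R V D : Ex} {x : ℕ → ℝ} {r v d : ℝ} (hR : R.eval x = 2000 * r)
    (hV : V.eval x = 5000000 * v) (hD : D.eval x = d) :
    (cTA0100 R V D).eval x = 1000000000000000000000000000000000000000000000000 * ATA0100 r v d := by
  simp only [cTA0100, ATA0100, Ex.eval, hR, eTA0100_0_eval hV hD, eTA0100_1_eval hV hD,
    eTA0100_2_eval hV hD, eTA0100_3_eval hV hD, eTA0100_4_eval hV hD, eTA0100_5_eval hV hD,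
    eTA0100_6_eval hV hD]
  push_cast
  ring

/-- Derivative 2 of `ATA0100` in the variable `r`. -/
noncomputable def BTA0100 (r v d : ℝ) : ℝ := 2 * ETA0100_2 v d + 6 * ETA0100_3 v d * r + 12 *
  ETA0100_4 v d * r ^ 2 + 20 * ETA0100_5 v d * r ^ 3 + 30 * ETA0100_6 v d * r ^ 4

theorem cTA0100_d2_eval {R V D : Ex} {x : ℕ → ℝ} {r v d : ℝ} (hR : R.eval x = 2000 * r)
    (hV : V.eval x = 5000000 * v) (hD : D.eval x = d) :
    (cTA0100_d2 R V D).eval x = 250000000000000000000000000000000000000000 * BTA0100 r v d := by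
  simp only [cTA0100_d2, BTA0100, Ex.eval, hR, eTA0100_2_eval hV hD, eTA0100_3_eval hV hD,
    eTA0100_4_eval hV hD, eTA0100_5_eval hV hD, eTA0100_6_eval hV hD]
  push_cast
  ring

/-- The value of `ATA0200` in the variable `r`. -/
noncomputable def ATA0200 (r v d : ℝ) : ℝ := ETA0200_0 v d + ETA0200_1 v d * r + ETA0200_2 v d *
  r ^ 2 + ETA0200_3 v d * r ^ 3 + ETA0200_4 v d * r ^ 4 + ETA0200_5 v d * r ^ 5

theorem cTA0200_eval {R V D : Ex} {x : ℕ → ℝ} {r v d : ℝ} (hR : R.eval x = 2000 * r)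
    (hV : V.eval x = 5000000 * v) (hD : D.eval x = d) :
    (cTA0200 R V D).eval x = 20000000000000000000000000000000000000 * ATA0200 r v d := by
  simp only [cTA0200, ATA0200, Ex.eval, hR, eTA0200_0_eval hV hD, eTA0200_1_eval hV hD,
    eTA0200_2_eval hV hD, eTA0200_3_eval hV hD, eTA0200_4_eval hV hD, eTA0200_5_eval hV hD]
  push_cast
  ring

/-- Derivative 2 of `ATA0200` in the variable `r`. -/
noncomputable def BTA0200 (r v d : ℝ) : ℝ := 2 * ETA0200_2 v d + 6 * ETA0200_3 v d * r + 12 *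
  ETA0200_4 v d * r ^ 2 + 20 * ETA0200_5 v d * r ^ 3

theorem cTA0200_d2_eval {R V D : Ex} {x : ℕ → ℝ} {r v d : ℝ} (hR : R.eval x = 2000 * r)
    (hV : V.eval x = 5000000 * v) (hD : D.eval x = d) :
    (cTA0200_d2 R V D).eval x = 5000000000000000000000000000000 * BTA0200 r v d := by
  simp only [cTA0200_d2, BTA0200, Ex.eval, hR, eTA0200_2_eval hV hD, eTA0200_3_eval hV hD,
    eTA0200_4_eval hV hD, eTA0200_5_eval hV hD]
  push_cast
  ring

/-- The value of `ATA1000` in the variable `r`. -/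
noncomputable def ATA1000 (r v d : ℝ) : ℝ := ETA1000_0 v d + ETA1000_1 v d * r + ETA1000_2 v d *
  r ^ 2 + ETA1000_3 v d * r ^ 3 + ETA1000_4 v d * r ^ 4 + ETA1000_5 v d * r ^ 5 + ETA1000_6 v d
  * r ^ 6

theorem cTA1000_eval {R V D : Ex} {x : ℕ → ℝ} {r v d : ℝ} (hR : R.eval x = 2000 * r)
    (hV : V.eval x = 5000000 * v) (hD : D.eval x = d) :
    (cTA1000 R V D).eval x = 125000000000000000000000000000000000000000000000000000000 * ATA1000 r v d := by
  simp only [cTA1000, ATA1000, Ex.eval, hR, eTA1000_0_eval hV hD, eTA1000_1_eval hV hD,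
    eTA1000_2_eval hV hD, eTA1000_3_eval hV hD, eTA1000_4_eval hV hD, eTA1000_5_eval hV hD,
    eTA1000_6_eval hV hD]
  push_cast
  ring

/-- Derivative 2 of `ATA1000` in the variable `r`. -/
noncomputable def BTA1000 (r v d : ℝ) : ℝ := 2 * ETA1000_2 v d + 6 * ETA1000_3 v d * r + 12 *
  ETA1000_4 v d * r ^ 2 + 20 * ETA1000_5 v d * r ^ 3 + 30 * ETA1000_6 v d * r ^ 4

theorem cTA1000_d2_eval {R V D : Ex} {x : ℕ → ℝ} {r v d : ℝ} (hR : R.eval x = 2000 * r)
    (hV : V.eval x = 5000000 * v) (hD : D.eval x = d) :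
    (cTA1000_d2 R V D).eval x = 31250000000000000000000000000000000000000000000000 * BTA1000 r v d := by
  simp only [cTA1000_d2, BTA1000, Ex.eval, hR, eTA1000_2_eval hV hD, eTA1000_3_eval hV hD,
    eTA1000_4_eval hV hD, eTA1000_5_eval hV hD, eTA1000_6_eval hV hD]
  push_cast
  ring

/-- The value of `ATA1100` in the variable `r`. -/
noncomputable def ATA1100 (r v d : ℝ) : ℝ := ETA1100_0 v d + ETA1100_1 v d * r + ETA1100_2 v d *
  r ^ 2 + ETA1100_3 v d * r ^ 3 + ETA1100_4 v d * r ^ 4 + ETA1100_5 v d * r ^ 5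

theorem cTA1100_eval {R V D : Ex} {x : ℕ → ℝ} {r v d : ℝ} (hR : R.eval x = 2000 * r)
    (hV : V.eval x = 5000000 * v) (hD : D.eval x = d) :
    (cTA1100 R V D).eval x = 20000000000000000000000000000000000000 * ATA1100 r v d := by
  simp only [cTA1100, ATA1100, Ex.eval, hR, eTA1100_0_eval hV hD, eTA1100_1_eval hV hD,
    eTA1100_2_eval hV hD, eTA1100_3_eval hV hD, eTA1100_4_eval hV hD, eTA1100_5_eval hV hD]
  push_cast
  ring

/-- Derivative 2 of `ATA1100` in the variable `r`. -/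
noncomputable def BTA1100 (r v d : ℝ) : ℝ := 2 * ETA1100_2 v d + 6 * ETA1100_3 v d * r + 12 *
  ETA1100_4 v d * r ^ 2 + 20 * ETA1100_5 v d * r ^ 3

theorem cTA1100_d2_eval {R V D : Ex} {x : ℕ → ℝ} {r v d : ℝ} (hR : R.eval x = 2000 * r)
    (hV : V.eval x = 5000000 * v) (hD : D.eval x = d) :
    (cTA1100_d2 R V D).eval x = 5000000000000000000000000000000 * BTA1100 r v d := by
  simp only [cTA1100_d2, BTA1100, Ex.eval, hR, eTA1100_2_eval hV hD, eTA1100_3_eval hV hD,
    eTA1100_4_eval hV hD, eTA1100_5_eval hV hD]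
  push_cast
  ring

/-- The value of `ATA2000` in the variable `r`. -/
noncomputable def ATA2000 (r v d : ℝ) : ℝ := ETA2000_0 v d + ETA2000_1 v d * r + ETA2000_2 v d *
  r ^ 2 + ETA2000_3 v d * r ^ 3 + ETA2000_4 v d * r ^ 4 + ETA2000_5 v d * r ^ 5

theorem cTA2000_eval {R V D : Ex} {x : ℕ → ℝ} {r v d : ℝ} (hR : R.eval x = 2000 * r)
    (hV : V.eval x = 5000000 * v) (hD : D.eval x = d) :
    (cTA2000 R V D).eval x = 400000000000000000000000000000000000000000000 * ATA2000 r v d := by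
  simp only [cTA2000, ATA2000, Ex.eval, hR, eTA2000_0_eval hV hD, eTA2000_1_eval hV hD,
    eTA2000_2_eval hV hD, eTA2000_3_eval hV hD, eTA2000_4_eval hV hD, eTA2000_5_eval hV hD]
  push_cast
  ring

/-- Derivative 2 of `ATA2000` in the variable `r`. -/
noncomputable def BTA2000 (r v d : ℝ) : ℝ := 2 * ETA2000_2 v d + 6 * ETA2000_3 v d * r + 12 *
  ETA2000_4 v d * r ^ 2 + 20 * ETA2000_5 v d * r ^ 3

theorem cTA2000_d2_eval {R V D : Ex} {x : ℕ → ℝ} {r v d : ℝ} (hR : R.eval x = 2000 * r)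
    (hV : V.eval x = 5000000 * v) (hD : D.eval x = d) :
    (cTA2000_d2 R V D).eval x = 100000000000000000000000000000000000000 * BTA2000 r v d := by
  simp only [cTA2000_d2, BTA2000, Ex.eval, hR, eTA2000_2_eval hV hD, eTA2000_3_eval hV hD,
    eTA2000_4_eval hV hD, eTA2000_5_eval hV hD]
  push_cast
  ring

/-- `TA` in the variables `(r, v, d, X, Y, Z, Q)`. -/
noncomputable def rTA (r v d X Y Z Q : ℝ) : ℝ := ATA0000 r v d + ATA0001 r v d * Q + ATA0010 r v
  d * Z + ATA0100 r v d * Y + ATA0200 r v d * Y ^ 2 + ATA1000 r v d * X + ATA1100 r v d * X * Y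
  + ATA2000 r v d * X ^ 2

theorem qTA_eval {R V D XE YE ZE QE : Ex} {x : ℕ → ℝ} {r v d X Y Z Q : ℝ} (hR : R.eval x = 2000
    * r) (hV : V.eval x = 5000000 * v) (hD : D.eval x = d) (hX : XE.eval x = 100000 * X) (hY :
    YE.eval x = 100000 * Y) (hZ : ZE.eval x = 100000 * Z) (hQ : QE.eval x = 100000 * Q) : (qTA R
    V D XE YE ZE QE).eval x =
    156250000000000000000000000000000000000000000000000000000000000000000 * rTA r v d X Y Z Q :=
    by
  simp only [qTA, rTA, Ex.eval, cTA0000_eval hR hV hD, cTA0001_eval hR hV hD, cTA0010_eval hR hV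
    hD, cTA0100_eval hR hV hD, cTA0200_eval hR hV hD, cTA1000_eval hR hV hD, cTA1100_eval hR hV
    hD, cTA2000_eval hR hV hD, hX, hY, hZ, hQ]
  push_cast
  ring

/-- The coefficient `eGG0000_0` at `(v, d)`. -/
noncomputable def EGG0000_0 (v d : ℝ) : ℝ :=
  (eGG0000_0 (.var 1) (.var 2)).eval (scaled 0 v d) / 48828125000000000000000000000000000000000000

theorem eGG0000_0_eval {V D : Ex} {x : ℕ → ℝ} {v d : ℝ} (hV : V.eval x = 5000000 * v)
    (hD : D.eval x = d) : (eGG0000_0 V D).eval x = 48828125000000000000000000000000000000000000 * EGG0000_0 v d := by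
  have h := eval_args3 (R := .num 0) (x := x) (r := 0) (by simp [Ex.eval]) hV hD
    (eGG0000_0 (.var 1) (.var 2))
  rw [EGG0000_0, mul_div_cancel₀ _ (by norm_num)]
  exact h

/-- The coefficient `eGG0000_1` at `(v, d)`. -/
noncomputable def EGG0000_1 (v d : ℝ) : ℝ :=
  (eGG0000_1 (.var 1) (.var 2)).eval (scaled 0 v d) / 19531250000000000000000000000000000000000000

theorem eGG0000_1_eval {V D : Ex} {x : ℕ → ℝ} {v d : ℝ} (hV : V.eval x = 5000000 * v)
    (hD : D.eval x = d) : (eGG0000_1 V D).eval x = 19531250000000000000000000000000000000000000 * EGG0000_1 v d := by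
  have h := eval_args3 (R := .num 0) (x := x) (r := 0) (by simp [Ex.eval]) hV hD
    (eGG0000_1 (.var 1) (.var 2))
  rw [EGG0000_1, mul_div_cancel₀ _ (by norm_num)]
  exact h

/-- The coefficient `eGG0000_2` at `(v, d)`. -/
noncomputable def EGG0000_2 (v d : ℝ) : ℝ :=
  (eGG0000_2 (.var 1) (.var 2)).eval (scaled 0 v d) / 9765625000000000000000000000000000000000000

theorem eGG0000_2_eval {V D : Ex} {x : ℕ → ℝ} {v d : ℝ} (hV : V.eval x = 5000000 * v)
    (hD : D.eval x = d) : (eGG0000_2 V D).eval x = 9765625000000000000000000000000000000000000 * EGG0000_2 v d := by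
  have h := eval_args3 (R := .num 0) (x := x) (r := 0) (by simp [Ex.eval]) hV hD
    (eGG0000_2 (.var 1) (.var 2))
  rw [EGG0000_2, mul_div_cancel₀ _ (by norm_num)]
  exact h

/-- The coefficient `eGG0000_3` at `(v, d)`. -/
noncomputable def EGG0000_3 (v d : ℝ) : ℝ :=
  (eGG0000_3 (.var 1) (.var 2)).eval (scaled 0 v d) / 1953125000000000000000000000000000000000000

theorem eGG0000_3_eval {V D : Ex} {x : ℕ → ℝ} {v d : ℝ} (hV : V.eval x = 5000000 * v)
    (hD : D.eval x = d) : (eGG0000_3 V D).eval x = 1953125000000000000000000000000000000000000 * EGG0000_3 v d := by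
  have h := eval_args3 (R := .num 0) (x := x) (r := 0) (by simp [Ex.eval]) hV hD
    (eGG0000_3 (.var 1) (.var 2))
  rw [EGG0000_3, mul_div_cancel₀ _ (by norm_num)]
  exact h

/-- The coefficient `eGG0000_4` at `(v, d)`. -/
noncomputable def EGG0000_4 (v d : ℝ) : ℝ :=
  (eGG0000_4 (.var 1) (.var 2)).eval (scaled 0 v d) / 9765625000000000000000000000000000000000000

theorem eGG0000_4_eval {V D : Ex} {x : ℕ → ℝ} {v d : ℝ} (hV : V.eval x = 5000000 * v)
    (hD : D.eval x = d) : (eGG0000_4 V D).eval x = 9765625000000000000000000000000000000000000 * EGG0000_4 v d := by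
  have h := eval_args3 (R := .num 0) (x := x) (r := 0) (by simp [Ex.eval]) hV hD
    (eGG0000_4 (.var 1) (.var 2))
  rw [EGG0000_4, mul_div_cancel₀ _ (by norm_num)]
  exact h

/-- The coefficient `eGG0000_5` at `(v, d)`. -/
noncomputable def EGG0000_5 (v d : ℝ) : ℝ :=
  (eGG0000_5 (.var 1) (.var 2)).eval (scaled 0 v d) / 97656250000000000000000000000000000000000000

theorem eGG0000_5_eval {V D : Ex} {x : ℕ → ℝ} {v d : ℝ} (hV : V.eval x = 5000000 * v)
    (hD : D.eval x = d) : (eGG0000_5 V D).eval x = 97656250000000000000000000000000000000000000 * EGG0000_5 v d := by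
  have h := eval_args3 (R := .num 0) (x := x) (r := 0) (by simp [Ex.eval]) hV hD
    (eGG0000_5 (.var 1) (.var 2))
  rw [EGG0000_5, mul_div_cancel₀ _ (by norm_num)]
  exact h

/-- The coefficient `eGG0000_6` at `(v, d)`. -/
noncomputable def EGG0000_6 (v d : ℝ) : ℝ :=
  (eGG0000_6 (.var 1) (.var 2)).eval (scaled 0 v d) / 1953125000000000000000000000000000000

theorem eGG0000_6_eval {V D : Ex} {x : ℕ → ℝ} {v d : ℝ} (hV : V.eval x = 5000000 * v)
    (hD : D.eval x = d) : (eGG0000_6 V D).eval x = 1953125000000000000000000000000000000 * EGG0000_6 v d := by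
  have h := eval_args3 (R := .num 0) (x := x) (r := 0) (by simp [Ex.eval]) hV hD
    (eGG0000_6 (.var 1) (.var 2))
  rw [EGG0000_6, mul_div_cancel₀ _ (by norm_num)]
  exact h

/-- The coefficient `eGG0000_7` at `(v, d)`. -/
noncomputable def EGG0000_7 (v d : ℝ) : ℝ :=
  (eGG0000_7 (.var 1) (.var 2)).eval (scaled 0 v d) / 390625000000000000000000000000000000

theorem eGG0000_7_eval {V D : Ex} {x : ℕ → ℝ} {v d : ℝ} (hV : V.eval x = 5000000 * v)
    (hD : D.eval x = d) : (eGG0000_7 V D).eval x = 390625000000000000000000000000000000 * EGG0000_7 v d := by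
  have h := eval_args3 (R := .num 0) (x := x) (r := 0) (by simp [Ex.eval]) hV hD
    (eGG0000_7 (.var 1) (.var 2))
  rw [EGG0000_7, mul_div_cancel₀ _ (by norm_num)]
  exact h

/-- The coefficient `eGG1000_0` at `(v, d)`. -/
noncomputable def EGG1000_0 (v d : ℝ) : ℝ :=
  (eGG1000_0 (.var 1) (.var 2)).eval (scaled 0 v d) / 15625000000000000000000000000

theorem eGG1000_0_eval {V D : Ex} {x : ℕ → ℝ} {v d : ℝ} (hV : V.eval x = 5000000 * v)
    (hD : D.eval x = d) : (eGG1000_0 V D).eval x = 15625000000000000000000000000 * EGG1000_0 v d := by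
  have h := eval_args3 (R := .num 0) (x := x) (r := 0) (by simp [Ex.eval]) hV hD
    (eGG1000_0 (.var 1) (.var 2))
  rw [EGG1000_0, mul_div_cancel₀ _ (by norm_num)]
  exact h

/-- The coefficient `eGG1000_1` at `(v, d)`. -/
noncomputable def EGG1000_1 (v d : ℝ) : ℝ :=
  (eGG1000_1 (.var 1) (.var 2)).eval (scaled 0 v d) / 31250000000000000000000000000

theorem eGG1000_1_eval {V D : Ex} {x : ℕ → ℝ} {v d : ℝ} (hV : V.eval x = 5000000 * v)
    (hD : D.eval x = d) : (eGG1000_1 V D).eval x = 31250000000000000000000000000 * EGG1000_1 v d := by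
  have h := eval_args3 (R := .num 0) (x := x) (r := 0) (by simp [Ex.eval]) hV hD
    (eGG1000_1 (.var 1) (.var 2))
  rw [EGG1000_1, mul_div_cancel₀ _ (by norm_num)]
  exact h

/-- The coefficient `eGG1000_2` at `(v, d)`. -/
noncomputable def EGG1000_2 (v d : ℝ) : ℝ :=
  (eGG1000_2 (.var 1) (.var 2)).eval (scaled 0 v d) / 31250000000000000000000000000

theorem eGG1000_2_eval {V D : Ex} {x : ℕ → ℝ} {v d : ℝ} (hV : V.eval x = 5000000 * v)
    (hD : D.eval x = d) : (eGG1000_2 V D).eval x = 31250000000000000000000000000 * EGG1000_2 v d := by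
  have h := eval_args3 (R := .num 0) (x := x) (r := 0) (by simp [Ex.eval]) hV hD
    (eGG1000_2 (.var 1) (.var 2))
  rw [EGG1000_2, mul_div_cancel₀ _ (by norm_num)]
  exact h

/-- The coefficient `eGG1000_3` at `(v, d)`. -/
noncomputable def EGG1000_3 (v d : ℝ) : ℝ :=
  (eGG1000_3 (.var 1) (.var 2)).eval (scaled 0 v d) / 31250000000000000000000000000

theorem eGG1000_3_eval {V D : Ex} {x : ℕ → ℝ} {v d : ℝ} (hV : V.eval x = 5000000 * v)
    (hD : D.eval x = d) : (eGG1000_3 V D).eval x = 31250000000000000000000000000 * EGG1000_3 v d := by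
  have h := eval_args3 (R := .num 0) (x := x) (r := 0) (by simp [Ex.eval]) hV hD
    (eGG1000_3 (.var 1) (.var 2))
  rw [EGG1000_3, mul_div_cancel₀ _ (by norm_num)]
  exact h

/-- The coefficient `eGG1000_4` at `(v, d)`. -/
noncomputable def EGG1000_4 (v d : ℝ) : ℝ :=
  (eGG1000_4 (.var 1) (.var 2)).eval (scaled 0 v d) / 31250000000000000000000000000

theorem eGG1000_4_eval {V D : Ex} {x : ℕ → ℝ} {v d : ℝ} (hV : V.eval x = 5000000 * v)
    (hD : D.eval x = d) : (eGG1000_4 V D).eval x = 31250000000000000000000000000 * EGG1000_4 v d := by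
  have h := eval_args3 (R := .num 0) (x := x) (r := 0) (by simp [Ex.eval]) hV hD
    (eGG1000_4 (.var 1) (.var 2))
  rw [EGG1000_4, mul_div_cancel₀ _ (by norm_num)]
  exact h

/-- The coefficient `eGG1000_5` at `(v, d)`. -/
noncomputable def EGG1000_5 (v d : ℝ) : ℝ :=
  (eGG1000_5 (.var 1) (.var 2)).eval (scaled 0 v d) / 15625000000000000000000000000

theorem eGG1000_5_eval {V D : Ex} {x : ℕ → ℝ} {v d : ℝ} (hV : V.eval x = 5000000 * v)
    (hD : D.eval x = d) : (eGG1000_5 V D).eval x = 15625000000000000000000000000 * EGG1000_5 v d := by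
  have h := eval_args3 (R := .num 0) (x := x) (r := 0) (by simp [Ex.eval]) hV hD
    (eGG1000_5 (.var 1) (.var 2))
  rw [EGG1000_5, mul_div_cancel₀ _ (by norm_num)]
  exact h

/-- The coefficient `eGG1000_6` at `(v, d)`. -/
noncomputable def EGG1000_6 (v d : ℝ) : ℝ :=
  (eGG1000_6 (.var 1) (.var 2)).eval (scaled 0 v d) / 15625000000000000000000000000

theorem eGG1000_6_eval {V D : Ex} {x : ℕ → ℝ} {v d : ℝ} (hV : V.eval x = 5000000 * v)
    (hD : D.eval x = d) : (eGG1000_6 V D).eval x = 15625000000000000000000000000 * EGG1000_6 v d := by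
  have h := eval_args3 (R := .num 0) (x := x) (r := 0) (by simp [Ex.eval]) hV hD
    (eGG1000_6 (.var 1) (.var 2))
  rw [EGG1000_6, mul_div_cancel₀ _ (by norm_num)]
  exact h

/-- The coefficient `eGG2000_0` at `(v, d)`. -/
noncomputable def EGG2000_0 (v d : ℝ) : ℝ :=
  (eGG2000_0 (.var 1) (.var 2)).eval (scaled 0 v d) / 625000000000000000000

theorem eGG2000_0_eval {V D : Ex} {x : ℕ → ℝ} {v d : ℝ} (hV : V.eval x = 5000000 * v)
    (hD : D.eval x = d) : (eGG2000_0 V D).eval x = 625000000000000000000 * EGG2000_0 v d := by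
  have h := eval_args3 (R := .num 0) (x := x) (r := 0) (by simp [Ex.eval]) hV hD
    (eGG2000_0 (.var 1) (.var 2))
  rw [EGG2000_0, mul_div_cancel₀ _ (by norm_num)]
  exact h

/-- The coefficient `eGG2000_1` at `(v, d)`. -/
noncomputable def EGG2000_1 (v d : ℝ) : ℝ :=
  (eGG2000_1 (.var 1) (.var 2)).eval (scaled 0 v d) / 500000000000000000000

theorem eGG2000_1_eval {V D : Ex} {x : ℕ → ℝ} {v d : ℝ} (hV : V.eval x = 5000000 * v)
    (hD : D.eval x = d) : (eGG2000_1 V D).eval x = 500000000000000000000 * EGG2000_1 v d := by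
  have h := eval_args3 (R := .num 0) (x := x) (r := 0) (by simp [Ex.eval]) hV hD
    (eGG2000_1 (.var 1) (.var 2))
  rw [EGG2000_1, mul_div_cancel₀ _ (by norm_num)]
  exact h

/-- The coefficient `eGG2000_2` at `(v, d)`. -/
noncomputable def EGG2000_2 (v d : ℝ) : ℝ :=
  (eGG2000_2 (.var 1) (.var 2)).eval (scaled 0 v d) / 250000000000000000000

theorem eGG2000_2_eval {V D : Ex} {x : ℕ → ℝ} {v d : ℝ} (hV : V.eval x = 5000000 * v)
    (hD : D.eval x = d) : (eGG2000_2 V D).eval x = 250000000000000000000 * EGG2000_2 v d := by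
  have h := eval_args3 (R := .num 0) (x := x) (r := 0) (by simp [Ex.eval]) hV hD
    (eGG2000_2 (.var 1) (.var 2))
  rw [EGG2000_2, mul_div_cancel₀ _ (by norm_num)]
  exact h

/-- The coefficient `eGG2000_3` at `(v, d)`. -/
noncomputable def EGG2000_3 (v d : ℝ) : ℝ :=
  (eGG2000_3 (.var 1) (.var 2)).eval (scaled 0 v d) / 250000000000000000000

theorem eGG2000_3_eval {V D : Ex} {x : ℕ → ℝ} {v d : ℝ} (hV : V.eval x = 5000000 * v)
    (hD : D.eval x = d) : (eGG2000_3 V D).eval x = 250000000000000000000 * EGG2000_3 v d := by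
  have h := eval_args3 (R := .num 0) (x := x) (r := 0) (by simp [Ex.eval]) hV hD
    (eGG2000_3 (.var 1) (.var 2))
  rw [EGG2000_3, mul_div_cancel₀ _ (by norm_num)]
  exact h

/-- The coefficient `eGG2000_4` at `(v, d)`. -/
noncomputable def EGG2000_4 (v d : ℝ) : ℝ :=
  (eGG2000_4 (.var 1) (.var 2)).eval (scaled 0 v d) / 250000000000000000000

theorem eGG2000_4_eval {V D : Ex} {x : ℕ → ℝ} {v d : ℝ} (hV : V.eval x = 5000000 * v)
    (hD : D.eval x = d) : (eGG2000_4 V D).eval x = 250000000000000000000 * EGG2000_4 v d := by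
  have h := eval_args3 (R := .num 0) (x := x) (r := 0) (by simp [Ex.eval]) hV hD
    (eGG2000_4 (.var 1) (.var 2))
  rw [EGG2000_4, mul_div_cancel₀ _ (by norm_num)]
  exact h

/-- The coefficient `eGG2000_5` at `(v, d)`. -/
noncomputable def EGG2000_5 (v d : ℝ) : ℝ :=
  (eGG2000_5 (.var 1) (.var 2)).eval (scaled 0 v d) / 2500000000000000000000

theorem eGG2000_5_eval {V D : Ex} {x : ℕ → ℝ} {v d : ℝ} (hV : V.eval x = 5000000 * v)
    (hD : D.eval x = d) : (eGG2000_5 V D).eval x = 2500000000000000000000 * EGG2000_5 v d := by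
  have h := eval_args3 (R := .num 0) (x := x) (r := 0) (by simp [Ex.eval]) hV hD
    (eGG2000_5 (.var 1) (.var 2))
  rw [EGG2000_5, mul_div_cancel₀ _ (by norm_num)]
  exact h

/-- The value of `AGG0000` in the variable `r`. -/
noncomputable def AGG0000 (r v d : ℝ) : ℝ := EGG0000_0 v d + EGG0000_1 v d * r + EGG0000_2 v d *
  r ^ 2 + EGG0000_3 v d * r ^ 3 + EGG0000_4 v d * r ^ 4 + EGG0000_5 v d * r ^ 5 + EGG0000_6 v d
  * r ^ 6 + EGG0000_7 v d * r ^ 7

theorem cGG0000_eval {R V D : Ex} {x : ℕ → ℝ} {r v d : ℝ} (hR : R.eval x = 2000 * r)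
    (hV : V.eval x = 5000000 * v) (hD : D.eval x = d) :
    (cGG0000 R V D).eval x = 6250000000000000000000000000000000000000000000000000000000000 * AGG0000 r v d := by
  simp only [cGG0000, AGG0000, Ex.eval, hR, eGG0000_0_eval hV hD, eGG0000_1_eval hV hD,
    eGG0000_2_eval hV hD, eGG0000_3_eval hV hD, eGG0000_4_eval hV hD, eGG0000_5_eval hV hD,
    eGG0000_6_eval hV hD, eGG0000_7_eval hV hD]
  push_cast
  ring

/-- Derivative 2 of `AGG0000` in the variable `r`. -/
noncomputable def BGG0000 (r v d : ℝ) : ℝ := 2 * EGG0000_2 v d + 6 * EGG0000_3 v d * r + 12 *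
  EGG0000_4 v d * r ^ 2 + 20 * EGG0000_5 v d * r ^ 3 + 30 * EGG0000_6 v d * r ^ 4 + 42 *
  EGG0000_7 v d * r ^ 5

theorem cGG0000_d2_eval {R V D : Ex} {x : ℕ → ℝ} {r v d : ℝ} (hR : R.eval x = 2000 * r)
    (hV : V.eval x = 5000000 * v) (hD : D.eval x = d) :
    (cGG0000_d2 R V D).eval x = 1562500000000000000000000000000000000000000000000000000 * BGG0000 r v d := by
  simp only [cGG0000_d2, BGG0000, Ex.eval, hR, eGG0000_2_eval hV hD, eGG0000_3_eval hV hD,
    eGG0000_4_eval hV hD, eGG0000_5_eval hV hD, eGG0000_6_eval hV hD, eGG0000_7_eval hV hD]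
  push_cast
  ring

/-- The value of `AGG1000` in the variable `r`. -/
noncomputable def AGG1000 (r v d : ℝ) : ℝ := EGG1000_0 v d + EGG1000_1 v d * r + EGG1000_2 v d *
  r ^ 2 + EGG1000_3 v d * r ^ 3 + EGG1000_4 v d * r ^ 4 + EGG1000_5 v d * r ^ 5 + EGG1000_6 v d
  * r ^ 6

theorem cGG1000_eval {R V D : Ex} {x : ℕ → ℝ} {r v d : ℝ} (hR : R.eval x = 2000 * r)
    (hV : V.eval x = 5000000 * v) (hD : D.eval x = d) :
    (cGG1000 R V D).eval x = 1000000000000000000000000000000000000000000000000 * AGG1000 r v d := by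
  simp only [cGG1000, AGG1000, Ex.eval, hR, eGG1000_0_eval hV hD, eGG1000_1_eval hV hD,
    eGG1000_2_eval hV hD, eGG1000_3_eval hV hD, eGG1000_4_eval hV hD, eGG1000_5_eval hV hD,
    eGG1000_6_eval hV hD]
  push_cast
  ring

/-- Derivative 2 of `AGG1000` in the variable `r`. -/
noncomputable def BGG1000 (r v d : ℝ) : ℝ := 2 * EGG1000_2 v d + 6 * EGG1000_3 v d * r + 12 *
  EGG1000_4 v d * r ^ 2 + 20 * EGG1000_5 v d * r ^ 3 + 30 * EGG1000_6 v d * r ^ 4

theorem cGG1000_d2_eval {R V D : Ex} {x : ℕ → ℝ} {r v d : ℝ} (hR : R.eval x = 2000 * r)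
    (hV : V.eval x = 5000000 * v) (hD : D.eval x = d) :
    (cGG1000_d2 R V D).eval x = 250000000000000000000000000000000000000000 * BGG1000 r v d := by
  simp only [cGG1000_d2, BGG1000, Ex.eval, hR, eGG1000_2_eval hV hD, eGG1000_3_eval hV hD,
    eGG1000_4_eval hV hD, eGG1000_5_eval hV hD, eGG1000_6_eval hV hD]
  push_cast
  ring

/-- The value of `AGG2000` in the variable `r`. -/
noncomputable def AGG2000 (r v d : ℝ) : ℝ := EGG2000_0 v d + EGG2000_1 v d * r + EGG2000_2 v d *
  r ^ 2 + EGG2000_3 v d * r ^ 3 + EGG2000_4 v d * r ^ 4 + EGG2000_5 v d * r ^ 5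

theorem cGG2000_eval {R V D : Ex} {x : ℕ → ℝ} {r v d : ℝ} (hR : R.eval x = 2000 * r)
    (hV : V.eval x = 5000000 * v) (hD : D.eval x = d) :
    (cGG2000 R V D).eval x = 80000000000000000000000000000000000000 * AGG2000 r v d := by
  simp only [cGG2000, AGG2000, Ex.eval, hR, eGG2000_0_eval hV hD, eGG2000_1_eval hV hD,
    eGG2000_2_eval hV hD, eGG2000_3_eval hV hD, eGG2000_4_eval hV hD, eGG2000_5_eval hV hD]
  push_cast
  ring

/-- Derivative 2 of `AGG2000` in the variable `r`. -/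
noncomputable def BGG2000 (r v d : ℝ) : ℝ := 2 * EGG2000_2 v d + 6 * EGG2000_3 v d * r + 12 *
  EGG2000_4 v d * r ^ 2 + 20 * EGG2000_5 v d * r ^ 3

theorem cGG2000_d2_eval {R V D : Ex} {x : ℕ → ℝ} {r v d : ℝ} (hR : R.eval x = 2000 * r)
    (hV : V.eval x = 5000000 * v) (hD : D.eval x = d) :
    (cGG2000_d2 R V D).eval x = 20000000000000000000000000000000 * BGG2000 r v d := by
  simp only [cGG2000_d2, BGG2000, Ex.eval, hR, eGG2000_2_eval hV hD, eGG2000_3_eval hV hD,
    eGG2000_4_eval hV hD, eGG2000_5_eval hV hD]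
  push_cast
  ring

/-- `GG` in the variables `(r, v, d, X)`. -/
noncomputable def rGG (r v d X : ℝ) : ℝ := AGG0000 r v d + AGG1000 r v d * X + AGG2000 r v d * X
  ^ 2

theorem qGG_eval {R V D XE : Ex} {x : ℕ → ℝ} {r v d X : ℝ} (hR : R.eval x = 2000 * r) (hV :
    V.eval x = 5000000 * v) (hD : D.eval x = d) (hX : XE.eval x = 100000 * X) : (qGG R V D
    XE).eval x = 6250000000000000000000000000000000000000000000000000000000000 * rGG r v d X :=
    by
  simp only [qGG, rGG, Ex.eval, cGG0000_eval hR hV hD, cGG1000_eval hR hV hD, cGG2000_eval hR hV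
    hD, hX]
  push_cast
  ring

/-- The coefficient `eEG0000_0` at `(v, d)`. -/
noncomputable def EEG0000_0 (v d : ℝ) : ℝ :=
  (eEG0000_0 (.var 1) (.var 2)).eval (scaled 0 v d) / 48828125000000000000000000000000

theorem eEG0000_0_eval {V D : Ex} {x : ℕ → ℝ} {v d : ℝ} (hV : V.eval x = 5000000 * v)
    (hD : D.eval x = d) : (eEG0000_0 V D).eval x = 48828125000000000000000000000000 * EEG0000_0 v d := by
  have h := eval_args3 (R := .num 0) (x := x) (r := 0) (by simp [Ex.eval]) hV hD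
    (eEG0000_0 (.var 1) (.var 2))
  rw [EEG0000_0, mul_div_cancel₀ _ (by norm_num)]
  exact h

/-- The coefficient `eEG0000_1` at `(v, d)`. -/
noncomputable def EEG0000_1 (v d : ℝ) : ℝ :=
  (eEG0000_1 (.var 1) (.var 2)).eval (scaled 0 v d) / 48828125000000000000000000000000

theorem eEG0000_1_eval {V D : Ex} {x : ℕ → ℝ} {v d : ℝ} (hV : V.eval x = 5000000 * v)
    (hD : D.eval x = d) : (eEG0000_1 V D).eval x = 48828125000000000000000000000000 * EEG0000_1 v d := by
  have h := eval_args3 (R := .num 0) (x := x) (r := 0) (by simp [Ex.eval]) hV hD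
    (eEG0000_1 (.var 1) (.var 2))
  rw [EEG0000_1, mul_div_cancel₀ _ (by norm_num)]
  exact h

/-- The coefficient `eEG0000_2` at `(v, d)`. -/
noncomputable def EEG0000_2 (v d : ℝ) : ℝ :=
  (eEG0000_2 (.var 1) (.var 2)).eval (scaled 0 v d) / 48828125000000000000000000000000

theorem eEG0000_2_eval {V D : Ex} {x : ℕ → ℝ} {v d : ℝ} (hV : V.eval x = 5000000 * v)
    (hD : D.eval x = d) : (eEG0000_2 V D).eval x = 48828125000000000000000000000000 * EEG0000_2 v d := by
  have h := eval_args3 (R := .num 0) (x := x) (r := 0) (by simp [Ex.eval]) hV hD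
    (eEG0000_2 (.var 1) (.var 2))
  rw [EEG0000_2, mul_div_cancel₀ _ (by norm_num)]
  exact h

/-- The coefficient `eEG0000_3` at `(v, d)`. -/
noncomputable def EEG0000_3 (v d : ℝ) : ℝ :=
  (eEG0000_3 (.var 1) (.var 2)).eval (scaled 0 v d) / 9765625000000000000000000000000

theorem eEG0000_3_eval {V D : Ex} {x : ℕ → ℝ} {v d : ℝ} (hV : V.eval x = 5000000 * v)
    (hD : D.eval x = d) : (eEG0000_3 V D).eval x = 9765625000000000000000000000000 * EEG0000_3 v d := by
  have h := eval_args3 (R := .num 0) (x := x) (r := 0) (by simp [Ex.eval]) hV hD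
    (eEG0000_3 (.var 1) (.var 2))
  rw [EEG0000_3, mul_div_cancel₀ _ (by norm_num)]
  exact h

/-- The coefficient `eEG0000_4` at `(v, d)`. -/
noncomputable def EEG0000_4 (v d : ℝ) : ℝ :=
  (eEG0000_4 (.var 1) (.var 2)).eval (scaled 0 v d) / 9765625000000000000000000000000

theorem eEG0000_4_eval {V D : Ex} {x : ℕ → ℝ} {v d : ℝ} (hV : V.eval x = 5000000 * v)
    (hD : D.eval x = d) : (eEG0000_4 V D).eval x = 9765625000000000000000000000000 * EEG0000_4 v d := by
  have h := eval_args3 (R := .num 0) (x := x) (r := 0) (by simp [Ex.eval]) hV hD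
    (eEG0000_4 (.var 1) (.var 2))
  rw [EEG0000_4, mul_div_cancel₀ _ (by norm_num)]
  exact h

/-- The coefficient `eEG0000_5` at `(v, d)`. -/
noncomputable def EEG0000_5 (v d : ℝ) : ℝ :=
  (eEG0000_5 (.var 1) (.var 2)).eval (scaled 0 v d) / 48828125000000000000000000000000

theorem eEG0000_5_eval {V D : Ex} {x : ℕ → ℝ} {v d : ℝ} (hV : V.eval x = 5000000 * v)
    (hD : D.eval x = d) : (eEG0000_5 V D).eval x = 48828125000000000000000000000000 * EEG0000_5 v d := by
  have h := eval_args3 (R := .num 0) (x := x) (r := 0) (by simp [Ex.eval]) hV hD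
    (eEG0000_5 (.var 1) (.var 2))
  rw [EEG0000_5, mul_div_cancel₀ _ (by norm_num)]
  exact h

/-- The coefficient `eEG0000_6` at `(v, d)`. -/
noncomputable def EEG0000_6 (v d : ℝ) : ℝ :=
  (eEG0000_6 (.var 1) (.var 2)).eval (scaled 0 v d) / 48828125000000000000000000000000

theorem eEG0000_6_eval {V D : Ex} {x : ℕ → ℝ} {v d : ℝ} (hV : V.eval x = 5000000 * v)
    (hD : D.eval x = d) : (eEG0000_6 V D).eval x = 48828125000000000000000000000000 * EEG0000_6 v d := by
  have h := eval_args3 (R := .num 0) (x := x) (r := 0) (by simp [Ex.eval]) hV hD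
    (eEG0000_6 (.var 1) (.var 2))
  rw [EEG0000_6, mul_div_cancel₀ _ (by norm_num)]
  exact h

/-- The coefficient `eEG0000_7` at `(v, d)`. -/
noncomputable def EEG0000_7 (v d : ℝ) : ℝ :=
  (eEG0000_7 (.var 1) (.var 2)).eval (scaled 0 v d) / 48828125000000000000000000000000

theorem eEG0000_7_eval {V D : Ex} {x : ℕ → ℝ} {v d : ℝ} (hV : V.eval x = 5000000 * v)
    (hD : D.eval x = d) : (eEG0000_7 V D).eval x = 48828125000000000000000000000000 * EEG0000_7 v d := by
  have h := eval_args3 (R := .num 0) (x := x) (r := 0) (by simp [Ex.eval]) hV hD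
    (eEG0000_7 (.var 1) (.var 2))
  rw [EEG0000_7, mul_div_cancel₀ _ (by norm_num)]
  exact h

/-- The coefficient `eEG0100_0` at `(v, d)`. -/
noncomputable def EEG0100_0 (v d : ℝ) : ℝ :=
  (eEG0100_0 (.var 1) (.var 2)).eval (scaled 0 v d) / 390625000000000000000000

theorem eEG0100_0_eval {V D : Ex} {x : ℕ → ℝ} {v d : ℝ} (hV : V.eval x = 5000000 * v)
    (hD : D.eval x = d) : (eEG0100_0 V D).eval x = 390625000000000000000000 * EEG0100_0 v d := by
  have h := eval_args3 (R := .num 0) (x := x) (r := 0) (by simp [Ex.eval]) hV hD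
    (eEG0100_0 (.var 1) (.var 2))
  rw [EEG0100_0, mul_div_cancel₀ _ (by norm_num)]
  exact h

/-- The coefficient `eEG0100_1` at `(v, d)`. -/
noncomputable def EEG0100_1 (v d : ℝ) : ℝ :=
  (eEG0100_1 (.var 1) (.var 2)).eval (scaled 0 v d) / 78125000000000000000000

theorem eEG0100_1_eval {V D : Ex} {x : ℕ → ℝ} {v d : ℝ} (hV : V.eval x = 5000000 * v)
    (hD : D.eval x = d) : (eEG0100_1 V D).eval x = 78125000000000000000000 * EEG0100_1 v d := by
  have h := eval_args3 (R := .num 0) (x := x) (r := 0) (by simp [Ex.eval]) hV hD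
    (eEG0100_1 (.var 1) (.var 2))
  rw [EEG0100_1, mul_div_cancel₀ _ (by norm_num)]
  exact h

/-- The coefficient `eEG0100_2` at `(v, d)`. -/
noncomputable def EEG0100_2 (v d : ℝ) : ℝ :=
  (eEG0100_2 (.var 1) (.var 2)).eval (scaled 0 v d) / 78125000000000000000000

theorem eEG0100_2_eval {V D : Ex} {x : ℕ → ℝ} {v d : ℝ} (hV : V.eval x = 5000000 * v)
    (hD : D.eval x = d) : (eEG0100_2 V D).eval x = 78125000000000000000000 * EEG0100_2 v d := by
  have h := eval_args3 (R := .num 0) (x := x) (r := 0) (by simp [Ex.eval]) hV hD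
    (eEG0100_2 (.var 1) (.var 2))
  rw [EEG0100_2, mul_div_cancel₀ _ (by norm_num)]
  exact h

/-- The coefficient `eEG0100_3` at `(v, d)`. -/
noncomputable def EEG0100_3 (v d : ℝ) : ℝ :=
  (eEG0100_3 (.var 1) (.var 2)).eval (scaled 0 v d) / 78125000000000000000000

theorem eEG0100_3_eval {V D : Ex} {x : ℕ → ℝ} {v d : ℝ} (hV : V.eval x = 5000000 * v)
    (hD : D.eval x = d) : (eEG0100_3 V D).eval x = 78125000000000000000000 * EEG0100_3 v d := by
  have h := eval_args3 (R := .num 0) (x := x) (r := 0) (by simp [Ex.eval]) hV hD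
    (eEG0100_3 (.var 1) (.var 2))
  rw [EEG0100_3, mul_div_cancel₀ _ (by norm_num)]
  exact h

/-- The coefficient `eEG0100_4` at `(v, d)`. -/
noncomputable def EEG0100_4 (v d : ℝ) : ℝ :=
  (eEG0100_4 (.var 1) (.var 2)).eval (scaled 0 v d) / 78125000000000000000000

theorem eEG0100_4_eval {V D : Ex} {x : ℕ → ℝ} {v d : ℝ} (hV : V.eval x = 5000000 * v)
    (hD : D.eval x = d) : (eEG0100_4 V D).eval x = 78125000000000000000000 * EEG0100_4 v d := by
  have h := eval_args3 (R := .num 0) (x := x) (r := 0) (by simp [Ex.eval]) hV hD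
    (eEG0100_4 (.var 1) (.var 2))
  rw [EEG0100_4, mul_div_cancel₀ _ (by norm_num)]
  exact h

/-- The coefficient `eEG0100_5` at `(v, d)`. -/
noncomputable def EEG0100_5 (v d : ℝ) : ℝ :=
  (eEG0100_5 (.var 1) (.var 2)).eval (scaled 0 v d) / 390625000000000000000000

theorem eEG0100_5_eval {V D : Ex} {x : ℕ → ℝ} {v d : ℝ} (hV : V.eval x = 5000000 * v)
    (hD : D.eval x = d) : (eEG0100_5 V D).eval x = 390625000000000000000000 * EEG0100_5 v d := by
  have h := eval_args3 (R := .num 0) (x := x) (r := 0) (by simp [Ex.eval]) hV hD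
    (eEG0100_5 (.var 1) (.var 2))
  rw [EEG0100_5, mul_div_cancel₀ _ (by norm_num)]
  exact h

/-- The coefficient `eEG0100_6` at `(v, d)`. -/
noncomputable def EEG0100_6 (v d : ℝ) : ℝ :=
  (eEG0100_6 (.var 1) (.var 2)).eval (scaled 0 v d) / 15625000000000000

theorem eEG0100_6_eval {V D : Ex} {x : ℕ → ℝ} {v d : ℝ} (hV : V.eval x = 5000000 * v)
    (hD : D.eval x = d) : (eEG0100_6 V D).eval x = 15625000000000000 * EEG0100_6 v d := by
  have h := eval_args3 (R := .num 0) (x := x) (r := 0) (by simp [Ex.eval]) hV hD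
    (eEG0100_6 (.var 1) (.var 2))
  rw [EEG0100_6, mul_div_cancel₀ _ (by norm_num)]
  exact h

/-- The coefficient `eEG1000_0` at `(v, d)`. -/
noncomputable def EEG1000_0 (v d : ℝ) : ℝ :=
  (eEG1000_0 (.var 1) (.var 2)).eval (scaled 0 v d) / 1953125000000000000000000

theorem eEG1000_0_eval {V D : Ex} {x : ℕ → ℝ} {v d : ℝ} (hV : V.eval x = 5000000 * v)
    (hD : D.eval x = d) : (eEG1000_0 V D).eval x = 1953125000000000000000000 * EEG1000_0 v d := by
  have h := eval_args3 (R := .num 0) (x := x) (r := 0) (by simp [Ex.eval]) hV hD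
    (eEG1000_0 (.var 1) (.var 2))
  rw [EEG1000_0, mul_div_cancel₀ _ (by norm_num)]
  exact h

/-- The coefficient `eEG1000_1` at `(v, d)`. -/
noncomputable def EEG1000_1 (v d : ℝ) : ℝ :=
  (eEG1000_1 (.var 1) (.var 2)).eval (scaled 0 v d) / 1953125000000000000000000

theorem eEG1000_1_eval {V D : Ex} {x : ℕ → ℝ} {v d : ℝ} (hV : V.eval x = 5000000 * v)
    (hD : D.eval x = d) : (eEG1000_1 V D).eval x = 1953125000000000000000000 * EEG1000_1 v d := by
  have h := eval_args3 (R := .num 0) (x := x) (r := 0) (by simp [Ex.eval]) hV hD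
    (eEG1000_1 (.var 1) (.var 2))
  rw [EEG1000_1, mul_div_cancel₀ _ (by norm_num)]
  exact h

/-- The coefficient `eEG1000_2` at `(v, d)`. -/
noncomputable def EEG1000_2 (v d : ℝ) : ℝ :=
  (eEG1000_2 (.var 1) (.var 2)).eval (scaled 0 v d) / 781250000000000000000000

theorem eEG1000_2_eval {V D : Ex} {x : ℕ → ℝ} {v d : ℝ} (hV : V.eval x = 5000000 * v)
    (hD : D.eval x = d) : (eEG1000_2 V D).eval x = 781250000000000000000000 * EEG1000_2 v d := by
  have h := eval_args3 (R := .num 0) (x := x) (r := 0) (by simp [Ex.eval]) hV hD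
    (eEG1000_2 (.var 1) (.var 2))
  rw [EEG1000_2, mul_div_cancel₀ _ (by norm_num)]
  exact h

/-- The coefficient `eEG1000_3` at `(v, d)`. -/
noncomputable def EEG1000_3 (v d : ℝ) : ℝ :=
  (eEG1000_3 (.var 1) (.var 2)).eval (scaled 0 v d) / 781250000000000000000000

theorem eEG1000_3_eval {V D : Ex} {x : ℕ → ℝ} {v d : ℝ} (hV : V.eval x = 5000000 * v)
    (hD : D.eval x = d) : (eEG1000_3 V D).eval x = 781250000000000000000000 * EEG1000_3 v d := by
  have h := eval_args3 (R := .num 0) (x := x) (r := 0) (by simp [Ex.eval]) hV hD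
    (eEG1000_3 (.var 1) (.var 2))
  rw [EEG1000_3, mul_div_cancel₀ _ (by norm_num)]
  exact h

/-- The coefficient `eEG1000_4` at `(v, d)`. -/
noncomputable def EEG1000_4 (v d : ℝ) : ℝ :=
  (eEG1000_4 (.var 1) (.var 2)).eval (scaled 0 v d) / 781250000000000000000000

theorem eEG1000_4_eval {V D : Ex} {x : ℕ → ℝ} {v d : ℝ} (hV : V.eval x = 5000000 * v)
    (hD : D.eval x = d) : (eEG1000_4 V D).eval x = 781250000000000000000000 * EEG1000_4 v d := by
  have h := eval_args3 (R := .num 0) (x := x) (r := 0) (by simp [Ex.eval]) hV hD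
    (eEG1000_4 (.var 1) (.var 2))
  rw [EEG1000_4, mul_div_cancel₀ _ (by norm_num)]
  exact h

/-- The coefficient `eEG1000_5` at `(v, d)`. -/
noncomputable def EEG1000_5 (v d : ℝ) : ℝ :=
  (eEG1000_5 (.var 1) (.var 2)).eval (scaled 0 v d) / 3906250000000000000000000

theorem eEG1000_5_eval {V D : Ex} {x : ℕ → ℝ} {v d : ℝ} (hV : V.eval x = 5000000 * v)
    (hD : D.eval x = d) : (eEG1000_5 V D).eval x = 3906250000000000000000000 * EEG1000_5 v d := by
  have h := eval_args3 (R := .num 0) (x := x) (r := 0) (by simp [Ex.eval]) hV hD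
    (eEG1000_5 (.var 1) (.var 2))
  rw [EEG1000_5, mul_div_cancel₀ _ (by norm_num)]
  exact h

/-- The coefficient `eEG1000_6` at `(v, d)`. -/
noncomputable def EEG1000_6 (v d : ℝ) : ℝ :=
  (eEG1000_6 (.var 1) (.var 2)).eval (scaled 0 v d) / 1953125000000000000000000

theorem eEG1000_6_eval {V D : Ex} {x : ℕ → ℝ} {v d : ℝ} (hV : V.eval x = 5000000 * v)
    (hD : D.eval x = d) : (eEG1000_6 V D).eval x = 1953125000000000000000000 * EEG1000_6 v d := by
  have h := eval_args3 (R := .num 0) (x := x) (r := 0) (by simp [Ex.eval]) hV hD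
    (eEG1000_6 (.var 1) (.var 2))
  rw [EEG1000_6, mul_div_cancel₀ _ (by norm_num)]
  exact h

/-- The coefficient `eEG1100_0` at `(v, d)`. -/
noncomputable def EEG1100_0 (v d : ℝ) : ℝ :=
  (eEG1100_0 (.var 1) (.var 2)).eval (scaled 0 v d) / 125000000

theorem eEG1100_0_eval {V D : Ex} {x : ℕ → ℝ} {v d : ℝ} (hV : V.eval x = 5000000 * v)
    (hD : D.eval x = d) : (eEG1100_0 V D).eval x = 125000000 * EEG1100_0 v d := by
  have h := eval_args3 (R := .num 0) (x := x) (r := 0) (by simp [Ex.eval]) hV hD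
    (eEG1100_0 (.var 1) (.var 2))
  rw [EEG1100_0, mul_div_cancel₀ _ (by norm_num)]
  exact h

/-- The coefficient `eEG1100_1` at `(v, d)`. -/
noncomputable def EEG1100_1 (v d : ℝ) : ℝ :=
  (eEG1100_1 (.var 1) (.var 2)).eval (scaled 0 v d) / 125000000

theorem eEG1100_1_eval {V D : Ex} {x : ℕ → ℝ} {v d : ℝ} (hV : V.eval x = 5000000 * v)
    (hD : D.eval x = d) : (eEG1100_1 V D).eval x = 125000000 * EEG1100_1 v d := by
  have h := eval_args3 (R := .num 0) (x := x) (r := 0) (by simp [Ex.eval]) hV hD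
    (eEG1100_1 (.var 1) (.var 2))
  rw [EEG1100_1, mul_div_cancel₀ _ (by norm_num)]
  exact h

/-- The coefficient `eEG1100_2` at `(v, d)`. -/
noncomputable def EEG1100_2 (v d : ℝ) : ℝ :=
  (eEG1100_2 (.var 1) (.var 2)).eval (scaled 0 v d) / 125000000

theorem eEG1100_2_eval {V D : Ex} {x : ℕ → ℝ} {v d : ℝ} (hV : V.eval x = 5000000 * v)
    (hD : D.eval x = d) : (eEG1100_2 V D).eval x = 125000000 * EEG1100_2 v d := by
  have h := eval_args3 (R := .num 0) (x := x) (r := 0) (by simp [Ex.eval]) hV hD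
    (eEG1100_2 (.var 1) (.var 2))
  rw [EEG1100_2, mul_div_cancel₀ _ (by norm_num)]
  exact h

/-- The coefficient `eEG1100_3` at `(v, d)`. -/
noncomputable def EEG1100_3 (v d : ℝ) : ℝ :=
  (eEG1100_3 (.var 1) (.var 2)).eval (scaled 0 v d) / 125000000

theorem eEG1100_3_eval {V D : Ex} {x : ℕ → ℝ} {v d : ℝ} (hV : V.eval x = 5000000 * v)
    (hD : D.eval x = d) : (eEG1100_3 V D).eval x = 125000000 * EEG1100_3 v d := by
  have h := eval_args3 (R := .num 0) (x := x) (r := 0) (by simp [Ex.eval]) hV hD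
    (eEG1100_3 (.var 1) (.var 2))
  rw [EEG1100_3, mul_div_cancel₀ _ (by norm_num)]
  exact h

/-- The coefficient `eEG1100_4` at `(v, d)`. -/
noncomputable def EEG1100_4 (v d : ℝ) : ℝ :=
  (eEG1100_4 (.var 1) (.var 2)).eval (scaled 0 v d) / 125000000

theorem eEG1100_4_eval {V D : Ex} {x : ℕ → ℝ} {v d : ℝ} (hV : V.eval x = 5000000 * v)
    (hD : D.eval x = d) : (eEG1100_4 V D).eval x = 125000000 * EEG1100_4 v d := by
  have h := eval_args3 (R := .num 0) (x := x) (r := 0) (by simp [Ex.eval]) hV hD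
    (eEG1100_4 (.var 1) (.var 2))
  rw [EEG1100_4, mul_div_cancel₀ _ (by norm_num)]
  exact h

/-- The coefficient `eEG2000_0` at `(v, d)`. -/
noncomputable def EEG2000_0 (v d : ℝ) : ℝ :=
  (eEG2000_0 (.var 1) (.var 2)).eval (scaled 0 v d) / 3125000000000000

theorem eEG2000_0_eval {V D : Ex} {x : ℕ → ℝ} {v d : ℝ} (hV : V.eval x = 5000000 * v)
    (hD : D.eval x = d) : (eEG2000_0 V D).eval x = 3125000000000000 * EEG2000_0 v d := by
  have h := eval_args3 (R := .num 0) (x := x) (r := 0) (by simp [Ex.eval]) hV hD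
    (eEG2000_0 (.var 1) (.var 2))
  rw [EEG2000_0, mul_div_cancel₀ _ (by norm_num)]
  exact h

/-- The coefficient `eEG2000_1` at `(v, d)`. -/
noncomputable def EEG2000_1 (v d : ℝ) : ℝ :=
  (eEG2000_1 (.var 1) (.var 2)).eval (scaled 0 v d) / 1250000000000000

theorem eEG2000_1_eval {V D : Ex} {x : ℕ → ℝ} {v d : ℝ} (hV : V.eval x = 5000000 * v)
    (hD : D.eval x = d) : (eEG2000_1 V D).eval x = 1250000000000000 * EEG2000_1 v d := by
  have h := eval_args3 (R := .num 0) (x := x) (r := 0) (by simp [Ex.eval]) hV hD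
    (eEG2000_1 (.var 1) (.var 2))
  rw [EEG2000_1, mul_div_cancel₀ _ (by norm_num)]
  exact h

/-- The coefficient `eEG2000_2` at `(v, d)`. -/
noncomputable def EEG2000_2 (v d : ℝ) : ℝ :=
  (eEG2000_2 (.var 1) (.var 2)).eval (scaled 0 v d) / 625000000000000

theorem eEG2000_2_eval {V D : Ex} {x : ℕ → ℝ} {v d : ℝ} (hV : V.eval x = 5000000 * v)
    (hD : D.eval x = d) : (eEG2000_2 V D).eval x = 625000000000000 * EEG2000_2 v d := by
  have h := eval_args3 (R := .num 0) (x := x) (r := 0) (by simp [Ex.eval]) hV hD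
    (eEG2000_2 (.var 1) (.var 2))
  rw [EEG2000_2, mul_div_cancel₀ _ (by norm_num)]
  exact h

/-- The coefficient `eEG2000_3` at `(v, d)`. -/
noncomputable def EEG2000_3 (v d : ℝ) : ℝ :=
  (eEG2000_3 (.var 1) (.var 2)).eval (scaled 0 v d) / 625000000000000

theorem eEG2000_3_eval {V D : Ex} {x : ℕ → ℝ} {v d : ℝ} (hV : V.eval x = 5000000 * v)
    (hD : D.eval x = d) : (eEG2000_3 V D).eval x = 625000000000000 * EEG2000_3 v d := by
  have h := eval_args3 (R := .num 0) (x := x) (r := 0) (by simp [Ex.eval]) hV hD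
    (eEG2000_3 (.var 1) (.var 2))
  rw [EEG2000_3, mul_div_cancel₀ _ (by norm_num)]
  exact h

/-- The coefficient `eEG2000_4` at `(v, d)`. -/
noncomputable def EEG2000_4 (v d : ℝ) : ℝ :=
  (eEG2000_4 (.var 1) (.var 2)).eval (scaled 0 v d) / 625000000000000

theorem eEG2000_4_eval {V D : Ex} {x : ℕ → ℝ} {v d : ℝ} (hV : V.eval x = 5000000 * v)
    (hD : D.eval x = d) : (eEG2000_4 V D).eval x = 625000000000000 * EEG2000_4 v d := by
  have h := eval_args3 (R := .num 0) (x := x) (r := 0) (by simp [Ex.eval]) hV hD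
    (eEG2000_4 (.var 1) (.var 2))
  rw [EEG2000_4, mul_div_cancel₀ _ (by norm_num)]
  exact h

/-- The coefficient `eEG2000_5` at `(v, d)`. -/
noncomputable def EEG2000_5 (v d : ℝ) : ℝ :=
  (eEG2000_5 (.var 1) (.var 2)).eval (scaled 0 v d) / 6250000000000000

theorem eEG2000_5_eval {V D : Ex} {x : ℕ → ℝ} {v d : ℝ} (hV : V.eval x = 5000000 * v)
    (hD : D.eval x = d) : (eEG2000_5 V D).eval x = 6250000000000000 * EEG2000_5 v d := by
  have h := eval_args3 (R := .num 0) (x := x) (r := 0) (by simp [Ex.eval]) hV hD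
    (eEG2000_5 (.var 1) (.var 2))
  rw [EEG2000_5, mul_div_cancel₀ _ (by norm_num)]
  exact h

/-- The value of `AEG0000` in the variable `r`. -/
noncomputable def AEG0000 (r v d : ℝ) : ℝ := EEG0000_0 v d + EEG0000_1 v d * r + EEG0000_2 v d *
  r ^ 2 + EEG0000_3 v d * r ^ 3 + EEG0000_4 v d * r ^ 4 + EEG0000_5 v d * r ^ 5 + EEG0000_6 v d
  * r ^ 6 + EEG0000_7 v d * r ^ 7

theorem cEG0000_eval {R V D : Ex} {x : ℕ → ℝ} {r v d : ℝ} (hR : R.eval x = 2000 * r)
    (hV : V.eval x = 5000000 * v) (hD : D.eval x = d) :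
    (cEG0000 R V D).eval x = 6250000000000000000000000000000000000000000000000000000 * AEG0000 r v d := by
  simp only [cEG0000, AEG0000, Ex.eval, hR, eEG0000_0_eval hV hD, eEG0000_1_eval hV hD,
    eEG0000_2_eval hV hD, eEG0000_3_eval hV hD, eEG0000_4_eval hV hD, eEG0000_5_eval hV hD,
    eEG0000_6_eval hV hD, eEG0000_7_eval hV hD]
  push_cast
  ring

/-- Derivative 1 of `AEG0000` in the variable `r`. -/
noncomputable def BEG0000 (r v d : ℝ) : ℝ := EEG0000_1 v d + 2 * EEG0000_2 v d * r + 3 *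
  EEG0000_3 v d * r ^ 2 + 4 * EEG0000_4 v d * r ^ 3 + 5 * EEG0000_5 v d * r ^ 4 + 6 * EEG0000_6
  v d * r ^ 5 + 7 * EEG0000_7 v d * r ^ 6

theorem cEG0000_d1_eval {R V D : Ex} {x : ℕ → ℝ} {r v d : ℝ} (hR : R.eval x = 2000 * r)
    (hV : V.eval x = 5000000 * v) (hD : D.eval x = d) :
    (cEG0000_d1 R V D).eval x = 3125000000000000000000000000000000000000000000000000 * BEG0000 r v d := by
  simp only [cEG0000_d1, BEG0000, Ex.eval, hR, eEG0000_1_eval hV hD, eEG0000_2_eval hV hD,
    eEG0000_3_eval hV hD, eEG0000_4_eval hV hD, eEG0000_5_eval hV hD, eEG0000_6_eval hV hD,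
    eEG0000_7_eval hV hD]
  push_cast
  ring

/-- The value of `AEG0100` in the variable `r`. -/
noncomputable def AEG0100 (r v d : ℝ) : ℝ := EEG0100_0 v d + EEG0100_1 v d * r + EEG0100_2 v d *
  r ^ 2 + EEG0100_3 v d * r ^ 3 + EEG0100_4 v d * r ^ 4 + EEG0100_5 v d * r ^ 5 + EEG0100_6 v d
  * r ^ 6

theorem cEG0100_eval {R V D : Ex} {x : ℕ → ℝ} {r v d : ℝ} (hR : R.eval x = 2000 * r)
    (hV : V.eval x = 5000000 * v) (hD : D.eval x = d) :
    (cEG0100 R V D).eval x = 12500000000000000000000000000000000000000 * AEG0100 r v d := by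
  simp only [cEG0100, AEG0100, Ex.eval, hR, eEG0100_0_eval hV hD, eEG0100_1_eval hV hD,
    eEG0100_2_eval hV hD, eEG0100_3_eval hV hD, eEG0100_4_eval hV hD, eEG0100_5_eval hV hD,
    eEG0100_6_eval hV hD]
  push_cast
  ring

/-- Derivative 1 of `AEG0100` in the variable `r`. -/
noncomputable def BEG0100 (r v d : ℝ) : ℝ := EEG0100_1 v d + 2 * EEG0100_2 v d * r + 3 *
  EEG0100_3 v d * r ^ 2 + 4 * EEG0100_4 v d * r ^ 3 + 5 * EEG0100_5 v d * r ^ 4 + 6 * EEG0100_6
  v d * r ^ 5

theorem cEG0100_d1_eval {R V D : Ex} {x : ℕ → ℝ} {r v d : ℝ} (hR : R.eval x = 2000 * r)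
    (hV : V.eval x = 5000000 * v) (hD : D.eval x = d) :
    (cEG0100_d1 R V D).eval x = 6250000000000000000000000000000000000 * BEG0100 r v d := by
  simp only [cEG0100_d1, BEG0100, Ex.eval, hR, eEG0100_1_eval hV hD, eEG0100_2_eval hV hD,
    eEG0100_3_eval hV hD, eEG0100_4_eval hV hD, eEG0100_5_eval hV hD, eEG0100_6_eval hV hD]
  push_cast
  ring

/-- The value of `AEG1000` in the variable `r`. -/
noncomputable def AEG1000 (r v d : ℝ) : ℝ := EEG1000_0 v d + EEG1000_1 v d * r + EEG1000_2 v d *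
  r ^ 2 + EEG1000_3 v d * r ^ 3 + EEG1000_4 v d * r ^ 4 + EEG1000_5 v d * r ^ 5 + EEG1000_6 v d
  * r ^ 6

theorem cEG1000_eval {R V D : Ex} {x : ℕ → ℝ} {r v d : ℝ} (hR : R.eval x = 2000 * r)
    (hV : V.eval x = 5000000 * v) (hD : D.eval x = d) :
    (cEG1000 R V D).eval x = 125000000000000000000000000000000000000000000 * AEG1000 r v d := by
  simp only [cEG1000, AEG1000, Ex.eval, hR, eEG1000_0_eval hV hD, eEG1000_1_eval hV hD,
    eEG1000_2_eval hV hD, eEG1000_3_eval hV hD, eEG1000_4_eval hV hD, eEG1000_5_eval hV hD,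
    eEG1000_6_eval hV hD]
  push_cast
  ring

/-- Derivative 1 of `AEG1000` in the variable `r`. -/
noncomputable def BEG1000 (r v d : ℝ) : ℝ := EEG1000_1 v d + 2 * EEG1000_2 v d * r + 3 *
  EEG1000_3 v d * r ^ 2 + 4 * EEG1000_4 v d * r ^ 3 + 5 * EEG1000_5 v d * r ^ 4 + 6 * EEG1000_6
  v d * r ^ 5

theorem cEG1000_d1_eval {R V D : Ex} {x : ℕ → ℝ} {r v d : ℝ} (hR : R.eval x = 2000 * r)
    (hV : V.eval x = 5000000 * v) (hD : D.eval x = d) :
    (cEG1000_d1 R V D).eval x = 62500000000000000000000000000000000000000 * BEG1000 r v d := by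
  simp only [cEG1000_d1, BEG1000, Ex.eval, hR, eEG1000_1_eval hV hD, eEG1000_2_eval hV hD,
    eEG1000_3_eval hV hD, eEG1000_4_eval hV hD, eEG1000_5_eval hV hD, eEG1000_6_eval hV hD]
  push_cast
  ring

/-- The value of `AEG1100` in the variable `r`. -/
noncomputable def AEG1100 (r v d : ℝ) : ℝ := EEG1100_0 v d + EEG1100_1 v d * r + EEG1100_2 v d *
  r ^ 2 + EEG1100_3 v d * r ^ 3 + EEG1100_4 v d * r ^ 4

theorem cEG1100_eval {R V D : Ex} {x : ℕ → ℝ} {r v d : ℝ} (hR : R.eval x = 2000 * r)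
    (hV : V.eval x = 5000000 * v) (hD : D.eval x = d) :
    (cEG1100 R V D).eval x = 2000000000000000000000 * AEG1100 r v d := by
  simp only [cEG1100, AEG1100, Ex.eval, hR, eEG1100_0_eval hV hD, eEG1100_1_eval hV hD,
    eEG1100_2_eval hV hD, eEG1100_3_eval hV hD, eEG1100_4_eval hV hD]
  push_cast
  ring

/-- Derivative 1 of `AEG1100` in the variable `r`. -/
noncomputable def BEG1100 (r v d : ℝ) : ℝ := EEG1100_1 v d + 2 * EEG1100_2 v d * r + 3 *
  EEG1100_3 v d * r ^ 2 + 4 * EEG1100_4 v d * r ^ 3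

theorem cEG1100_d1_eval {R V D : Ex} {x : ℕ → ℝ} {r v d : ℝ} (hR : R.eval x = 2000 * r)
    (hV : V.eval x = 5000000 * v) (hD : D.eval x = d) :
    (cEG1100_d1 R V D).eval x = 1000000000000000000 * BEG1100 r v d := by
  simp only [cEG1100_d1, BEG1100, Ex.eval, hR, eEG1100_1_eval hV hD, eEG1100_2_eval hV hD,
    eEG1100_3_eval hV hD, eEG1100_4_eval hV hD]
  push_cast
  ring

/-- The value of `AEG2000` in the variable `r`. -/
noncomputable def AEG2000 (r v d : ℝ) : ℝ := EEG2000_0 v d + EEG2000_1 v d * r + EEG2000_2 v d *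
  r ^ 2 + EEG2000_3 v d * r ^ 3 + EEG2000_4 v d * r ^ 4 + EEG2000_5 v d * r ^ 5

theorem cEG2000_eval {R V D : Ex} {x : ℕ → ℝ} {r v d : ℝ} (hR : R.eval x = 2000 * r)
    (hV : V.eval x = 5000000 * v) (hD : D.eval x = d) :
    (cEG2000 R V D).eval x = 200000000000000000000000000000000 * AEG2000 r v d := by
  simp only [cEG2000, AEG2000, Ex.eval, hR, eEG2000_0_eval hV hD, eEG2000_1_eval hV hD,
    eEG2000_2_eval hV hD, eEG2000_3_eval hV hD, eEG2000_4_eval hV hD, eEG2000_5_eval hV hD]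
  push_cast
  ring

/-- Derivative 1 of `AEG2000` in the variable `r`. -/
noncomputable def BEG2000 (r v d : ℝ) : ℝ := EEG2000_1 v d + 2 * EEG2000_2 v d * r + 3 *
  EEG2000_3 v d * r ^ 2 + 4 * EEG2000_4 v d * r ^ 3 + 5 * EEG2000_5 v d * r ^ 4

theorem cEG2000_d1_eval {R V D : Ex} {x : ℕ → ℝ} {r v d : ℝ} (hR : R.eval x = 2000 * r)
    (hV : V.eval x = 5000000 * v) (hD : D.eval x = d) :
    (cEG2000_d1 R V D).eval x = 100000000000000000000000000000 * BEG2000 r v d := by
  simp only [cEG2000_d1, BEG2000, Ex.eval, hR, eEG2000_1_eval hV hD, eEG2000_2_eval hV hD,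
    eEG2000_3_eval hV hD, eEG2000_4_eval hV hD, eEG2000_5_eval hV hD]
  push_cast
  ring

/-- `EG` in the variables `(r, v, d, X, Y)`. -/
noncomputable def rEG (r v d X Y : ℝ) : ℝ := AEG0000 r v d + AEG0100 r v d * Y + AEG1000 r v d *
  X + AEG1100 r v d * X * Y + AEG2000 r v d * X ^ 2

theorem qEG_eval {R V D XE YE : Ex} {x : ℕ → ℝ} {r v d X Y : ℝ} (hR : R.eval x = 2000 * r) (hV :
    V.eval x = 5000000 * v) (hD : D.eval x = d) (hX : XE.eval x = 100000 * X) (hY : YE.eval x =
    100000 * Y) : (qEG R V D XE YE).eval x =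
    6250000000000000000000000000000000000000000000000000000 * rEG r v d X Y := by
  simp only [qEG, rEG, Ex.eval, cEG0000_eval hR hV hD, cEG0100_eval hR hV hD, cEG1000_eval hR hV
    hD, cEG1100_eval hR hV hD, cEG2000_eval hR hV hD, hX, hY]
  push_cast
  ring

/-- The coefficient `eME0001_0` at `(v, d)`. -/
noncomputable def EME0001_0 (v d : ℝ) : ℝ :=
  (eME0001_0 (.var 1) (.var 2)).eval (scaled 0 v d) / 125000000000000000000

theorem eME0001_0_eval {V D : Ex} {x : ℕ → ℝ} {v d : ℝ} (hV : V.eval x = 5000000 * v)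
    (hD : D.eval x = d) : (eME0001_0 V D).eval x = 125000000000000000000 * EME0001_0 v d := by
  have h := eval_args3 (R := .num 0) (x := x) (r := 0) (by simp [Ex.eval]) hV hD
    (eME0001_0 (.var 1) (.var 2))
  rw [EME0001_0, mul_div_cancel₀ _ (by norm_num)]
  exact h

/-- The coefficient `eME0001_1` at `(v, d)`. -/
noncomputable def EME0001_1 (v d : ℝ) : ℝ :=
  (eME0001_1 (.var 1) (.var 2)).eval (scaled 0 v d) / 125000000000000000000

theorem eME0001_1_eval {V D : Ex} {x : ℕ → ℝ} {v d : ℝ} (hV : V.eval x = 5000000 * v)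
    (hD : D.eval x = d) : (eME0001_1 V D).eval x = 125000000000000000000 * EME0001_1 v d := by
  have h := eval_args3 (R := .num 0) (x := x) (r := 0) (by simp [Ex.eval]) hV hD
    (eME0001_1 (.var 1) (.var 2))
  rw [EME0001_1, mul_div_cancel₀ _ (by norm_num)]
  exact h

/-- The coefficient `eME0001_2` at `(v, d)`. -/
noncomputable def EME0001_2 (v d : ℝ) : ℝ :=
  (eME0001_2 (.var 1) (.var 2)).eval (scaled 0 v d) / 125000000000000000000

theorem eME0001_2_eval {V D : Ex} {x : ℕ → ℝ} {v d : ℝ} (hV : V.eval x = 5000000 * v)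
    (hD : D.eval x = d) : (eME0001_2 V D).eval x = 125000000000000000000 * EME0001_2 v d := by
  have h := eval_args3 (R := .num 0) (x := x) (r := 0) (by simp [Ex.eval]) hV hD
    (eME0001_2 (.var 1) (.var 2))
  rw [EME0001_2, mul_div_cancel₀ _ (by norm_num)]
  exact h

/-- The coefficient `eME0010_0` at `(v, d)`. -/
noncomputable def EME0010_0 (v d : ℝ) : ℝ :=
  (eME0010_0 (.var 1) (.var 2)).eval (scaled 0 v d) / 125000000000000

theorem eME0010_0_eval {V D : Ex} {x : ℕ → ℝ} {v d : ℝ} (hV : V.eval x = 5000000 * v)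
    (hD : D.eval x = d) : (eME0010_0 V D).eval x = 125000000000000 * EME0010_0 v d := by
  have h := eval_args3 (R := .num 0) (x := x) (r := 0) (by simp [Ex.eval]) hV hD
    (eME0010_0 (.var 1) (.var 2))
  rw [EME0010_0, mul_div_cancel₀ _ (by norm_num)]
  exact h

/-- The coefficient `eME0010_1` at `(v, d)`. -/
noncomputable def EME0010_1 (v d : ℝ) : ℝ :=
  (eME0010_1 (.var 1) (.var 2)).eval (scaled 0 v d) / 500000000000000

theorem eME0010_1_eval {V D : Ex} {x : ℕ → ℝ} {v d : ℝ} (hV : V.eval x = 5000000 * v)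
    (hD : D.eval x = d) : (eME0010_1 V D).eval x = 500000000000000 * EME0010_1 v d := by
  have h := eval_args3 (R := .num 0) (x := x) (r := 0) (by simp [Ex.eval]) hV hD
    (eME0010_1 (.var 1) (.var 2))
  rw [EME0010_1, mul_div_cancel₀ _ (by norm_num)]
  exact h

/-- The coefficient `eME0010_2` at `(v, d)`. -/
noncomputable def EME0010_2 (v d : ℝ) : ℝ :=
  (eME0010_2 (.var 1) (.var 2)).eval (scaled 0 v d) / 250000000000000

theorem eME0010_2_eval {V D : Ex} {x : ℕ → ℝ} {v d : ℝ} (hV : V.eval x = 5000000 * v)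
    (hD : D.eval x = d) : (eME0010_2 V D).eval x = 250000000000000 * EME0010_2 v d := by
  have h := eval_args3 (R := .num 0) (x := x) (r := 0) (by simp [Ex.eval]) hV hD
    (eME0010_2 (.var 1) (.var 2))
  rw [EME0010_2, mul_div_cancel₀ _ (by norm_num)]
  exact h

/-- The coefficient `eME0010_3` at `(v, d)`. -/
noncomputable def EME0010_3 (v d : ℝ) : ℝ :=
  (eME0010_3 (.var 1) (.var 2)).eval (scaled 0 v d) / 500000000000000

theorem eME0010_3_eval {V D : Ex} {x : ℕ → ℝ} {v d : ℝ} (hV : V.eval x = 5000000 * v)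
    (hD : D.eval x = d) : (eME0010_3 V D).eval x = 500000000000000 * EME0010_3 v d := by
  have h := eval_args3 (R := .num 0) (x := x) (r := 0) (by simp [Ex.eval]) hV hD
    (eME0010_3 (.var 1) (.var 2))
  rw [EME0010_3, mul_div_cancel₀ _ (by norm_num)]
  exact h

/-- The coefficient `eME0100_0` at `(v, d)`. -/
noncomputable def EME0100_0 (v d : ℝ) : ℝ :=
  (eME0100_0 (.var 1) (.var 2)).eval (scaled 0 v d) / 25000000000000

theorem eME0100_0_eval {V D : Ex} {x : ℕ → ℝ} {v d : ℝ} (hV : V.eval x = 5000000 * v)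
    (hD : D.eval x = d) : (eME0100_0 V D).eval x = 25000000000000 * EME0100_0 v d := by
  have h := eval_args3 (R := .num 0) (x := x) (r := 0) (by simp [Ex.eval]) hV hD
    (eME0100_0 (.var 1) (.var 2))
  rw [EME0100_0, mul_div_cancel₀ _ (by norm_num)]
  exact h

/-- The coefficient `eME0100_1` at `(v, d)`. -/
noncomputable def EME0100_1 (v d : ℝ) : ℝ :=
  (eME0100_1 (.var 1) (.var 2)).eval (scaled 0 v d) / 25000000000000

theorem eME0100_1_eval {V D : Ex} {x : ℕ → ℝ} {v d : ℝ} (hV : V.eval x = 5000000 * v)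
    (hD : D.eval x = d) : (eME0100_1 V D).eval x = 25000000000000 * EME0100_1 v d := by
  have h := eval_args3 (R := .num 0) (x := x) (r := 0) (by simp [Ex.eval]) hV hD
    (eME0100_1 (.var 1) (.var 2))
  rw [EME0100_1, mul_div_cancel₀ _ (by norm_num)]
  exact h

/-- The coefficient `eME0100_2` at `(v, d)`. -/
noncomputable def EME0100_2 (v d : ℝ) : ℝ :=
  (eME0100_2 (.var 1) (.var 2)).eval (scaled 0 v d) / 25000000000000

theorem eME0100_2_eval {V D : Ex} {x : ℕ → ℝ} {v d : ℝ} (hV : V.eval x = 5000000 * v)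
    (hD : D.eval x = d) : (eME0100_2 V D).eval x = 25000000000000 * EME0100_2 v d := by
  have h := eval_args3 (R := .num 0) (x := x) (r := 0) (by simp [Ex.eval]) hV hD
    (eME0100_2 (.var 1) (.var 2))
  rw [EME0100_2, mul_div_cancel₀ _ (by norm_num)]
  exact h

/-- The coefficient `eME1000_0` at `(v, d)`. -/
noncomputable def EME1000_0 (v d : ℝ) : ℝ :=
  (eME1000_0 (.var 1) (.var 2)).eval (scaled 0 v d) / 78125000000000000000000

theorem eME1000_0_eval {V D : Ex} {x : ℕ → ℝ} {v d : ℝ} (hV : V.eval x = 5000000 * v)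
    (hD : D.eval x = d) : (eME1000_0 V D).eval x = 78125000000000000000000 * EME1000_0 v d := by
  have h := eval_args3 (R := .num 0) (x := x) (r := 0) (by simp [Ex.eval]) hV hD
    (eME1000_0 (.var 1) (.var 2))
  rw [EME1000_0, mul_div_cancel₀ _ (by norm_num)]
  exact h

/-- The coefficient `eME1000_1` at `(v, d)`. -/
noncomputable def EME1000_1 (v d : ℝ) : ℝ :=
  (eME1000_1 (.var 1) (.var 2)).eval (scaled 0 v d) / 312500000000000000000000

theorem eME1000_1_eval {V D : Ex} {x : ℕ → ℝ} {v d : ℝ} (hV : V.eval x = 5000000 * v)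
    (hD : D.eval x = d) : (eME1000_1 V D).eval x = 312500000000000000000000 * EME1000_1 v d := by
  have h := eval_args3 (R := .num 0) (x := x) (r := 0) (by simp [Ex.eval]) hV hD
    (eME1000_1 (.var 1) (.var 2))
  rw [EME1000_1, mul_div_cancel₀ _ (by norm_num)]
  exact h

/-- The coefficient `eME1000_2` at `(v, d)`. -/
noncomputable def EME1000_2 (v d : ℝ) : ℝ :=
  (eME1000_2 (.var 1) (.var 2)).eval (scaled 0 v d) / 312500000000000000000000

theorem eME1000_2_eval {V D : Ex} {x : ℕ → ℝ} {v d : ℝ} (hV : V.eval x = 5000000 * v)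
    (hD : D.eval x = d) : (eME1000_2 V D).eval x = 312500000000000000000000 * EME1000_2 v d := by
  have h := eval_args3 (R := .num 0) (x := x) (r := 0) (by simp [Ex.eval]) hV hD
    (eME1000_2 (.var 1) (.var 2))
  rw [EME1000_2, mul_div_cancel₀ _ (by norm_num)]
  exact h

/-- The coefficient `eME1000_3` at `(v, d)`. -/
noncomputable def EME1000_3 (v d : ℝ) : ℝ :=
  (eME1000_3 (.var 1) (.var 2)).eval (scaled 0 v d) / 312500000000000000000000

theorem eME1000_3_eval {V D : Ex} {x : ℕ → ℝ} {v d : ℝ} (hV : V.eval x = 5000000 * v)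
    (hD : D.eval x = d) : (eME1000_3 V D).eval x = 312500000000000000000000 * EME1000_3 v d := by
  have h := eval_args3 (R := .num 0) (x := x) (r := 0) (by simp [Ex.eval]) hV hD
    (eME1000_3 (.var 1) (.var 2))
  rw [EME1000_3, mul_div_cancel₀ _ (by norm_num)]
  exact h

/-- The coefficient `eME1000_4` at `(v, d)`. -/
noncomputable def EME1000_4 (v d : ℝ) : ℝ :=
  (eME1000_4 (.var 1) (.var 2)).eval (scaled 0 v d) / 312500000000000000000000

theorem eME1000_4_eval {V D : Ex} {x : ℕ → ℝ} {v d : ℝ} (hV : V.eval x = 5000000 * v)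
    (hD : D.eval x = d) : (eME1000_4 V D).eval x = 312500000000000000000000 * EME1000_4 v d := by
  have h := eval_args3 (R := .num 0) (x := x) (r := 0) (by simp [Ex.eval]) hV hD
    (eME1000_4 (.var 1) (.var 2))
  rw [EME1000_4, mul_div_cancel₀ _ (by norm_num)]
  exact h

/-- The coefficient `eME1100_0` at `(v, d)`. -/
noncomputable def EME1100_0 (v d : ℝ) : ℝ :=
  (eME1100_0 (.var 1) (.var 2)).eval (scaled 0 v d) / 25000000

theorem eME1100_0_eval {V D : Ex} {x : ℕ → ℝ} {v d : ℝ} (hV : V.eval x = 5000000 * v)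
    (hD : D.eval x = d) : (eME1100_0 V D).eval x = 25000000 * EME1100_0 v d := by
  have h := eval_args3 (R := .num 0) (x := x) (r := 0) (by simp [Ex.eval]) hV hD
    (eME1100_0 (.var 1) (.var 2))
  rw [EME1100_0, mul_div_cancel₀ _ (by norm_num)]
  exact h

/-- The coefficient `eME1100_1` at `(v, d)`. -/
noncomputable def EME1100_1 (v d : ℝ) : ℝ :=
  (eME1100_1 (.var 1) (.var 2)).eval (scaled 0 v d) / 25000000

theorem eME1100_1_eval {V D : Ex} {x : ℕ → ℝ} {v d : ℝ} (hV : V.eval x = 5000000 * v)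
    (hD : D.eval x = d) : (eME1100_1 V D).eval x = 25000000 * EME1100_1 v d := by
  have h := eval_args3 (R := .num 0) (x := x) (r := 0) (by simp [Ex.eval]) hV hD
    (eME1100_1 (.var 1) (.var 2))
  rw [EME1100_1, mul_div_cancel₀ _ (by norm_num)]
  exact h

/-- The coefficient `eME1100_2` at `(v, d)`. -/
noncomputable def EME1100_2 (v d : ℝ) : ℝ :=
  (eME1100_2 (.var 1) (.var 2)).eval (scaled 0 v d) / 25000000

theorem eME1100_2_eval {V D : Ex} {x : ℕ → ℝ} {v d : ℝ} (hV : V.eval x = 5000000 * v)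
    (hD : D.eval x = d) : (eME1100_2 V D).eval x = 25000000 * EME1100_2 v d := by
  have h := eval_args3 (R := .num 0) (x := x) (r := 0) (by simp [Ex.eval]) hV hD
    (eME1100_2 (.var 1) (.var 2))
  rw [EME1100_2, mul_div_cancel₀ _ (by norm_num)]
  exact h

/-- The coefficient `eME1100_3` at `(v, d)`. -/
noncomputable def EME1100_3 (v d : ℝ) : ℝ :=
  (eME1100_3 (.var 1) (.var 2)).eval (scaled 0 v d) / 25000000

theorem eME1100_3_eval {V D : Ex} {x : ℕ → ℝ} {v d : ℝ} (hV : V.eval x = 5000000 * v)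
    (hD : D.eval x = d) : (eME1100_3 V D).eval x = 25000000 * EME1100_3 v d := by
  have h := eval_args3 (R := .num 0) (x := x) (r := 0) (by simp [Ex.eval]) hV hD
    (eME1100_3 (.var 1) (.var 2))
  rw [EME1100_3, mul_div_cancel₀ _ (by norm_num)]
  exact h

/-- The value of `AME0001` in the variable `r`. -/
noncomputable def AME0001 (r v d : ℝ) : ℝ := EME0001_0 v d + EME0001_1 v d * r + EME0001_2 v d *
  r ^ 2

theorem cME0001_eval {R V D : Ex} {x : ℕ → ℝ} {r v d : ℝ} (hR : R.eval x = 2000 * r)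
    (hV : V.eval x = 5000000 * v) (hD : D.eval x = d) :
    (cME0001 R V D).eval x = 500000000000000000000000000 * AME0001 r v d := by
  simp only [cME0001, AME0001, Ex.eval, hR, eME0001_0_eval hV hD, eME0001_1_eval hV hD,
    eME0001_2_eval hV hD]
  push_cast
  ring

/-- Derivative 1 of `AME0001` in the variable `r`. -/
noncomputable def BME0001 (r v d : ℝ) : ℝ := EME0001_1 v d + 2 * EME0001_2 v d * r

theorem cME0001_d1_eval {R V D : Ex} {x : ℕ → ℝ} {r v d : ℝ} (hR : R.eval x = 2000 * r)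
    (hV : V.eval x = 5000000 * v) (hD : D.eval x = d) :
    (cME0001_d1 R V D).eval x = 250000000000000000000000 * BME0001 r v d := by
  simp only [cME0001_d1, BME0001, Ex.eval, hR, eME0001_1_eval hV hD, eME0001_2_eval hV hD]
  push_cast
  ring

/-- The value of `AME0010` in the variable `r`. -/
noncomputable def AME0010 (r v d : ℝ) : ℝ := EME0010_0 v d + EME0010_1 v d * r + EME0010_2 v d *
  r ^ 2 + EME0010_3 v d * r ^ 3

theorem cME0010_eval {R V D : Ex} {x : ℕ → ℝ} {r v d : ℝ} (hR : R.eval x = 2000 * r)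
    (hV : V.eval x = 5000000 * v) (hD : D.eval x = d) :
    (cME0010 R V D).eval x = 4000000000000000000000000 * AME0010 r v d := by
  simp only [cME0010, AME0010, Ex.eval, hR, eME0010_0_eval hV hD, eME0010_1_eval hV hD,
    eME0010_2_eval hV hD, eME0010_3_eval hV hD]
  push_cast
  ring

/-- Derivative 1 of `AME0010` in the variable `r`. -/
noncomputable def BME0010 (r v d : ℝ) : ℝ := EME0010_1 v d + 2 * EME0010_2 v d * r + 3 *
  EME0010_3 v d * r ^ 2

theorem cME0010_d1_eval {R V D : Ex} {x : ℕ → ℝ} {r v d : ℝ} (hR : R.eval x = 2000 * r)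
    (hV : V.eval x = 5000000 * v) (hD : D.eval x = d) :
    (cME0010_d1 R V D).eval x = 2000000000000000000000 * BME0010 r v d := by
  simp only [cME0010_d1, BME0010, Ex.eval, hR, eME0010_1_eval hV hD, eME0010_2_eval hV hD,
    eME0010_3_eval hV hD]
  push_cast
  ring

/-- The value of `AME0100` in the variable `r`. -/
noncomputable def AME0100 (r v d : ℝ) : ℝ := EME0100_0 v d + EME0100_1 v d * r + EME0100_2 v d *
  r ^ 2

theorem cME0100_eval {R V D : Ex} {x : ℕ → ℝ} {r v d : ℝ} (hR : R.eval x = 2000 * r)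
    (hV : V.eval x = 5000000 * v) (hD : D.eval x = d) :
    (cME0100 R V D).eval x = 100000000000000000000 * AME0100 r v d := by
  simp only [cME0100, AME0100, Ex.eval, hR, eME0100_0_eval hV hD, eME0100_1_eval hV hD,
    eME0100_2_eval hV hD]
  push_cast
  ring

/-- Derivative 1 of `AME0100` in the variable `r`. -/
noncomputable def BME0100 (r v d : ℝ) : ℝ := EME0100_1 v d + 2 * EME0100_2 v d * r

theorem cME0100_d1_eval {R V D : Ex} {x : ℕ → ℝ} {r v d : ℝ} (hR : R.eval x = 2000 * r)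
    (hV : V.eval x = 5000000 * v) (hD : D.eval x = d) :
    (cME0100_d1 R V D).eval x = 50000000000000000 * BME0100 r v d := by
  simp only [cME0100_d1, BME0100, Ex.eval, hR, eME0100_1_eval hV hD, eME0100_2_eval hV hD]
  push_cast
  ring

/-- The value of `AME1000` in the variable `r`. -/
noncomputable def AME1000 (r v d : ℝ) : ℝ := EME1000_0 v d + EME1000_1 v d * r + EME1000_2 v d *
  r ^ 2 + EME1000_3 v d * r ^ 3 + EME1000_4 v d * r ^ 4

theorem cME1000_eval {R V D : Ex} {x : ℕ → ℝ} {r v d : ℝ} (hR : R.eval x = 2000 * r)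
    (hV : V.eval x = 5000000 * v) (hD : D.eval x = d) :
    (cME1000 R V D).eval x = 5000000000000000000000000000000000000 * AME1000 r v d := by
  simp only [cME1000, AME1000, Ex.eval, hR, eME1000_0_eval hV hD, eME1000_1_eval hV hD,
    eME1000_2_eval hV hD, eME1000_3_eval hV hD, eME1000_4_eval hV hD]
  push_cast
  ring

/-- Derivative 1 of `AME1000` in the variable `r`. -/
noncomputable def BME1000 (r v d : ℝ) : ℝ := EME1000_1 v d + 2 * EME1000_2 v d * r + 3 *
  EME1000_3 v d * r ^ 2 + 4 * EME1000_4 v d * r ^ 3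

theorem cME1000_d1_eval {R V D : Ex} {x : ℕ → ℝ} {r v d : ℝ} (hR : R.eval x = 2000 * r)
    (hV : V.eval x = 5000000 * v) (hD : D.eval x = d) :
    (cME1000_d1 R V D).eval x = 2500000000000000000000000000000000 * BME1000 r v d := by
  simp only [cME1000_d1, BME1000, Ex.eval, hR, eME1000_1_eval hV hD, eME1000_2_eval hV hD,
    eME1000_3_eval hV hD, eME1000_4_eval hV hD]
  push_cast
  ring

/-- The value of `AME1100` in the variable `r`. -/
noncomputable def AME1100 (r v d : ℝ) : ℝ := EME1100_0 v d + EME1100_1 v d * r + EME1100_2 v d *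
  r ^ 2 + EME1100_3 v d * r ^ 3

theorem cME1100_eval {R V D : Ex} {x : ℕ → ℝ} {r v d : ℝ} (hR : R.eval x = 2000 * r)
    (hV : V.eval x = 5000000 * v) (hD : D.eval x = d) :
    (cME1100 R V D).eval x = 200000000000000000 * AME1100 r v d := by
  simp only [cME1100, AME1100, Ex.eval, hR, eME1100_0_eval hV hD, eME1100_1_eval hV hD,
    eME1100_2_eval hV hD, eME1100_3_eval hV hD]
  push_cast
  ring

/-- Derivative 1 of `AME1100` in the variable `r`. -/
noncomputable def BME1100 (r v d : ℝ) : ℝ := EME1100_1 v d + 2 * EME1100_2 v d * r + 3 *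
  EME1100_3 v d * r ^ 2

theorem cME1100_d1_eval {R V D : Ex} {x : ℕ → ℝ} {r v d : ℝ} (hR : R.eval x = 2000 * r)
    (hV : V.eval x = 5000000 * v) (hD : D.eval x = d) :
    (cME1100_d1 R V D).eval x = 100000000000000 * BME1100 r v d := by
  simp only [cME1100_d1, BME1100, Ex.eval, hR, eME1100_1_eval hV hD, eME1100_2_eval hV hD,
    eME1100_3_eval hV hD]
  push_cast
  ring

/-- `ME` in the variables `(r, v, d, X, Y, Z, Q)`. -/
noncomputable def rME (r v d X Y Z Q : ℝ) : ℝ := AME0001 r v d * Q + AME0010 r v d * Z + AME0100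
  r v d * Y + AME1000 r v d * X + AME1100 r v d * X * Y

theorem qME_eval {R V D XE YE ZE QE : Ex} {x : ℕ → ℝ} {r v d X Y Z Q : ℝ} (hR : R.eval x = 2000
    * r) (hV : V.eval x = 5000000 * v) (hD : D.eval x = d) (hX : XE.eval x = 100000 * X) (hY :
    YE.eval x = 100000 * Y) (hZ : ZE.eval x = 100000 * Z) (hQ : QE.eval x = 100000 * Q) : (qME R
    V D XE YE ZE QE).eval x = 500000000000000000000000000000000000000000 * rME r v d X Y Z Q :=
    by
  simp only [qME, rME, Ex.eval, cME0001_eval hR hV hD, cME0010_eval hR hV hD, cME0100_eval hR hV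
    hD, cME1000_eval hR hV hD, cME1100_eval hR hV hD, hX, hY, hZ, hQ]
  push_cast
  ring

/-- The coefficient `eMG0000_0` at `(v, d)`. -/
noncomputable def EMG0000_0 (v d : ℝ) : ℝ :=
  (eMG0000_0 (.var 1) (.var 2)).eval (scaled 0 v d) / 244140625000000000000000000000000000000000000

theorem eMG0000_0_eval {V D : Ex} {x : ℕ → ℝ} {v d : ℝ} (hV : V.eval x = 5000000 * v)
    (hD : D.eval x = d) : (eMG0000_0 V D).eval x = 244140625000000000000000000000000000000000000 * EMG0000_0 v d := by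
  have h := eval_args3 (R := .num 0) (x := x) (r := 0) (by simp [Ex.eval]) hV hD
    (eMG0000_0 (.var 1) (.var 2))
  rw [EMG0000_0, mul_div_cancel₀ _ (by norm_num)]
  exact h

/-- The coefficient `eMG0000_1` at `(v, d)`. -/
noncomputable def EMG0000_1 (v d : ℝ) : ℝ :=
  (eMG0000_1 (.var 1) (.var 2)).eval (scaled 0 v d) / 244140625000000000000000000000000000000000000

theorem eMG0000_1_eval {V D : Ex} {x : ℕ → ℝ} {v d : ℝ} (hV : V.eval x = 5000000 * v)
    (hD : D.eval x = d) : (eMG0000_1 V D).eval x = 244140625000000000000000000000000000000000000 * EMG0000_1 v d := by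
  have h := eval_args3 (R := .num 0) (x := x) (r := 0) (by simp [Ex.eval]) hV hD
    (eMG0000_1 (.var 1) (.var 2))
  rw [EMG0000_1, mul_div_cancel₀ _ (by norm_num)]
  exact h

/-- The coefficient `eMG0000_2` at `(v, d)`. -/
noncomputable def EMG0000_2 (v d : ℝ) : ℝ :=
  (eMG0000_2 (.var 1) (.var 2)).eval (scaled 0 v d) / 48828125000000000000000000000000000000000000

theorem eMG0000_2_eval {V D : Ex} {x : ℕ → ℝ} {v d : ℝ} (hV : V.eval x = 5000000 * v)
    (hD : D.eval x = d) : (eMG0000_2 V D).eval x = 48828125000000000000000000000000000000000000 * EMG0000_2 v d := by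
  have h := eval_args3 (R := .num 0) (x := x) (r := 0) (by simp [Ex.eval]) hV hD
    (eMG0000_2 (.var 1) (.var 2))
  rw [EMG0000_2, mul_div_cancel₀ _ (by norm_num)]
  exact h

/-- The coefficient `eMG0000_3` at `(v, d)`. -/
noncomputable def EMG0000_3 (v d : ℝ) : ℝ :=
  (eMG0000_3 (.var 1) (.var 2)).eval (scaled 0 v d) / 48828125000000000000000000000000000000000000

theorem eMG0000_3_eval {V D : Ex} {x : ℕ → ℝ} {v d : ℝ} (hV : V.eval x = 5000000 * v)
    (hD : D.eval x = d) : (eMG0000_3 V D).eval x = 48828125000000000000000000000000000000000000 * EMG0000_3 v d := by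
  have h := eval_args3 (R := .num 0) (x := x) (r := 0) (by simp [Ex.eval]) hV hD
    (eMG0000_3 (.var 1) (.var 2))
  rw [EMG0000_3, mul_div_cancel₀ _ (by norm_num)]
  exact h

/-- The coefficient `eMG0000_4` at `(v, d)`. -/
noncomputable def EMG0000_4 (v d : ℝ) : ℝ :=
  (eMG0000_4 (.var 1) (.var 2)).eval (scaled 0 v d) / 48828125000000000000000000000000000000000000

theorem eMG0000_4_eval {V D : Ex} {x : ℕ → ℝ} {v d : ℝ} (hV : V.eval x = 5000000 * v)
    (hD : D.eval x = d) : (eMG0000_4 V D).eval x = 48828125000000000000000000000000000000000000 * EMG0000_4 v d := by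
  have h := eval_args3 (R := .num 0) (x := x) (r := 0) (by simp [Ex.eval]) hV hD
    (eMG0000_4 (.var 1) (.var 2))
  rw [EMG0000_4, mul_div_cancel₀ _ (by norm_num)]
  exact h

/-- The coefficient `eMG0000_5` at `(v, d)`. -/
noncomputable def EMG0000_5 (v d : ℝ) : ℝ :=
  (eMG0000_5 (.var 1) (.var 2)).eval (scaled 0 v d) / 244140625000000000000000000000000000000000000

theorem eMG0000_5_eval {V D : Ex} {x : ℕ → ℝ} {v d : ℝ} (hV : V.eval x = 5000000 * v)
    (hD : D.eval x = d) : (eMG0000_5 V D).eval x = 244140625000000000000000000000000000000000000 * EMG0000_5 v d := by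
  have h := eval_args3 (R := .num 0) (x := x) (r := 0) (by simp [Ex.eval]) hV hD
    (eMG0000_5 (.var 1) (.var 2))
  rw [EMG0000_5, mul_div_cancel₀ _ (by norm_num)]
  exact h

/-- The coefficient `eMG0000_6` at `(v, d)`. -/
noncomputable def EMG0000_6 (v d : ℝ) : ℝ :=
  (eMG0000_6 (.var 1) (.var 2)).eval (scaled 0 v d) / 244140625000000000000000000000000000000000000

theorem eMG0000_6_eval {V D : Ex} {x : ℕ → ℝ} {v d : ℝ} (hV : V.eval x = 5000000 * v)
    (hD : D.eval x = d) : (eMG0000_6 V D).eval x = 244140625000000000000000000000000000000000000 * EMG0000_6 v d := by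
  have h := eval_args3 (R := .num 0) (x := x) (r := 0) (by simp [Ex.eval]) hV hD
    (eMG0000_6 (.var 1) (.var 2))
  rw [EMG0000_6, mul_div_cancel₀ _ (by norm_num)]
  exact h

/-- The coefficient `eMG0001_0` at `(v, d)`. -/
noncomputable def EMG0001_0 (v d : ℝ) : ℝ :=
  (eMG0001_0 (.var 1) (.var 2)).eval (scaled 0 v d) / 625000000000000000000000000

theorem eMG0001_0_eval {V D : Ex} {x : ℕ → ℝ} {v d : ℝ} (hV : V.eval x = 5000000 * v)
    (hD : D.eval x = d) : (eMG0001_0 V D).eval x = 625000000000000000000000000 * EMG0001_0 v d := by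
  have h := eval_args3 (R := .num 0) (x := x) (r := 0) (by simp [Ex.eval]) hV hD
    (eMG0001_0 (.var 1) (.var 2))
  rw [EMG0001_0, mul_div_cancel₀ _ (by norm_num)]
  exact h

/-- The coefficient `eMG0001_1` at `(v, d)`. -/
noncomputable def EMG0001_1 (v d : ℝ) : ℝ :=
  (eMG0001_1 (.var 1) (.var 2)).eval (scaled 0 v d) / 625000000000000000000000000

theorem eMG0001_1_eval {V D : Ex} {x : ℕ → ℝ} {v d : ℝ} (hV : V.eval x = 5000000 * v)
    (hD : D.eval x = d) : (eMG0001_1 V D).eval x = 625000000000000000000000000 * EMG0001_1 v d := by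
  have h := eval_args3 (R := .num 0) (x := x) (r := 0) (by simp [Ex.eval]) hV hD
    (eMG0001_1 (.var 1) (.var 2))
  rw [EMG0001_1, mul_div_cancel₀ _ (by norm_num)]
  exact h

/-- The coefficient `eMG0001_2` at `(v, d)`. -/
noncomputable def EMG0001_2 (v d : ℝ) : ℝ :=
  (eMG0001_2 (.var 1) (.var 2)).eval (scaled 0 v d) / 625000000000000000000000000

theorem eMG0001_2_eval {V D : Ex} {x : ℕ → ℝ} {v d : ℝ} (hV : V.eval x = 5000000 * v)
    (hD : D.eval x = d) : (eMG0001_2 V D).eval x = 625000000000000000000000000 * EMG0001_2 v d := by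
  have h := eval_args3 (R := .num 0) (x := x) (r := 0) (by simp [Ex.eval]) hV hD
    (eMG0001_2 (.var 1) (.var 2))
  rw [EMG0001_2, mul_div_cancel₀ _ (by norm_num)]
  exact h

/-- The coefficient `eMG0001_3` at `(v, d)`. -/
noncomputable def EMG0001_3 (v d : ℝ) : ℝ :=
  (eMG0001_3 (.var 1) (.var 2)).eval (scaled 0 v d) / 625000000000000000000000000

theorem eMG0001_3_eval {V D : Ex} {x : ℕ → ℝ} {v d : ℝ} (hV : V.eval x = 5000000 * v)
    (hD : D.eval x = d) : (eMG0001_3 V D).eval x = 625000000000000000000000000 * EMG0001_3 v d := by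
  have h := eval_args3 (R := .num 0) (x := x) (r := 0) (by simp [Ex.eval]) hV hD
    (eMG0001_3 (.var 1) (.var 2))
  rw [EMG0001_3, mul_div_cancel₀ _ (by norm_num)]
  exact h

/-- The coefficient `eMG0001_4` at `(v, d)`. -/
noncomputable def EMG0001_4 (v d : ℝ) : ℝ :=
  (eMG0001_4 (.var 1) (.var 2)).eval (scaled 0 v d) / 625000000000000000000000000

theorem eMG0001_4_eval {V D : Ex} {x : ℕ → ℝ} {v d : ℝ} (hV : V.eval x = 5000000 * v)
    (hD : D.eval x = d) : (eMG0001_4 V D).eval x = 625000000000000000000000000 * EMG0001_4 v d := by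
  have h := eval_args3 (R := .num 0) (x := x) (r := 0) (by simp [Ex.eval]) hV hD
    (eMG0001_4 (.var 1) (.var 2))
  rw [EMG0001_4, mul_div_cancel₀ _ (by norm_num)]
  exact h

/-- The coefficient `eMG0010_0` at `(v, d)`. -/
noncomputable def EMG0010_0 (v d : ℝ) : ℝ :=
  (eMG0010_0 (.var 1) (.var 2)).eval (scaled 0 v d) / 625000000000000000000

theorem eMG0010_0_eval {V D : Ex} {x : ℕ → ℝ} {v d : ℝ} (hV : V.eval x = 5000000 * v)
    (hD : D.eval x = d) : (eMG0010_0 V D).eval x = 625000000000000000000 * EMG0010_0 v d := by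
  have h := eval_args3 (R := .num 0) (x := x) (r := 0) (by simp [Ex.eval]) hV hD
    (eMG0010_0 (.var 1) (.var 2))
  rw [EMG0010_0, mul_div_cancel₀ _ (by norm_num)]
  exact h

/-- The coefficient `eMG0010_1` at `(v, d)`. -/
noncomputable def EMG0010_1 (v d : ℝ) : ℝ :=
  (eMG0010_1 (.var 1) (.var 2)).eval (scaled 0 v d) / 125000000000000000000

theorem eMG0010_1_eval {V D : Ex} {x : ℕ → ℝ} {v d : ℝ} (hV : V.eval x = 5000000 * v)
    (hD : D.eval x = d) : (eMG0010_1 V D).eval x = 125000000000000000000 * EMG0010_1 v d := by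
  have h := eval_args3 (R := .num 0) (x := x) (r := 0) (by simp [Ex.eval]) hV hD
    (eMG0010_1 (.var 1) (.var 2))
  rw [EMG0010_1, mul_div_cancel₀ _ (by norm_num)]
  exact h

/-- The coefficient `eMG0010_2` at `(v, d)`. -/
noncomputable def EMG0010_2 (v d : ℝ) : ℝ :=
  (eMG0010_2 (.var 1) (.var 2)).eval (scaled 0 v d) / 125000000000000000000

theorem eMG0010_2_eval {V D : Ex} {x : ℕ → ℝ} {v d : ℝ} (hV : V.eval x = 5000000 * v)
    (hD : D.eval x = d) : (eMG0010_2 V D).eval x = 125000000000000000000 * EMG0010_2 v d := by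
  have h := eval_args3 (R := .num 0) (x := x) (r := 0) (by simp [Ex.eval]) hV hD
    (eMG0010_2 (.var 1) (.var 2))
  rw [EMG0010_2, mul_div_cancel₀ _ (by norm_num)]
  exact h

/-- The coefficient `eMG0010_3` at `(v, d)`. -/
noncomputable def EMG0010_3 (v d : ℝ) : ℝ :=
  (eMG0010_3 (.var 1) (.var 2)).eval (scaled 0 v d) / 125000000000000000000

theorem eMG0010_3_eval {V D : Ex} {x : ℕ → ℝ} {v d : ℝ} (hV : V.eval x = 5000000 * v)
    (hD : D.eval x = d) : (eMG0010_3 V D).eval x = 125000000000000000000 * EMG0010_3 v d := by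
  have h := eval_args3 (R := .num 0) (x := x) (r := 0) (by simp [Ex.eval]) hV hD
    (eMG0010_3 (.var 1) (.var 2))
  rw [EMG0010_3, mul_div_cancel₀ _ (by norm_num)]
  exact h

/-- The coefficient `eMG0010_4` at `(v, d)`. -/
noncomputable def EMG0010_4 (v d : ℝ) : ℝ :=
  (eMG0010_4 (.var 1) (.var 2)).eval (scaled 0 v d) / 125000000000000000000

theorem eMG0010_4_eval {V D : Ex} {x : ℕ → ℝ} {v d : ℝ} (hV : V.eval x = 5000000 * v)
    (hD : D.eval x = d) : (eMG0010_4 V D).eval x = 125000000000000000000 * EMG0010_4 v d := by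
  have h := eval_args3 (R := .num 0) (x := x) (r := 0) (by simp [Ex.eval]) hV hD
    (eMG0010_4 (.var 1) (.var 2))
  rw [EMG0010_4, mul_div_cancel₀ _ (by norm_num)]
  exact h

/-- The coefficient `eMG0010_5` at `(v, d)`. -/
noncomputable def EMG0010_5 (v d : ℝ) : ℝ :=
  (eMG0010_5 (.var 1) (.var 2)).eval (scaled 0 v d) / 625000000000000000000

theorem eMG0010_5_eval {V D : Ex} {x : ℕ → ℝ} {v d : ℝ} (hV : V.eval x = 5000000 * v)
    (hD : D.eval x = d) : (eMG0010_5 V D).eval x = 625000000000000000000 * EMG0010_5 v d := by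
  have h := eval_args3 (R := .num 0) (x := x) (r := 0) (by simp [Ex.eval]) hV hD
    (eMG0010_5 (.var 1) (.var 2))
  rw [EMG0010_5, mul_div_cancel₀ _ (by norm_num)]
  exact h

/-- The coefficient `eMG0100_0` at `(v, d)`. -/
noncomputable def EMG0100_0 (v d : ℝ) : ℝ :=
  (eMG0100_0 (.var 1) (.var 2)).eval (scaled 0 v d) / 3125000000000000000000000000

theorem eMG0100_0_eval {V D : Ex} {x : ℕ → ℝ} {v d : ℝ} (hV : V.eval x = 5000000 * v)
    (hD : D.eval x = d) : (eMG0100_0 V D).eval x = 3125000000000000000000000000 * EMG0100_0 v d := by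
  have h := eval_args3 (R := .num 0) (x := x) (r := 0) (by simp [Ex.eval]) hV hD
    (eMG0100_0 (.var 1) (.var 2))
  rw [EMG0100_0, mul_div_cancel₀ _ (by norm_num)]
  exact h

/-- The coefficient `eMG0100_1` at `(v, d)`. -/
noncomputable def EMG0100_1 (v d : ℝ) : ℝ :=
  (eMG0100_1 (.var 1) (.var 2)).eval (scaled 0 v d) / 625000000000000000000000000

theorem eMG0100_1_eval {V D : Ex} {x : ℕ → ℝ} {v d : ℝ} (hV : V.eval x = 5000000 * v)
    (hD : D.eval x = d) : (eMG0100_1 V D).eval x = 625000000000000000000000000 * EMG0100_1 v d := by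
  have h := eval_args3 (R := .num 0) (x := x) (r := 0) (by simp [Ex.eval]) hV hD
    (eMG0100_1 (.var 1) (.var 2))
  rw [EMG0100_1, mul_div_cancel₀ _ (by norm_num)]
  exact h

/-- The coefficient `eMG0100_2` at `(v, d)`. -/
noncomputable def EMG0100_2 (v d : ℝ) : ℝ :=
  (eMG0100_2 (.var 1) (.var 2)).eval (scaled 0 v d) / 625000000000000000000000000

theorem eMG0100_2_eval {V D : Ex} {x : ℕ → ℝ} {v d : ℝ} (hV : V.eval x = 5000000 * v)
    (hD : D.eval x = d) : (eMG0100_2 V D).eval x = 625000000000000000000000000 * EMG0100_2 v d := by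
  have h := eval_args3 (R := .num 0) (x := x) (r := 0) (by simp [Ex.eval]) hV hD
    (eMG0100_2 (.var 1) (.var 2))
  rw [EMG0100_2, mul_div_cancel₀ _ (by norm_num)]
  exact h

/-- The coefficient `eMG0100_3` at `(v, d)`. -/
noncomputable def EMG0100_3 (v d : ℝ) : ℝ :=
  (eMG0100_3 (.var 1) (.var 2)).eval (scaled 0 v d) / 625000000000000000000000000

theorem eMG0100_3_eval {V D : Ex} {x : ℕ → ℝ} {v d : ℝ} (hV : V.eval x = 5000000 * v)
    (hD : D.eval x = d) : (eMG0100_3 V D).eval x = 625000000000000000000000000 * EMG0100_3 v d := by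
  have h := eval_args3 (R := .num 0) (x := x) (r := 0) (by simp [Ex.eval]) hV hD
    (eMG0100_3 (.var 1) (.var 2))
  rw [EMG0100_3, mul_div_cancel₀ _ (by norm_num)]
  exact h

/-- The coefficient `eMG0100_4` at `(v, d)`. -/
noncomputable def EMG0100_4 (v d : ℝ) : ℝ :=
  (eMG0100_4 (.var 1) (.var 2)).eval (scaled 0 v d) / 625000000000000000000000000

theorem eMG0100_4_eval {V D : Ex} {x : ℕ → ℝ} {v d : ℝ} (hV : V.eval x = 5000000 * v)
    (hD : D.eval x = d) : (eMG0100_4 V D).eval x = 625000000000000000000000000 * EMG0100_4 v d := by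
  have h := eval_args3 (R := .num 0) (x := x) (r := 0) (by simp [Ex.eval]) hV hD
    (eMG0100_4 (.var 1) (.var 2))
  rw [EMG0100_4, mul_div_cancel₀ _ (by norm_num)]
  exact h

/-- The coefficient `eMG0100_5` at `(v, d)`. -/
noncomputable def EMG0100_5 (v d : ℝ) : ℝ :=
  (eMG0100_5 (.var 1) (.var 2)).eval (scaled 0 v d) / 3125000000000000000000000000

theorem eMG0100_5_eval {V D : Ex} {x : ℕ → ℝ} {v d : ℝ} (hV : V.eval x = 5000000 * v)
    (hD : D.eval x = d) : (eMG0100_5 V D).eval x = 3125000000000000000000000000 * EMG0100_5 v d := by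
  have h := eval_args3 (R := .num 0) (x := x) (r := 0) (by simp [Ex.eval]) hV hD
    (eMG0100_5 (.var 1) (.var 2))
  rw [EMG0100_5, mul_div_cancel₀ _ (by norm_num)]
  exact h

/-- The coefficient `eMG0200_0` at `(v, d)`. -/
noncomputable def EMG0200_0 (v d : ℝ) : ℝ :=
  (eMG0200_0 (.var 1) (.var 2)).eval (scaled 0 v d) / 125000000000000000000

theorem eMG0200_0_eval {V D : Ex} {x : ℕ → ℝ} {v d : ℝ} (hV : V.eval x = 5000000 * v)
    (hD : D.eval x = d) : (eMG0200_0 V D).eval x = 125000000000000000000 * EMG0200_0 v d := by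
  have h := eval_args3 (R := .num 0) (x := x) (r := 0) (by simp [Ex.eval]) hV hD
    (eMG0200_0 (.var 1) (.var 2))
  rw [EMG0200_0, mul_div_cancel₀ _ (by norm_num)]
  exact h

/-- The coefficient `eMG0200_1` at `(v, d)`. -/
noncomputable def EMG0200_1 (v d : ℝ) : ℝ :=
  (eMG0200_1 (.var 1) (.var 2)).eval (scaled 0 v d) / 125000000000000000000

theorem eMG0200_1_eval {V D : Ex} {x : ℕ → ℝ} {v d : ℝ} (hV : V.eval x = 5000000 * v)
    (hD : D.eval x = d) : (eMG0200_1 V D).eval x = 125000000000000000000 * EMG0200_1 v d := by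
  have h := eval_args3 (R := .num 0) (x := x) (r := 0) (by simp [Ex.eval]) hV hD
    (eMG0200_1 (.var 1) (.var 2))
  rw [EMG0200_1, mul_div_cancel₀ _ (by norm_num)]
  exact h

/-- The coefficient `eMG0200_2` at `(v, d)`. -/
noncomputable def EMG0200_2 (v d : ℝ) : ℝ :=
  (eMG0200_2 (.var 1) (.var 2)).eval (scaled 0 v d) / 125000000000000000000

theorem eMG0200_2_eval {V D : Ex} {x : ℕ → ℝ} {v d : ℝ} (hV : V.eval x = 5000000 * v)
    (hD : D.eval x = d) : (eMG0200_2 V D).eval x = 125000000000000000000 * EMG0200_2 v d := by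
  have h := eval_args3 (R := .num 0) (x := x) (r := 0) (by simp [Ex.eval]) hV hD
    (eMG0200_2 (.var 1) (.var 2))
  rw [EMG0200_2, mul_div_cancel₀ _ (by norm_num)]
  exact h

/-- The coefficient `eMG0200_3` at `(v, d)`. -/
noncomputable def EMG0200_3 (v d : ℝ) : ℝ :=
  (eMG0200_3 (.var 1) (.var 2)).eval (scaled 0 v d) / 125000000000000000000

theorem eMG0200_3_eval {V D : Ex} {x : ℕ → ℝ} {v d : ℝ} (hV : V.eval x = 5000000 * v)
    (hD : D.eval x = d) : (eMG0200_3 V D).eval x = 125000000000000000000 * EMG0200_3 v d := by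
  have h := eval_args3 (R := .num 0) (x := x) (r := 0) (by simp [Ex.eval]) hV hD
    (eMG0200_3 (.var 1) (.var 2))
  rw [EMG0200_3, mul_div_cancel₀ _ (by norm_num)]
  exact h

/-- The coefficient `eMG0200_4` at `(v, d)`. -/
noncomputable def EMG0200_4 (v d : ℝ) : ℝ :=
  (eMG0200_4 (.var 1) (.var 2)).eval (scaled 0 v d) / 125000000000000000000

theorem eMG0200_4_eval {V D : Ex} {x : ℕ → ℝ} {v d : ℝ} (hV : V.eval x = 5000000 * v)
    (hD : D.eval x = d) : (eMG0200_4 V D).eval x = 125000000000000000000 * EMG0200_4 v d := by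
  have h := eval_args3 (R := .num 0) (x := x) (r := 0) (by simp [Ex.eval]) hV hD
    (eMG0200_4 (.var 1) (.var 2))
  rw [EMG0200_4, mul_div_cancel₀ _ (by norm_num)]
  exact h

/-- The coefficient `eMG1000_0` at `(v, d)`. -/
noncomputable def EMG1000_0 (v d : ℝ) : ℝ :=
  (eMG1000_0 (.var 1) (.var 2)).eval (scaled 0 v d) / 390625000000000000000000000000000000

theorem eMG1000_0_eval {V D : Ex} {x : ℕ → ℝ} {v d : ℝ} (hV : V.eval x = 5000000 * v)
    (hD : D.eval x = d) : (eMG1000_0 V D).eval x = 390625000000000000000000000000000000 * EMG1000_0 v d := by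
  have h := eval_args3 (R := .num 0) (x := x) (r := 0) (by simp [Ex.eval]) hV hD
    (eMG1000_0 (.var 1) (.var 2))
  rw [EMG1000_0, mul_div_cancel₀ _ (by norm_num)]
  exact h

/-- The coefficient `eMG1000_1` at `(v, d)`. -/
noncomputable def EMG1000_1 (v d : ℝ) : ℝ :=
  (eMG1000_1 (.var 1) (.var 2)).eval (scaled 0 v d) / 78125000000000000000000000000000000

theorem eMG1000_1_eval {V D : Ex} {x : ℕ → ℝ} {v d : ℝ} (hV : V.eval x = 5000000 * v)
    (hD : D.eval x = d) : (eMG1000_1 V D).eval x = 78125000000000000000000000000000000 * EMG1000_1 v d := by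
  have h := eval_args3 (R := .num 0) (x := x) (r := 0) (by simp [Ex.eval]) hV hD
    (eMG1000_1 (.var 1) (.var 2))
  rw [EMG1000_1, mul_div_cancel₀ _ (by norm_num)]
  exact h

/-- The coefficient `eMG1000_2` at `(v, d)`. -/
noncomputable def EMG1000_2 (v d : ℝ) : ℝ :=
  (eMG1000_2 (.var 1) (.var 2)).eval (scaled 0 v d) / 78125000000000000000000000000000000

theorem eMG1000_2_eval {V D : Ex} {x : ℕ → ℝ} {v d : ℝ} (hV : V.eval x = 5000000 * v)
    (hD : D.eval x = d) : (eMG1000_2 V D).eval x = 78125000000000000000000000000000000 * EMG1000_2 v d := by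
  have h := eval_args3 (R := .num 0) (x := x) (r := 0) (by simp [Ex.eval]) hV hD
    (eMG1000_2 (.var 1) (.var 2))
  rw [EMG1000_2, mul_div_cancel₀ _ (by norm_num)]
  exact h

/-- The coefficient `eMG1000_3` at `(v, d)`. -/
noncomputable def EMG1000_3 (v d : ℝ) : ℝ :=
  (eMG1000_3 (.var 1) (.var 2)).eval (scaled 0 v d) / 78125000000000000000000000000000000

theorem eMG1000_3_eval {V D : Ex} {x : ℕ → ℝ} {v d : ℝ} (hV : V.eval x = 5000000 * v)
    (hD : D.eval x = d) : (eMG1000_3 V D).eval x = 78125000000000000000000000000000000 * EMG1000_3 v d := by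
  have h := eval_args3 (R := .num 0) (x := x) (r := 0) (by simp [Ex.eval]) hV hD
    (eMG1000_3 (.var 1) (.var 2))
  rw [EMG1000_3, mul_div_cancel₀ _ (by norm_num)]
  exact h

/-- The coefficient `eMG1000_4` at `(v, d)`. -/
noncomputable def EMG1000_4 (v d : ℝ) : ℝ :=
  (eMG1000_4 (.var 1) (.var 2)).eval (scaled 0 v d) / 78125000000000000000000000000000000

theorem eMG1000_4_eval {V D : Ex} {x : ℕ → ℝ} {v d : ℝ} (hV : V.eval x = 5000000 * v)
    (hD : D.eval x = d) : (eMG1000_4 V D).eval x = 78125000000000000000000000000000000 * EMG1000_4 v d := by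
  have h := eval_args3 (R := .num 0) (x := x) (r := 0) (by simp [Ex.eval]) hV hD
    (eMG1000_4 (.var 1) (.var 2))
  rw [EMG1000_4, mul_div_cancel₀ _ (by norm_num)]
  exact h

/-- The coefficient `eMG1000_5` at `(v, d)`. -/
noncomputable def EMG1000_5 (v d : ℝ) : ℝ :=
  (eMG1000_5 (.var 1) (.var 2)).eval (scaled 0 v d) / 390625000000000000000000000000000000

theorem eMG1000_5_eval {V D : Ex} {x : ℕ → ℝ} {v d : ℝ} (hV : V.eval x = 5000000 * v)
    (hD : D.eval x = d) : (eMG1000_5 V D).eval x = 390625000000000000000000000000000000 * EMG1000_5 v d := by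
  have h := eval_args3 (R := .num 0) (x := x) (r := 0) (by simp [Ex.eval]) hV hD
    (eMG1000_5 (.var 1) (.var 2))
  rw [EMG1000_5, mul_div_cancel₀ _ (by norm_num)]
  exact h

/-- The coefficient `eMG1000_6` at `(v, d)`. -/
noncomputable def EMG1000_6 (v d : ℝ) : ℝ :=
  (eMG1000_6 (.var 1) (.var 2)).eval (scaled 0 v d) / 15625000000000000000000000000

theorem eMG1000_6_eval {V D : Ex} {x : ℕ → ℝ} {v d : ℝ} (hV : V.eval x = 5000000 * v)
    (hD : D.eval x = d) : (eMG1000_6 V D).eval x = 15625000000000000000000000000 * EMG1000_6 v d := by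
  have h := eval_args3 (R := .num 0) (x := x) (r := 0) (by simp [Ex.eval]) hV hD
    (eMG1000_6 (.var 1) (.var 2))
  rw [EMG1000_6, mul_div_cancel₀ _ (by norm_num)]
  exact h

/-- The coefficient `eMG1100_0` at `(v, d)`. -/
noncomputable def EMG1100_0 (v d : ℝ) : ℝ :=
  (eMG1100_0 (.var 1) (.var 2)).eval (scaled 0 v d) / 125000000000000000000

theorem eMG1100_0_eval {V D : Ex} {x : ℕ → ℝ} {v d : ℝ} (hV : V.eval x = 5000000 * v)
    (hD : D.eval x = d) : (eMG1100_0 V D).eval x = 125000000000000000000 * EMG1100_0 v d := by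
  have h := eval_args3 (R := .num 0) (x := x) (r := 0) (by simp [Ex.eval]) hV hD
    (eMG1100_0 (.var 1) (.var 2))
  rw [EMG1100_0, mul_div_cancel₀ _ (by norm_num)]
  exact h

/-- The coefficient `eMG1100_1` at `(v, d)`. -/
noncomputable def EMG1100_1 (v d : ℝ) : ℝ :=
  (eMG1100_1 (.var 1) (.var 2)).eval (scaled 0 v d) / 125000000000000000000

theorem eMG1100_1_eval {V D : Ex} {x : ℕ → ℝ} {v d : ℝ} (hV : V.eval x = 5000000 * v)
    (hD : D.eval x = d) : (eMG1100_1 V D).eval x = 125000000000000000000 * EMG1100_1 v d := by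
  have h := eval_args3 (R := .num 0) (x := x) (r := 0) (by simp [Ex.eval]) hV hD
    (eMG1100_1 (.var 1) (.var 2))
  rw [EMG1100_1, mul_div_cancel₀ _ (by norm_num)]
  exact h

/-- The coefficient `eMG1100_2` at `(v, d)`. -/
noncomputable def EMG1100_2 (v d : ℝ) : ℝ :=
  (eMG1100_2 (.var 1) (.var 2)).eval (scaled 0 v d) / 125000000000000000000

theorem eMG1100_2_eval {V D : Ex} {x : ℕ → ℝ} {v d : ℝ} (hV : V.eval x = 5000000 * v)
    (hD : D.eval x = d) : (eMG1100_2 V D).eval x = 125000000000000000000 * EMG1100_2 v d := by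
  have h := eval_args3 (R := .num 0) (x := x) (r := 0) (by simp [Ex.eval]) hV hD
    (eMG1100_2 (.var 1) (.var 2))
  rw [EMG1100_2, mul_div_cancel₀ _ (by norm_num)]
  exact h

/-- The coefficient `eMG1100_3` at `(v, d)`. -/
noncomputable def EMG1100_3 (v d : ℝ) : ℝ :=
  (eMG1100_3 (.var 1) (.var 2)).eval (scaled 0 v d) / 125000000000000000000

theorem eMG1100_3_eval {V D : Ex} {x : ℕ → ℝ} {v d : ℝ} (hV : V.eval x = 5000000 * v)
    (hD : D.eval x = d) : (eMG1100_3 V D).eval x = 125000000000000000000 * EMG1100_3 v d := by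
  have h := eval_args3 (R := .num 0) (x := x) (r := 0) (by simp [Ex.eval]) hV hD
    (eMG1100_3 (.var 1) (.var 2))
  rw [EMG1100_3, mul_div_cancel₀ _ (by norm_num)]
  exact h

/-- The coefficient `eMG1100_4` at `(v, d)`. -/
noncomputable def EMG1100_4 (v d : ℝ) : ℝ :=
  (eMG1100_4 (.var 1) (.var 2)).eval (scaled 0 v d) / 125000000000000000000

theorem eMG1100_4_eval {V D : Ex} {x : ℕ → ℝ} {v d : ℝ} (hV : V.eval x = 5000000 * v)
    (hD : D.eval x = d) : (eMG1100_4 V D).eval x = 125000000000000000000 * EMG1100_4 v d := by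
  have h := eval_args3 (R := .num 0) (x := x) (r := 0) (by simp [Ex.eval]) hV hD
    (eMG1100_4 (.var 1) (.var 2))
  rw [EMG1100_4, mul_div_cancel₀ _ (by norm_num)]
  exact h

/-- The coefficient `eMG2000_0` at `(v, d)`. -/
noncomputable def EMG2000_0 (v d : ℝ) : ℝ :=
  (eMG2000_0 (.var 1) (.var 2)).eval (scaled 0 v d) / 2500000000000000000000000000

theorem eMG2000_0_eval {V D : Ex} {x : ℕ → ℝ} {v d : ℝ} (hV : V.eval x = 5000000 * v)
    (hD : D.eval x = d) : (eMG2000_0 V D).eval x = 2500000000000000000000000000 * EMG2000_0 v d := by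
  have h := eval_args3 (R := .num 0) (x := x) (r := 0) (by simp [Ex.eval]) hV hD
    (eMG2000_0 (.var 1) (.var 2))
  rw [EMG2000_0, mul_div_cancel₀ _ (by norm_num)]
  exact h

/-- The coefficient `eMG2000_1` at `(v, d)`. -/
noncomputable def EMG2000_1 (v d : ℝ) : ℝ :=
  (eMG2000_1 (.var 1) (.var 2)).eval (scaled 0 v d) / 1250000000000000000000000000

theorem eMG2000_1_eval {V D : Ex} {x : ℕ → ℝ} {v d : ℝ} (hV : V.eval x = 5000000 * v)
    (hD : D.eval x = d) : (eMG2000_1 V D).eval x = 1250000000000000000000000000 * EMG2000_1 v d := by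
  have h := eval_args3 (R := .num 0) (x := x) (r := 0) (by simp [Ex.eval]) hV hD
    (eMG2000_1 (.var 1) (.var 2))
  rw [EMG2000_1, mul_div_cancel₀ _ (by norm_num)]
  exact h

/-- The coefficient `eMG2000_2` at `(v, d)`. -/
noncomputable def EMG2000_2 (v d : ℝ) : ℝ :=
  (eMG2000_2 (.var 1) (.var 2)).eval (scaled 0 v d) / 1250000000000000000000000000

theorem eMG2000_2_eval {V D : Ex} {x : ℕ → ℝ} {v d : ℝ} (hV : V.eval x = 5000000 * v)
    (hD : D.eval x = d) : (eMG2000_2 V D).eval x = 1250000000000000000000000000 * EMG2000_2 v d := by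
  have h := eval_args3 (R := .num 0) (x := x) (r := 0) (by simp [Ex.eval]) hV hD
    (eMG2000_2 (.var 1) (.var 2))
  rw [EMG2000_2, mul_div_cancel₀ _ (by norm_num)]
  exact h

/-- The coefficient `eMG2000_3` at `(v, d)`. -/
noncomputable def EMG2000_3 (v d : ℝ) : ℝ :=
  (eMG2000_3 (.var 1) (.var 2)).eval (scaled 0 v d) / 1250000000000000000000000000

theorem eMG2000_3_eval {V D : Ex} {x : ℕ → ℝ} {v d : ℝ} (hV : V.eval x = 5000000 * v)
    (hD : D.eval x = d) : (eMG2000_3 V D).eval x = 1250000000000000000000000000 * EMG2000_3 v d := by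
  have h := eval_args3 (R := .num 0) (x := x) (r := 0) (by simp [Ex.eval]) hV hD
    (eMG2000_3 (.var 1) (.var 2))
  rw [EMG2000_3, mul_div_cancel₀ _ (by norm_num)]
  exact h

/-- The coefficient `eMG2000_4` at `(v, d)`. -/
noncomputable def EMG2000_4 (v d : ℝ) : ℝ :=
  (eMG2000_4 (.var 1) (.var 2)).eval (scaled 0 v d) / 2500000000000000000000000000

theorem eMG2000_4_eval {V D : Ex} {x : ℕ → ℝ} {v d : ℝ} (hV : V.eval x = 5000000 * v)
    (hD : D.eval x = d) : (eMG2000_4 V D).eval x = 2500000000000000000000000000 * EMG2000_4 v d := by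
  have h := eval_args3 (R := .num 0) (x := x) (r := 0) (by simp [Ex.eval]) hV hD
    (eMG2000_4 (.var 1) (.var 2))
  rw [EMG2000_4, mul_div_cancel₀ _ (by norm_num)]
  exact h

/-- The value of `AMG0000` in the variable `r`. -/
noncomputable def AMG0000 (r v d : ℝ) : ℝ := EMG0000_0 v d + EMG0000_1 v d * r + EMG0000_2 v d *
  r ^ 2 + EMG0000_3 v d * r ^ 3 + EMG0000_4 v d * r ^ 4 + EMG0000_5 v d * r ^ 5 + EMG0000_6 v d
  * r ^ 6

theorem cMG0000_eval {R V D : Ex} {x : ℕ → ℝ} {r v d : ℝ} (hR : R.eval x = 2000 * r)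
    (hV : V.eval x = 5000000 * v) (hD : D.eval x = d) :
    (cMG0000 R V D).eval x = 15625000000000000000000000000000000000000000000000000000000000000 * AMG0000 r v d := by
  simp only [cMG0000, AMG0000, Ex.eval, hR, eMG0000_0_eval hV hD, eMG0000_1_eval hV hD,
    eMG0000_2_eval hV hD, eMG0000_3_eval hV hD, eMG0000_4_eval hV hD, eMG0000_5_eval hV hD,
    eMG0000_6_eval hV hD]
  push_cast
  ring

/-- The value of `AMG0001` in the variable `r`. -/
noncomputable def AMG0001 (r v d : ℝ) : ℝ := EMG0001_0 v d + EMG0001_1 v d * r + EMG0001_2 v d *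
  r ^ 2 + EMG0001_3 v d * r ^ 3 + EMG0001_4 v d * r ^ 4

theorem cMG0001_eval {R V D : Ex} {x : ℕ → ℝ} {r v d : ℝ} (hR : R.eval x = 2000 * r)
    (hV : V.eval x = 5000000 * v) (hD : D.eval x = d) :
    (cMG0001 R V D).eval x = 10000000000000000000000000000000000000000 * AMG0001 r v d := by
  simp only [cMG0001, AMG0001, Ex.eval, hR, eMG0001_0_eval hV hD, eMG0001_1_eval hV hD,
    eMG0001_2_eval hV hD, eMG0001_3_eval hV hD, eMG0001_4_eval hV hD]
  push_cast
  ring

/-- The value of `AMG0010` in the variable `r`. -/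
noncomputable def AMG0010 (r v d : ℝ) : ℝ := EMG0010_0 v d + EMG0010_1 v d * r + EMG0010_2 v d *
  r ^ 2 + EMG0010_3 v d * r ^ 3 + EMG0010_4 v d * r ^ 4 + EMG0010_5 v d * r ^ 5

theorem cMG0010_eval {R V D : Ex} {x : ℕ → ℝ} {r v d : ℝ} (hR : R.eval x = 2000 * r)
    (hV : V.eval x = 5000000 * v) (hD : D.eval x = d) :
    (cMG0010 R V D).eval x = 20000000000000000000000000000000000000 * AMG0010 r v d := by
  simp only [cMG0010, AMG0010, Ex.eval, hR, eMG0010_0_eval hV hD, eMG0010_1_eval hV hD,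
    eMG0010_2_eval hV hD, eMG0010_3_eval hV hD, eMG0010_4_eval hV hD, eMG0010_5_eval hV hD]
  push_cast
  ring

/-- The value of `AMG0100` in the variable `r`. -/
noncomputable def AMG0100 (r v d : ℝ) : ℝ := EMG0100_0 v d + EMG0100_1 v d * r + EMG0100_2 v d *
  r ^ 2 + EMG0100_3 v d * r ^ 3 + EMG0100_4 v d * r ^ 4 + EMG0100_5 v d * r ^ 5

theorem cMG0100_eval {R V D : Ex} {x : ℕ → ℝ} {r v d : ℝ} (hR : R.eval x = 2000 * r)
    (hV : V.eval x = 5000000 * v) (hD : D.eval x = d) :
    (cMG0100 R V D).eval x = 100000000000000000000000000000000000000000000 * AMG0100 r v d := by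
  simp only [cMG0100, AMG0100, Ex.eval, hR, eMG0100_0_eval hV hD, eMG0100_1_eval hV hD,
    eMG0100_2_eval hV hD, eMG0100_3_eval hV hD, eMG0100_4_eval hV hD, eMG0100_5_eval hV hD]
  push_cast
  ring

/-- The value of `AMG0200` in the variable `r`. -/
noncomputable def AMG0200 (r v d : ℝ) : ℝ := EMG0200_0 v d + EMG0200_1 v d * r + EMG0200_2 v d *
  r ^ 2 + EMG0200_3 v d * r ^ 3 + EMG0200_4 v d * r ^ 4

theorem cMG0200_eval {R V D : Ex} {x : ℕ → ℝ} {r v d : ℝ} (hR : R.eval x = 2000 * r)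
    (hV : V.eval x = 5000000 * v) (hD : D.eval x = d) :
    (cMG0200 R V D).eval x = 2000000000000000000000000000000000 * AMG0200 r v d := by
  simp only [cMG0200, AMG0200, Ex.eval, hR, eMG0200_0_eval hV hD, eMG0200_1_eval hV hD,
    eMG0200_2_eval hV hD, eMG0200_3_eval hV hD, eMG0200_4_eval hV hD]
  push_cast
  ring

/-- The value of `AMG1000` in the variable `r`. -/
noncomputable def AMG1000 (r v d : ℝ) : ℝ := EMG1000_0 v d + EMG1000_1 v d * r + EMG1000_2 v d *
  r ^ 2 + EMG1000_3 v d * r ^ 3 + EMG1000_4 v d * r ^ 4 + EMG1000_5 v d * r ^ 5 + EMG1000_6 v d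
  * r ^ 6

theorem cMG1000_eval {R V D : Ex} {x : ℕ → ℝ} {r v d : ℝ} (hR : R.eval x = 2000 * r)
    (hV : V.eval x = 5000000 * v) (hD : D.eval x = d) :
    (cMG1000 R V D).eval x = 12500000000000000000000000000000000000000000000000000 * AMG1000 r v d := by
  simp only [cMG1000, AMG1000, Ex.eval, hR, eMG1000_0_eval hV hD, eMG1000_1_eval hV hD,
    eMG1000_2_eval hV hD, eMG1000_3_eval hV hD, eMG1000_4_eval hV hD, eMG1000_5_eval hV hD,
    eMG1000_6_eval hV hD]
  push_cast
  ring

/-- The value of `AMG1100` in the variable `r`. -/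
noncomputable def AMG1100 (r v d : ℝ) : ℝ := EMG1100_0 v d + EMG1100_1 v d * r + EMG1100_2 v d *
  r ^ 2 + EMG1100_3 v d * r ^ 3 + EMG1100_4 v d * r ^ 4

theorem cMG1100_eval {R V D : Ex} {x : ℕ → ℝ} {r v d : ℝ} (hR : R.eval x = 2000 * r)
    (hV : V.eval x = 5000000 * v) (hD : D.eval x = d) :
    (cMG1100 R V D).eval x = 2000000000000000000000000000000000 * AMG1100 r v d := by
  simp only [cMG1100, AMG1100, Ex.eval, hR, eMG1100_0_eval hV hD, eMG1100_1_eval hV hD,
    eMG1100_2_eval hV hD, eMG1100_3_eval hV hD, eMG1100_4_eval hV hD]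
  push_cast
  ring

/-- The value of `AMG2000` in the variable `r`. -/
noncomputable def AMG2000 (r v d : ℝ) : ℝ := EMG2000_0 v d + EMG2000_1 v d * r + EMG2000_2 v d *
  r ^ 2 + EMG2000_3 v d * r ^ 3 + EMG2000_4 v d * r ^ 4

theorem cMG2000_eval {R V D : Ex} {x : ℕ → ℝ} {r v d : ℝ} (hR : R.eval x = 2000 * r)
    (hV : V.eval x = 5000000 * v) (hD : D.eval x = d) :
    (cMG2000 R V D).eval x = 40000000000000000000000000000000000000000 * AMG2000 r v d := by
  simp only [cMG2000, AMG2000, Ex.eval, hR, eMG2000_0_eval hV hD, eMG2000_1_eval hV hD,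
    eMG2000_2_eval hV hD, eMG2000_3_eval hV hD, eMG2000_4_eval hV hD]
  push_cast
  ring

/-- `MG` in the variables `(r, v, d, X, Y, Z, Q)`. -/
noncomputable def rMG (r v d X Y Z Q : ℝ) : ℝ := AMG0000 r v d + AMG0001 r v d * Q + AMG0010 r v
  d * Z + AMG0100 r v d * Y + AMG0200 r v d * Y ^ 2 + AMG1000 r v d * X + AMG1100 r v d * X * Y
  + AMG2000 r v d * X ^ 2

theorem qMG_eval {R V D XE YE ZE QE : Ex} {x : ℕ → ℝ} {r v d X Y Z Q : ℝ} (hR : R.eval x = 2000
    * r) (hV : V.eval x = 5000000 * v) (hD : D.eval x = d) (hX : XE.eval x = 100000 * X) (hY :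
    YE.eval x = 100000 * Y) (hZ : ZE.eval x = 100000 * Z) (hQ : QE.eval x = 100000 * Q) : (qMG R
    V D XE YE ZE QE).eval x = 15625000000000000000000000000000000000000000000000000000000000000
    * rMG r v d X Y Z Q := by
  simp only [qMG, rMG, Ex.eval, cMG0000_eval hR hV hD, cMG0001_eval hR hV hD, cMG0010_eval hR hV
    hD, cMG0100_eval hR hV hD, cMG0200_eval hR hV hD, cMG1000_eval hR hV hD, cMG1100_eval hR hV
    hD, cMG2000_eval hR hV hD, hX, hY, hZ, hQ]
  push_cast
  ring

end Vale.Agent.P100.Calib.NegCert
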