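import Mathlib
import Vale.Agent.P100.Calib.NegCert.Common
import Vale.Agent.P100.Calib.NegCert.Poly

/-!
# Signs of slopes and second derivatives on a crude box
-/

set_option linter.unusedVariables false

namespace Vale.Agent.P100.Calib.NegCert

open Pack

def gR : Ex := .mul (.num 2000) (.var 0)

def gV : Ex := .mul (.num 5000000) (.var 2)

def gC_taZ : ℕ → Chart
  | 0 => ⟨0, 3, 1, 100⟩
  | 1 => ⟨0, 61, 1, 304⟩
  | 2 => ⟨27, 113, 100, 200⟩
  | _ => ⟨0, 1, 1, 1⟩

def g_taZ : Ex := (.sub (.num 0) (cTA0010 gR gV (.var 1)))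

theorem g_taZ_ok : checkFour gC_taZ 244 5 6 3 0 g_taZ = true := by decide +kernel

theorem g_taZ_nonneg {r d v : ℝ} (r₁ : 0 / 1 ≤ r) (r₂ : r < 3 / 100) (d₁ : 0 / 1 ≤ d) (d₂ : d <
    61 / 304) (v₁ : 27 / 100 ≤ v) (v₂ : v < 113 / 200) : 0 ≤ -(ATA0010 r v d) := by
  have h := nonneg_of_checkFour g_taZ_ok (mem4 (x₀ := r) (x₁ := d) (x₂ := v) (x₃ := 0)
    (by decide) (by decide) (by decide) (by decide)
    (by norm_num [InChart, gC_taZ]; constructor <;> linarith)
    (by norm_num [InChart, gC_taZ]; constructor <;> linarith)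
    (by norm_num [InChart, gC_taZ]; constructor <;> linarith) unused_mem)
  have hR : gR.eval (pt r d v 0) = 2000 * r := by simp [gR, Ex.eval, pt]
  have hV : gV.eval (pt r d v 0) = 5000000 * v := by simp [gV, Ex.eval, pt]
  have hD : (Ex.var 1).eval (pt r d v 0) = d := by simp [Ex.eval, pt]
  simp only [g_taZ, Ex.eval, cTA0010_eval hR hV hD] at h
  try simp only [pt] at h
  push_cast at h
  linarith

def gC_taQ : ℕ → Chart
  | 0 => ⟨0, 3, 1, 100⟩
  | 1 => ⟨0, 61, 1, 304⟩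
  | 2 => ⟨27, 113, 100, 200⟩
  | _ => ⟨0, 1, 1, 1⟩

def g_taQ : Ex := (.sub (.num 0) (cTA0001 gR gV (.var 1)))

theorem g_taQ_ok : checkFour gC_taQ 249 4 5 4 0 g_taQ = true := by decide +kernel

theorem g_taQ_nonneg {r d v : ℝ} (r₁ : 0 / 1 ≤ r) (r₂ : r < 3 / 100) (d₁ : 0 / 1 ≤ d) (d₂ : d <
    61 / 304) (v₁ : 27 / 100 ≤ v) (v₂ : v < 113 / 200) : 0 ≤ -(ATA0001 r v d) := by
  have h := nonneg_of_checkFour g_taQ_ok (mem4 (x₀ := r) (x₁ := d) (x₂ := v) (x₃ := 0)
    (by decide) (by decide) (by decide) (by decide)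
    (by norm_num [InChart, gC_taQ]; constructor <;> linarith)
    (by norm_num [InChart, gC_taQ]; constructor <;> linarith)
    (by norm_num [InChart, gC_taQ]; constructor <;> linarith) unused_mem)
  have hR : gR.eval (pt r d v 0) = 2000 * r := by simp [gR, Ex.eval, pt]
  have hV : gV.eval (pt r d v 0) = 5000000 * v := by simp [gV, Ex.eval, pt]
  have hD : (Ex.var 1).eval (pt r d v 0) = d := by simp [Ex.eval, pt]
  simp only [g_taQ, Ex.eval, cTA0001_eval hR hV hD] at h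
  try simp only [pt] at h
  push_cast at h
  linarith

def gC_taYY : ℕ → Chart
  | 0 => ⟨0, 3, 1, 100⟩
  | 1 => ⟨0, 61, 1, 304⟩
  | 2 => ⟨27, 113, 100, 200⟩
  | _ => ⟨0, 1, 1, 1⟩

def g_taYY : Ex := (.sub (.num 0) (cTA0200 gR gV (.var 1)))

theorem g_taYY_ok : checkFour gC_taYY 230 5 5 3 0 g_taYY = true := by decide +kernel

theorem g_taYY_nonneg {r d v : ℝ} (r₁ : 0 / 1 ≤ r) (r₂ : r < 3 / 100) (d₁ : 0 / 1 ≤ d) (d₂ : d <
    61 / 304) (v₁ : 27 / 100 ≤ v) (v₂ : v < 113 / 200) : 0 ≤ -(ATA0200 r v d) := by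
  have h := nonneg_of_checkFour g_taYY_ok (mem4 (x₀ := r) (x₁ := d) (x₂ := v) (x₃ := 0)
    (by decide) (by decide) (by decide) (by decide)
    (by norm_num [InChart, gC_taYY]; constructor <;> linarith)
    (by norm_num [InChart, gC_taYY]; constructor <;> linarith)
    (by norm_num [InChart, gC_taYY]; constructor <;> linarith) unused_mem)
  have hR : gR.eval (pt r d v 0) = 2000 * r := by simp [gR, Ex.eval, pt]
  have hV : gV.eval (pt r d v 0) = 5000000 * v := by simp [gV, Ex.eval, pt]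
  have hD : (Ex.var 1).eval (pt r d v 0) = d := by simp [Ex.eval, pt]
  simp only [g_taYY, Ex.eval, cTA0200_eval hR hV hD] at h
  try simp only [pt] at h
  push_cast at h
  linarith

def gC_taXl : ℕ → Chart
  | 0 => ⟨0, 3, 1, 100⟩
  | 1 => ⟨0, 61, 1, 304⟩
  | 2 => ⟨27, 113, 100, 200⟩
  | _ => ⟨9, 72, 1, 5⟩

def g_taXl : Ex := (.sub (.num 0) (.add (.add (cTA1000 gR gV (.var 1)) (.mul (.num 312500000000)
  (.mul (.mul (cTA2000 gR gV (.var 1)) (.var 3)) (.num 2)))) (.mul (.num 6250000000000000000)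
  (.mul (cTA1100 gR gV (.var 1)) (.num 99)))))

theorem g_taXl_ok : checkFour gC_taXl 360 6 9 5 1 g_taXl = true := by decide +kernel

theorem g_taXl_nonneg {r d v X : ℝ} (r₁ : 0 / 1 ≤ r) (r₂ : r < 3 / 100) (d₁ : 0 / 1 ≤ d) (d₂ : d
    < 61 / 304) (v₁ : 27 / 100 ≤ v) (v₂ : v < 113 / 200) (X₁ : 9 / 1 ≤ X) (X₂ : X < 72 / 5) : 0
    ≤ -(ATA1000 r v d + ((ATA2000 r v d) * X) * (2) + (ATA1100 r v d) * (99)) := by
  have h := nonneg_of_checkFour g_taXl_ok (mem4 (x₀ := r) (x₁ := d) (x₂ := v) (x₃ := X)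
    (by decide) (by decide) (by decide) (by decide)
    (by norm_num [InChart, gC_taXl]; constructor <;> linarith)
    (by norm_num [InChart, gC_taXl]; constructor <;> linarith)
    (by norm_num [InChart, gC_taXl]; constructor <;> linarith) (by norm_num [InChart, gC_taXl]; constructor <;> linarith))
  have hR : gR.eval (pt r d v X) = 2000 * r := by simp [gR, Ex.eval, pt]
  have hV : gV.eval (pt r d v X) = 5000000 * v := by simp [gV, Ex.eval, pt]
  have hD : (Ex.var 1).eval (pt r d v X) = d := by simp [Ex.eval, pt]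
  simp only [g_taXl, Ex.eval, cTA1000_eval hR hV hD, cTA1100_eval hR hV hD, cTA2000_eval hR hV
    hD] at h
  try simp only [pt] at h
  push_cast at h
  linarith

def gC_egXl : ℕ → Chart
  | 0 => ⟨0, 3, 1, 100⟩
  | 1 => ⟨0, 61, 1, 304⟩
  | 2 => ⟨27, 113, 100, 200⟩
  | _ => ⟨9, 72, 1, 5⟩

def g_egXl : Ex := (.add (.add (cEG1000 gR gV (.var 1)) (.mul (.num 625000000000) (.mul (.mul
  (cEG2000 gR gV (.var 1)) (.var 3)) (.num 2)))) (.mul (.num 62500000000000000000000) (.mul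
  (cEG1100 gR gV (.var 1)) (.num 99))))

theorem g_egXl_ok : checkFour gC_egXl 285 6 7 3 1 g_egXl = true := by decide +kernel

theorem g_egXl_nonneg {r d v X : ℝ} (r₁ : 0 / 1 ≤ r) (r₂ : r < 3 / 100) (d₁ : 0 / 1 ≤ d) (d₂ : d
    < 61 / 304) (v₁ : 27 / 100 ≤ v) (v₂ : v < 113 / 200) (X₁ : 9 / 1 ≤ X) (X₂ : X < 72 / 5) : 0
    ≤ AEG1000 r v d + ((AEG2000 r v d) * X) * (2) + (AEG1100 r v d) * (99) := by
  have h := nonneg_of_checkFour g_egXl_ok (mem4 (x₀ := r) (x₁ := d) (x₂ := v) (x₃ := X)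
    (by decide) (by decide) (by decide) (by decide)
    (by norm_num [InChart, gC_egXl]; constructor <;> linarith)
    (by norm_num [InChart, gC_egXl]; constructor <;> linarith)
    (by norm_num [InChart, gC_egXl]; constructor <;> linarith) (by norm_num [InChart, gC_egXl]; constructor <;> linarith))
  have hR : gR.eval (pt r d v X) = 2000 * r := by simp [gR, Ex.eval, pt]
  have hV : gV.eval (pt r d v X) = 5000000 * v := by simp [gV, Ex.eval, pt]
  have hD : (Ex.var 1).eval (pt r d v X) = d := by simp [Ex.eval, pt]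
  simp only [g_egXl, Ex.eval, cEG1000_eval hR hV hD, cEG1100_eval hR hV hD, cEG2000_eval hR hV
    hD] at h
  try simp only [pt] at h
  push_cast at h
  linarith

def gC_meXl : ℕ → Chart
  | 0 => ⟨0, 3, 1, 100⟩
  | 1 => ⟨0, 61, 1, 304⟩
  | 2 => ⟨27, 113, 100, 200⟩
  | _ => ⟨0, 1, 1, 1⟩

def g_meXl : Ex := (.sub (.num 0) (.add (cME1000 gR gV (.var 1)) (.mul (.num
  25000000000000000000) (.mul (cME1100 gR gV (.var 1)) (.num 99)))))

theorem g_meXl_ok : checkFour gC_meXl 226 4 5 3 0 g_meXl = true := by decide +kernel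

theorem g_meXl_nonneg {r d v : ℝ} (r₁ : 0 / 1 ≤ r) (r₂ : r < 3 / 100) (d₁ : 0 / 1 ≤ d) (d₂ : d <
    61 / 304) (v₁ : 27 / 100 ≤ v) (v₂ : v < 113 / 200) : 0 ≤ -(AME1000 r v d + (AME1100 r v d) *
    (99)) := by
  have h := nonneg_of_checkFour g_meXl_ok (mem4 (x₀ := r) (x₁ := d) (x₂ := v) (x₃ := 0)
    (by decide) (by decide) (by decide) (by decide)
    (by norm_num [InChart, gC_meXl]; constructor <;> linarith)
    (by norm_num [InChart, gC_meXl]; constructor <;> linarith)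
    (by norm_num [InChart, gC_meXl]; constructor <;> linarith) unused_mem)
  have hR : gR.eval (pt r d v 0) = 2000 * r := by simp [gR, Ex.eval, pt]
  have hV : gV.eval (pt r d v 0) = 5000000 * v := by simp [gV, Ex.eval, pt]
  have hD : (Ex.var 1).eval (pt r d v 0) = d := by simp [Ex.eval, pt]
  simp only [g_meXl, Ex.eval, cME1000_eval hR hV hD, cME1100_eval hR hV hD] at h
  try simp only [pt] at h
  push_cast at h
  linarith

def gC_taXu : ℕ → Chart
  | 0 => ⟨0, 3, 1, 100⟩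
  | 1 => ⟨0, 61, 1, 304⟩
  | 2 => ⟨27, 113, 100, 200⟩
  | _ => ⟨9, 72, 1, 5⟩

def g_taXu : Ex := (.sub (.num 0) (.add (.add (cTA1000 gR gV (.var 1)) (.mul (.num 312500000000)
  (.mul (.mul (cTA2000 gR gV (.var 1)) (.var 3)) (.num 2)))) (.mul (.num 6250000000000000000)
  (.mul (cTA1100 gR gV (.var 1)) (.num 140)))))

theorem g_taXu_ok : checkFour gC_taXu 360 6 9 5 1 g_taXu = true := by decide +kernel

theorem g_taXu_nonneg {r d v X : ℝ} (r₁ : 0 / 1 ≤ r) (r₂ : r < 3 / 100) (d₁ : 0 / 1 ≤ d) (d₂ : d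
    < 61 / 304) (v₁ : 27 / 100 ≤ v) (v₂ : v < 113 / 200) (X₁ : 9 / 1 ≤ X) (X₂ : X < 72 / 5) : 0
    ≤ -(ATA1000 r v d + ((ATA2000 r v d) * X) * (2) + (ATA1100 r v d) * (140)) := by
  have h := nonneg_of_checkFour g_taXu_ok (mem4 (x₀ := r) (x₁ := d) (x₂ := v) (x₃ := X)
    (by decide) (by decide) (by decide) (by decide)
    (by norm_num [InChart, gC_taXu]; constructor <;> linarith)
    (by norm_num [InChart, gC_taXu]; constructor <;> linarith)
    (by norm_num [InChart, gC_taXu]; constructor <;> linarith) (by norm_num [InChart, gC_taXu]; constructor <;> linarith))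
  have hR : gR.eval (pt r d v X) = 2000 * r := by simp [gR, Ex.eval, pt]
  have hV : gV.eval (pt r d v X) = 5000000 * v := by simp [gV, Ex.eval, pt]
  have hD : (Ex.var 1).eval (pt r d v X) = d := by simp [Ex.eval, pt]
  simp only [g_taXu, Ex.eval, cTA1000_eval hR hV hD, cTA1100_eval hR hV hD, cTA2000_eval hR hV
    hD] at h
  try simp only [pt] at h
  push_cast at h
  linarith

def gC_egXu : ℕ → Chart
  | 0 => ⟨0, 3, 1, 100⟩
  | 1 => ⟨0, 61, 1, 304⟩
  | 2 => ⟨27, 113, 100, 200⟩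
  | _ => ⟨9, 72, 1, 5⟩

def g_egXu : Ex := (.add (.add (cEG1000 gR gV (.var 1)) (.mul (.num 625000000000) (.mul (.mul
  (cEG2000 gR gV (.var 1)) (.var 3)) (.num 2)))) (.mul (.num 62500000000000000000000) (.mul
  (cEG1100 gR gV (.var 1)) (.num 140))))

theorem g_egXu_ok : checkFour gC_egXu 285 6 7 3 1 g_egXu = true := by decide +kernel

theorem g_egXu_nonneg {r d v X : ℝ} (r₁ : 0 / 1 ≤ r) (r₂ : r < 3 / 100) (d₁ : 0 / 1 ≤ d) (d₂ : d
    < 61 / 304) (v₁ : 27 / 100 ≤ v) (v₂ : v < 113 / 200) (X₁ : 9 / 1 ≤ X) (X₂ : X < 72 / 5) : 0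
    ≤ AEG1000 r v d + ((AEG2000 r v d) * X) * (2) + (AEG1100 r v d) * (140) := by
  have h := nonneg_of_checkFour g_egXu_ok (mem4 (x₀ := r) (x₁ := d) (x₂ := v) (x₃ := X)
    (by decide) (by decide) (by decide) (by decide)
    (by norm_num [InChart, gC_egXu]; constructor <;> linarith)
    (by norm_num [InChart, gC_egXu]; constructor <;> linarith)
    (by norm_num [InChart, gC_egXu]; constructor <;> linarith) (by norm_num [InChart, gC_egXu]; constructor <;> linarith))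
  have hR : gR.eval (pt r d v X) = 2000 * r := by simp [gR, Ex.eval, pt]
  have hV : gV.eval (pt r d v X) = 5000000 * v := by simp [gV, Ex.eval, pt]
  have hD : (Ex.var 1).eval (pt r d v X) = d := by simp [Ex.eval, pt]
  simp only [g_egXu, Ex.eval, cEG1000_eval hR hV hD, cEG1100_eval hR hV hD, cEG2000_eval hR hV
    hD] at h
  try simp only [pt] at h
  push_cast at h
  linarith

def gC_meXu : ℕ → Chart
  | 0 => ⟨0, 3, 1, 100⟩
  | 1 => ⟨0, 61, 1, 304⟩
  | 2 => ⟨27, 113, 100, 200⟩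
  | _ => ⟨0, 1, 1, 1⟩

def g_meXu : Ex := (.sub (.num 0) (.add (cME1000 gR gV (.var 1)) (.mul (.num
  25000000000000000000) (.mul (cME1100 gR gV (.var 1)) (.num 140)))))

theorem g_meXu_ok : checkFour gC_meXu 226 4 5 3 0 g_meXu = true := by decide +kernel

theorem g_meXu_nonneg {r d v : ℝ} (r₁ : 0 / 1 ≤ r) (r₂ : r < 3 / 100) (d₁ : 0 / 1 ≤ d) (d₂ : d <
    61 / 304) (v₁ : 27 / 100 ≤ v) (v₂ : v < 113 / 200) : 0 ≤ -(AME1000 r v d + (AME1100 r v d) *
    (140)) := by
  have h := nonneg_of_checkFour g_meXu_ok (mem4 (x₀ := r) (x₁ := d) (x₂ := v) (x₃ := 0)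
    (by decide) (by decide) (by decide) (by decide)
    (by norm_num [InChart, gC_meXu]; constructor <;> linarith)
    (by norm_num [InChart, gC_meXu]; constructor <;> linarith)
    (by norm_num [InChart, gC_meXu]; constructor <;> linarith) unused_mem)
  have hR : gR.eval (pt r d v 0) = 2000 * r := by simp [gR, Ex.eval, pt]
  have hV : gV.eval (pt r d v 0) = 5000000 * v := by simp [gV, Ex.eval, pt]
  have hD : (Ex.var 1).eval (pt r d v 0) = d := by simp [Ex.eval, pt]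
  simp only [g_meXu, Ex.eval, cME1000_eval hR hV hD, cME1100_eval hR hV hD] at h
  try simp only [pt] at h
  push_cast at h
  linarith

def gC_meZ : ℕ → Chart
  | 0 => ⟨0, 3, 1, 100⟩
  | 1 => ⟨0, 61, 1, 304⟩
  | 2 => ⟨27, 113, 100, 200⟩
  | _ => ⟨0, 1, 1, 1⟩

def g_meZ : Ex := (cME0010 gR gV (.var 1))

theorem g_meZ_ok : checkFour gC_meZ 147 3 3 2 0 g_meZ = true := by decide +kernel

theorem g_meZ_nonneg {r d v : ℝ} (r₁ : 0 / 1 ≤ r) (r₂ : r < 3 / 100) (d₁ : 0 / 1 ≤ d) (d₂ : d <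
    61 / 304) (v₁ : 27 / 100 ≤ v) (v₂ : v < 113 / 200) : 0 ≤ AME0010 r v d := by
  have h := nonneg_of_checkFour g_meZ_ok (mem4 (x₀ := r) (x₁ := d) (x₂ := v) (x₃ := 0)
    (by decide) (by decide) (by decide) (by decide)
    (by norm_num [InChart, gC_meZ]; constructor <;> linarith)
    (by norm_num [InChart, gC_meZ]; constructor <;> linarith)
    (by norm_num [InChart, gC_meZ]; constructor <;> linarith) unused_mem)
  have hR : gR.eval (pt r d v 0) = 2000 * r := by simp [gR, Ex.eval, pt]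
  have hV : gV.eval (pt r d v 0) = 5000000 * v := by simp [gV, Ex.eval, pt]
  have hD : (Ex.var 1).eval (pt r d v 0) = d := by simp [Ex.eval, pt]
  simp only [g_meZ, Ex.eval, cME0010_eval hR hV hD] at h
  try simp only [pt] at h
  push_cast at h
  linarith

def gC_meQ : ℕ → Chart
  | 0 => ⟨0, 3, 1, 100⟩
  | 1 => ⟨0, 61, 1, 304⟩
  | 2 => ⟨27, 113, 100, 200⟩
  | _ => ⟨0, 1, 1, 1⟩

def g_meQ : Ex := (cME0001 gR gV (.var 1))

theorem g_meQ_ok : checkFour gC_meQ 150 2 2 3 0 g_meQ = true := by decide +kernel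

theorem g_meQ_nonneg {r d v : ℝ} (r₁ : 0 / 1 ≤ r) (r₂ : r < 3 / 100) (d₁ : 0 / 1 ≤ d) (d₂ : d <
    61 / 304) (v₁ : 27 / 100 ≤ v) (v₂ : v < 113 / 200) : 0 ≤ AME0001 r v d := by
  have h := nonneg_of_checkFour g_meQ_ok (mem4 (x₀ := r) (x₁ := d) (x₂ := v) (x₃ := 0)
    (by decide) (by decide) (by decide) (by decide)
    (by norm_num [InChart, gC_meQ]; constructor <;> linarith)
    (by norm_num [InChart, gC_meQ]; constructor <;> linarith)
    (by norm_num [InChart, gC_meQ]; constructor <;> linarith) unused_mem)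
  have hR : gR.eval (pt r d v 0) = 2000 * r := by simp [gR, Ex.eval, pt]
  have hV : gV.eval (pt r d v 0) = 5000000 * v := by simp [gV, Ex.eval, pt]
  have hD : (Ex.var 1).eval (pt r d v 0) = d := by simp [Ex.eval, pt]
  simp only [g_meQ, Ex.eval, cME0001_eval hR hV hD] at h
  try simp only [pt] at h
  push_cast at h
  linarith

def gC_mgZ : ℕ → Chart
  | 0 => ⟨0, 3, 1, 100⟩
  | 1 => ⟨0, 61, 1, 304⟩
  | 2 => ⟨27, 113, 100, 200⟩
  | _ => ⟨0, 1, 1, 1⟩

def g_mgZ : Ex := (cMG0010 gR gV (.var 1))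

theorem g_mgZ_ok : checkFour gC_mgZ 242 5 6 3 0 g_mgZ = true := by decide +kernel

theorem g_mgZ_nonneg {r d v : ℝ} (r₁ : 0 / 1 ≤ r) (r₂ : r < 3 / 100) (d₁ : 0 / 1 ≤ d) (d₂ : d <
    61 / 304) (v₁ : 27 / 100 ≤ v) (v₂ : v < 113 / 200) : 0 ≤ AMG0010 r v d := by
  have h := nonneg_of_checkFour g_mgZ_ok (mem4 (x₀ := r) (x₁ := d) (x₂ := v) (x₃ := 0)
    (by decide) (by decide) (by decide) (by decide)
    (by norm_num [InChart, gC_mgZ]; constructor <;> linarith)
    (by norm_num [InChart, gC_mgZ]; constructor <;> linarith)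
    (by norm_num [InChart, gC_mgZ]; constructor <;> linarith) unused_mem)
  have hR : gR.eval (pt r d v 0) = 2000 * r := by simp [gR, Ex.eval, pt]
  have hV : gV.eval (pt r d v 0) = 5000000 * v := by simp [gV, Ex.eval, pt]
  have hD : (Ex.var 1).eval (pt r d v 0) = d := by simp [Ex.eval, pt]
  simp only [g_mgZ, Ex.eval, cMG0010_eval hR hV hD] at h
  try simp only [pt] at h
  push_cast at h
  linarith

def gC_mgQ : ℕ → Chart
  | 0 => ⟨0, 3, 1, 100⟩
  | 1 => ⟨0, 61, 1, 304⟩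
  | 2 => ⟨27, 113, 100, 200⟩
  | _ => ⟨0, 1, 1, 1⟩

def g_mgQ : Ex := (.sub (.num 0) (cMG0001 gR gV (.var 1)))

theorem g_mgQ_ok : checkFour gC_mgQ 249 4 5 4 0 g_mgQ = true := by decide +kernel

theorem g_mgQ_nonneg {r d v : ℝ} (r₁ : 0 / 1 ≤ r) (r₂ : r < 3 / 100) (d₁ : 0 / 1 ≤ d) (d₂ : d <
    61 / 304) (v₁ : 27 / 100 ≤ v) (v₂ : v < 113 / 200) : 0 ≤ -(AMG0001 r v d) := by
  have h := nonneg_of_checkFour g_mgQ_ok (mem4 (x₀ := r) (x₁ := d) (x₂ := v) (x₃ := 0)
    (by decide) (by decide) (by decide) (by decide)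
    (by norm_num [InChart, gC_mgQ]; constructor <;> linarith)
    (by norm_num [InChart, gC_mgQ]; constructor <;> linarith)
    (by norm_num [InChart, gC_mgQ]; constructor <;> linarith) unused_mem)
  have hR : gR.eval (pt r d v 0) = 2000 * r := by simp [gR, Ex.eval, pt]
  have hV : gV.eval (pt r d v 0) = 5000000 * v := by simp [gV, Ex.eval, pt]
  have hD : (Ex.var 1).eval (pt r d v 0) = d := by simp [Ex.eval, pt]
  simp only [g_mgQ, Ex.eval, cMG0001_eval hR hV hD] at h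
  try simp only [pt] at h
  push_cast at h
  linarith

def gC_mgXX : ℕ → Chart
  | 0 => ⟨0, 3, 1, 100⟩
  | 1 => ⟨0, 61, 1, 304⟩
  | 2 => ⟨27, 113, 100, 200⟩
  | _ => ⟨0, 1, 1, 1⟩

def g_mgXX : Ex := (.sub (.num 0) (cMG2000 gR gV (.var 1)))

theorem g_mgXX_ok : checkFour gC_mgXX 269 4 8 4 0 g_mgXX = true := by decide +kernel

theorem g_mgXX_nonneg {r d v : ℝ} (r₁ : 0 / 1 ≤ r) (r₂ : r < 3 / 100) (d₁ : 0 / 1 ≤ d) (d₂ : d <
    61 / 304) (v₁ : 27 / 100 ≤ v) (v₂ : v < 113 / 200) : 0 ≤ -(AMG2000 r v d) := by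
  have h := nonneg_of_checkFour g_mgXX_ok (mem4 (x₀ := r) (x₁ := d) (x₂ := v) (x₃ := 0)
    (by decide) (by decide) (by decide) (by decide)
    (by norm_num [InChart, gC_mgXX]; constructor <;> linarith)
    (by norm_num [InChart, gC_mgXX]; constructor <;> linarith)
    (by norm_num [InChart, gC_mgXX]; constructor <;> linarith) unused_mem)
  have hR : gR.eval (pt r d v 0) = 2000 * r := by simp [gR, Ex.eval, pt]
  have hV : gV.eval (pt r d v 0) = 5000000 * v := by simp [gV, Ex.eval, pt]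
  have hD : (Ex.var 1).eval (pt r d v 0) = d := by simp [Ex.eval, pt]
  simp only [g_mgXX, Ex.eval, cMG2000_eval hR hV hD] at h
  try simp only [pt] at h
  push_cast at h
  linarith

def gC_mgYY : ℕ → Chart
  | 0 => ⟨0, 3, 1, 100⟩
  | 1 => ⟨0, 61, 1, 304⟩
  | 2 => ⟨27, 113, 100, 200⟩
  | _ => ⟨0, 1, 1, 1⟩

def g_mgYY : Ex := (.sub (.num 0) (cMG0200 gR gV (.var 1)))

theorem g_mgYY_ok : checkFour gC_mgYY 209 4 5 3 0 g_mgYY = true := by decide +kernel

theorem g_mgYY_nonneg {r d v : ℝ} (r₁ : 0 / 1 ≤ r) (r₂ : r < 3 / 100) (d₁ : 0 / 1 ≤ d) (d₂ : d <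
    61 / 304) (v₁ : 27 / 100 ≤ v) (v₂ : v < 113 / 200) : 0 ≤ -(AMG0200 r v d) := by
  have h := nonneg_of_checkFour g_mgYY_ok (mem4 (x₀ := r) (x₁ := d) (x₂ := v) (x₃ := 0)
    (by decide) (by decide) (by decide) (by decide)
    (by norm_num [InChart, gC_mgYY]; constructor <;> linarith)
    (by norm_num [InChart, gC_mgYY]; constructor <;> linarith)
    (by norm_num [InChart, gC_mgYY]; constructor <;> linarith) unused_mem)
  have hR : gR.eval (pt r d v 0) = 2000 * r := by simp [gR, Ex.eval, pt]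
  have hV : gV.eval (pt r d v 0) = 5000000 * v := by simp [gV, Ex.eval, pt]
  have hD : (Ex.var 1).eval (pt r d v 0) = d := by simp [Ex.eval, pt]
  simp only [g_mgYY, Ex.eval, cMG0200_eval hR hV hD] at h
  try simp only [pt] at h
  push_cast at h
  linarith

def gC_ggXX : ℕ → Chart
  | 0 => ⟨0, 3, 1, 100⟩
  | 1 => ⟨0, 61, 1, 304⟩
  | 2 => ⟨27, 113, 100, 200⟩
  | _ => ⟨0, 1, 1, 1⟩

def g_ggXX : Ex := (.sub (.num 0) (cGG2000 gR gV (.var 1)))

theorem g_ggXX_ok : checkFour gC_ggXX 250 5 7 3 0 g_ggXX = true := by decide +kernel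

theorem g_ggXX_nonneg {r d v : ℝ} (r₁ : 0 / 1 ≤ r) (r₂ : r < 3 / 100) (d₁ : 0 / 1 ≤ d) (d₂ : d <
    61 / 304) (v₁ : 27 / 100 ≤ v) (v₂ : v < 113 / 200) : 0 ≤ -(AGG2000 r v d) := by
  have h := nonneg_of_checkFour g_ggXX_ok (mem4 (x₀ := r) (x₁ := d) (x₂ := v) (x₃ := 0)
    (by decide) (by decide) (by decide) (by decide)
    (by norm_num [InChart, gC_ggXX]; constructor <;> linarith)
    (by norm_num [InChart, gC_ggXX]; constructor <;> linarith)
    (by norm_num [InChart, gC_ggXX]; constructor <;> linarith) unused_mem)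
  have hR : gR.eval (pt r d v 0) = 2000 * r := by simp [gR, Ex.eval, pt]
  have hV : gV.eval (pt r d v 0) = 5000000 * v := by simp [gV, Ex.eval, pt]
  have hD : (Ex.var 1).eval (pt r d v 0) = d := by simp [Ex.eval, pt]
  simp only [g_ggXX, Ex.eval, cGG2000_eval hR hV hD] at h
  try simp only [pt] at h
  push_cast at h
  linarith

def gC_caZ : ℕ → Chart
  | 0 => ⟨0, 3, 1, 100⟩
  | 1 => ⟨0, 61, 1, 304⟩
  | 2 => ⟨27, 113, 100, 200⟩
  | _ => ⟨0, 1, 1, 1⟩

def g_caZ : Ex := (.sub (.num 0) (cTA0010_d2 gR gV (.var 1)))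

theorem g_caZ_ok : checkFour gC_caZ 201 3 5 3 0 g_caZ = true := by decide +kernel

theorem g_caZ_nonneg {r d v : ℝ} (r₁ : 0 / 1 ≤ r) (r₂ : r < 3 / 100) (d₁ : 0 / 1 ≤ d) (d₂ : d <
    61 / 304) (v₁ : 27 / 100 ≤ v) (v₂ : v < 113 / 200) : 0 ≤ -(BTA0010 r v d) := by
  have h := nonneg_of_checkFour g_caZ_ok (mem4 (x₀ := r) (x₁ := d) (x₂ := v) (x₃ := 0)
    (by decide) (by decide) (by decide) (by decide)
    (by norm_num [InChart, gC_caZ]; constructor <;> linarith)
    (by norm_num [InChart, gC_caZ]; constructor <;> linarith)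
    (by norm_num [InChart, gC_caZ]; constructor <;> linarith) unused_mem)
  have hR : gR.eval (pt r d v 0) = 2000 * r := by simp [gR, Ex.eval, pt]
  have hV : gV.eval (pt r d v 0) = 5000000 * v := by simp [gV, Ex.eval, pt]
  have hD : (Ex.var 1).eval (pt r d v 0) = d := by simp [Ex.eval, pt]
  simp only [g_caZ, Ex.eval, cTA0010_d2_eval hR hV hD] at h
  try simp only [pt] at h
  push_cast at h
  linarith

def gC_caQ : ℕ → Chart
  | 0 => ⟨0, 3, 1, 100⟩
  | 1 => ⟨0, 61, 1, 304⟩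
  | 2 => ⟨27, 113, 100, 200⟩
  | _ => ⟨0, 1, 1, 1⟩

def g_caQ : Ex := (cTA0001_d2 gR gV (.var 1))

theorem g_caQ_ok : checkFour gC_caQ 204 2 4 4 0 g_caQ = true := by decide +kernel

theorem g_caQ_nonneg {r d v : ℝ} (r₁ : 0 / 1 ≤ r) (r₂ : r < 3 / 100) (d₁ : 0 / 1 ≤ d) (d₂ : d <
    61 / 304) (v₁ : 27 / 100 ≤ v) (v₂ : v < 113 / 200) : 0 ≤ BTA0001 r v d := by
  have h := nonneg_of_checkFour g_caQ_ok (mem4 (x₀ := r) (x₁ := d) (x₂ := v) (x₃ := 0)
    (by decide) (by decide) (by decide) (by decide)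
    (by norm_num [InChart, gC_caQ]; constructor <;> linarith)
    (by norm_num [InChart, gC_caQ]; constructor <;> linarith)
    (by norm_num [InChart, gC_caQ]; constructor <;> linarith) unused_mem)
  have hR : gR.eval (pt r d v 0) = 2000 * r := by simp [gR, Ex.eval, pt]
  have hV : gV.eval (pt r d v 0) = 5000000 * v := by simp [gV, Ex.eval, pt]
  have hD : (Ex.var 1).eval (pt r d v 0) = d := by simp [Ex.eval, pt]
  simp only [g_caQ, Ex.eval, cTA0001_d2_eval hR hV hD] at h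
  try simp only [pt] at h
  push_cast at h
  linarith

def gC_caYY : ℕ → Chart
  | 0 => ⟨0, 3, 1, 100⟩
  | 1 => ⟨0, 61, 1, 304⟩
  | 2 => ⟨27, 113, 100, 200⟩
  | _ => ⟨0, 1, 1, 1⟩

def g_caYY : Ex := (cTA0200_d2 gR gV (.var 1))

theorem g_caYY_ok : checkFour gC_caYY 193 3 5 3 0 g_caYY = true := by decide +kernel

theorem g_caYY_nonneg {r d v : ℝ} (r₁ : 0 / 1 ≤ r) (r₂ : r < 3 / 100) (d₁ : 0 / 1 ≤ d) (d₂ : d <
    61 / 304) (v₁ : 27 / 100 ≤ v) (v₂ : v < 113 / 200) : 0 ≤ BTA0200 r v d := by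
  have h := nonneg_of_checkFour g_caYY_ok (mem4 (x₀ := r) (x₁ := d) (x₂ := v) (x₃ := 0)
    (by decide) (by decide) (by decide) (by decide)
    (by norm_num [InChart, gC_caYY]; constructor <;> linarith)
    (by norm_num [InChart, gC_caYY]; constructor <;> linarith)
    (by norm_num [InChart, gC_caYY]; constructor <;> linarith) unused_mem)
  have hR : gR.eval (pt r d v 0) = 2000 * r := by simp [gR, Ex.eval, pt]
  have hV : gV.eval (pt r d v 0) = 5000000 * v := by simp [gV, Ex.eval, pt]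
  have hD : (Ex.var 1).eval (pt r d v 0) = d := by simp [Ex.eval, pt]
  simp only [g_caYY, Ex.eval, cTA0200_d2_eval hR hV hD] at h
  try simp only [pt] at h
  push_cast at h
  linarith

def gC_cGG : ℕ → Chart
  | 0 => ⟨0, 3, 1, 100⟩
  | 1 => ⟨0, 61, 1, 304⟩
  | 2 => ⟨27, 113, 100, 200⟩
  | _ => ⟨9, 72, 1, 5⟩

def g_cGG : Ex := (.sub (.num 0) (.add (.add (cGG0000_d2 gR gV (.var 1)) (.mul (.num
  6250000000000) (.mul (cGG1000_d2 gR gV (.var 1)) (.var 3)))) (.mul (.num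
  78125000000000000000000) (.mul (.mul (cGG2000_d2 gR gV (.var 1)) (.var 3)) (.var 3)))))

theorem g_cGG_ok : checkFour gC_cGG 340 5 7 6 2 g_cGG = true := by decide +kernel

theorem g_cGG_nonneg {r d v X : ℝ} (r₁ : 0 / 1 ≤ r) (r₂ : r < 3 / 100) (d₁ : 0 / 1 ≤ d) (d₂ : d
    < 61 / 304) (v₁ : 27 / 100 ≤ v) (v₂ : v < 113 / 200) (X₁ : 9 / 1 ≤ X) (X₂ : X < 72 / 5) : 0
    ≤ -(BGG0000 r v d + (BGG1000 r v d) * X + ((BGG2000 r v d) * X) * X) := by
  have h := nonneg_of_checkFour g_cGG_ok (mem4 (x₀ := r) (x₁ := d) (x₂ := v) (x₃ := X)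
    (by decide) (by decide) (by decide) (by decide)
    (by norm_num [InChart, gC_cGG]; constructor <;> linarith)
    (by norm_num [InChart, gC_cGG]; constructor <;> linarith)
    (by norm_num [InChart, gC_cGG]; constructor <;> linarith) (by norm_num [InChart, gC_cGG]; constructor <;> linarith))
  have hR : gR.eval (pt r d v X) = 2000 * r := by simp [gR, Ex.eval, pt]
  have hV : gV.eval (pt r d v X) = 5000000 * v := by simp [gV, Ex.eval, pt]
  have hD : (Ex.var 1).eval (pt r d v X) = d := by simp [Ex.eval, pt]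
  simp only [g_cGG, Ex.eval, cGG0000_d2_eval hR hV hD, cGG1000_d2_eval hR hV hD, cGG2000_d2_eval
    hR hV hD] at h
  try simp only [pt] at h
  push_cast at h
  linarith

def gC_dmeZ : ℕ → Chart
  | 0 => ⟨0, 3, 1, 100⟩
  | 1 => ⟨0, 61, 1, 304⟩
  | 2 => ⟨27, 113, 100, 200⟩
  | _ => ⟨0, 1, 1, 1⟩

def g_dmeZ : Ex := (cME0010_d1 gR gV (.var 1))

theorem g_dmeZ_ok : checkFour gC_dmeZ 129 2 3 2 0 g_dmeZ = true := by decide +kernel

theorem g_dmeZ_nonneg {r d v : ℝ} (r₁ : 0 / 1 ≤ r) (r₂ : r < 3 / 100) (d₁ : 0 / 1 ≤ d) (d₂ : d <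
    61 / 304) (v₁ : 27 / 100 ≤ v) (v₂ : v < 113 / 200) : 0 ≤ BME0010 r v d := by
  have h := nonneg_of_checkFour g_dmeZ_ok (mem4 (x₀ := r) (x₁ := d) (x₂ := v) (x₃ := 0)
    (by decide) (by decide) (by decide) (by decide)
    (by norm_num [InChart, gC_dmeZ]; constructor <;> linarith)
    (by norm_num [InChart, gC_dmeZ]; constructor <;> linarith)
    (by norm_num [InChart, gC_dmeZ]; constructor <;> linarith) unused_mem)
  have hR : gR.eval (pt r d v 0) = 2000 * r := by simp [gR, Ex.eval, pt]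
  have hV : gV.eval (pt r d v 0) = 5000000 * v := by simp [gV, Ex.eval, pt]
  have hD : (Ex.var 1).eval (pt r d v 0) = d := by simp [Ex.eval, pt]
  simp only [g_dmeZ, Ex.eval, cME0010_d1_eval hR hV hD] at h
  try simp only [pt] at h
  push_cast at h
  linarith

def gC_cTAl : ℕ → Chart
  | 0 => ⟨0, 3, 1, 100⟩
  | 1 => ⟨0, 61, 1, 304⟩
  | 2 => ⟨27, 113, 100, 200⟩
  | _ => ⟨9, 72, 1, 5⟩

def g_cTAl : Ex := (.sub (.num 0) (.add (.add (.add (.add (.add (.add (.add (cTA0000_d2 gR gV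
  (.var 1)) (.mul (.num 15625000000000000000000000000) (cTA0001_d2 gR gV (.var 1)))) (.mul (.num
  3906250000000000000000000000000) (.mul (cTA0010_d2 gR gV (.var 1)) (.num (-35))))) (.mul (.num
  156250000000000000000) (.mul (cTA0100_d2 gR gV (.var 1)) (.num 99)))) (.mul (.num
  7812500000000000000000000000000) (.mul (.mul (cTA0200_d2 gR gV (.var 1)) (.num 99)) (.num
  99)))) (.mul (.num 1250000000000) (.mul (cTA1000_d2 gR gV (.var 1)) (.var 3)))) (.mul (.num
  7812500000000000000000000000000) (.mul (.mul (cTA1100_d2 gR gV (.var 1)) (.var 3)) (.num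
  99)))) (.mul (.num 390625000000000000000000) (.mul (.mul (cTA2000_d2 gR gV (.var 1)) (.var 3))
  (.var 3)))))

theorem g_cTAl_ok : checkFour gC_cTAl 380 5 8 6 2 g_cTAl = true := by decide +kernel

theorem g_cTAl_nonneg {r d v X : ℝ} (r₁ : 0 / 1 ≤ r) (r₂ : r < 3 / 100) (d₁ : 0 / 1 ≤ d) (d₂ : d
    < 61 / 304) (v₁ : 27 / 100 ≤ v) (v₂ : v < 113 / 200) (X₁ : 9 / 1 ≤ X) (X₂ : X < 72 / 5) : 0
    ≤ -(BTA0000 r v d + (BTA0001 r v d) * (1) + (BTA0010 r v d) * (-35/2) + (BTA0100 r v d) *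
    (99) + ((BTA0200 r v d) * (99)) * (99) + (BTA1000 r v d) * X + ((BTA1100 r v d) * X) * (99)
    + ((BTA2000 r v d) * X) * X) := by
  have h := nonneg_of_checkFour g_cTAl_ok (mem4 (x₀ := r) (x₁ := d) (x₂ := v) (x₃ := X)
    (by decide) (by decide) (by decide) (by decide)
    (by norm_num [InChart, gC_cTAl]; constructor <;> linarith)
    (by norm_num [InChart, gC_cTAl]; constructor <;> linarith)
    (by norm_num [InChart, gC_cTAl]; constructor <;> linarith) (by norm_num [InChart, gC_cTAl]; constructor <;> linarith))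
  have hR : gR.eval (pt r d v X) = 2000 * r := by simp [gR, Ex.eval, pt]
  have hV : gV.eval (pt r d v X) = 5000000 * v := by simp [gV, Ex.eval, pt]
  have hD : (Ex.var 1).eval (pt r d v X) = d := by simp [Ex.eval, pt]
  simp only [g_cTAl, Ex.eval, cTA0000_d2_eval hR hV hD, cTA0001_d2_eval hR hV hD,
    cTA0010_d2_eval hR hV hD, cTA0100_d2_eval hR hV hD, cTA0200_d2_eval hR hV hD,
    cTA1000_d2_eval hR hV hD, cTA1100_d2_eval hR hV hD, cTA2000_d2_eval hR hV hD] at h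
  try simp only [pt] at h
  push_cast at h
  linarith

def gC_dEGl : ℕ → Chart
  | 0 => ⟨0, 3, 1, 100⟩
  | 1 => ⟨0, 61, 1, 304⟩
  | 2 => ⟨27, 113, 100, 200⟩
  | _ => ⟨9, 72, 1, 5⟩

def g_dEGl : Ex := (.add (.add (.add (.add (cEG0000_d1 gR gV (.var 1)) (.mul (.num
  500000000000000) (.mul (cEG0100_d1 gR gV (.var 1)) (.num 99)))) (.mul (.num 50000000000) (.mul
  (cEG1000_d1 gR gV (.var 1)) (.var 3)))) (.mul (.num 3125000000000000000000000000000000) (.mul
  (.mul (cEG1100_d1 gR gV (.var 1)) (.var 3)) (.num 99)))) (.mul (.num 31250000000000000000000)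
  (.mul (.mul (cEG2000_d1 gR gV (.var 1)) (.var 3)) (.var 3))))

theorem g_dEGl_ok : checkFour gC_dEGl 323 6 7 4 2 g_dEGl = true := by decide +kernel

theorem g_dEGl_nonneg {r d v X : ℝ} (r₁ : 0 / 1 ≤ r) (r₂ : r < 3 / 100) (d₁ : 0 / 1 ≤ d) (d₂ : d
    < 61 / 304) (v₁ : 27 / 100 ≤ v) (v₂ : v < 113 / 200) (X₁ : 9 / 1 ≤ X) (X₂ : X < 72 / 5) : 0
    ≤ BEG0000 r v d + (BEG0100 r v d) * (99) + (BEG1000 r v d) * X + ((BEG1100 r v d) * X) *
    (99) + ((BEG2000 r v d) * X) * X := by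
  have h := nonneg_of_checkFour g_dEGl_ok (mem4 (x₀ := r) (x₁ := d) (x₂ := v) (x₃ := X)
    (by decide) (by decide) (by decide) (by decide)
    (by norm_num [InChart, gC_dEGl]; constructor <;> linarith)
    (by norm_num [InChart, gC_dEGl]; constructor <;> linarith)
    (by norm_num [InChart, gC_dEGl]; constructor <;> linarith) (by norm_num [InChart, gC_dEGl]; constructor <;> linarith))
  have hR : gR.eval (pt r d v X) = 2000 * r := by simp [gR, Ex.eval, pt]
  have hV : gV.eval (pt r d v X) = 5000000 * v := by simp [gV, Ex.eval, pt]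
  have hD : (Ex.var 1).eval (pt r d v X) = d := by simp [Ex.eval, pt]
  simp only [g_dEGl, Ex.eval, cEG0000_d1_eval hR hV hD, cEG0100_d1_eval hR hV hD,
    cEG1000_d1_eval hR hV hD, cEG1100_d1_eval hR hV hD, cEG2000_d1_eval hR hV hD] at h
  try simp only [pt] at h
  push_cast at h
  linarith

def gC_dMEll : ℕ → Chart
  | 0 => ⟨0, 3, 1, 100⟩
  | 1 => ⟨0, 61, 1, 304⟩
  | 2 => ⟨27, 113, 100, 200⟩
  | _ => ⟨9, 72, 1, 5⟩

def g_dMEll : Ex := (.sub (.num 0) (.add (.add (.mul (.num 10000000000) (.add (.add (.mul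
  (cME0001_d1 gR gV (.var 1)) (.num (-25))) (.mul (.num 125) (.mul (cME0010_d1 gR gV (.var 1))
  (.num (-5))))) (.mul (.num 5000000) (.mul (cME0100_d1 gR gV (.var 1)) (.num 99))))) (.mul
  (cME1000_d1 gR gV (.var 1)) (.var 3))) (.mul (.num 25000000000000000000) (.mul (.mul
  (cME1100_d1 gR gV (.var 1)) (.var 3)) (.num 99)))))

theorem g_dMEll_ok : checkFour gC_dMEll 214 3 5 3 1 g_dMEll = true := by decide +kernel

theorem g_dMEll_nonneg {r d v X : ℝ} (r₁ : 0 / 1 ≤ r) (r₂ : r < 3 / 100) (d₁ : 0 / 1 ≤ d) (d₂ :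
    d < 61 / 304) (v₁ : 27 / 100 ≤ v) (v₂ : v < 113 / 200) (X₁ : 9 / 1 ≤ X) (X₂ : X < 72 / 5) :
    0 ≤ -((BME0001 r v d) * (-25) + (BME0010 r v d) * (-5) + (BME0100 r v d) * (99) + (BME1000 r
    v d) * X + ((BME1100 r v d) * X) * (99)) := by
  have h := nonneg_of_checkFour g_dMEll_ok (mem4 (x₀ := r) (x₁ := d) (x₂ := v) (x₃ := X)
    (by decide) (by decide) (by decide) (by decide)
    (by norm_num [InChart, gC_dMEll]; constructor <;> linarith)
    (by norm_num [InChart, gC_dMEll]; constructor <;> linarith)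
    (by norm_num [InChart, gC_dMEll]; constructor <;> linarith) (by norm_num [InChart, gC_dMEll]; constructor <;> linarith))
  have hR : gR.eval (pt r d v X) = 2000 * r := by simp [gR, Ex.eval, pt]
  have hV : gV.eval (pt r d v X) = 5000000 * v := by simp [gV, Ex.eval, pt]
  have hD : (Ex.var 1).eval (pt r d v X) = d := by simp [Ex.eval, pt]
  simp only [g_dMEll, Ex.eval, cME0001_d1_eval hR hV hD, cME0010_d1_eval hR hV hD,
    cME0100_d1_eval hR hV hD, cME1000_d1_eval hR hV hD, cME1100_d1_eval hR hV hD] at h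
  try simp only [pt] at h
  push_cast at h
  linarith

def gC_dMElu : ℕ → Chart
  | 0 => ⟨0, 3, 1, 100⟩
  | 1 => ⟨0, 61, 1, 304⟩
  | 2 => ⟨27, 113, 100, 200⟩
  | _ => ⟨9, 72, 1, 5⟩

def g_dMElu : Ex := (.sub (.num 0) (.add (.add (.mul (.num 10000000000) (.add (.add (cME0001_d1
  gR gV (.var 1)) (.mul (.num 125) (.mul (cME0010_d1 gR gV (.var 1)) (.num (-5))))) (.mul (.num
  5000000) (.mul (cME0100_d1 gR gV (.var 1)) (.num 99))))) (.mul (cME1000_d1 gR gV (.var 1))
  (.var 3))) (.mul (.num 25000000000000000000) (.mul (.mul (cME1100_d1 gR gV (.var 1)) (.var 3))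
  (.num 99)))))

theorem g_dMElu_ok : checkFour gC_dMElu 214 3 5 3 1 g_dMElu = true := by decide +kernel

theorem g_dMElu_nonneg {r d v X : ℝ} (r₁ : 0 / 1 ≤ r) (r₂ : r < 3 / 100) (d₁ : 0 / 1 ≤ d) (d₂ :
    d < 61 / 304) (v₁ : 27 / 100 ≤ v) (v₂ : v < 113 / 200) (X₁ : 9 / 1 ≤ X) (X₂ : X < 72 / 5) :
    0 ≤ -((BME0001 r v d) * (1) + (BME0010 r v d) * (-5) + (BME0100 r v d) * (99) + (BME1000 r v
    d) * X + ((BME1100 r v d) * X) * (99)) := by
  have h := nonneg_of_checkFour g_dMElu_ok (mem4 (x₀ := r) (x₁ := d) (x₂ := v) (x₃ := X)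
    (by decide) (by decide) (by decide) (by decide)
    (by norm_num [InChart, gC_dMElu]; constructor <;> linarith)
    (by norm_num [InChart, gC_dMElu]; constructor <;> linarith)
    (by norm_num [InChart, gC_dMElu]; constructor <;> linarith) (by norm_num [InChart, gC_dMElu]; constructor <;> linarith))
  have hR : gR.eval (pt r d v X) = 2000 * r := by simp [gR, Ex.eval, pt]
  have hV : gV.eval (pt r d v X) = 5000000 * v := by simp [gV, Ex.eval, pt]
  have hD : (Ex.var 1).eval (pt r d v X) = d := by simp [Ex.eval, pt]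
  simp only [g_dMElu, Ex.eval, cME0001_d1_eval hR hV hD, cME0010_d1_eval hR hV hD,
    cME0100_d1_eval hR hV hD, cME1000_d1_eval hR hV hD, cME1100_d1_eval hR hV hD] at h
  try simp only [pt] at h
  push_cast at h
  linarith

def gC_cTAu : ℕ → Chart
  | 0 => ⟨0, 3, 1, 100⟩
  | 1 => ⟨0, 61, 1, 304⟩
  | 2 => ⟨27, 113, 100, 200⟩
  | _ => ⟨9, 72, 1, 5⟩

def g_cTAu : Ex := (.sub (.num 0) (.add (.add (.add (.add (.add (.add (.add (cTA0000_d2 gR gV
  (.var 1)) (.mul (.num 15625000000000000000000000000) (cTA0001_d2 gR gV (.var 1)))) (.mul (.num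
  3906250000000000000000000000000) (.mul (cTA0010_d2 gR gV (.var 1)) (.num (-35))))) (.mul (.num
  156250000000000000000) (.mul (cTA0100_d2 gR gV (.var 1)) (.num 140)))) (.mul (.num
  7812500000000000000000000000000) (.mul (.mul (cTA0200_d2 gR gV (.var 1)) (.num 140)) (.num
  140)))) (.mul (.num 1250000000000) (.mul (cTA1000_d2 gR gV (.var 1)) (.var 3)))) (.mul (.num
  7812500000000000000000000000000) (.mul (.mul (cTA1100_d2 gR gV (.var 1)) (.var 3)) (.num
  140)))) (.mul (.num 390625000000000000000000) (.mul (.mul (cTA2000_d2 gR gV (.var 1)) (.var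
  3)) (.var 3)))))

theorem g_cTAu_ok : checkFour gC_cTAu 380 5 8 6 2 g_cTAu = true := by decide +kernel

theorem g_cTAu_nonneg {r d v X : ℝ} (r₁ : 0 / 1 ≤ r) (r₂ : r < 3 / 100) (d₁ : 0 / 1 ≤ d) (d₂ : d
    < 61 / 304) (v₁ : 27 / 100 ≤ v) (v₂ : v < 113 / 200) (X₁ : 9 / 1 ≤ X) (X₂ : X < 72 / 5) : 0
    ≤ -(BTA0000 r v d + (BTA0001 r v d) * (1) + (BTA0010 r v d) * (-35/2) + (BTA0100 r v d) *
    (140) + ((BTA0200 r v d) * (140)) * (140) + (BTA1000 r v d) * X + ((BTA1100 r v d) * X) *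
    (140) + ((BTA2000 r v d) * X) * X) := by
  have h := nonneg_of_checkFour g_cTAu_ok (mem4 (x₀ := r) (x₁ := d) (x₂ := v) (x₃ := X)
    (by decide) (by decide) (by decide) (by decide)
    (by norm_num [InChart, gC_cTAu]; constructor <;> linarith)
    (by norm_num [InChart, gC_cTAu]; constructor <;> linarith)
    (by norm_num [InChart, gC_cTAu]; constructor <;> linarith) (by norm_num [InChart, gC_cTAu]; constructor <;> linarith))
  have hR : gR.eval (pt r d v X) = 2000 * r := by simp [gR, Ex.eval, pt]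
  have hV : gV.eval (pt r d v X) = 5000000 * v := by simp [gV, Ex.eval, pt]
  have hD : (Ex.var 1).eval (pt r d v X) = d := by simp [Ex.eval, pt]
  simp only [g_cTAu, Ex.eval, cTA0000_d2_eval hR hV hD, cTA0001_d2_eval hR hV hD,
    cTA0010_d2_eval hR hV hD, cTA0100_d2_eval hR hV hD, cTA0200_d2_eval hR hV hD,
    cTA1000_d2_eval hR hV hD, cTA1100_d2_eval hR hV hD, cTA2000_d2_eval hR hV hD] at h
  try simp only [pt] at h
  push_cast at h
  linarith

def gC_dEGu : ℕ → Chart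
  | 0 => ⟨0, 3, 1, 100⟩
  | 1 => ⟨0, 61, 1, 304⟩
  | 2 => ⟨27, 113, 100, 200⟩
  | _ => ⟨9, 72, 1, 5⟩

def g_dEGu : Ex := (.add (.add (.add (.add (cEG0000_d1 gR gV (.var 1)) (.mul (.num
  500000000000000) (.mul (cEG0100_d1 gR gV (.var 1)) (.num 140)))) (.mul (.num 50000000000)
  (.mul (cEG1000_d1 gR gV (.var 1)) (.var 3)))) (.mul (.num 3125000000000000000000000000000000)
  (.mul (.mul (cEG1100_d1 gR gV (.var 1)) (.var 3)) (.num 140)))) (.mul (.num
  31250000000000000000000) (.mul (.mul (cEG2000_d1 gR gV (.var 1)) (.var 3)) (.var 3))))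

theorem g_dEGu_ok : checkFour gC_dEGu 323 6 7 4 2 g_dEGu = true := by decide +kernel

theorem g_dEGu_nonneg {r d v X : ℝ} (r₁ : 0 / 1 ≤ r) (r₂ : r < 3 / 100) (d₁ : 0 / 1 ≤ d) (d₂ : d
    < 61 / 304) (v₁ : 27 / 100 ≤ v) (v₂ : v < 113 / 200) (X₁ : 9 / 1 ≤ X) (X₂ : X < 72 / 5) : 0
    ≤ BEG0000 r v d + (BEG0100 r v d) * (140) + (BEG1000 r v d) * X + ((BEG1100 r v d) * X) *
    (140) + ((BEG2000 r v d) * X) * X := by
  have h := nonneg_of_checkFour g_dEGu_ok (mem4 (x₀ := r) (x₁ := d) (x₂ := v) (x₃ := X)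
    (by decide) (by decide) (by decide) (by decide)
    (by norm_num [InChart, gC_dEGu]; constructor <;> linarith)
    (by norm_num [InChart, gC_dEGu]; constructor <;> linarith)
    (by norm_num [InChart, gC_dEGu]; constructor <;> linarith) (by norm_num [InChart, gC_dEGu]; constructor <;> linarith))
  have hR : gR.eval (pt r d v X) = 2000 * r := by simp [gR, Ex.eval, pt]
  have hV : gV.eval (pt r d v X) = 5000000 * v := by simp [gV, Ex.eval, pt]
  have hD : (Ex.var 1).eval (pt r d v X) = d := by simp [Ex.eval, pt]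
  simp only [g_dEGu, Ex.eval, cEG0000_d1_eval hR hV hD, cEG0100_d1_eval hR hV hD,
    cEG1000_d1_eval hR hV hD, cEG1100_d1_eval hR hV hD, cEG2000_d1_eval hR hV hD] at h
  try simp only [pt] at h
  push_cast at h
  linarith

def gC_dMEul : ℕ → Chart
  | 0 => ⟨0, 3, 1, 100⟩
  | 1 => ⟨0, 61, 1, 304⟩
  | 2 => ⟨27, 113, 100, 200⟩
  | _ => ⟨9, 72, 1, 5⟩

def g_dMEul : Ex := (.sub (.num 0) (.add (.add (.mul (.num 10000000000) (.add (.add (.mul
  (cME0001_d1 gR gV (.var 1)) (.num (-25))) (.mul (.num 125) (.mul (cME0010_d1 gR gV (.var 1))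
  (.num (-5))))) (.mul (.num 5000000) (.mul (cME0100_d1 gR gV (.var 1)) (.num 140))))) (.mul
  (cME1000_d1 gR gV (.var 1)) (.var 3))) (.mul (.num 25000000000000000000) (.mul (.mul
  (cME1100_d1 gR gV (.var 1)) (.var 3)) (.num 140)))))

theorem g_dMEul_ok : checkFour gC_dMEul 214 3 5 3 1 g_dMEul = true := by decide +kernel

theorem g_dMEul_nonneg {r d v X : ℝ} (r₁ : 0 / 1 ≤ r) (r₂ : r < 3 / 100) (d₁ : 0 / 1 ≤ d) (d₂ :
    d < 61 / 304) (v₁ : 27 / 100 ≤ v) (v₂ : v < 113 / 200) (X₁ : 9 / 1 ≤ X) (X₂ : X < 72 / 5) :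
    0 ≤ -((BME0001 r v d) * (-25) + (BME0010 r v d) * (-5) + (BME0100 r v d) * (140) + (BME1000
    r v d) * X + ((BME1100 r v d) * X) * (140)) := by
  have h := nonneg_of_checkFour g_dMEul_ok (mem4 (x₀ := r) (x₁ := d) (x₂ := v) (x₃ := X)
    (by decide) (by decide) (by decide) (by decide)
    (by norm_num [InChart, gC_dMEul]; constructor <;> linarith)
    (by norm_num [InChart, gC_dMEul]; constructor <;> linarith)
    (by norm_num [InChart, gC_dMEul]; constructor <;> linarith) (by norm_num [InChart, gC_dMEul]; constructor <;> linarith))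
  have hR : gR.eval (pt r d v X) = 2000 * r := by simp [gR, Ex.eval, pt]
  have hV : gV.eval (pt r d v X) = 5000000 * v := by simp [gV, Ex.eval, pt]
  have hD : (Ex.var 1).eval (pt r d v X) = d := by simp [Ex.eval, pt]
  simp only [g_dMEul, Ex.eval, cME0001_d1_eval hR hV hD, cME0010_d1_eval hR hV hD,
    cME0100_d1_eval hR hV hD, cME1000_d1_eval hR hV hD, cME1100_d1_eval hR hV hD] at h
  try simp only [pt] at h
  push_cast at h
  linarith

def gC_dMEuu : ℕ → Chart
  | 0 => ⟨0, 3, 1, 100⟩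
  | 1 => ⟨0, 61, 1, 304⟩
  | 2 => ⟨27, 113, 100, 200⟩
  | _ => ⟨9, 72, 1, 5⟩

def g_dMEuu : Ex := (.sub (.num 0) (.add (.add (.mul (.num 10000000000) (.add (.add (cME0001_d1
  gR gV (.var 1)) (.mul (.num 125) (.mul (cME0010_d1 gR gV (.var 1)) (.num (-5))))) (.mul (.num
  5000000) (.mul (cME0100_d1 gR gV (.var 1)) (.num 140))))) (.mul (cME1000_d1 gR gV (.var 1))
  (.var 3))) (.mul (.num 25000000000000000000) (.mul (.mul (cME1100_d1 gR gV (.var 1)) (.var 3))
  (.num 140)))))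

theorem g_dMEuu_ok : checkFour gC_dMEuu 214 3 5 3 1 g_dMEuu = true := by decide +kernel

theorem g_dMEuu_nonneg {r d v X : ℝ} (r₁ : 0 / 1 ≤ r) (r₂ : r < 3 / 100) (d₁ : 0 / 1 ≤ d) (d₂ :
    d < 61 / 304) (v₁ : 27 / 100 ≤ v) (v₂ : v < 113 / 200) (X₁ : 9 / 1 ≤ X) (X₂ : X < 72 / 5) :
    0 ≤ -((BME0001 r v d) * (1) + (BME0010 r v d) * (-5) + (BME0100 r v d) * (140) + (BME1000 r
    v d) * X + ((BME1100 r v d) * X) * (140)) := by
  have h := nonneg_of_checkFour g_dMEuu_ok (mem4 (x₀ := r) (x₁ := d) (x₂ := v) (x₃ := X)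
    (by decide) (by decide) (by decide) (by decide)
    (by norm_num [InChart, gC_dMEuu]; constructor <;> linarith)
    (by norm_num [InChart, gC_dMEuu]; constructor <;> linarith)
    (by norm_num [InChart, gC_dMEuu]; constructor <;> linarith) (by norm_num [InChart, gC_dMEuu]; constructor <;> linarith))
  have hR : gR.eval (pt r d v X) = 2000 * r := by simp [gR, Ex.eval, pt]
  have hV : gV.eval (pt r d v X) = 5000000 * v := by simp [gV, Ex.eval, pt]
  have hD : (Ex.var 1).eval (pt r d v X) = d := by simp [Ex.eval, pt]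
  simp only [g_dMEuu, Ex.eval, cME0001_d1_eval hR hV hD, cME0010_d1_eval hR hV hD,
    cME0100_d1_eval hR hV hD, cME1000_d1_eval hR hV hD, cME1100_d1_eval hR hV hD] at h
  try simp only [pt] at h
  push_cast at h
  linarith

def gC_mgAll : ℕ → Chart
  | 0 => ⟨0, 3, 1, 100⟩
  | 1 => ⟨0, 16, 1, 133⟩
  | 2 => ⟨27, 113, 100, 200⟩
  | _ => ⟨0, 1, 1, 1⟩

def g_mgAll : Ex := (.add (.add (.add (.add (.add (.add (.add (cMG0000 gR gV (.var 1)) (.mul
  (.num 1562500000000000000000000) (cMG0001 gR gV (.var 1)))) (.mul (.num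
  390625000000000000000000000) (.mul (cMG0010 gR gV (.var 1)) (.num (-35))))) (.mul (.num
  156250000000000000000) (.mul (cMG0100 gR gV (.var 1)) (.num 99)))) (.mul (.num
  7812500000000000000000000000000) (.mul (.mul (cMG0200 gR gV (.var 1)) (.num 99)) (.num 99))))
  (.mul (.num 1250000000000) (.mul (cMG1000 gR gV (.var 1)) (.num 9)))) (.mul (.num
  7812500000000000000000000000000) (.mul (.mul (cMG1100 gR gV (.var 1)) (.num 9)) (.num 99))))
  (.mul (.num 390625000000000000000000) (.mul (.mul (cMG2000 gR gV (.var 1)) (.num 9)) (.num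
  9))))

theorem g_mgAll_ok : checkFour gC_mgAll 394 6 10 6 0 g_mgAll = true := by decide +kernel

theorem g_mgAll_nonneg {r d v : ℝ} (r₁ : 0 / 1 ≤ r) (r₂ : r < 3 / 100) (d₁ : 0 / 1 ≤ d) (d₂ : d
    < 16 / 133) (v₁ : 27 / 100 ≤ v) (v₂ : v < 113 / 200) : 0 ≤ AMG0000 r v d + (AMG0001 r v d) *
    (1) + (AMG0010 r v d) * (-35/2) + (AMG0100 r v d) * (99) + ((AMG0200 r v d) * (99)) * (99) +
    (AMG1000 r v d) * (9) + ((AMG1100 r v d) * (9)) * (99) + ((AMG2000 r v d) * (9)) * (9) := by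
  have h := nonneg_of_checkFour g_mgAll_ok (mem4 (x₀ := r) (x₁ := d) (x₂ := v) (x₃ := 0)
    (by decide) (by decide) (by decide) (by decide)
    (by norm_num [InChart, gC_mgAll]; constructor <;> linarith)
    (by norm_num [InChart, gC_mgAll]; constructor <;> linarith)
    (by norm_num [InChart, gC_mgAll]; constructor <;> linarith) unused_mem)
  have hR : gR.eval (pt r d v 0) = 2000 * r := by simp [gR, Ex.eval, pt]
  have hV : gV.eval (pt r d v 0) = 5000000 * v := by simp [gV, Ex.eval, pt]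
  have hD : (Ex.var 1).eval (pt r d v 0) = d := by simp [Ex.eval, pt]
  simp only [g_mgAll, Ex.eval, cMG0000_eval hR hV hD, cMG0001_eval hR hV hD, cMG0010_eval hR hV
    hD, cMG0100_eval hR hV hD, cMG0200_eval hR hV hD, cMG1000_eval hR hV hD, cMG1100_eval hR hV
    hD, cMG2000_eval hR hV hD] at h
  try simp only [pt] at h
  push_cast at h
  linarith

def gC_mgAlu : ℕ → Chart
  | 0 => ⟨0, 3, 1, 100⟩
  | 1 => ⟨0, 16, 1, 133⟩
  | 2 => ⟨27, 113, 100, 200⟩
  | _ => ⟨0, 1, 1, 1⟩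

def g_mgAlu : Ex := (.add (.add (.add (.add (.add (.add (.add (cMG0000 gR gV (.var 1)) (.mul
  (.num 1562500000000000000000000) (cMG0001 gR gV (.var 1)))) (.mul (.num
  390625000000000000000000000) (.mul (cMG0010 gR gV (.var 1)) (.num (-35))))) (.mul (.num
  156250000000000000000) (.mul (cMG0100 gR gV (.var 1)) (.num 99)))) (.mul (.num
  7812500000000000000000000000000) (.mul (.mul (cMG0200 gR gV (.var 1)) (.num 99)) (.num 99))))
  (.mul (.num 125000000000) (.mul (cMG1000 gR gV (.var 1)) (.num 143)))) (.mul (.num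
  781250000000000000000000000000) (.mul (.mul (cMG1100 gR gV (.var 1)) (.num 143)) (.num 99))))
  (.mul (.num 3906250000000000000000) (.mul (.mul (cMG2000 gR gV (.var 1)) (.num 143)) (.num
  143))))

theorem g_mgAlu_ok : checkFour gC_mgAlu 394 6 10 6 0 g_mgAlu = true := by decide +kernel

theorem g_mgAlu_nonneg {r d v : ℝ} (r₁ : 0 / 1 ≤ r) (r₂ : r < 3 / 100) (d₁ : 0 / 1 ≤ d) (d₂ : d
    < 16 / 133) (v₁ : 27 / 100 ≤ v) (v₂ : v < 113 / 200) : 0 ≤ AMG0000 r v d + (AMG0001 r v d) *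
    (1) + (AMG0010 r v d) * (-35/2) + (AMG0100 r v d) * (99) + ((AMG0200 r v d) * (99)) * (99) +
    (AMG1000 r v d) * (143/10) + ((AMG1100 r v d) * (143/10)) * (99) + ((AMG2000 r v d) *
    (143/10)) * (143/10) := by
  have h := nonneg_of_checkFour g_mgAlu_ok (mem4 (x₀ := r) (x₁ := d) (x₂ := v) (x₃ := 0)
    (by decide) (by decide) (by decide) (by decide)
    (by norm_num [InChart, gC_mgAlu]; constructor <;> linarith)
    (by norm_num [InChart, gC_mgAlu]; constructor <;> linarith)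
    (by norm_num [InChart, gC_mgAlu]; constructor <;> linarith) unused_mem)
  have hR : gR.eval (pt r d v 0) = 2000 * r := by simp [gR, Ex.eval, pt]
  have hV : gV.eval (pt r d v 0) = 5000000 * v := by simp [gV, Ex.eval, pt]
  have hD : (Ex.var 1).eval (pt r d v 0) = d := by simp [Ex.eval, pt]
  simp only [g_mgAlu, Ex.eval, cMG0000_eval hR hV hD, cMG0001_eval hR hV hD, cMG0010_eval hR hV
    hD, cMG0100_eval hR hV hD, cMG0200_eval hR hV hD, cMG1000_eval hR hV hD, cMG1100_eval hR hV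
    hD, cMG2000_eval hR hV hD] at h
  try simp only [pt] at h
  push_cast at h
  linarith

def gC_mgAul : ℕ → Chart
  | 0 => ⟨0, 3, 1, 100⟩
  | 1 => ⟨0, 16, 1, 133⟩
  | 2 => ⟨27, 113, 100, 200⟩
  | _ => ⟨0, 1, 1, 1⟩

def g_mgAul : Ex := (.add (.add (.add (.add (.add (.add (.add (cMG0000 gR gV (.var 1)) (.mul
  (.num 1562500000000000000000000) (cMG0001 gR gV (.var 1)))) (.mul (.num
  390625000000000000000000000) (.mul (cMG0010 gR gV (.var 1)) (.num (-35))))) (.mul (.num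
  156250000000000000000) (.mul (cMG0100 gR gV (.var 1)) (.num 140)))) (.mul (.num
  7812500000000000000000000000000) (.mul (.mul (cMG0200 gR gV (.var 1)) (.num 140)) (.num
  140)))) (.mul (.num 1250000000000) (.mul (cMG1000 gR gV (.var 1)) (.num 9)))) (.mul (.num
  7812500000000000000000000000000) (.mul (.mul (cMG1100 gR gV (.var 1)) (.num 9)) (.num 140))))
  (.mul (.num 390625000000000000000000) (.mul (.mul (cMG2000 gR gV (.var 1)) (.num 9)) (.num
  9))))

theorem g_mgAul_ok : checkFour gC_mgAul 394 6 10 6 0 g_mgAul = true := by decide +kernel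

theorem g_mgAul_nonneg {r d v : ℝ} (r₁ : 0 / 1 ≤ r) (r₂ : r < 3 / 100) (d₁ : 0 / 1 ≤ d) (d₂ : d
    < 16 / 133) (v₁ : 27 / 100 ≤ v) (v₂ : v < 113 / 200) : 0 ≤ AMG0000 r v d + (AMG0001 r v d) *
    (1) + (AMG0010 r v d) * (-35/2) + (AMG0100 r v d) * (140) + ((AMG0200 r v d) * (140)) *
    (140) + (AMG1000 r v d) * (9) + ((AMG1100 r v d) * (9)) * (140) + ((AMG2000 r v d) * (9)) *
    (9) := by
  have h := nonneg_of_checkFour g_mgAul_ok (mem4 (x₀ := r) (x₁ := d) (x₂ := v) (x₃ := 0)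
    (by decide) (by decide) (by decide) (by decide)
    (by norm_num [InChart, gC_mgAul]; constructor <;> linarith)
    (by norm_num [InChart, gC_mgAul]; constructor <;> linarith)
    (by norm_num [InChart, gC_mgAul]; constructor <;> linarith) unused_mem)
  have hR : gR.eval (pt r d v 0) = 2000 * r := by simp [gR, Ex.eval, pt]
  have hV : gV.eval (pt r d v 0) = 5000000 * v := by simp [gV, Ex.eval, pt]
  have hD : (Ex.var 1).eval (pt r d v 0) = d := by simp [Ex.eval, pt]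
  simp only [g_mgAul, Ex.eval, cMG0000_eval hR hV hD, cMG0001_eval hR hV hD, cMG0010_eval hR hV
    hD, cMG0100_eval hR hV hD, cMG0200_eval hR hV hD, cMG1000_eval hR hV hD, cMG1100_eval hR hV
    hD, cMG2000_eval hR hV hD] at h
  try simp only [pt] at h
  push_cast at h
  linarith

def gC_mgAuu : ℕ → Chart
  | 0 => ⟨0, 3, 1, 100⟩
  | 1 => ⟨0, 16, 1, 133⟩
  | 2 => ⟨27, 113, 100, 200⟩
  | _ => ⟨0, 1, 1, 1⟩

def g_mgAuu : Ex := (.add (.add (.add (.add (.add (.add (.add (cMG0000 gR gV (.var 1)) (.mul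
  (.num 1562500000000000000000000) (cMG0001 gR gV (.var 1)))) (.mul (.num
  390625000000000000000000000) (.mul (cMG0010 gR gV (.var 1)) (.num (-35))))) (.mul (.num
  156250000000000000000) (.mul (cMG0100 gR gV (.var 1)) (.num 140)))) (.mul (.num
  7812500000000000000000000000000) (.mul (.mul (cMG0200 gR gV (.var 1)) (.num 140)) (.num
  140)))) (.mul (.num 125000000000) (.mul (cMG1000 gR gV (.var 1)) (.num 143)))) (.mul (.num
  781250000000000000000000000000) (.mul (.mul (cMG1100 gR gV (.var 1)) (.num 143)) (.num 140))))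
  (.mul (.num 3906250000000000000000) (.mul (.mul (cMG2000 gR gV (.var 1)) (.num 143)) (.num
  143))))

theorem g_mgAuu_ok : checkFour gC_mgAuu 394 6 10 6 0 g_mgAuu = true := by decide +kernel

theorem g_mgAuu_nonneg {r d v : ℝ} (r₁ : 0 / 1 ≤ r) (r₂ : r < 3 / 100) (d₁ : 0 / 1 ≤ d) (d₂ : d
    < 16 / 133) (v₁ : 27 / 100 ≤ v) (v₂ : v < 113 / 200) : 0 ≤ AMG0000 r v d + (AMG0001 r v d) *
    (1) + (AMG0010 r v d) * (-35/2) + (AMG0100 r v d) * (140) + ((AMG0200 r v d) * (140)) *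
    (140) + (AMG1000 r v d) * (143/10) + ((AMG1100 r v d) * (143/10)) * (140) + ((AMG2000 r v d)
    * (143/10)) * (143/10) := by
  have h := nonneg_of_checkFour g_mgAuu_ok (mem4 (x₀ := r) (x₁ := d) (x₂ := v) (x₃ := 0)
    (by decide) (by decide) (by decide) (by decide)
    (by norm_num [InChart, gC_mgAuu]; constructor <;> linarith)
    (by norm_num [InChart, gC_mgAuu]; constructor <;> linarith)
    (by norm_num [InChart, gC_mgAuu]; constructor <;> linarith) unused_mem)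
  have hR : gR.eval (pt r d v 0) = 2000 * r := by simp [gR, Ex.eval, pt]
  have hV : gV.eval (pt r d v 0) = 5000000 * v := by simp [gV, Ex.eval, pt]
  have hD : (Ex.var 1).eval (pt r d v 0) = d := by simp [Ex.eval, pt]
  simp only [g_mgAuu, Ex.eval, cMG0000_eval hR hV hD, cMG0001_eval hR hV hD, cMG0010_eval hR hV
    hD, cMG0100_eval hR hV hD, cMG0200_eval hR hV hD, cMG1000_eval hR hV hD, cMG1100_eval hR hV
    hD, cMG2000_eval hR hV hD] at h
  try simp only [pt] at h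
  push_cast at h
  linarith

def gC_mgBll : ℕ → Chart
  | 0 => ⟨0, 3, 1, 100⟩
  | 1 => ⟨3, 61, 25, 304⟩
  | 2 => ⟨27, 113, 100, 200⟩
  | _ => ⟨0, 1, 1, 1⟩

def g_mgBll : Ex := (.add (.add (.add (.add (.add (.add (.add (cMG0000 gR gV (.var 1)) (.mul
  (.num 781250000000000000000000) (.mul (cMG0001 gR gV (.var 1)) (.num (-19))))) (.mul (.num
  781250000000000000000000000) (.mul (cMG0010 gR gV (.var 1)) (.num (-13))))) (.mul (.num
  156250000000000000000) (.mul (cMG0100 gR gV (.var 1)) (.num 99)))) (.mul (.num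
  7812500000000000000000000000000) (.mul (.mul (cMG0200 gR gV (.var 1)) (.num 99)) (.num 99))))
  (.mul (.num 1250000000000) (.mul (cMG1000 gR gV (.var 1)) (.num 9)))) (.mul (.num
  7812500000000000000000000000000) (.mul (.mul (cMG1100 gR gV (.var 1)) (.num 9)) (.num 99))))
  (.mul (.num 390625000000000000000000) (.mul (.mul (cMG2000 gR gV (.var 1)) (.num 9)) (.num
  9))))

theorem g_mgBll_ok : checkFour gC_mgBll 407 6 10 6 0 g_mgBll = true := by decide +kernel

theorem g_mgBll_nonneg {r d v : ℝ} (r₁ : 0 / 1 ≤ r) (r₂ : r < 3 / 100) (d₁ : 3 / 25 ≤ d) (d₂ : d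
    < 61 / 304) (v₁ : 27 / 100 ≤ v) (v₂ : v < 113 / 200) : 0 ≤ AMG0000 r v d + (AMG0001 r v d) *
    (-19/2) + (AMG0010 r v d) * (-13) + (AMG0100 r v d) * (99) + ((AMG0200 r v d) * (99)) * (99)
    + (AMG1000 r v d) * (9) + ((AMG1100 r v d) * (9)) * (99) + ((AMG2000 r v d) * (9)) * (9) :=
    by
  have h := nonneg_of_checkFour g_mgBll_ok (mem4 (x₀ := r) (x₁ := d) (x₂ := v) (x₃ := 0)
    (by decide) (by decide) (by decide) (by decide)
    (by norm_num [InChart, gC_mgBll]; constructor <;> linarith)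
    (by norm_num [InChart, gC_mgBll]; constructor <;> linarith)
    (by norm_num [InChart, gC_mgBll]; constructor <;> linarith) unused_mem)
  have hR : gR.eval (pt r d v 0) = 2000 * r := by simp [gR, Ex.eval, pt]
  have hV : gV.eval (pt r d v 0) = 5000000 * v := by simp [gV, Ex.eval, pt]
  have hD : (Ex.var 1).eval (pt r d v 0) = d := by simp [Ex.eval, pt]
  simp only [g_mgBll, Ex.eval, cMG0000_eval hR hV hD, cMG0001_eval hR hV hD, cMG0010_eval hR hV
    hD, cMG0100_eval hR hV hD, cMG0200_eval hR hV hD, cMG1000_eval hR hV hD, cMG1100_eval hR hV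
    hD, cMG2000_eval hR hV hD] at h
  try simp only [pt] at h
  push_cast at h
  linarith

def gC_mgBlu : ℕ → Chart
  | 0 => ⟨0, 3, 1, 100⟩
  | 1 => ⟨3, 61, 25, 304⟩
  | 2 => ⟨27, 113, 100, 200⟩
  | _ => ⟨0, 1, 1, 1⟩

def g_mgBlu : Ex := (.add (.add (.add (.add (.add (.add (.add (cMG0000 gR gV (.var 1)) (.mul
  (.num 781250000000000000000000) (.mul (cMG0001 gR gV (.var 1)) (.num (-19))))) (.mul (.num
  781250000000000000000000000) (.mul (cMG0010 gR gV (.var 1)) (.num (-13))))) (.mul (.num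
  156250000000000000000) (.mul (cMG0100 gR gV (.var 1)) (.num 99)))) (.mul (.num
  7812500000000000000000000000000) (.mul (.mul (cMG0200 gR gV (.var 1)) (.num 99)) (.num 99))))
  (.mul (.num 1250000000000) (.mul (cMG1000 gR gV (.var 1)) (.num 12)))) (.mul (.num
  7812500000000000000000000000000) (.mul (.mul (cMG1100 gR gV (.var 1)) (.num 12)) (.num 99))))
  (.mul (.num 390625000000000000000000) (.mul (.mul (cMG2000 gR gV (.var 1)) (.num 12)) (.num
  12))))

theorem g_mgBlu_ok : checkFour gC_mgBlu 407 6 10 6 0 g_mgBlu = true := by decide +kernel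

theorem g_mgBlu_nonneg {r d v : ℝ} (r₁ : 0 / 1 ≤ r) (r₂ : r < 3 / 100) (d₁ : 3 / 25 ≤ d) (d₂ : d
    < 61 / 304) (v₁ : 27 / 100 ≤ v) (v₂ : v < 113 / 200) : 0 ≤ AMG0000 r v d + (AMG0001 r v d) *
    (-19/2) + (AMG0010 r v d) * (-13) + (AMG0100 r v d) * (99) + ((AMG0200 r v d) * (99)) * (99)
    + (AMG1000 r v d) * (12) + ((AMG1100 r v d) * (12)) * (99) + ((AMG2000 r v d) * (12)) * (12)
    := by
  have h := nonneg_of_checkFour g_mgBlu_ok (mem4 (x₀ := r) (x₁ := d) (x₂ := v) (x₃ := 0)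
    (by decide) (by decide) (by decide) (by decide)
    (by norm_num [InChart, gC_mgBlu]; constructor <;> linarith)
    (by norm_num [InChart, gC_mgBlu]; constructor <;> linarith)
    (by norm_num [InChart, gC_mgBlu]; constructor <;> linarith) unused_mem)
  have hR : gR.eval (pt r d v 0) = 2000 * r := by simp [gR, Ex.eval, pt]
  have hV : gV.eval (pt r d v 0) = 5000000 * v := by simp [gV, Ex.eval, pt]
  have hD : (Ex.var 1).eval (pt r d v 0) = d := by simp [Ex.eval, pt]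
  simp only [g_mgBlu, Ex.eval, cMG0000_eval hR hV hD, cMG0001_eval hR hV hD, cMG0010_eval hR hV
    hD, cMG0100_eval hR hV hD, cMG0200_eval hR hV hD, cMG1000_eval hR hV hD, cMG1100_eval hR hV
    hD, cMG2000_eval hR hV hD] at h
  try simp only [pt] at h
  push_cast at h
  linarith

def gC_mgBul : ℕ → Chart
  | 0 => ⟨0, 3, 1, 100⟩
  | 1 => ⟨3, 61, 25, 304⟩
  | 2 => ⟨27, 113, 100, 200⟩
  | _ => ⟨0, 1, 1, 1⟩

def g_mgBul : Ex := (.add (.add (.add (.add (.add (.add (.add (cMG0000 gR gV (.var 1)) (.mul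
  (.num 781250000000000000000000) (.mul (cMG0001 gR gV (.var 1)) (.num (-19))))) (.mul (.num
  781250000000000000000000000) (.mul (cMG0010 gR gV (.var 1)) (.num (-13))))) (.mul (.num
  156250000000000000000) (.mul (cMG0100 gR gV (.var 1)) (.num 140)))) (.mul (.num
  7812500000000000000000000000000) (.mul (.mul (cMG0200 gR gV (.var 1)) (.num 140)) (.num
  140)))) (.mul (.num 1250000000000) (.mul (cMG1000 gR gV (.var 1)) (.num 9)))) (.mul (.num
  7812500000000000000000000000000) (.mul (.mul (cMG1100 gR gV (.var 1)) (.num 9)) (.num 140))))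
  (.mul (.num 390625000000000000000000) (.mul (.mul (cMG2000 gR gV (.var 1)) (.num 9)) (.num
  9))))

theorem g_mgBul_ok : checkFour gC_mgBul 408 6 10 6 0 g_mgBul = true := by decide +kernel

theorem g_mgBul_nonneg {r d v : ℝ} (r₁ : 0 / 1 ≤ r) (r₂ : r < 3 / 100) (d₁ : 3 / 25 ≤ d) (d₂ : d
    < 61 / 304) (v₁ : 27 / 100 ≤ v) (v₂ : v < 113 / 200) : 0 ≤ AMG0000 r v d + (AMG0001 r v d) *
    (-19/2) + (AMG0010 r v d) * (-13) + (AMG0100 r v d) * (140) + ((AMG0200 r v d) * (140)) *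
    (140) + (AMG1000 r v d) * (9) + ((AMG1100 r v d) * (9)) * (140) + ((AMG2000 r v d) * (9)) *
    (9) := by
  have h := nonneg_of_checkFour g_mgBul_ok (mem4 (x₀ := r) (x₁ := d) (x₂ := v) (x₃ := 0)
    (by decide) (by decide) (by decide) (by decide)
    (by norm_num [InChart, gC_mgBul]; constructor <;> linarith)
    (by norm_num [InChart, gC_mgBul]; constructor <;> linarith)
    (by norm_num [InChart, gC_mgBul]; constructor <;> linarith) unused_mem)
  have hR : gR.eval (pt r d v 0) = 2000 * r := by simp [gR, Ex.eval, pt]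
  have hV : gV.eval (pt r d v 0) = 5000000 * v := by simp [gV, Ex.eval, pt]
  have hD : (Ex.var 1).eval (pt r d v 0) = d := by simp [Ex.eval, pt]
  simp only [g_mgBul, Ex.eval, cMG0000_eval hR hV hD, cMG0001_eval hR hV hD, cMG0010_eval hR hV
    hD, cMG0100_eval hR hV hD, cMG0200_eval hR hV hD, cMG1000_eval hR hV hD, cMG1100_eval hR hV
    hD, cMG2000_eval hR hV hD] at h
  try simp only [pt] at h
  push_cast at h
  linarith

def gC_mgBuu : ℕ → Chart
  | 0 => ⟨0, 3, 1, 100⟩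
  | 1 => ⟨3, 61, 25, 304⟩
  | 2 => ⟨27, 113, 100, 200⟩
  | _ => ⟨0, 1, 1, 1⟩

def g_mgBuu : Ex := (.add (.add (.add (.add (.add (.add (.add (cMG0000 gR gV (.var 1)) (.mul
  (.num 781250000000000000000000) (.mul (cMG0001 gR gV (.var 1)) (.num (-19))))) (.mul (.num
  781250000000000000000000000) (.mul (cMG0010 gR gV (.var 1)) (.num (-13))))) (.mul (.num
  156250000000000000000) (.mul (cMG0100 gR gV (.var 1)) (.num 140)))) (.mul (.num
  7812500000000000000000000000000) (.mul (.mul (cMG0200 gR gV (.var 1)) (.num 140)) (.num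
  140)))) (.mul (.num 1250000000000) (.mul (cMG1000 gR gV (.var 1)) (.num 12)))) (.mul (.num
  7812500000000000000000000000000) (.mul (.mul (cMG1100 gR gV (.var 1)) (.num 12)) (.num 140))))
  (.mul (.num 390625000000000000000000) (.mul (.mul (cMG2000 gR gV (.var 1)) (.num 12)) (.num
  12))))

theorem g_mgBuu_ok : checkFour gC_mgBuu 408 6 10 6 0 g_mgBuu = true := by decide +kernel

theorem g_mgBuu_nonneg {r d v : ℝ} (r₁ : 0 / 1 ≤ r) (r₂ : r < 3 / 100) (d₁ : 3 / 25 ≤ d) (d₂ : d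
    < 61 / 304) (v₁ : 27 / 100 ≤ v) (v₂ : v < 113 / 200) : 0 ≤ AMG0000 r v d + (AMG0001 r v d) *
    (-19/2) + (AMG0010 r v d) * (-13) + (AMG0100 r v d) * (140) + ((AMG0200 r v d) * (140)) *
    (140) + (AMG1000 r v d) * (12) + ((AMG1100 r v d) * (12)) * (140) + ((AMG2000 r v d) * (12))
    * (12) := by
  have h := nonneg_of_checkFour g_mgBuu_ok (mem4 (x₀ := r) (x₁ := d) (x₂ := v) (x₃ := 0)
    (by decide) (by decide) (by decide) (by decide)
    (by norm_num [InChart, gC_mgBuu]; constructor <;> linarith)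
    (by norm_num [InChart, gC_mgBuu]; constructor <;> linarith)
    (by norm_num [InChart, gC_mgBuu]; constructor <;> linarith) unused_mem)
  have hR : gR.eval (pt r d v 0) = 2000 * r := by simp [gR, Ex.eval, pt]
  have hV : gV.eval (pt r d v 0) = 5000000 * v := by simp [gV, Ex.eval, pt]
  have hD : (Ex.var 1).eval (pt r d v 0) = d := by simp [Ex.eval, pt]
  simp only [g_mgBuu, Ex.eval, cMG0000_eval hR hV hD, cMG0001_eval hR hV hD, cMG0010_eval hR hV
    hD, cMG0100_eval hR hV hD, cMG0200_eval hR hV hD, cMG1000_eval hR hV hD, cMG1100_eval hR hV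
    hD, cMG2000_eval hR hV hD] at h
  try simp only [pt] at h
  push_cast at h
  linarith

end Vale.Agent.P100.Calib.NegCert
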