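import Mathlib
import Vale.Agent.P100.Calib.NegCert.Poly
import Vale.Agent.P100.Calib.NegCert.Shape

/-!
# The forms as polynomials in `r`
-/

set_option linter.unusedVariables false

namespace Vale.Agent.P100.Calib.NegCert

open Pack

/-- The coefficient of `r ^ i` in `rTA`. -/
noncomputable def PTA (v d X Y Z Q : ℝ) : ℕ → ℝ
  | 0 => ETA0000_0 v d + ETA0001_0 v d * Q + ETA0010_0 v d * Z + ETA0100_0 v d * Y + ETA0200_0 v
      d * Y ^ 2 + ETA1000_0 v d * X + ETA1100_0 v d * X * Y + ETA2000_0 v d * X ^ 2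
  | 1 => ETA0000_1 v d + ETA0001_1 v d * Q + ETA0010_1 v d * Z + ETA0100_1 v d * Y + ETA0200_1 v
      d * Y ^ 2 + ETA1000_1 v d * X + ETA1100_1 v d * X * Y + ETA2000_1 v d * X ^ 2
  | 2 => ETA0000_2 v d + ETA0001_2 v d * Q + ETA0010_2 v d * Z + ETA0100_2 v d * Y + ETA0200_2 v
      d * Y ^ 2 + ETA1000_2 v d * X + ETA1100_2 v d * X * Y + ETA2000_2 v d * X ^ 2
  | 3 => ETA0000_3 v d + ETA0001_3 v d * Q + ETA0010_3 v d * Z + ETA0100_3 v d * Y + ETA0200_3 v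
      d * Y ^ 2 + ETA1000_3 v d * X + ETA1100_3 v d * X * Y + ETA2000_3 v d * X ^ 2
  | 4 => ETA0000_4 v d + ETA0001_4 v d * Q + ETA0010_4 v d * Z + ETA0100_4 v d * Y + ETA0200_4 v
      d * Y ^ 2 + ETA1000_4 v d * X + ETA1100_4 v d * X * Y + ETA2000_4 v d * X ^ 2
  | 5 => ETA0000_5 v d + ETA0010_5 v d * Z + ETA0100_5 v d * Y + ETA0200_5 v d * Y ^ 2 +
      ETA1000_5 v d * X + ETA1100_5 v d * X * Y + ETA2000_5 v d * X ^ 2
  | 6 => ETA0000_6 v d + ETA0100_6 v d * Y + ETA1000_6 v d * X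
  | 7 => ETA0000_7 v d
  | _ + 8 => 0

/-- The derivative of order 2 of `rTA` in `r`. -/
noncomputable def DTA (r v d X Y Z Q : ℝ) : ℝ := BTA0000 r v d + BTA0001 r v d * Q + BTA0010 r v
  d * Z + BTA0100 r v d * Y + BTA0200 r v d * Y ^ 2 + BTA1000 r v d * X + BTA1100 r v d * X * Y
  + BTA2000 r v d * X ^ 2

theorem rTA_p7 (r v d X Y Z Q : ℝ) : rTA r v d X Y Z Q = p7 (PTA v d X Y Z Q 0) (PTA v d X Y Z Q
    1) (PTA v d X Y Z Q 2) (PTA v d X Y Z Q 3) (PTA v d X Y Z Q 4) (PTA v d X Y Z Q 5) (PTA v d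
    X Y Z Q 6) (PTA v d X Y Z Q 7) r := by
  simp only [rTA, PTA, DTA, ATA0000, ATA0001, ATA0010, ATA0100, ATA0200, ATA1000, ATA1100,
    ATA2000, BTA0000, BTA0001, BTA0010, BTA0100, BTA0200, BTA1000, BTA1100, BTA2000, p7]
  ring

theorem DTA_eq (r v d X Y Z Q : ℝ) : p7dd (PTA v d X Y Z Q 2) (PTA v d X Y Z Q 3) (PTA v d X Y Z
    Q 4) (PTA v d X Y Z Q 5) (PTA v d X Y Z Q 6) (PTA v d X Y Z Q 7) r = DTA r v d X Y Z Q := by
  simp only [rTA, PTA, DTA, ATA0000, ATA0001, ATA0010, ATA0100, ATA0200, ATA1000, ATA1100,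
    ATA2000, BTA0000, BTA0001, BTA0010, BTA0100, BTA0200, BTA1000, BTA1100, BTA2000, p7dd]
  ring

/-- The coefficient of `r ^ i` in `rGG`. -/
noncomputable def PGG (v d X : ℝ) : ℕ → ℝ
  | 0 => EGG0000_0 v d + EGG1000_0 v d * X + EGG2000_0 v d * X ^ 2
  | 1 => EGG0000_1 v d + EGG1000_1 v d * X + EGG2000_1 v d * X ^ 2
  | 2 => EGG0000_2 v d + EGG1000_2 v d * X + EGG2000_2 v d * X ^ 2
  | 3 => EGG0000_3 v d + EGG1000_3 v d * X + EGG2000_3 v d * X ^ 2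
  | 4 => EGG0000_4 v d + EGG1000_4 v d * X + EGG2000_4 v d * X ^ 2
  | 5 => EGG0000_5 v d + EGG1000_5 v d * X + EGG2000_5 v d * X ^ 2
  | 6 => EGG0000_6 v d + EGG1000_6 v d * X
  | 7 => EGG0000_7 v d
  | _ + 8 => 0

/-- The derivative of order 2 of `rGG` in `r`. -/
noncomputable def DGG (r v d X : ℝ) : ℝ := BGG0000 r v d + BGG1000 r v d * X + BGG2000 r v d * X
  ^ 2

theorem rGG_p7 (r v d X : ℝ) : rGG r v d X = p7 (PGG v d X 0) (PGG v d X 1) (PGG v d X 2) (PGG v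
    d X 3) (PGG v d X 4) (PGG v d X 5) (PGG v d X 6) (PGG v d X 7) r := by
  simp only [rGG, PGG, DGG, AGG0000, AGG1000, AGG2000, BGG0000, BGG1000, BGG2000, p7]
  ring

theorem DGG_eq (r v d X : ℝ) : p7dd (PGG v d X 2) (PGG v d X 3) (PGG v d X 4) (PGG v d X 5) (PGG
    v d X 6) (PGG v d X 7) r = DGG r v d X := by
  simp only [rGG, PGG, DGG, AGG0000, AGG1000, AGG2000, BGG0000, BGG1000, BGG2000, p7dd]
  ring

/-- The coefficient of `r ^ i` in `rEG`. -/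
noncomputable def PEG (v d X Y : ℝ) : ℕ → ℝ
  | 0 => EEG0000_0 v d + EEG0100_0 v d * Y + EEG1000_0 v d * X + EEG1100_0 v d * X * Y +
      EEG2000_0 v d * X ^ 2
  | 1 => EEG0000_1 v d + EEG0100_1 v d * Y + EEG1000_1 v d * X + EEG1100_1 v d * X * Y +
      EEG2000_1 v d * X ^ 2
  | 2 => EEG0000_2 v d + EEG0100_2 v d * Y + EEG1000_2 v d * X + EEG1100_2 v d * X * Y +
      EEG2000_2 v d * X ^ 2
  | 3 => EEG0000_3 v d + EEG0100_3 v d * Y + EEG1000_3 v d * X + EEG1100_3 v d * X * Y +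
      EEG2000_3 v d * X ^ 2
  | 4 => EEG0000_4 v d + EEG0100_4 v d * Y + EEG1000_4 v d * X + EEG1100_4 v d * X * Y +
      EEG2000_4 v d * X ^ 2
  | 5 => EEG0000_5 v d + EEG0100_5 v d * Y + EEG1000_5 v d * X + EEG2000_5 v d * X ^ 2
  | 6 => EEG0000_6 v d + EEG0100_6 v d * Y + EEG1000_6 v d * X
  | 7 => EEG0000_7 v d
  | _ + 8 => 0

/-- The derivative of order 1 of `rEG` in `r`. -/
noncomputable def DEG (r v d X Y : ℝ) : ℝ := BEG0000 r v d + BEG0100 r v d * Y + BEG1000 r v d *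
  X + BEG1100 r v d * X * Y + BEG2000 r v d * X ^ 2

theorem rEG_p7 (r v d X Y : ℝ) : rEG r v d X Y = p7 (PEG v d X Y 0) (PEG v d X Y 1) (PEG v d X Y
    2) (PEG v d X Y 3) (PEG v d X Y 4) (PEG v d X Y 5) (PEG v d X Y 6) (PEG v d X Y 7) r := by
  simp only [rEG, PEG, DEG, AEG0000, AEG0100, AEG1000, AEG1100, AEG2000, BEG0000, BEG0100,
    BEG1000, BEG1100, BEG2000, p7]
  ring

theorem DEG_eq (r v d X Y : ℝ) : p7d (PEG v d X Y 1) (PEG v d X Y 2) (PEG v d X Y 3) (PEG v d X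
    Y 4) (PEG v d X Y 5) (PEG v d X Y 6) (PEG v d X Y 7) r = DEG r v d X Y := by
  simp only [rEG, PEG, DEG, AEG0000, AEG0100, AEG1000, AEG1100, AEG2000, BEG0000, BEG0100,
    BEG1000, BEG1100, BEG2000, p7d]
  ring

/-- The coefficient of `r ^ i` in `rME`. -/
noncomputable def PME (v d X Y Z Q : ℝ) : ℕ → ℝ
  | 0 => EME0001_0 v d * Q + EME0010_0 v d * Z + EME0100_0 v d * Y + EME1000_0 v d * X +
      EME1100_0 v d * X * Y
  | 1 => EME0001_1 v d * Q + EME0010_1 v d * Z + EME0100_1 v d * Y + EME1000_1 v d * X +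
      EME1100_1 v d * X * Y
  | 2 => EME0001_2 v d * Q + EME0010_2 v d * Z + EME0100_2 v d * Y + EME1000_2 v d * X +
      EME1100_2 v d * X * Y
  | 3 => EME0010_3 v d * Z + EME1000_3 v d * X + EME1100_3 v d * X * Y
  | 4 => EME1000_4 v d * X
  | 5 => 0
  | 6 => 0
  | 7 => 0
  | _ + 8 => 0

/-- The derivative of order 1 of `rME` in `r`. -/
noncomputable def DME (r v d X Y Z Q : ℝ) : ℝ := BME0001 r v d * Q + BME0010 r v d * Z + BME0100
  r v d * Y + BME1000 r v d * X + BME1100 r v d * X * Y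

theorem rME_p7 (r v d X Y Z Q : ℝ) : rME r v d X Y Z Q = p7 (PME v d X Y Z Q 0) (PME v d X Y Z Q
    1) (PME v d X Y Z Q 2) (PME v d X Y Z Q 3) (PME v d X Y Z Q 4) (PME v d X Y Z Q 5) (PME v d
    X Y Z Q 6) (PME v d X Y Z Q 7) r := by
  simp only [rME, PME, DME, AME0001, AME0010, AME0100, AME1000, AME1100, BME0001, BME0010,
    BME0100, BME1000, BME1100, p7]
  ring

theorem DME_eq (r v d X Y Z Q : ℝ) : p7d (PME v d X Y Z Q 1) (PME v d X Y Z Q 2) (PME v d X Y Z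
    Q 3) (PME v d X Y Z Q 4) (PME v d X Y Z Q 5) (PME v d X Y Z Q 6) (PME v d X Y Z Q 7) r = DME
    r v d X Y Z Q := by
  simp only [rME, PME, DME, AME0001, AME0010, AME0100, AME1000, AME1100, BME0001, BME0010,
    BME0100, BME1000, BME1100, p7d]
  ring

end Vale.Agent.P100.Calib.NegCert
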