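import Mathlib
import Vale.Agent.P100.Calib.NegCert.Global
import Vale.Agent.P100.Calib.NegCert.Slopes

/-!
# The entries on a box from their values at a few vertices

On the crude box the slopes of the entries have constant sign or the entries are concave, so their
extremes are at vertices.
-/

set_option linter.unusedVariables false

namespace Vale.Agent.P100.Calib.NegCert

/-- The crude range of `(d, v)`. -/
structure Crude (d v : ℝ) : Prop where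
  d0 : 0 ≤ d
  d1 : d < 61 / 304
  v0 : 27 / 100 ≤ v
  v1 : v < 113 / 200

/-- The crude range of `(X, Y)` and of the bounds. -/
structure Ranges (xl xu yl yu zl zu ql qu : ℝ) : Prop where
  X0 : 9 ≤ xl
  X1 : xu < 72 / 5
  Y0 : 99 ≤ yl
  Y1 : yu ≤ 140
  Z0 : -35 / 2 ≤ zl
  Z1 : zu ≤ -5
  Q0 : -25 ≤ ql
  Q1 : qu ≤ 1

variable {d v r r₀ r₁ X Y Z Q xl xu yl yu zl zu ql qu m : ℝ}

theorem DTA_nonpos (c : Crude d v) (h₀ : 0 ≤ r) (h₁ : r < 3 / 100) (hX₀ : 9 ≤ X)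
    (hX₁ : X < 72 / 5) (hY₀ : 99 ≤ Y) (hY₁ : Y ≤ 140) (hZ : -35 / 2 ≤ Z) (hQ : Q ≤ 1) :
    DTA r v d X Y Z Q ≤ 0 := by
  obtain ⟨d0, d1, v0, v1⟩ := c
  have r0' : (0 : ℝ) / 1 ≤ r := by simpa using h₀
  have d0' : (0 : ℝ) / 1 ≤ d := by simpa using d0
  have x0' : (9 : ℝ) / 1 ≤ X := by simpa using hX₀
  have zz := g_caZ_nonneg r0' h₁ d0' d1 v0 v1
  have qq := g_caQ_nonneg r0' h₁ d0' d1 v0 v1
  have yy := g_caYY_nonneg r0' h₁ d0' d1 v0 v1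
  have l := g_cTAl_nonneg r0' h₁ d0' d1 v0 v1 x0' hX₁
  have u := g_cTAu_nonneg r0' h₁ d0' d1 v0 v1 x0' hX₁
  have pz := mul_nonneg zz (sub_nonneg.2 hZ)
  have pq := mul_nonneg qq (sub_nonneg.2 hQ)
  have q := quad_ge (A := -(BTA0200 r v d))
    (B := -(BTA0100 r v d + BTA1100 r v d * X))
    (C := -(BTA0000 r v d + BTA0001 r v d * 1 + BTA0010 r v d * (-35 / 2) + BTA1000 r v d * X +
      BTA2000 r v d * X ^ 2)) (m := 0) (by linarith) hY₀ hY₁ (by linarith) (by linarith)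
  simp only [DTA]
  linarith

theorem TA_ge (c : Crude d v) (g : Ranges xl xu yl yu zl zu ql qu) (h₀ : 0 ≤ r₀) (hr₀ : r₀ ≤ r)
    (hr₁ : r ≤ r₁) (h₁ : r₁ < 3 / 100) (hX : xl ≤ X ∧ X ≤ xu) (hY : yl ≤ Y ∧ Y ≤ yu)
    (hZ : zl ≤ Z ∧ Z ≤ zu) (hQ : ql ≤ Q ∧ Q ≤ qu) (a : m ≤ rTA r₀ v d xu yl zu qu)
    (b : m ≤ rTA r₀ v d xu yu zu qu) (e : m ≤ rTA r₁ v d xu yl zu qu)
    (f : m ≤ rTA r₁ v d xu yu zu qu) : m ≤ rTA r v d X Y Z Q := by
  obtain ⟨X0, X1, Y0, Y1, Z0, Z1, Q0, Q1⟩ := g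
  have conc : ∀ y, 99 ≤ y → y ≤ 140 → m ≤ rTA r₀ v d xu y zu qu → m ≤ rTA r₁ v d xu y zu qu →
      m ≤ rTA r v d xu y zu qu := fun y y0 y1 ha hb =>
    ge_of_ends (f := fun x => rTA x v d xu y zu qu) (fun x => rTA_p7 x v d xu y zu qu)
      (fun x x0 x1 => by
        rw [DTA_eq]
        exact DTA_nonpos c x0 x1 (by linarith [hX.1, hX.2]) X1 y0 y1
          (by linarith [hZ.1, hZ.2]) Q1) h₀ h₁.le hr₀ hr₁ ha hb
  have gl := conc yl Y0 (by linarith [hY.1, hY.2]) a e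
  have gu := conc yu (by linarith [hY.1, hY.2]) Y1 b f
  obtain ⟨d0, d1, v0, v1⟩ := c
  have r0 : (0 : ℝ) / 1 ≤ r := by simpa using h₀.trans hr₀
  have r1 : r < 3 / 100 := hr₁.trans_lt h₁
  have d0' : (0 : ℝ) / 1 ≤ d := by simpa using d0
  have zz := mul_nonneg (g_taZ_nonneg r0 r1 d0' d1 v0 v1) (sub_nonneg.2 hZ.2)
  have qq := mul_nonneg (g_taQ_nonneg r0 r1 d0' d1 v0 v1) (sub_nonneg.2 hQ.2)
  have yy := g_taYY_nonneg r0 r1 d0' d1 v0 v1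
  have xl' : (9 : ℝ) / 1 ≤ (X + xu) / 2 := by linarith [hX.1, hX.2]
  have xu' : (X + xu) / 2 < 72 / 5 := by linarith [hX.1, hX.2]
  have sl := g_taXl_nonneg r0 r1 d0' d1 v0 v1 xl' xu'
  have su := g_taXu_nonneg r0 r1 d0' d1 v0 v1 xl' xu'
  have slope := affine_ge (B := -(ATA1100 r v d))
    (C := -(ATA1000 r v d + ATA2000 r v d * (X + xu))) (m := 0) (x := Y)
    (l := 99) (u := 140) (by linarith [hY.1]) (by linarith [hY.2]) (by linarith) (by linarith)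
  have xx := mul_nonneg slope (sub_nonneg.2 hX.2)
  have q := quad_ge (A := ATA0200 r v d) (B := ATA0100 r v d + ATA1100 r v d * xu)
    (C := ATA0000 r v d + ATA0001 r v d * qu + ATA0010 r v d * zu + ATA1000 r v d * xu +
      ATA2000 r v d * xu ^ 2) (m := m) (by linarith) hY.1 hY.2
    (by simp only [rTA] at gl; linarith) (by simp only [rTA] at gu; linarith)
  simp only [rTA]
  linarith

theorem GG_ge (c : Crude d v) (g : Ranges xl xu yl yu zl zu ql qu) (h₀ : 0 ≤ r₀) (hr₀ : r₀ ≤ r)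
    (hr₁ : r ≤ r₁) (h₁ : r₁ < 3 / 100) (hX : xl ≤ X ∧ X ≤ xu) (a : m ≤ rGG r₀ v d xl)
    (b : m ≤ rGG r₀ v d xu) (e : m ≤ rGG r₁ v d xl) (f : m ≤ rGG r₁ v d xu) :
    m ≤ rGG r v d X := by
  have d0' : (0 : ℝ) / 1 ≤ d := by simpa using c.d0
  have conc : ∀ x₀, 9 ≤ x₀ → x₀ < 72 / 5 → m ≤ rGG r₀ v d x₀ → m ≤ rGG r₁ v d x₀ →
      m ≤ rGG r v d x₀ := fun x₀ x0 x1 ha hb =>
    ge_of_ends (f := fun x => rGG x v d x₀) (fun x => rGG_p7 x v d x₀)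
      (fun x y0 y1 => by
        rw [DGG_eq]
        have := g_cGG_nonneg (r := x) (by simpa using y0) y1 d0' c.d1 c.v0 c.v1
          (X := x₀) (by simpa using x0) x1
        simp only [DGG]
        linarith) h₀ h₁.le hr₀ hr₁ ha hb
  have gl := conc xl g.X0 (by linarith [hX.1, hX.2, g.X1]) a e
  have gu := conc xu (by linarith [hX.1, hX.2, g.X0]) g.X1 b f
  have xx := g_ggXX_nonneg (r := r) (by simpa using h₀.trans hr₀) (hr₁.trans_lt h₁) d0' c.d1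
    c.v0 c.v1
  have q := quad_ge (A := AGG2000 r v d) (B := AGG1000 r v d) (C := AGG0000 r v d) (m := m)
    (by linarith) hX.1 hX.2 (by simp only [rGG] at gl; linarith)
    (by simp only [rGG] at gu; linarith)
  simp only [rGG]
  linarith

theorem EG_mono_r (c : Crude d v) (hX₀ : 9 ≤ X) (hX₁ : X < 72 / 5) (hY₀ : 99 ≤ Y)
    (hY₁ : Y ≤ 140) {s t : ℝ} (hs : 0 ≤ s) (ht : t < 3 / 100) (hst : s ≤ t) :
    rEG s v d X Y ≤ rEG t v d X Y :=
  le_of_deriv (f := fun x => rEG x v d X Y) (fun x => rEG_p7 x v d X Y)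
    (fun x x0 x1 => by
      rw [DEG_eq]
      have d0' : (0 : ℝ) / 1 ≤ d := by simpa using c.d0
      have x0' : (0 : ℝ) / 1 ≤ x := by simpa using x0
      have hX' : (9 : ℝ) / 1 ≤ X := by simpa using hX₀
      have l := g_dEGl_nonneg x0' x1 d0' c.d1 c.v0 c.v1 hX' hX₁
      have u := g_dEGu_nonneg x0' x1 d0' c.d1 c.v0 c.v1 hX' hX₁
      have := affine_ge (B := BEG0100 x v d + BEG1100 x v d * X)
        (C := BEG0000 x v d + BEG1000 x v d * X + BEG2000 x v d * X ^ 2) (m := 0) hY₀ hY₁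
        (by linarith) (by linarith)
      simp only [DEG]
      linarith) hs ht.le hst

theorem EG_abs (c : Crude d v) (g : Ranges xl xu yl yu zl zu ql qu) (h₀ : 0 ≤ r₀) (hr₀ : r₀ ≤ r)
    (hr₁ : r ≤ r₁) (h₁ : r₁ < 3 / 100) (hX : xl ≤ X ∧ X ≤ xu) (hY : yl ≤ Y ∧ Y ≤ yu)
    (a : rEG r₁ v d xu yl ≤ m) (b : rEG r₁ v d xu yu ≤ m) (e : -m ≤ rEG r₀ v d xl yl)
    (f : -m ≤ rEG r₀ v d xl yu) : |rEG r v d X Y| ≤ m := by
  obtain ⟨X0, X1, Y0, Y1, -, -, -, -⟩ := g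
  have hY₀ : 99 ≤ Y := Y0.trans hY.1
  have hY₁ : Y ≤ 140 := hY.2.trans Y1
  have slope : ∀ p, 9 ≤ p → p < 72 / 5 →
      0 ≤ AEG1000 r v d + AEG2000 r v d * p * 2 + AEG1100 r v d * Y := fun p p0 p1 => by
    have d0' : (0 : ℝ) / 1 ≤ d := by simpa using c.d0
    have r0' : (0 : ℝ) / 1 ≤ r := by simpa using h₀.trans hr₀
    have p0' : (9 : ℝ) / 1 ≤ p := by simpa using p0
    have r1 : r < 3 / 100 := hr₁.trans_lt h₁
    have l := g_egXl_nonneg r0' r1 d0' c.d1 c.v0 c.v1 p0' p1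
    have u := g_egXu_nonneg r0' r1 d0' c.d1 c.v0 c.v1 p0' p1
    have := affine_ge (B := AEG1100 r v d) (C := AEG1000 r v d + AEG2000 r v d * p * 2) (m := 0)
      hY₀ hY₁ (by linarith) (by linarith)
    linarith
  have up := mul_nonneg (slope ((X + xu) / 2) (by linarith [hX.1, hX.2])
    (by linarith [hX.1, hX.2])) (sub_nonneg.2 hX.2)
  have dn := mul_nonneg (slope ((X + xl) / 2) (by linarith [hX.1, hX.2])
    (by linarith [hX.1, hX.2])) (sub_nonneg.2 hX.1)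
  have mu := EG_mono_r c (X := xu) (Y := Y) (by linarith [hX.1, hX.2]) X1 hY₀ hY₁
    (h₀.trans hr₀) h₁ hr₁
  have ml := EG_mono_r c (X := xl) (Y := Y) X0 (by linarith [hX.1, hX.2]) hY₀ hY₁ h₀
    (hr₁.trans_lt h₁) hr₀
  have qu' := affine_ge (B := -(AEG0100 r₁ v d + AEG1100 r₁ v d * xu))
    (C := -(AEG0000 r₁ v d + AEG1000 r₁ v d * xu + AEG2000 r₁ v d * xu ^ 2)) (m := -m) hY.1 hY.2
    (by simp only [rEG] at a; linarith) (by simp only [rEG] at b; linarith)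
  have ql' := affine_ge (B := AEG0100 r₀ v d + AEG1100 r₀ v d * xl)
    (C := AEG0000 r₀ v d + AEG1000 r₀ v d * xl + AEG2000 r₀ v d * xl ^ 2) (m := -m) hY.1 hY.2
    (by simp only [rEG] at e; linarith) (by simp only [rEG] at f; linarith)
  simp only [rEG] at mu ml ⊢
  rw [abs_le]
  constructor <;> linarith

theorem ME_anti_r (c : Crude d v) (hX₀ : 9 ≤ X) (hX₁ : X < 72 / 5) (hY₀ : 99 ≤ Y)
    (hY₁ : Y ≤ 140) (hZ : Z ≤ -5) (hQ₀ : -25 ≤ Q) (hQ₁ : Q ≤ 1) {s t : ℝ} (hs : 0 ≤ s)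
    (ht : t < 3 / 100) (hst : s ≤ t) : rME t v d X Y Z Q ≤ rME s v d X Y Z Q := by
  have := le_of_deriv (f := fun x => -rME x v d X Y Z Q)
    (c₀ := -PME v d X Y Z Q 0) (c₁ := -PME v d X Y Z Q 1) (c₂ := -PME v d X Y Z Q 2)
    (c₃ := -PME v d X Y Z Q 3) (c₄ := -PME v d X Y Z Q 4) (c₅ := -PME v d X Y Z Q 5)
    (c₆ := -PME v d X Y Z Q 6) (c₇ := -PME v d X Y Z Q 7)
    (fun x => by rw [rME_p7 x v d X Y Z Q]; simp only [p7]; ring)
    (fun x x0 x1 => by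
      have e := DME_eq x v d X Y Z Q
      have d0' : (0 : ℝ) / 1 ≤ d := by simpa using c.d0
      have x0' : (0 : ℝ) / 1 ≤ x := by simpa using x0
      have hX' : (9 : ℝ) / 1 ≤ X := by simpa using hX₀
      have ll := g_dMEll_nonneg x0' x1 d0' c.d1 c.v0 c.v1 hX' hX₁
      have lu := g_dMElu_nonneg x0' x1 d0' c.d1 c.v0 c.v1 hX' hX₁
      have ul := g_dMEul_nonneg x0' x1 d0' c.d1 c.v0 c.v1 hX' hX₁
      have uu := g_dMEuu_nonneg x0' x1 d0' c.d1 c.v0 c.v1 hX' hX₁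
      have zz := mul_nonneg (g_dmeZ_nonneg x0' x1 d0' c.d1 c.v0 c.v1) (sub_nonneg.2 hZ)
      have yl' := affine_ge (B := -(BME0001 x v d))
        (C := -(BME0010 x v d * (-5) + BME0100 x v d * 99 + BME1000 x v d * X +
          BME1100 x v d * X * 99)) (m := 0) hQ₀ hQ₁ (by linarith) (by linarith)
      have yu' := affine_ge (B := -(BME0001 x v d))
        (C := -(BME0010 x v d * (-5) + BME0100 x v d * 140 + BME1000 x v d * X +
          BME1100 x v d * X * 140)) (m := 0) hQ₀ hQ₁ (by linarith) (by linarith)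
      have yy := affine_ge (B := -(BME0100 x v d + BME1100 x v d * X))
        (C := -(BME0001 x v d * Q + BME0010 x v d * (-5) + BME1000 x v d * X)) (m := 0) hY₀ hY₁
        (by linarith) (by linarith)
      simp only [DME, p7d] at e ⊢
      linarith) hs ht.le hst
  linarith

theorem ME_abs (c : Crude d v) (g : Ranges xl xu yl yu zl zu ql qu) (h₀ : 0 ≤ r₀) (hr₀ : r₀ ≤ r)
    (hr₁ : r ≤ r₁) (h₁ : r₁ < 3 / 100) (hX : xl ≤ X ∧ X ≤ xu) (hY : yl ≤ Y ∧ Y ≤ yu)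
    (hZ : zl ≤ Z ∧ Z ≤ zu) (hQ : ql ≤ Q ∧ Q ≤ qu)
    (a : -m ≤ rME r₁ v d xu yl zl ql) (b : -m ≤ rME r₁ v d xu yu zl ql)
    (e : rME r₀ v d xl yl zu qu ≤ m) (f : rME r₀ v d xl yu zu qu ≤ m) :
    |rME r v d X Y Z Q| ≤ m := by
  obtain ⟨X0, X1, Y0, Y1, Z0, Z1, Q0, Q1⟩ := g
  have hY₀ : 99 ≤ Y := Y0.trans hY.1
  have hY₁ : Y ≤ 140 := hY.2.trans Y1
  have d0' : (0 : ℝ) / 1 ≤ d := by simpa using c.d0
  have r0' : (0 : ℝ) / 1 ≤ r := by simpa using h₀.trans hr₀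
  have r1 : r < 3 / 100 := hr₁.trans_lt h₁
  have l := g_meXl_nonneg r0' r1 d0' c.d1 c.v0 c.v1
  have u := g_meXu_nonneg r0' r1 d0' c.d1 c.v0 c.v1
  have slope := affine_ge (B := -(AME1100 r v d)) (C := -(AME1000 r v d)) (m := 0) hY₀ hY₁
    (by linarith) (by linarith)
  have x₁ := mul_nonneg slope (sub_nonneg.2 hX.2)
  have x₀ := mul_nonneg slope (sub_nonneg.2 hX.1)
  have zz := g_meZ_nonneg r0' r1 d0' c.d1 c.v0 c.v1
  have qq := g_meQ_nonneg r0' r1 d0' c.d1 c.v0 c.v1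
  have z₀ := mul_nonneg zz (sub_nonneg.2 hZ.1)
  have z₁ := mul_nonneg zz (sub_nonneg.2 hZ.2)
  have q₀ := mul_nonneg qq (sub_nonneg.2 hQ.1)
  have q₁ := mul_nonneg qq (sub_nonneg.2 hQ.2)
  have mn := ME_anti_r c (X := xu) (Y := Y) (Z := zl) (Q := ql) (by linarith [hX.1, hX.2]) X1
    hY₀ hY₁ (by linarith [hZ.1, hZ.2]) Q0 (by linarith [hQ.1, hQ.2]) (h₀.trans hr₀) h₁ hr₁
  have mp := ME_anti_r c (X := xl) (Y := Y) (Z := zu) (Q := qu) X0 (by linarith [hX.1, hX.2])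
    hY₀ hY₁ Z1 (by linarith [hQ.1, hQ.2]) Q1 h₀ r1 hr₀
  have qn := affine_ge (B := AME0100 r₁ v d + AME1100 r₁ v d * xu)
    (C := AME0001 r₁ v d * ql + AME0010 r₁ v d * zl + AME1000 r₁ v d * xu) (m := -m) hY.1 hY.2
    (by simp only [rME] at a; linarith) (by simp only [rME] at b; linarith)
  have qp := affine_ge (B := -(AME0100 r₀ v d + AME1100 r₀ v d * xl))
    (C := -(AME0001 r₀ v d * qu + AME0010 r₀ v d * zu + AME1000 r₀ v d * xl)) (m := -m)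
    hY.1 hY.2 (by simp only [rME] at e; linarith) (by simp only [rME] at f; linarith)
  simp only [rME] at mn mp ⊢
  rw [abs_le]
  constructor <;> linarith

/-- `TMG` on a crude box. -/
theorem MG_nonneg (c : Crude d v) (h₀ : 0 ≤ r) (h₁ : r < 3 / 100) (hY₀ : 99 ≤ Y) (hY₁ : Y ≤ 140)
    (hX₀ : 9 ≤ X)
    (hz : (d < 16 / 133 ∧ X ≤ 143 / 10 ∧ -35 / 2 ≤ Z ∧ Q ≤ 1) ∨
      (3 / 25 ≤ d ∧ X ≤ 12 ∧ -13 ≤ Z ∧ Q ≤ -19 / 2)) :
    0 ≤ rMG r v d X Y Z Q := by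
  have r0' : (0 : ℝ) / 1 ≤ r := by simpa using h₀
  have d0' : (0 : ℝ) / 1 ≤ d := by simpa using c.d0
  have xx := g_mgXX_nonneg r0' h₁ d0' c.d1 c.v0 c.v1
  have yy := g_mgYY_nonneg r0' h₁ d0' c.d1 c.v0 c.v1
  have main : ∀ xu zz qq : ℝ, X ≤ xu → zz ≤ Z → Q ≤ qq →
      0 ≤ rMG r v d 9 99 zz qq → 0 ≤ rMG r v d xu 99 zz qq →
      0 ≤ rMG r v d 9 140 zz qq → 0 ≤ rMG r v d xu 140 zz qq → 0 ≤ rMG r v d X Y Z Q := by
    intro xu zz qq hx hz hq a b e f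
    have pz := mul_nonneg (g_mgZ_nonneg r0' h₁ d0' c.d1 c.v0 c.v1) (sub_nonneg.2 hz)
    have pq := mul_nonneg (g_mgQ_nonneg r0' h₁ d0' c.d1 c.v0 c.v1) (sub_nonneg.2 hq)
    have gl := quad_ge (A := AMG2000 r v d) (B := AMG1000 r v d + AMG1100 r v d * 99)
      (C := AMG0000 r v d + AMG0001 r v d * qq + AMG0010 r v d * zz + AMG0100 r v d * 99 +
        AMG0200 r v d * 99 ^ 2) (m := 0) (by linarith) hX₀ hx
      (by simp only [rMG] at a; linarith) (by simp only [rMG] at b; linarith)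
    have gu := quad_ge (A := AMG2000 r v d) (B := AMG1000 r v d + AMG1100 r v d * 140)
      (C := AMG0000 r v d + AMG0001 r v d * qq + AMG0010 r v d * zz + AMG0100 r v d * 140 +
        AMG0200 r v d * 140 ^ 2) (m := 0) (by linarith) hX₀ hx
      (by simp only [rMG] at e; linarith) (by simp only [rMG] at f; linarith)
    have q := quad_ge (A := AMG0200 r v d) (B := AMG0100 r v d + AMG1100 r v d * X)
      (C := AMG0000 r v d + AMG0001 r v d * qq + AMG0010 r v d * zz + AMG1000 r v d * X +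
        AMG2000 r v d * X ^ 2) (m := 0) (by linarith) hY₀ hY₁ (by linarith) (by linarith)
    simp only [rMG]
    linarith
  rcases hz with ⟨hd, hx, hz, hq⟩ | ⟨hd, hx, hz, hq⟩
  · refine main _ _ _ hx hz hq ?_ ?_ ?_ ?_ <;> simp only [rMG]
    · linarith [g_mgAll_nonneg r0' h₁ d0' hd c.v0 c.v1]
    · linarith [g_mgAlu_nonneg r0' h₁ d0' hd c.v0 c.v1]
    · linarith [g_mgAul_nonneg r0' h₁ d0' hd c.v0 c.v1]
    · linarith [g_mgAuu_nonneg r0' h₁ d0' hd c.v0 c.v1]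
  · refine main _ _ _ hx hz hq ?_ ?_ ?_ ?_ <;> simp only [rMG]
    · linarith [g_mgBll_nonneg r0' h₁ hd c.d1 c.v0 c.v1]
    · linarith [g_mgBlu_nonneg r0' h₁ hd c.d1 c.v0 c.v1]
    · linarith [g_mgBul_nonneg r0' h₁ hd c.d1 c.v0 c.v1]
    · linarith [g_mgBuu_nonneg r0' h₁ hd c.d1 c.v0 c.v1]

end Vale.Agent.P100.Calib.NegCert
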