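import Mathlib
import Vale.Agent.P100.Calib.NegCert.Common
import Vale.Agent.P100.Calib.SlabClosed

/-!
# The ray gap on a crude box
-/

set_option linter.unusedVariables false

namespace Vale.Agent.P100.Calib.NegCert

open Pack

def gC_LLG : ℕ → Chart
  | 0 => ⟨39, 31, 200, 100⟩
  | 1 => ⟨0, 61, 1, 304⟩
  | 2 => ⟨27, 113, 100, 200⟩
  | _ => ⟨-57, 1, 100, 100⟩

def g_LLG0 : Ex := (.add (.sub (.mul (.num 500) (.mul (.mul (.mul (.var 2) (.add (.num 2) (.mul
  (.var 1) (.var 2)))) (.add (.num 1) (.mul (.var 1) (.var 2)))) (.add (.add (.add (.sub (.add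
  (.add (.sub (.add (.sub (.sub (.mul (.sub (.num 0) (.num 8)) (.mul (.var 0) (.mul (.var 0)
  (.mul (.var 0) (.var 0))))) (.mul (.mul (.num 20) (.mul (.var 0) (.mul (.var 0) (.var 0))))
  (.var 1))) (.mul (.mul (.num 18) (.mul (.var 0) (.var 0))) (.mul (.var 1) (.var 1)))) (.mul
  (.num 6) (.mul (.var 0) (.var 0)))) (.mul (.mul (.num 7) (.var 0)) (.mul (.var 1) (.mul (.var
  1) (.var 1))))) (.mul (.mul (.num 9) (.var 0)) (.var 1))) (.mul (.num 2) (.var 0))) (.mul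
  (.var 1) (.mul (.var 1) (.mul (.var 1) (.var 1))))) (.mul (.num 3) (.mul (.var 1) (.var 1))))
  (.mul (.num 2) (.var 1))) (.mul (.var 3) (.sub (.sub (.sub (.add (.sub (.sub (.sub (.add (.sub
  (.sub (.add (.add (.mul (.mul (.num 4) (.mul (.var 0) (.mul (.var 0) (.mul (.var 0) (.var
  0))))) (.var 1)) (.mul (.mul (.num 12) (.mul (.var 0) (.mul (.var 0) (.var 0)))) (.mul (.var
  1) (.var 1)))) (.mul (.mul (.num 13) (.mul (.var 0) (.var 0))) (.mul (.var 1) (.mul (.var 1)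
  (.var 1))))) (.mul (.mul (.num 2) (.mul (.var 0) (.var 0))) (.mul (.var 1) (.var 1)))) (.mul
  (.mul (.num 3) (.mul (.var 0) (.var 0))) (.var 1))) (.mul (.mul (.num 6) (.var 0)) (.mul (.var
  1) (.mul (.var 1) (.mul (.var 1) (.var 1)))))) (.mul (.mul (.num 3) (.var 0)) (.mul (.var 1)
  (.mul (.var 1) (.var 1))))) (.mul (.mul (.num 6) (.var 0)) (.mul (.var 1) (.var 1)))) (.mul
  (.var 0) (.var 1))) (.mul (.var 1) (.mul (.var 1) (.mul (.var 1) (.mul (.var 1) (.var 1))))))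
  (.mul (.var 1) (.mul (.var 1) (.mul (.var 1) (.var 1))))) (.mul (.num 3) (.mul (.var 1) (.mul
  (.var 1) (.var 1))))) (.mul (.var 1) (.var 1))))))) (.mul (.num 840) (.mul (.var 0) (.mul
  (.var 2) (.mul (.add (.num 2) (.mul (.var 1) (.var 2))) (.mul (.add (.num 2) (.mul (.var 1)
  (.var 2))) (.add (.sub (.add (.sub (.add (.sub (.add (.add (.mul (.var 2) (.sub (.add (.sub
  (.add (.sub (.add (.mul (.mul (.num 2) (.mul (.var 0) (.mul (.var 0) (.var 0)))) (.var 1))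
  (.mul (.mul (.num 5) (.mul (.var 0) (.var 0))) (.mul (.var 1) (.var 1)))) (.mul (.mul (.var 0)
  (.var 0)) (.var 1))) (.mul (.mul (.num 4) (.var 0)) (.mul (.var 1) (.mul (.var 1) (.var 1)))))
  (.mul (.mul (.num 2) (.var 0)) (.mul (.var 1) (.var 1)))) (.mul (.var 1) (.mul (.var 1) (.mul
  (.var 1) (.var 1))))) (.mul (.var 1) (.mul (.var 1) (.var 1))))) (.mul (.num 4) (.mul (.var 0)
  (.mul (.var 0) (.var 0))))) (.mul (.mul (.num 10) (.mul (.var 0) (.var 0))) (.var 1))) (.mul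
  (.num 2) (.mul (.var 0) (.var 0)))) (.mul (.mul (.num 8) (.var 0)) (.mul (.var 1) (.var 1))))
  (.mul (.mul (.num 4) (.var 0)) (.var 1))) (.mul (.num 2) (.mul (.var 1) (.mul (.var 1) (.var
  1))))) (.mul (.num 2) (.mul (.var 1) (.var 1)))) (.mul (.var 3) (.add (.sub (.add (.sub (.add
  (.sub (.mul (.mul (.sub (.num 0) (.num 2)) (.mul (.var 0) (.mul (.var 0) (.var 0)))) (.var 1))
  (.mul (.mul (.num 5) (.mul (.var 0) (.var 0))) (.mul (.var 1) (.var 1)))) (.mul (.mul (.var 0)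
  (.var 0)) (.var 1))) (.mul (.mul (.num 4) (.var 0)) (.mul (.var 1) (.mul (.var 1) (.var 1)))))
  (.mul (.mul (.num 2) (.var 0)) (.mul (.var 1) (.var 1)))) (.mul (.var 1) (.mul (.var 1) (.mul
  (.var 1) (.var 1))))) (.mul (.var 1) (.mul (.var 1) (.var 1)))))))))))) (.mul (.mul (.num 200)
  (.mul (.var 0) (.add (.num 1) (.mul (.var 1) (.var 2))))) (.add (.add (.mul (.sub (.num 0)
  (.add (.add (.num 200) (.mul (.var 2) (.add (.num 1) (.mul (.num 20) (.var 1))))) (.mul (.var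
  3) (.sub (.num 1) (.mul (.num 180) (.var 1)))))) (.sub (.add (.sub (.add (.add (.mul (.var 2)
  (.sub (.add (.sub (.add (.mul (.mul (.num 8) (.mul (.var 0) (.var 0))) (.var 1)) (.mul (.mul
  (.num 12) (.var 0)) (.mul (.var 1) (.var 1)))) (.mul (.mul (.num 4) (.var 0)) (.var 1))) (.mul
  (.num 4) (.mul (.var 1) (.mul (.var 1) (.var 1))))) (.mul (.num 4) (.mul (.var 1) (.var 1)))))
  (.mul (.num 16) (.mul (.var 0) (.var 0)))) (.mul (.mul (.num 24) (.var 0)) (.var 1))) (.mul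
  (.num 8) (.var 0))) (.mul (.num 8) (.mul (.var 1) (.var 1)))) (.mul (.num 8) (.var 1)))) (.mul
  (.mul (.num 0) (.mul (.sub (.num 1) (.mul (.num 180) (.var 1))) (.sub (.num 1) (.mul (.var 1)
  (.var 3))))) (.mul (.var 2) (.add (.sub (.sub (.mul (.var 2) (.add (.sub (.mul (.mul (.sub
  (.num 0) (.num 8)) (.var 0)) (.var 1)) (.mul (.num 4) (.mul (.var 1) (.var 1)))) (.mul (.num
  4) (.var 1)))) (.mul (.num 16) (.var 0))) (.mul (.num 8) (.var 1))) (.num 8))))) (.mul (.mul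
  (.num 0) (.sub (.num 0) (.add (.add (.num 200) (.mul (.var 2) (.add (.num 1) (.mul (.num 20)
  (.var 1))))) (.mul (.var 3) (.sub (.num 1) (.mul (.num 180) (.var 1))))))) (.add (.sub (.add
  (.sub (.add (.add (.mul (.var 2) (.sub (.add (.sub (.add (.add (.mul (.var 2) (.sub (.add
  (.sub (.add (.mul (.mul (.sub (.num 0) (.num 2)) (.var 0)) (.mul (.var 1) (.mul (.var 1) (.var
  1)))) (.mul (.mul (.num 2) (.var 0)) (.mul (.var 1) (.var 1)))) (.mul (.var 1) (.mul (.var 1)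
  (.mul (.var 1) (.var 1))))) (.mul (.num 2) (.mul (.var 1) (.mul (.var 1) (.var 1))))) (.mul
  (.var 1) (.var 1)))) (.mul (.mul (.num 16) (.mul (.var 0) (.var 0))) (.var 1))) (.mul (.mul
  (.num 12) (.var 0)) (.mul (.var 1) (.var 1)))) (.mul (.mul (.num 8) (.var 0)) (.var 1))) (.mul
  (.num 2) (.mul (.var 1) (.mul (.var 1) (.var 1))))) (.mul (.num 2) (.mul (.var 1) (.var 1)))))
  (.mul (.num 16) (.mul (.var 0) (.var 0)))) (.mul (.mul (.num 16) (.var 0)) (.var 1))) (.mul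
  (.num 16) (.var 0))) (.mul (.num 4) (.mul (.var 1) (.var 1)))) (.mul (.num 8) (.var 1))) (.num
  4))))))

theorem g_LLG0_ok : checkFour gC_LLG 149 4 7 4 1 g_LLG0 = true := by decide +kernel

theorem g_LLG0_nonneg {a d v ρ : ℝ} (a₁ : 39 / 200 ≤ a) (a₂ : a < 31 / 100) (d₁ : 0 ≤ d)
    (d₂ : d < 61 / 304) (v₁ : 27 / 100 ≤ v) (v₂ : v < 113 / 200) (ρ₁ : -57 / 100 ≤ ρ)
    (ρ₂ : ρ < 1 / 100) (g W1 : ℝ) :
    0 ≤ Closed.LLG a d v g ρ W1 1 (Closed.eVal d v ρ 1) (Closed.kVal d ρ 1) +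
      200 * a * (1 + d * v) * (Closed.LLGw a d v 0 (Closed.eVal d v ρ 1) (Closed.kVal d ρ 1) -
        Closed.LLGw a d v 1 (Closed.eVal d v ρ 1) (Closed.kVal d ρ 1)) := by
  have h := nonneg_of_checkFour g_LLG0_ok (mem4 (x₀ := a) (x₁ := d) (x₂ := v) (x₃ := ρ)
    (by decide) (by decide) (by decide) (by decide)
    (by norm_num [InChart, gC_LLG]; constructor <;> linarith)
    (by norm_num [InChart, gC_LLG]; constructor <;> linarith)
    (by norm_num [InChart, gC_LLG]; constructor <;> linarith)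
    (by norm_num [InChart, gC_LLG]; constructor <;> linarith))
  refine le_of_mul_le_mul_left (a := 20) ?_ (by norm_num)
  refine le_of_eq_of_le (mul_zero _) (h.trans_eq ?_)
  simp only [g_LLG0, Ex.eval, pt, Closed.LLG, Closed.LLGc, Closed.LLGv, Closed.LLGw, Closed.eVal,
    Closed.kVal]
  push_cast
  ring

def g_LLG1 : Ex := (.add (.mul (.num 25) (.sub (.mul (.num 500) (.mul (.mul (.mul (.var 2) (.add
  (.num 2) (.mul (.var 1) (.var 2)))) (.add (.num 1) (.mul (.var 1) (.var 2)))) (.add (.add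
  (.add (.sub (.add (.add (.sub (.add (.sub (.sub (.mul (.sub (.num 0) (.num 8)) (.mul (.var 0)
  (.mul (.var 0) (.mul (.var 0) (.var 0))))) (.mul (.mul (.num 20) (.mul (.var 0) (.mul (.var 0)
  (.var 0)))) (.var 1))) (.mul (.mul (.num 18) (.mul (.var 0) (.var 0))) (.mul (.var 1) (.var
  1)))) (.mul (.num 6) (.mul (.var 0) (.var 0)))) (.mul (.mul (.num 7) (.var 0)) (.mul (.var 1)
  (.mul (.var 1) (.var 1))))) (.mul (.mul (.num 9) (.var 0)) (.var 1))) (.mul (.num 2) (.var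
  0))) (.mul (.var 1) (.mul (.var 1) (.mul (.var 1) (.var 1))))) (.mul (.num 3) (.mul (.var 1)
  (.var 1)))) (.mul (.num 2) (.var 1))) (.mul (.var 3) (.sub (.sub (.sub (.add (.sub (.sub (.sub
  (.add (.sub (.sub (.add (.add (.mul (.mul (.num 4) (.mul (.var 0) (.mul (.var 0) (.mul (.var
  0) (.var 0))))) (.var 1)) (.mul (.mul (.num 12) (.mul (.var 0) (.mul (.var 0) (.var 0))))
  (.mul (.var 1) (.var 1)))) (.mul (.mul (.num 13) (.mul (.var 0) (.var 0))) (.mul (.var 1)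
  (.mul (.var 1) (.var 1))))) (.mul (.mul (.num 2) (.mul (.var 0) (.var 0))) (.mul (.var 1)
  (.var 1)))) (.mul (.mul (.num 3) (.mul (.var 0) (.var 0))) (.var 1))) (.mul (.mul (.num 6)
  (.var 0)) (.mul (.var 1) (.mul (.var 1) (.mul (.var 1) (.var 1)))))) (.mul (.mul (.num 3)
  (.var 0)) (.mul (.var 1) (.mul (.var 1) (.var 1))))) (.mul (.mul (.num 6) (.var 0)) (.mul
  (.var 1) (.var 1)))) (.mul (.var 0) (.var 1))) (.mul (.var 1) (.mul (.var 1) (.mul (.var 1)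
  (.mul (.var 1) (.var 1)))))) (.mul (.var 1) (.mul (.var 1) (.mul (.var 1) (.var 1))))) (.mul
  (.num 3) (.mul (.var 1) (.mul (.var 1) (.var 1))))) (.mul (.var 1) (.var 1))))))) (.mul (.num
  840) (.mul (.var 0) (.mul (.var 2) (.mul (.add (.num 2) (.mul (.var 1) (.var 2))) (.mul (.add
  (.num 2) (.mul (.var 1) (.var 2))) (.add (.sub (.add (.sub (.add (.sub (.add (.add (.mul (.var
  2) (.sub (.add (.sub (.add (.sub (.add (.mul (.mul (.num 2) (.mul (.var 0) (.mul (.var 0)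
  (.var 0)))) (.var 1)) (.mul (.mul (.num 5) (.mul (.var 0) (.var 0))) (.mul (.var 1) (.var
  1)))) (.mul (.mul (.var 0) (.var 0)) (.var 1))) (.mul (.mul (.num 4) (.var 0)) (.mul (.var 1)
  (.mul (.var 1) (.var 1))))) (.mul (.mul (.num 2) (.var 0)) (.mul (.var 1) (.var 1)))) (.mul
  (.var 1) (.mul (.var 1) (.mul (.var 1) (.var 1))))) (.mul (.var 1) (.mul (.var 1) (.var 1)))))
  (.mul (.num 4) (.mul (.var 0) (.mul (.var 0) (.var 0))))) (.mul (.mul (.num 10) (.mul (.var 0)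
  (.var 0))) (.var 1))) (.mul (.num 2) (.mul (.var 0) (.var 0)))) (.mul (.mul (.num 8) (.var 0))
  (.mul (.var 1) (.var 1)))) (.mul (.mul (.num 4) (.var 0)) (.var 1))) (.mul (.num 2) (.mul
  (.var 1) (.mul (.var 1) (.var 1))))) (.mul (.num 2) (.mul (.var 1) (.var 1)))) (.mul (.var 3)
  (.add (.sub (.add (.sub (.add (.sub (.mul (.mul (.sub (.num 0) (.num 2)) (.mul (.var 0) (.mul
  (.var 0) (.var 0)))) (.var 1)) (.mul (.mul (.num 5) (.mul (.var 0) (.var 0))) (.mul (.var 1)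
  (.var 1)))) (.mul (.mul (.var 0) (.var 0)) (.var 1))) (.mul (.mul (.num 4) (.var 0)) (.mul
  (.var 1) (.mul (.var 1) (.var 1))))) (.mul (.mul (.num 2) (.var 0)) (.mul (.var 1) (.var 1))))
  (.mul (.var 1) (.mul (.var 1) (.mul (.var 1) (.var 1))))) (.mul (.var 1) (.mul (.var 1) (.var
  1))))))))))))) (.mul (.mul (.num 200) (.mul (.var 0) (.add (.num 1) (.mul (.var 1) (.var
  2))))) (.add (.mul (.num 24) (.add (.add (.mul (.sub (.num 0) (.add (.add (.num 200) (.mul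
  (.var 2) (.add (.num 1) (.mul (.num 20) (.var 1))))) (.mul (.var 3) (.sub (.num 1) (.mul (.num
  180) (.var 1)))))) (.sub (.add (.sub (.add (.add (.mul (.var 2) (.sub (.add (.sub (.add (.mul
  (.mul (.num 8) (.mul (.var 0) (.var 0))) (.var 1)) (.mul (.mul (.num 12) (.var 0)) (.mul (.var
  1) (.var 1)))) (.mul (.mul (.num 4) (.var 0)) (.var 1))) (.mul (.num 4) (.mul (.var 1) (.mul
  (.var 1) (.var 1))))) (.mul (.num 4) (.mul (.var 1) (.var 1))))) (.mul (.num 16) (.mul (.var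
  0) (.var 0)))) (.mul (.mul (.num 24) (.var 0)) (.var 1))) (.mul (.num 8) (.var 0))) (.mul
  (.num 8) (.mul (.var 1) (.var 1)))) (.mul (.num 8) (.var 1)))) (.mul (.mul (.num 0) (.mul
  (.sub (.num 1) (.mul (.num 180) (.var 1))) (.sub (.num 1) (.mul (.var 1) (.var 3))))) (.mul
  (.var 2) (.add (.sub (.sub (.mul (.var 2) (.add (.sub (.mul (.mul (.sub (.num 0) (.num 8))
  (.var 0)) (.var 1)) (.mul (.num 4) (.mul (.var 1) (.var 1)))) (.mul (.num 4) (.var 1)))) (.mul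
  (.num 16) (.var 0))) (.mul (.num 8) (.var 1))) (.num 8))))) (.mul (.mul (.num 0) (.sub (.num
  0) (.add (.add (.num 200) (.mul (.var 2) (.add (.num 1) (.mul (.num 20) (.var 1))))) (.mul
  (.var 3) (.sub (.num 1) (.mul (.num 180) (.var 1))))))) (.add (.sub (.add (.sub (.add (.add
  (.mul (.var 2) (.sub (.add (.sub (.add (.add (.mul (.var 2) (.sub (.add (.sub (.add (.mul
  (.mul (.sub (.num 0) (.num 2)) (.var 0)) (.mul (.var 1) (.mul (.var 1) (.var 1)))) (.mul (.mul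
  (.num 2) (.var 0)) (.mul (.var 1) (.var 1)))) (.mul (.var 1) (.mul (.var 1) (.mul (.var 1)
  (.var 1))))) (.mul (.num 2) (.mul (.var 1) (.mul (.var 1) (.var 1))))) (.mul (.var 1) (.var
  1)))) (.mul (.mul (.num 16) (.mul (.var 0) (.var 0))) (.var 1))) (.mul (.mul (.num 12) (.var
  0)) (.mul (.var 1) (.var 1)))) (.mul (.mul (.num 8) (.var 0)) (.var 1))) (.mul (.num 2) (.mul
  (.var 1) (.mul (.var 1) (.var 1))))) (.mul (.num 2) (.mul (.var 1) (.var 1))))) (.mul (.num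
  16) (.mul (.var 0) (.var 0)))) (.mul (.mul (.num 16) (.var 0)) (.var 1))) (.mul (.num 16)
  (.var 0))) (.mul (.num 4) (.mul (.var 1) (.var 1)))) (.mul (.num 8) (.var 1))) (.num 4)))))
  (.add (.add (.mul (.sub (.num 0) (.add (.add (.num 200) (.mul (.var 2) (.add (.num 1) (.mul
  (.num 20) (.var 1))))) (.mul (.var 3) (.sub (.num 1) (.mul (.num 180) (.var 1)))))) (.sub
  (.add (.sub (.add (.add (.mul (.var 2) (.sub (.add (.sub (.add (.mul (.mul (.num 8) (.mul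
  (.var 0) (.var 0))) (.var 1)) (.mul (.mul (.num 12) (.var 0)) (.mul (.var 1) (.var 1)))) (.mul
  (.mul (.num 4) (.var 0)) (.var 1))) (.mul (.num 4) (.mul (.var 1) (.mul (.var 1) (.var 1)))))
  (.mul (.num 4) (.mul (.var 1) (.var 1))))) (.mul (.num 16) (.mul (.var 0) (.var 0)))) (.mul
  (.mul (.num 24) (.var 0)) (.var 1))) (.mul (.num 8) (.var 0))) (.mul (.num 8) (.mul (.var 1)
  (.var 1)))) (.mul (.num 8) (.var 1)))) (.mul (.mul (.num (-16)) (.mul (.sub (.num 1) (.mul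
  (.num 180) (.var 1))) (.sub (.num 1) (.mul (.var 1) (.var 3))))) (.mul (.var 2) (.add (.sub
  (.sub (.mul (.var 2) (.add (.sub (.mul (.mul (.sub (.num 0) (.num 8)) (.var 0)) (.var 1))
  (.mul (.num 4) (.mul (.var 1) (.var 1)))) (.mul (.num 4) (.var 1)))) (.mul (.num 16) (.var
  0))) (.mul (.num 8) (.var 1))) (.num 8))))) (.mul (.mul (.num (-16)) (.sub (.num 0) (.add
  (.add (.num 200) (.mul (.var 2) (.add (.num 1) (.mul (.num 20) (.var 1))))) (.mul (.var 3)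
  (.sub (.num 1) (.mul (.num 180) (.var 1))))))) (.add (.sub (.add (.sub (.add (.add (.mul (.var
  2) (.sub (.add (.sub (.add (.add (.mul (.var 2) (.sub (.add (.sub (.add (.mul (.mul (.sub
  (.num 0) (.num 2)) (.var 0)) (.mul (.var 1) (.mul (.var 1) (.var 1)))) (.mul (.mul (.num 2)
  (.var 0)) (.mul (.var 1) (.var 1)))) (.mul (.var 1) (.mul (.var 1) (.mul (.var 1) (.var 1)))))
  (.mul (.num 2) (.mul (.var 1) (.mul (.var 1) (.var 1))))) (.mul (.var 1) (.var 1)))) (.mul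
  (.mul (.num 16) (.mul (.var 0) (.var 0))) (.var 1))) (.mul (.mul (.num 12) (.var 0)) (.mul
  (.var 1) (.var 1)))) (.mul (.mul (.num 8) (.var 0)) (.var 1))) (.mul (.num 2) (.mul (.var 1)
  (.mul (.var 1) (.var 1))))) (.mul (.num 2) (.mul (.var 1) (.var 1))))) (.mul (.num 16) (.mul
  (.var 0) (.var 0)))) (.mul (.mul (.num 16) (.var 0)) (.var 1))) (.mul (.num 16) (.var 0)))
  (.mul (.num 4) (.mul (.var 1) (.var 1)))) (.mul (.num 8) (.var 1))) (.num 4)))))))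

theorem g_LLG1_ok : checkFour gC_LLG 155 4 7 4 1 g_LLG1 = true := by decide +kernel

theorem g_LLG1_nonneg {a d v ρ : ℝ} (a₁ : 39 / 200 ≤ a) (a₂ : a < 31 / 100) (d₁ : 0 ≤ d)
    (d₂ : d < 61 / 304) (v₁ : 27 / 100 ≤ v) (v₂ : v < 113 / 200) (ρ₁ : -57 / 100 ≤ ρ)
    (ρ₂ : ρ < 1 / 100) (g W1 : ℝ) :
    0 ≤ Closed.LLG a d v g ρ W1 1 (Closed.eVal d v ρ 1) (Closed.kVal d ρ 1) +
      200 * a * (1 + d * v) * (Closed.LLGw a d v (-16 / 25) (Closed.eVal d v ρ 1) (Closed.kVal d ρ 1) -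
        Closed.LLGw a d v 1 (Closed.eVal d v ρ 1) (Closed.kVal d ρ 1)) := by
  have h := nonneg_of_checkFour g_LLG1_ok (mem4 (x₀ := a) (x₁ := d) (x₂ := v) (x₃ := ρ)
    (by decide) (by decide) (by decide) (by decide)
    (by norm_num [InChart, gC_LLG]; constructor <;> linarith)
    (by norm_num [InChart, gC_LLG]; constructor <;> linarith)
    (by norm_num [InChart, gC_LLG]; constructor <;> linarith)
    (by norm_num [InChart, gC_LLG]; constructor <;> linarith))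
  refine le_of_mul_le_mul_left (a := 500) ?_ (by norm_num)
  refine le_of_eq_of_le (mul_zero _) (h.trans_eq ?_)
  simp only [g_LLG1, Ex.eval, pt, Closed.LLG, Closed.LLGc, Closed.LLGv, Closed.LLGw, Closed.eVal,
    Closed.kVal]
  push_cast
  ring

end Vale.Agent.P100.Calib.NegCert
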