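import Mathlib
import Vale.Agent.P100.Pack.Expr
import Vale.Agent.P100.Calib.SlabClosed

/-!
# The closed forms as integer expressions

Each definition `m…` is the polynomial of the same name in `Closed`; the combinations are scaled by a
constant to clear fractions.
-/

set_option linter.unusedVariables false
set_option linter.unusedSimpArgs false

namespace Vale.Agent.P100.Calib.NegCert

open Pack

variable (x : ℕ → ℝ)

/-- `gM`. -/
def mgM (a d v : Ex) : Ex := (.sub (.add (.add (.mul v (.sub (.add (.mul v (.mul (.mul (.num 2) a) (.mul d d))) (.mul (.mul (.num 4) a) d)) (.mul (.num 2) d))) (.mul (.num 4) a)) (.mul (.num 2) d)) (.num 2))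

theorem mgM_eval (a d v : Ex) :
    (mgM a d v).eval x = Closed.gM (a.eval x) (d.eval x) (v.eval x) := by
  simp only [mgM, Closed.gM, Ex.eval]
  push_cast
  ring

/-- `gE`. -/
def mgE (a d v g W E : Ex) : Ex := (.add (.add (.add (.add (.mul v (.sub (.add (.sub (.sub (.mul (.num (-96)) (.mul (.mul a a) a)) (.mul (.mul (.num 80) (.mul a a)) d)) (.mul (.num 48) (.mul a a))) (.mul (.mul (.num 16) a) (.mul d d))) (.mul (.mul (.num 48) a) d))) (.mul (.num 128) (.mul a a))) (.mul (.mul (.num 128) a) d)) (.mul (.mul g E) (.add (.sub (.mul (.num (-32)) (.mul a a)) (.mul (.mul (.num 16) a) d)) (.mul (.num 16) a)))) (.mul (.mul g W) (.sub (.sub (.sub (.sub (.mul (.num (-2)) (.mul a a)) (.mul (.mul (.num 3) a) d)) a) (.mul d d)) d)))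

theorem mgE_eval (a d v g W E : Ex) :
    (mgE a d v g W E).eval x = Closed.gE (a.eval x) (d.eval x) (v.eval x) (g.eval x) (W.eval x) (E.eval x) := by
  simp only [mgE, Closed.gE, Ex.eval]
  push_cast
  ring

/-- `gG`. -/
def mgG (a d v g W : Ex) : Ex := (.add (.sub (.mul v (.sub (.sub (.sub (.add (.sub (.add (.add (.mul v (.sub (.sub (.sub (.add (.sub (.add (.add (.mul v (.sub (.mul (.mul (.num (-84)) (.mul a a)) (.mul d d)) (.mul (.mul (.num 84) a) (.mul (.mul d d) d)))) (.mul (.mul (.num 800) (.mul (.mul a a) a)) d)) (.mul (.mul (.num 1200) (.mul a a)) (.mul d d))) (.mul (.mul (.num 136) (.mul a a)) d)) (.mul (.mul (.num 400) a) (.mul (.mul d d) d))) (.mul (.mul (.num 136) a) (.mul d d))) (.mul (.num 50) (.mul (.mul d d) d))) (.mul (.num 50) (.mul d d)))) (.mul (.num 800) (.mul (.mul a a) a))) (.mul (.mul (.num 1200) (.mul a a)) d)) (.mul (.num 136) (.mul a a))) (.mul (.mul (.num 400) a) (.mul d d))) (.mul (.mul (.num 136) a) d))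 (.mul (.num 50) (.mul d d))) (.mul (.num 150) d))) (.num 100)) (.mul (.mul g W) (.add (.add (.mul v (.add (.mul (.mul (.num 25) a) d) (.mul (.num 25) (.mul d d)))) (.mul (.num 25) a)) (.mul (.num 25) d))))

theorem mgG_eval (a d v g W : Ex) :
    (mgG a d v g W).eval x = Closed.gG (a.eval x) (d.eval x) (v.eval x) (g.eval x) (W.eval x) := by
  simp only [mgG, Closed.gG, Ex.eval]
  push_cast
  ring

/-- `hM`. -/
def mhM (a d v g W : Ex) : Ex := (.add (.add (.mul v (.mul (.num (-4)) a)) (.num 4)) (.mul (.mul g W) (.sub (.sub (.num 0) a) d)))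

theorem mhM_eval (a d v g W : Ex) :
    (mhM a d v g W).eval x = Closed.hM (a.eval x) (d.eval x) (v.eval x) (g.eval x) (W.eval x) := by
  simp only [mhM, Closed.hM, Ex.eval]
  push_cast
  ring

/-- `hE`. -/
def mhE (a d v g W : Ex) : Ex := (.add (.sub (.mul v (.sub (.sub (.add (.sub (.sub (.mul v (.sub (.add (.sub (.add (.sub (.sub (.mul v (.add (.sub (.mul (.mul (.num (-168)) (.mul a a)) (.mul d d)) (.mul (.mul (.num 168) a) (.mul (.mul d d) d))) (.mul (.mul (.num 100) a) (.mul d d)))) (.mul (.mul (.num 1072) (.mul a a)) d)) (.mul (.mul (.num 1072) a) (.mul d d))) (.mul (.mul (.num 600) a) d)) (.mul (.num 100) (.mul (.mul d d) d))) (.mul (.num 100) (.mul d d))) (.mul (.num 100) d))) (.mul (.num 1072) (.mul a a))) (.mul (.mul (.num 1072) a) d)) (.mul (.num 600) a)) (.mul (.num 100) (.mul d d))) (.num 100))) (.num 200)) (.mul (.mul g W) (.add (.add (.mul v (.add (.add (.mul v (.sub (.mul (.mul (.num (-25)) a) (.mul d d)) (.mul (.num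 25) (.mul (.mul d d) d)))) (.mul (.mul (.num 50) a) d)) (.mul (.num 50) (.mul d d)))) (.mul (.num 50) a)) (.mul (.num 50) d))))

theorem mhE_eval (a d v g W : Ex) :
    (mhE a d v g W).eval x = Closed.hE (a.eval x) (d.eval x) (v.eval x) (g.eval x) (W.eval x) := by
  simp only [mhE, Closed.hE, Ex.eval]
  push_cast
  ring

/-- `hG`. -/
def mhG (a d v g W : Ex) : Ex := (.add (.add (.sub (.sub (.mul v (.sub (.add (.sub (.sub (.mul (.num (-4)) (.mul a a)) (.mul (.mul (.num 6) a) d)) (.mul (.num 2) (.mul d d))) d) (.num 1))) (.mul (.num 4) a)) (.mul (.num 2) d)) (.num 2)) (.mul (.mul g W) (.add a d)))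

theorem mhG_eval (a d v g W : Ex) :
    (mhG a d v g W).eval x = Closed.hG (a.eval x) (d.eval x) (v.eval x) (g.eval x) (W.eval x) := by
  simp only [mhG, Closed.hG, Ex.eval]
  push_cast
  ring

/-- `TME_010000_0`. -/
def mTME_010000_0 (a d v : Ex) : Ex := (.mul v (.add (.sub (.add (.add (.sub (.add (.add (.sub (.add (.sub (.mul (.num (-536)) (.mul (.mul (.mul a a) a) a)) (.mul (.mul (.num 1340) (.mul (.mul a a) a)) d)) (.mul (.num 504) (.mul (.mul a a) a))) (.mul (.mul (.num 1122) (.mul a a)) (.mul d d))) (.mul (.mul (.num 1008) (.mul a a)) d)) (.mul (.num 50) (.mul a a))) (.mul (.mul (.num 343) a) (.mul (.mul d d) d))) (.mul (.mul (.num 504) a) (.mul d d))) (.mul (.mul (.num 75) a) d)) (.mul (.num 25) (.mul (.mul (.mul d d) d) d))) (.mul (.num 25) (.mul d d))))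

theorem mTME_010000_0_eval (a d v : Ex) :
    (mTME_010000_0 a d v).eval x = Closed.TME_010000_0 (a.eval x) (d.eval x) (v.eval x) := by
  simp only [mTME_010000_0, Closed.TME_010000_0, Ex.eval]
  push_cast
  ring

/-- `TME_010000_1`. -/
def mTME_010000_1 (a d v : Ex) : Ex := (.add (.add (.sub (.add (.add (.add (.sub (.add (.add (.sub (.add (.sub (.sub (.mul v (.add (.sub (.add (.sub (.add (.sub (.mul (.mul (.num (-84)) (.mul (.mul (.mul a a) a) a)) (.mul d d)) (.mul (.mul (.num 210) (.mul (.mul a a) a)) (.mul (.mul d d) d))) (.mul (.mul (.num 126) (.mul (.mul a a) a)) (.mul d d))) (.mul (.mul (.num 168) (.mul a a)) (.mul (.mul (.mul d d) d) d))) (.mul (.mul (.num 252) (.mul a a)) (.mul (.mul d d) d))) (.mul (.mul (.num 42) a) (.mul (.mul (.mul (.mul d d) d) d) d))) (.mul (.mul (.num 126) a) (.mul (.mul (.mul d d) d) d)))) (.mul (.mul (.num 536) (.mul (.mul (.mul a a) a) a)) d)) (.mul (.mul (.num 1340) (.mul (.mul a a) a)) (.mul d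 d))) (.mul (.mul (.num 504) (.mul (.mul a a) a)) d)) (.mul (.mul (.num 1122) (.mul a a)) (.mul (.mul d d) d))) (.mul (.mul (.num 1008) (.mul a a)) (.mul d d))) (.mul (.mul (.num 100) (.mul a a)) d)) (.mul (.mul (.num 343) a) (.mul (.mul (.mul d d) d) d))) (.mul (.mul (.num 504) a) (.mul (.mul d d) d))) (.mul (.mul (.num 150) a) (.mul d d))) (.mul (.mul (.num 25) a) d)) (.mul (.num 25) (.mul (.mul (.mul (.mul d d) d) d) d))) (.mul (.num 50) (.mul (.mul d d) d))) (.mul (.num 25) (.mul d d)))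

theorem mTME_010000_1_eval (a d v : Ex) :
    (mTME_010000_1 a d v).eval x = Closed.TME_010000_1 (a.eval x) (d.eval x) (v.eval x) := by
  simp only [mTME_010000_1, Closed.TME_010000_1, Ex.eval]
  push_cast
  ring

/-- `LEG1_000000_0`. -/
def mLEG1_000000_0 (a d v : Ex) : Ex := (.add (.add (.add (.add (.add (.add (.add (.add (.add (.mul v (.sub (.sub (.add (.add (.sub (.sub (.sub (.add (.sub (.sub (.sub (.sub (.sub (.mul (.num (-8)) (.mul (.mul (.mul a a) a) a)) (.mul (.mul (.num 12) (.mul (.mul a a) a)) d)) (.mul (.num 12) (.mul (.mul a a) a))) (.mul (.mul (.num 2) (.mul a a)) (.mul d d))) (.mul (.mul (.num 16) (.mul a a)) d)) (.mul (.num 6) (.mul a a))) (.mul (.mul (.num 3) a) (.mul (.mul d d) d))) (.mul (.mul (.num 3) a) (.mul d d))) (.mul (.mul (.num 7) a) d)) a) (.mul (.mul (.mul d d) d) d)) (.mul (.mul d d) d)) (.mul d d)) d)) (.mul (.num 16) (.mul (.mul a a) a))) (.mul (.mul (.num 32) (.mul a a)) d)) (.mul (.num 16) (.mul a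 a))) (.mul (.mul (.num 20) a) (.mul d d))) (.mul (.mul (.num 24) a) d)) (.mul (.num 4) a)) (.mul (.num 4) (.mul (.mul d d) d))) (.mul (.num 8) (.mul d d))) (.mul (.num 4) d))

theorem mLEG1_000000_0_eval (a d v : Ex) :
    (mLEG1_000000_0 a d v).eval x = Closed.LEG1_000000_0 (a.eval x) (d.eval x) (v.eval x) := by
  simp only [mLEG1_000000_0, Closed.LEG1_000000_0, Ex.eval]
  push_cast
  ring

/-- `LEG1`. -/
def mLEG1 (a d v : Ex) : Ex := (mLEG1_000000_0 a d v)

theorem mLEG1_eval (a d v : Ex) :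
    (mLEG1 a d v).eval x = Closed.LEG1 (a.eval x) (d.eval x) (v.eval x) := by
  simp only [mLEG1, Closed.LEG1, mLEG1_000000_0_eval, Ex.eval]

/-- `LEGc`. -/
def mLEGc (a d v g W : Ex) : Ex := (.add (.add (.sub (.sub (.add (.sub (.sub (.sub (.sub (.sub (.mul v (.add (.sub (.add (.add (.sub (.add (.add (.sub (.add (.sub (.mul (.num (-32)) (.mul (.mul (.mul a a) a) a)) (.mul (.mul (.num 144) (.mul (.mul a a) a)) d)) (.mul (.num 16) (.mul (.mul a a) a))) (.mul (.mul (.num 168) (.mul a a)) (.mul d d))) (.mul (.mul (.num 16) (.mul a a)) d)) (.mul (.num 16) (.mul a a))) (.mul (.mul (.num 76) a) (.mul (.mul d d) d))) (.mul (.mul (.num 4) a) (.mul d d))) (.mul (.mul (.num 32) a) d)) (.mul (.num 12) (.mul (.mul (.mul d d) d) d))) (.mul (.num 12) (.mul d d)))) (.mul (.num 160) (.mul (.mul a a) a))) (.mul (.mul (.num 240) (.mul a a)) d)) (.mul (.num 16) (.mul a a))) (.mul (.mul (.num 120) a) (.mul d d))) (.mul (.mul (.num 16) a) d)) (.mul (.num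 32) a)) (.mul (.num 20) (.mul (.mul d d) d))) (.mul (.num 4) (.mul d d))) (.mul (.num 16) d)) (.mul (.mul g W) (.add (.add (.sub (.add (.add (.sub (.add (.add (.sub (.add (.sub (.mul (.num (-8)) (.mul (.mul (.mul a a) a) a)) (.mul (.mul (.num 20) (.mul (.mul a a) a)) d)) (.mul (.num 4) (.mul (.mul a a) a))) (.mul (.mul (.num 18) (.mul a a)) (.mul d d))) (.mul (.mul (.num 8) (.mul a a)) d)) (.mul (.num 4) (.mul a a))) (.mul (.mul (.num 7) a) (.mul (.mul d d) d))) (.mul (.mul (.num 5) a) (.mul d d))) (.mul (.mul (.num 6) a) d)) (.mul (.mul (.mul d d) d) d)) (.mul (.mul d d) d)) (.mul (.num 2) (.mul d d)))))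

theorem mLEGc_eval (a d v g W : Ex) :
    (mLEGc a d v g W).eval x = Closed.LEGc (a.eval x) (d.eval x) (v.eval x) (g.eval x) (W.eval x) := by
  simp only [mLEGc, Closed.LEGc, Ex.eval]
  push_cast
  ring

/-- `LEGv`. -/
def mLEGv (a d v g W : Ex) : Ex := (.add (.sub (.add (.sub (.add (.add (.mul v (.sub (.add (.sub (.add (.add (.add (.sub (.mul (.num (-2)) (.mul (.mul a a) a)) (.mul (.mul a a) d)) (.mul a a)) (.mul (.mul (.num 2) a) (.mul d d))) (.mul a d)) a) (.mul (.mul d d) d)) d)) (.mul (.num 6) (.mul a a))) (.mul (.mul (.num 9) a) d)) a) (.mul (.num 3) (.mul d d))) d) (.mul (.mul g W) (.add (.add (.mul a a) (.mul (.mul (.num 2) a) d)) (.mul d d))))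

theorem mLEGv_eval (a d v g W : Ex) :
    (mLEGv a d v g W).eval x = Closed.LEGv (a.eval x) (d.eval x) (v.eval x) (g.eval x) (W.eval x) := by
  simp only [mLEGv, Closed.LEGv, Ex.eval]
  push_cast
  ring

/-- `LEGw`. -/
def mLEGw (a d v g E : Ex) : Ex := (.mul (.mul g E) (.sub (.add (.sub (.sub (.add (.sub (.add (.sub (.mul (.num (-8)) (.mul (.mul a a) a)) (.mul (.mul (.num 12) (.mul a a)) d)) (.mul (.num 8) (.mul a a))) (.mul (.mul (.num 6) a) (.mul d d))) (.mul (.mul (.num 8) a) d)) (.mul (.num 2) a)) (.mul (.mul d d) d)) (.mul (.num 2) (.mul d d))) d))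

theorem mLEGw_eval (a d v g E : Ex) :
    (mLEGw a d v g E).eval x = Closed.LEGw (a.eval x) (d.eval x) (v.eval x) (g.eval x) (E.eval x) := by
  simp only [mLEGw, Closed.LEGw, Ex.eval]
  push_cast
  ring

/-- `LGGc`. -/
def mLGGc (a d v : Ex) : Ex := (.add (.sub (.add (.sub (.add (.sub (.sub (.sub (.mul v (.add (.sub (.add (.sub (.add (.sub (.sub (.mul (.mul (.num (-4)) (.mul (.mul (.mul a a) a) a)) d) (.mul (.mul (.num 12) (.mul (.mul a a) a)) (.mul d d))) (.mul (.mul (.num 13) (.mul a a)) (.mul (.mul d d) d))) (.mul (.mul a a) d)) (.mul (.mul (.num 6) a) (.mul (.mul (.mul d d) d) d))) (.mul (.mul (.num 2) a) (.mul d d))) (.mul (.mul (.mul (.mul d d) d) d) d)) (.mul (.mul d d) d))) (.mul (.num 8) (.mul (.mul (.mul a a) a) a))) (.mul (.mul (.num 16) (.mul (.mul a a) a)) d)) (.mul (.mul (.num 14) (.mul a a)) (.mul d d))) (.mul (.num 2) (.mul a a))) (.mul (.mul (.num 6) a) (.mul (.mul d d) d))) (.mul (.mul (.num 2) a) d)) (.mul (.mul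 (.mul d d) d) d)) (.mul d d))

theorem mLGGc_eval (a d v : Ex) :
    (mLGGc a d v).eval x = Closed.LGGc (a.eval x) (d.eval x) (v.eval x) := by
  simp only [mLGGc, Closed.LGGc, Ex.eval]
  push_cast
  ring

/-- `LGGv`. -/
def mLGGv (a d v : Ex) : Ex := (.sub (.add (.sub (.add (.sub (.add (.mul (.num 4) (.mul (.mul a a) a)) (.mul (.mul (.num 8) (.mul a a)) d)) (.mul (.num 2) (.mul a a))) (.mul (.mul (.num 5) a) (.mul d d))) (.mul (.mul (.num 3) a) d)) (.mul (.mul d d) d)) (.mul d d))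

theorem mLGGv_eval (a d v : Ex) :
    (mLGGv a d v).eval x = Closed.LGGv (a.eval x) (d.eval x) (v.eval x) := by
  simp only [mLGGv, Closed.LGGv, Ex.eval]
  push_cast
  ring

/-- `LEE1`. -/
def mLEE1 (a d v : Ex) : Ex := (.sub (.add (.add (.add (.add (.add (.mul v (.sub (.sub (.add (.sub (.sub (.add (.sub (.mul v (.add (.add (.sub (.add (.mul (.mul (.num 4) (.mul (.mul a a) a)) (.mul d d)) (.mul (.mul (.num 8) (.mul a a)) (.mul d d))) (.mul a (.mul (.mul (.mul d d) d) d))) (.mul (.mul (.num 2) a) (.mul (.mul d d) d))) (.mul (.mul (.num 3) a) (.mul d d)))) (.mul (.mul (.num 12) (.mul a a)) (.mul d d))) (.mul (.mul (.num 8) (.mul a a)) d)) (.mul (.mul (.num 4) a) (.mul (.mul d d) d))) (.mul (.mul (.num 4) a) (.mul d d))) (.mul (.mul (.mul d d) d) d)) (.mul (.num 3) (.mul d d))) (.mul (.num 2) d))) (.mul (.num 8) (.mul a a))) (.mul (.mul (.num 8) a) (.mul d d))) (.mul (.mul (.num 8) a) d)) (.mul (.num 4) (.mul (.mul d d) d))) (.mul (.num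 6) (.mul d d))) (.num 2))

theorem mLEE1_eval (a d v : Ex) :
    (mLEE1 a d v).eval x = Closed.LEE1 (a.eval x) (d.eval x) (v.eval x) := by
  simp only [mLEE1, Closed.LEE1, Ex.eval]
  push_cast
  ring

/-- `LEEc_000000_0`. -/
def mLEEc_000000_0 (a d v : Ex) : Ex := (.add (.add (.mul v (.add (.sub (.sub (.add (.sub (.sub (.sub (.sub (.mul (.num (-128)) (.mul (.mul (.mul a a) a) a)) (.mul (.mul (.num 256) (.mul (.mul a a) a)) d)) (.mul (.mul (.num 192) (.mul a a)) (.mul d d))) (.mul (.mul (.num 64) a) (.mul (.mul d d) d))) (.mul (.mul (.num 16) a) (.mul d d))) (.mul (.mul (.num 48) a) d)) (.mul (.num 8) (.mul (.mul (.mul d d) d) d))) (.mul (.num 8) (.mul (.mul d d) d))) (.mul (.num 48) (.mul d d)))) (.mul (.num 32) a)) (.mul (.num 16) d))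

theorem mLEEc_000000_0_eval (a d v : Ex) :
    (mLEEc_000000_0 a d v).eval x = Closed.LEEc_000000_0 (a.eval x) (d.eval x) (v.eval x) := by
  simp only [mLEEc_000000_0, Closed.LEEc_000000_0, Ex.eval]
  push_cast
  ring

/-- `LEEc_000000_1`. -/
def mLEEc_000000_1 (a d v : Ex) : Ex := (.sub (.add (.sub (.sub (.add (.sub (.add (.sub (.sub (.sub (.mul v (.add (.sub (.sub (.mul (.mul (.num (-16)) (.mul (.mul a a) a)) (.mul d d)) (.mul (.mul (.num 8) (.mul a a)) (.mul (.mul d d) d))) (.mul (.mul (.num 12) a) (.mul (.mul d d) d))) (.mul (.mul (.num 4) a) (.mul d d)))) (.mul (.mul (.num 128) (.mul (.mul (.mul a a) a) a)) d)) (.mul (.mul (.num 256) (.mul (.mul a a) a)) (.mul d d))) (.mul (.mul (.num 192) (.mul a a)) (.mul (.mul d d) d))) (.mul (.mul (.num 32) (.mul a a)) (.mul d d))) (.mul (.mul (.num 64) a) (.mul (.mul (.mul d d) d) d))) (.mul (.mul (.num 16) a) (.mul (.mul d d) d))) (.mul (.mul (.num 8) a) (.mul d d))) (.mul (.num 8) (.mul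 (.mul (.mul (.mul d d) d) d) d))) (.mul (.num 20) (.mul (.mul d d) d))) (.mul (.num 4) (.mul d d)))

theorem mLEEc_000000_1_eval (a d v : Ex) :
    (mLEEc_000000_1 a d v).eval x = Closed.LEEc_000000_1 (a.eval x) (d.eval x) (v.eval x) := by
  simp only [mLEEc_000000_1, Closed.LEEc_000000_1, Ex.eval]
  push_cast
  ring

/-- `LEEc_110000_0`. -/
def mLEEc_110000_0 (a d v : Ex) : Ex := (.sub (.sub (.mul v (.sub (.sub (.add (.sub (.sub (.sub (.add (.sub (.add (.sub (.mul (.mul (.num (-8)) (.mul (.mul a a) a)) (.mul d d)) (.mul (.mul (.num 16) (.mul a a)) (.mul (.mul d d) d))) (.mul (.mul (.num 4) (.mul a a)) (.mul d d))) (.mul (.mul (.num 10) a) (.mul (.mul (.mul d d) d) d))) (.mul (.mul (.num 6) a) (.mul (.mul d d) d))) (.mul (.mul (.num 8) a) (.mul d d))) (.mul (.mul (.num 8) a) d)) (.mul (.num 2) (.mul (.mul (.mul (.mul d d) d) d) d))) (.mul (.num 2) (.mul (.mul (.mul d d) d) d))) (.mul (.num 8) (.mul (.mul d d) d))) (.mul (.num 8) (.mul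 d d)))) (.mul (.num 4) a)) (.mul (.num 4) d))

theorem mLEEc_110000_0_eval (a d v : Ex) :
    (mLEEc_110000_0 a d v).eval x = Closed.LEEc_110000_0 (a.eval x) (d.eval x) (v.eval x) := by
  simp only [mLEEc_110000_0, Closed.LEEc_110000_0, Ex.eval]
  push_cast
  ring

/-- `LEEc_110000_1`. -/
def mLEEc_110000_1 (a d v : Ex) : Ex := (.add (.sub (.add (.sub (.sub (.add (.add (.sub (.add (.sub (.add (.mul (.mul (.num 8) (.mul (.mul (.mul a a) a) a)) (.mul d d)) (.mul (.mul (.num 16) (.mul (.mul a a) a)) (.mul (.mul d d) d))) (.mul (.mul (.num 4) (.mul (.mul a a) a)) (.mul d d))) (.mul (.mul (.num 10) (.mul a a)) (.mul (.mul (.mul d d) d) d))) (.mul (.mul (.num 6) (.mul a a)) (.mul (.mul d d) d))) (.mul (.mul (.num 2) (.mul a a)) (.mul d d))) (.mul (.mul (.num 2) a) (.mul (.mul (.mul (.mul d d) d) d) d))) (.mul (.mul (.num 2) a) (.mul (.mul (.mul d d) d) d))) (.mul a (.mul (.mul d d) d))) (.mul a (.mul d d))) (.mul (.num 3) (.mul (.mul (.mul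 d d) d) d))) (.mul (.mul d d) d))

theorem mLEEc_110000_1_eval (a d v : Ex) :
    (mLEEc_110000_1 a d v).eval x = Closed.LEEc_110000_1 (a.eval x) (d.eval x) (v.eval x) := by
  simp only [mLEEc_110000_1, Closed.LEEc_110000_1, Ex.eval]
  push_cast
  ring

/-- `LEEc`. -/
def mLEEc (a d v g W W1 : Ex) : Ex := (.add (.add (.add (.add (mLEEc_000000_0 a d v) (.mul (.mul v v) (mLEEc_000000_1 a d v))) (.mul (.mul g W1) (.sub (.sub (.sub (.mul v (.sub (.sub (.mul (.mul (.num (-4)) (.mul a a)) d) (.mul (.mul (.num 8) a) (.mul d d))) (.mul (.num 4) (.mul (.mul d d) d)))) (.mul (.num 8) (.mul a a))) (.mul (.mul (.num 16) a) d)) (.mul (.num 8) (.mul d d))))) (.mul (.mul g W) (.add (mLEEc_110000_0 a d v) (.mul (.mul v v) (mLEEc_110000_1 a d v))))) (.mul (.mul (.mul g g) (.mul W W)) (.mul v (.sub (.sub (.mul (.sub (.num 0) (.mul a a)) (.mul d d)) (.mul (.mul (.num 2) a) (.mul (.mul d d) d))) (.mul (.mul (.mul d d) d) d)))))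

theorem mLEEc_eval (a d v g W W1 : Ex) :
    (mLEEc a d v g W W1).eval x = Closed.LEEc (a.eval x) (d.eval x) (v.eval x) (g.eval x) (W.eval x) (W1.eval x) := by
  simp only [mLEEc, Closed.LEEc, mLEEc_000000_0_eval, mLEEc_000000_1_eval, mLEEc_110000_0_eval, mLEEc_110000_1_eval, Ex.eval]
  push_cast
  ring

/-- `LEEv`. -/
def mLEEv (a d v g W : Ex) : Ex := (.add (.sub (.mul v (.sub (.sub (.add (.add (.add (.add (.mul v (.sub (.sub (.add (.add (.add (.add (.mul v (.mul (.mul (.num 4) a) (.mul d d))) (.mul (.mul (.num 16) (.mul a a)) d)) (.mul (.mul (.num 16) a) (.mul d d))) (.mul (.mul (.num 8) a) d)) (.mul (.num 4) (.mul (.mul d d) d))) (.mul (.num 4) (.mul d d))) (.mul (.num 4) d))) (.mul (.num 16) (.mul a a))) (.mul (.mul (.num 16) a) d)) (.mul (.num 8) a)) (.mul (.num 4) (.mul d d))) (.mul (.num 8) d)) (.num 4))) (.num 8)) (.mul (.mul g W) (.add (.add (.mul v (.add (.add (.mul v (.sub (.mul (.sub (.num 0) a) (.mul d d)) (.mul (.mul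 d d) d))) (.mul (.mul (.num 2) a) d)) (.mul (.num 2) (.mul d d)))) (.mul (.num 2) a)) (.mul (.num 2) d))))

theorem mLEEv_eval (a d v g W : Ex) :
    (mLEEv a d v g W).eval x = Closed.LEEv (a.eval x) (d.eval x) (v.eval x) (g.eval x) (W.eval x) := by
  simp only [mLEEv, Closed.LEEv, Ex.eval]
  push_cast
  ring

/-- `LEEw`. -/
def mLEEw (a d v g E : Ex) : Ex := (.mul (.mul g E) (.sub (.add (.sub (.add (.sub (.sub (.mul v (.add (.sub (.add (.sub (.add (.mul (.mul (.num 4) (.mul (.mul a a) a)) (.mul d d)) (.mul (.mul (.num 4) (.mul a a)) (.mul (.mul d d) d))) (.mul (.mul (.num 4) (.mul a a)) (.mul d d))) (.mul a (.mul (.mul (.mul d d) d) d))) (.mul (.mul (.num 2) a) (.mul (.mul d d) d))) (.mul a (.mul d d)))) (.mul (.mul (.num 4) (.mul a a)) (.mul d d))) (.mul (.mul (.num 4) a) (.mul (.mul d d) d))) (.mul (.mul (.num 4) a) (.mul d d))) (.mul (.mul (.mul d d) d) d)) (.mul (.num 2) (.mul (.mul d d) d))) (.mul d d)))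

theorem mLEEw_eval (a d v g E : Ex) :
    (mLEEw a d v g E).eval x = Closed.LEEw (a.eval x) (d.eval x) (v.eval x) (g.eval x) (E.eval x) := by
  simp only [mLEEw, Closed.LEEw, Ex.eval]
  push_cast
  ring

/-- `LMG1_000000_0`. -/
def mLMG1_000000_0 (a d v : Ex) : Ex := (.add (.sub (.sub (.add (.sub (.sub (.add (.sub (.add (.add (.mul v (.add (.sub (.sub (.sub (.sub (.add (.sub (.add (.mul (.mul (.num 16) (.mul (.mul a a) a)) d) (.mul (.mul (.num 16) (.mul a a)) (.mul d d))) (.mul (.mul (.num 8) (.mul a a)) d)) (.mul (.mul (.num 4) a) (.mul (.mul d d) d))) (.mul (.mul (.num 16) a) (.mul d d))) (.mul (.mul (.num 4) a) d)) (.mul (.num 6) (.mul (.mul d d) d))) (.mul (.num 4) (.mul d d))) (.mul (.num 2) d))) (.mul (.num 16) (.mul (.mul a a) a))) (.mul (.mul (.num 24) (.mul a a)) d)) (.mul (.num 8) (.mul a a))) (.mul (.mul (.num 12) a) (.mul d d))) (.mul (.mul (.num 8) a) d)) (.mul (.num 4) a)) (.mul (.num 2) (.mul (.mul d d) d))) (.mul (.num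 2) (.mul d d))) (.mul (.num 2) d)) (.num 2))

theorem mLMG1_000000_0_eval (a d v : Ex) :
    (mLMG1_000000_0 a d v).eval x = Closed.LMG1_000000_0 (a.eval x) (d.eval x) (v.eval x) := by
  simp only [mLMG1_000000_0, Closed.LMG1_000000_0, Ex.eval]
  push_cast
  ring

/-- `LMG1_000000_1`. -/
def mLMG1_000000_1 (a d v : Ex) : Ex := (.add (.sub (.add (.add (.add (.add (.mul (.mul (.num 8) (.mul (.mul a a) a)) (.mul d d)) (.mul (.mul (.num 8) (.mul a a)) (.mul (.mul d d) d))) (.mul (.mul (.num 4) (.mul a a)) (.mul d d))) (.mul (.mul (.num 2) a) (.mul (.mul (.mul d d) d) d))) (.mul (.mul (.num 2) a) (.mul d d))) (.mul (.mul (.mul d d) d) d)) (.mul d d))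

theorem mLMG1_000000_1_eval (a d v : Ex) :
    (mLMG1_000000_1 a d v).eval x = Closed.LMG1_000000_1 (a.eval x) (d.eval x) (v.eval x) := by
  simp only [mLMG1_000000_1, Closed.LMG1_000000_1, Ex.eval]
  push_cast
  ring

/-- `LMG1`. -/
def mLMG1 (a d v : Ex) : Ex := (.add (mLMG1_000000_0 a d v) (.mul (.mul v v) (mLMG1_000000_1 a d v)))

theorem mLMG1_eval (a d v : Ex) :
    (mLMG1 a d v).eval x = Closed.LMG1 (a.eval x) (d.eval x) (v.eval x) := by
  simp only [mLMG1, Closed.LMG1, mLMG1_000000_0_eval, mLMG1_000000_1_eval, Ex.eval]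
  push_cast
  ring

/-- `LMGc_000000_0`. -/
def mLMGc_000000_0 (a d v : Ex) : Ex := (.sub (.add (.sub (.add (.add (.mul v (.sub (.add (.sub (.add (.add (.sub (.add (.sub (.sub (.sub (.mul (.num (-128)) (.mul (.mul (.mul a a) a) a)) (.mul (.mul (.num 256) (.mul (.mul a a) a)) d)) (.mul (.num 64) (.mul (.mul a a) a))) (.mul (.mul (.num 224) (.mul a a)) (.mul d d))) (.mul (.num 64) (.mul a a))) (.mul (.mul (.num 96) a) (.mul (.mul d d) d))) (.mul (.mul (.num 112) a) (.mul d d))) (.mul (.mul (.num 16) a) d)) (.mul (.num 16) (.mul (.mul (.mul d d) d) d))) (.mul (.num 48) (.mul (.mul d d) d))) (.mul (.num 32) (.mul d d)))) (.mul (.num 64) (.mul a a))) (.mul (.mul (.num 64) a) d)) (.mul (.num 32) a)) (.mul (.num 16) (.mul d d))) (.mul (.num 16) d))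

theorem mLMGc_000000_0_eval (a d v : Ex) :
    (mLMGc_000000_0 a d v).eval x = Closed.LMGc_000000_0 (a.eval x) (d.eval x) (v.eval x) := by
  simp only [mLMGc_000000_0, Closed.LMGc_000000_0, Ex.eval]
  push_cast
  ring

/-- `LMGc_000000_1`. -/
def mLMGc_000000_1 (a d v : Ex) : Ex := (.add (.sub (.add (.sub (.add (.sub (.sub (.add (.sub (.sub (.sub (.sub (.sub (.mul v (.sub (.add (.sub (.add (.sub (.sub (.add (.sub (.mul (.mul (.num (-32)) (.mul (.mul (.mul a a) a) a)) (.mul d d)) (.mul (.mul (.num 32) (.mul (.mul a a) a)) (.mul (.mul d d) d))) (.mul (.mul (.num 16) (.mul (.mul a a) a)) (.mul d d))) (.mul (.mul (.num 8) (.mul a a)) (.mul (.mul (.mul d d) d) d))) (.mul (.mul (.num 16) (.mul a a)) (.mul (.mul d d) d))) (.mul (.mul (.num 8) (.mul a a)) (.mul d d))) (.mul (.mul (.num 12) a) (.mul (.mul (.mul d d) d) d))) (.mul (.mul (.num 16) a) (.mul (.mul d d) d))) (.mul (.mul (.num 4) a) (.mul d d)))) (.mul (.mul (.num 128) (.mul (.mul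 (.mul a a) a) a)) d)) (.mul (.mul (.num 192) (.mul (.mul a a) a)) (.mul d d))) (.mul (.mul (.num 64) (.mul (.mul a a) a)) d)) (.mul (.mul (.num 128) (.mul a a)) (.mul (.mul d d) d))) (.mul (.mul (.num 144) (.mul a a)) (.mul d d))) (.mul (.mul (.num 64) (.mul a a)) d)) (.mul (.mul (.num 48) a) (.mul (.mul (.mul d d) d) d))) (.mul (.mul (.num 32) a) (.mul (.mul d d) d))) (.mul (.mul (.num 64) a) (.mul d d))) (.mul (.num 8) (.mul (.mul (.mul (.mul d d) d) d) d))) (.mul (.num 12) (.mul (.mul (.mul d d) d) d))) (.mul (.num 8) (.mul (.mul d d) d))) (.mul (.num 4) (.mul d d)))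

theorem mLMGc_000000_1_eval (a d v : Ex) :
    (mLMGc_000000_1 a d v).eval x = Closed.LMGc_000000_1 (a.eval x) (d.eval x) (v.eval x) := by
  simp only [mLMGc_000000_1, Closed.LMGc_000000_1, Ex.eval]
  push_cast
  ring

/-- `LMGc`. -/
def mLMGc (a d v g W W1 : Ex) : Ex := (.add (.add (.add (.add (mLMGc_000000_0 a d v) (.mul (.mul v v) (mLMGc_000000_1 a d v))) (.mul (.mul g W1) (.add (.sub (.add (.sub (.add (.sub (.sub (.mul v (.add (.sub (.add (.sub (.add (.sub (.mul (.mul (.num (-8)) (.mul (.mul a a) a)) d) (.mul (.mul (.num 20) (.mul a a)) (.mul d d))) (.mul (.mul (.num 4) (.mul a a)) d)) (.mul (.mul (.num 16) a) (.mul (.mul d d) d))) (.mul (.mul (.num 8) a) (.mul d d))) (.mul (.num 4) (.mul (.mul (.mul d d) d) d))) (.mul (.num 4) (.mul (.mul d d) d)))) (.mul (.num 16) (.mul (.mul a a) a))) (.mul (.mul (.num 40) (.mul a a)) d)) (.mul (.num 8) (.mul a a))) (.mul (.mul (.num 32) a) (.mul d d))) (.mul (.mul (.num 16) a) d)) (.mul (.num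 8) (.mul (.mul d d) d))) (.mul (.num 8) (.mul d d))))) (.mul (.mul g W) (.add (.sub (.add (.sub (.sub (.mul v (.add (.add (.sub (.add (.sub (.sub (.sub (.sub (.mul v (.sub (.add (.sub (.sub (.sub (.sub (.add (.mul (.mul (.num 12) (.mul (.mul a a) a)) (.mul d d)) (.mul (.mul (.num 12) (.mul a a)) (.mul (.mul d d) d))) (.mul (.mul (.num 4) (.mul a a)) (.mul d d))) (.mul (.mul (.num 3) a) (.mul (.mul (.mul d d) d) d))) (.mul a (.mul d d))) (.mul (.num 3) (.mul (.mul (.mul (.mul d d) d) d) d))) (.mul (.num 4) (.mul (.mul (.mul d d) d) d))) (.mul (.mul d d) d))) (.mul (.mul (.num 24) (.mul a a)) (.mul d d))) (.mul (.mul (.num 16) (.mul a a)) d)) (.mul (.mul (.num 36) a) (.mul (.mul d d) d))) (.mul (.mul (.num 12) a) (.mul d d))) (.mul (.mul (.num 8) a) d)) (.mul (.num 12) (.mul (.mul (.mul d d) d) d))) (.mul (.num 4) (.mul (.mul d d) d))) (.mul (.num 8) (.mul d d)))) (.mul (.num 8) (.mul a a))) (.mul (.mul (.num 12) a) d)) (.mul (.num 4)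 a)) (.mul (.num 4) (.mul d d))) (.mul (.num 4) d)))) (.mul (.mul (.mul g g) (.mul W W)) (.mul v (.add (.sub (.add (.sub (.add (.sub (.mul (.mul (.num (-2)) (.mul (.mul a a) a)) (.mul d d)) (.mul (.mul (.num 5) (.mul a a)) (.mul (.mul d d) d))) (.mul (.mul a a) (.mul d d))) (.mul (.mul (.num 4) a) (.mul (.mul (.mul d d) d) d))) (.mul (.mul (.num 2) a) (.mul (.mul d d) d))) (.mul (.mul (.mul (.mul d d) d) d) d)) (.mul (.mul (.mul d d) d) d)))))

theorem mLMGc_eval (a d v g W W1 : Ex) :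
    (mLMGc a d v g W W1).eval x = Closed.LMGc (a.eval x) (d.eval x) (v.eval x) (g.eval x) (W.eval x) (W1.eval x) := by
  simp only [mLMGc, Closed.LMGc, mLMGc_000000_0_eval, mLMGc_000000_1_eval, Ex.eval]
  push_cast
  ring

/-- `LMGv`. -/
def mLMGv (a d v g W : Ex) : Ex := (.add (.sub (.mul v (.sub (.add (.add (.add (.add (.mul v (.add (.add (.add (.mul v (.sub (.add (.mul (.mul (.num 2) (.mul a a)) (.mul d d)) (.mul a (.mul (.mul d d) d))) (.mul a (.mul d d)))) (.mul (.mul (.num 4) (.mul a a)) d)) (.mul (.mul (.num 2) a) (.mul d d))) (.mul (.mul (.num 2) a) d))) (.mul (.num 4) (.mul a a))) (.mul (.mul (.num 4) a) d)) (.mul (.num 2) a)) (.mul d d)) (.mul (.num 5) d))) (.num 4)) (.mul (.mul g W) (.add (.add (.mul v (.add (.mul a d) (.mul d d))) a) d)))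

theorem mLMGv_eval (a d v g W : Ex) :
    (mLMGv a d v g W).eval x = Closed.LMGv (a.eval x) (d.eval x) (v.eval x) (g.eval x) (W.eval x) := by
  simp only [mLMGv, Closed.LMGv, Ex.eval]
  push_cast
  ring

/-- `LMGw`. -/
def mLMGw (a d v g E K : Ex) : Ex := (.add (.mul (.mul g K) (.mul v (.sub (.add (.add (.mul v (.sub (.add (.mul (.mul (.num 8) a) d) (.mul (.num 4) (.mul d d))) (.mul (.num 4) d))) (.mul (.num 16) a)) (.mul (.num 8) d)) (.num 8)))) (.mul (.mul g E) (.sub (.add (.sub (.add (.sub (.sub (.mul v (.add (.sub (.add (.sub (.sub (.mul v (.sub (.add (.sub (.sub (.add (.mul (.mul (.num 8) (.mul a a)) (.mul d d)) (.mul (.mul (.num 2) a) (.mul (.mul d d) d))) (.mul (.mul (.num 2) a) (.mul d d))) (.mul (.mul (.mul d d) d) d)) (.mul (.num 2) (.mul (.mul d d) d))) (.mul d d))) (.mul (.mul (.num 16) (.mul a a)) d)) (.mul (.mul (.num 28) a) (.mul d d))) (.mul (.mul (.num 8) a) d)) (.mul (.num 10) (.mul (.mul d d) d))) (.mul (.num 10)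 (.mul d d)))) (.mul (.num 16) (.mul a a))) (.mul (.mul (.num 16) a) d)) (.mul (.num 16) a)) (.mul (.num 4) (.mul d d))) (.mul (.num 8) d)) (.num 4))))

theorem mLMGw_eval (a d v g E K : Ex) :
    (mLMGw a d v g E K).eval x = Closed.LMGw (a.eval x) (d.eval x) (v.eval x) (g.eval x) (E.eval x) (K.eval x) := by
  simp only [mLMGw, Closed.LMGw, Ex.eval]
  push_cast
  ring

/-- `LLGc`. -/
def mLLGc (a d v W R : Ex) : Ex := (.add (.add (.add (.sub (.add (.add (.sub (.add (.sub (.sub (.mul (.num (-8)) (.mul (.mul (.mul a a) a) a)) (.mul (.mul (.num 20) (.mul (.mul a a) a)) d)) (.mul (.mul (.num 18) (.mul a a)) (.mul d d))) (.mul (.num 6) (.mul a a))) (.mul (.mul (.num 7) a) (.mul (.mul d d) d))) (.mul (.mul (.num 9) a) d)) (.mul (.num 2) a)) (.mul (.mul (.mul d d) d) d)) (.mul (.num 3) (.mul d d))) (.mul (.num 2) d)) (.mul (.mul W R) (.sub (.sub (.sub (.add (.sub (.sub (.sub (.add (.sub (.sub (.add (.add (.mul (.mul (.num 4) (.mul (.mul (.mul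 a a) a) a)) d) (.mul (.mul (.num 12) (.mul (.mul a a) a)) (.mul d d))) (.mul (.mul (.num 13) (.mul a a)) (.mul (.mul d d) d))) (.mul (.mul (.num 2) (.mul a a)) (.mul d d))) (.mul (.mul (.num 3) (.mul a a)) d)) (.mul (.mul (.num 6) a) (.mul (.mul (.mul d d) d) d))) (.mul (.mul (.num 3) a) (.mul (.mul d d) d))) (.mul (.mul (.num 6) a) (.mul d d))) (.mul a d)) (.mul (.mul (.mul (.mul d d) d) d) d)) (.mul (.mul (.mul d d) d) d)) (.mul (.num 3) (.mul (.mul d d) d))) (.mul d d))))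

theorem mLLGc_eval (a d v W R : Ex) :
    (mLLGc a d v W R).eval x = Closed.LLGc (a.eval x) (d.eval x) (v.eval x) (W.eval x) (R.eval x) := by
  simp only [mLLGc, Closed.LLGc, Ex.eval]
  push_cast
  ring

/-- `LLGv`. -/
def mLLGv (a d v W R : Ex) : Ex := (.add (.sub (.add (.sub (.add (.sub (.add (.add (.mul v (.sub (.add (.sub (.add (.sub (.add (.mul (.mul (.num 2) (.mul (.mul a a) a)) d) (.mul (.mul (.num 5) (.mul a a)) (.mul d d))) (.mul (.mul a a) d)) (.mul (.mul (.num 4) a) (.mul (.mul d d) d))) (.mul (.mul (.num 2) a) (.mul d d))) (.mul (.mul (.mul d d) d) d)) (.mul (.mul d d) d))) (.mul (.num 4) (.mul (.mul a a) a))) (.mul (.mul (.num 10) (.mul a a)) d)) (.mul (.num 2) (.mul a a))) (.mul (.mul (.num 8) a) (.mul d d))) (.mul (.mul (.num 4) a) d)) (.mul (.num 2) (.mul (.mul d d) d))) (.mul (.num 2) (.mul d d))) (.mul (.mul W R) (.add (.sub (.add (.sub (.add (.sub (.mul (.mul (.num (-2)) (.mul (.mul a a) a)) d) (.mul (.mul (.num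 5) (.mul a a)) (.mul d d))) (.mul (.mul a a) d)) (.mul (.mul (.num 4) a) (.mul (.mul d d) d))) (.mul (.mul (.num 2) a) (.mul d d))) (.mul (.mul (.mul d d) d) d)) (.mul (.mul d d) d))))

theorem mLLGv_eval (a d v W R : Ex) :
    (mLLGv a d v W R).eval x = Closed.LLGv (a.eval x) (d.eval x) (v.eval x) (W.eval x) (R.eval x) := by
  simp only [mLLGv, Closed.LLGv, Ex.eval]
  push_cast
  ring

/-- `LLGw`. -/
def mLLGw (a d v R E K : Ex) : Ex := (.add (.add (.mul E (.sub (.add (.sub (.add (.add (.mul v (.sub (.add (.sub (.add (.mul (.mul (.num 8) (.mul a a)) d) (.mul (.mul (.num 12) a) (.mul d d))) (.mul (.mul (.num 4) a) d)) (.mul (.num 4) (.mul (.mul d d) d))) (.mul (.num 4) (.mul d d)))) (.mul (.num 16) (.mul a a))) (.mul (.mul (.num 24) a) d)) (.mul (.num 8) a)) (.mul (.num 8) (.mul d d))) (.mul (.num 8) d))) (.mul (.mul R K) (.mul v (.add (.sub (.sub (.mul v (.add (.sub (.mul (.mul (.num (-8)) a) d) (.mul (.num 4) (.mul d d))) (.mul (.num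 4) d))) (.mul (.num 16) a)) (.mul (.num 8) d)) (.num 8))))) (.mul (.mul R E) (.add (.sub (.add (.sub (.add (.add (.mul v (.sub (.add (.sub (.add (.add (.mul v (.sub (.add (.sub (.add (.mul (.mul (.num (-2)) a) (.mul (.mul d d) d)) (.mul (.mul (.num 2) a) (.mul d d))) (.mul (.mul (.mul d d) d) d)) (.mul (.num 2) (.mul (.mul d d) d))) (.mul d d))) (.mul (.mul (.num 16) (.mul a a)) d)) (.mul (.mul (.num 12) a) (.mul d d))) (.mul (.mul (.num 8) a) d)) (.mul (.num 2) (.mul (.mul d d) d))) (.mul (.num 2) (.mul d d)))) (.mul (.num 16) (.mul a a))) (.mul (.mul (.num 16) a) d)) (.mul (.num 16) a)) (.mul (.num 4) (.mul d d))) (.mul (.num 8) d)) (.num 4))))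

theorem mLLGw_eval (a d v R E K : Ex) :
    (mLLGw a d v R E K).eval x = Closed.LLGw (a.eval x) (d.eval x) (v.eval x) (R.eval x) (E.eval x) (K.eval x) := by
  simp only [mLLGw, Closed.LLGw, Ex.eval]
  push_cast
  ring

/-- `TME`. -/
def mTME (a d v g W W1 E K : Ex) : Ex := (.add (.add (.add (.add (.mul K (.mul v (.mul v (.add (.sub (.sub (.mul v (.add (.sub (.mul (.mul (.num (-800)) (.mul a a)) d) (.mul (.mul (.num 400) a) (.mul d d))) (.mul (.mul (.num 400) a) d))) (.mul (.num 1600) (.mul a a))) (.mul (.mul (.num 800) a) d)) (.mul (.num 800) a))))) (.mul E (.sub (.add (.add (.mul v (.add (.sub (.add (.sub (.add (.mul v (.sub (.add (.mul (.mul (.num 800) (.mul a a)) (.mul d d)) (.mul (.mul (.num 400) a) (.mul (.mul d d) d))) (.mul (.mul (.num 400) a) (.mul d d)))) (.mul (.mul (.num 2400) (.mul a a)) d)) (.mul (.num 800) (.mul a a))) (.mul (.mul (.num 1200) a) (.mul d d))) (.mul (.mul (.num 1600) a) d)) (.mul (.num 400) a))) (.mul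 (.num 1600) (.mul a a))) (.mul (.mul (.num 800) a) d)) (.mul (.num 800) a)))) (.mul W1 (.mul v (.add (.add (.add (.add (.add (.add (.add (.mul v (.add (.add (.add (.add (.add (.add (.mul (.mul (.num 50) (.mul (.mul a a) a)) d) (.mul (.mul (.num 125) (.mul a a)) (.mul d d))) (.mul (.mul (.num 25) (.mul a a)) d)) (.mul (.mul (.num 100) a) (.mul (.mul d d) d))) (.mul (.mul (.num 50) a) (.mul d d))) (.mul (.num 25) (.mul (.mul (.mul d d) d) d))) (.mul (.num 25) (.mul (.mul d d) d)))) (.mul (.num 100) (.mul (.mul a a) a))) (.mul (.mul (.num 250) (.mul a a)) d)) (.mul (.num 50) (.mul a a))) (.mul (.mul (.num 200) a) (.mul d d))) (.mul (.mul (.num 100) a) d)) (.mul (.num 50) (.mul (.mul d d) d))) (.mul (.num 50) (.mul d d)))))) (.mul W (.add (mTME_010000_0 a d v) (.mul (.mul v v) (mTME_010000_1 a d v))))) (.mul (.mul (.mul g W) E) (.add (.sub (.add (.sub (.sub (.mul v (.add (.sub (.add (.sub (.mul (.mul (.num (-400)) (.mul (.mul a a) a))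 d) (.mul (.mul (.num 600) (.mul a a)) (.mul d d))) (.mul (.mul (.num 200) (.mul a a)) d)) (.mul (.mul (.num 200) a) (.mul (.mul d d) d))) (.mul (.mul (.num 200) a) (.mul d d)))) (.mul (.num 400) (.mul (.mul a a) a))) (.mul (.mul (.num 600) (.mul a a)) d)) (.mul (.num 200) (.mul a a))) (.mul (.mul (.num 200) a) (.mul d d))) (.mul (.mul (.num 200) a) d))))

theorem mTME_eval (a d v g W W1 E K : Ex) :
    (mTME a d v g W W1 E K).eval x = Closed.TME (a.eval x) (d.eval x) (v.eval x) (g.eval x) (W.eval x) (W1.eval x) (E.eval x) (K.eval x) := by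
  simp only [mTME, Closed.TME, mTME_010000_0_eval, mTME_010000_1_eval, Ex.eval]
  push_cast
  ring

/-- `gramEE`. -/
def mgramEE (a d v g W E : Ex) : Ex := (.add (.mul (.mul (.mul (.mul (.num 625) (.mul d d)) (.mul v v)) (.add (.num 1) (.mul d v))) (.mul (mgE a d v g W E) (mgE a d v g W E))) (.mul (.mul (.mul (.num 8) a) (.add a d)) (.mul (mhE a d v g W) (mhE a d v g W))))

theorem mgramEE_eval (a d v g W E : Ex) :
    (mgramEE a d v g W E).eval x = Closed.gramEE (a.eval x) (d.eval x) (v.eval x) (g.eval x) (W.eval x) (E.eval x) := by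
  simp only [mgramEE, Closed.gramEE, mgE_eval, mhE_eval, Ex.eval]
  push_cast
  ring

/-- `gramMG`. -/
def mgramMG (a d v g W : Ex) : Ex := (.add (.mul (.mul (.mul (.mul (.num 1600) a) (.add a d)) v) (.mul (mgM a d v) (mgG a d v g W))) (.mul (.mul (.mul (.mul (.mul (.mul (.num 20000) a) (.add a d)) (.mul d d)) (.mul v v)) (.add (.num 1) (.mul d v))) (.mul (mhM a d v g W) (mhG a d v g W))))

theorem mgramMG_eval (a d v g W : Ex) :
    (mgramMG a d v g W).eval x = Closed.gramMG (a.eval x) (d.eval x) (v.eval x) (g.eval x) (W.eval x) := by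
  simp only [mgramMG, Closed.gramMG, mgG_eval, mgM_eval, mhG_eval, mhM_eval, Ex.eval]
  push_cast
  ring

/-- `a + d`. -/
def mAB (a d : Ex) : Ex := .add a d

/-- `1 + d v`. -/
def mP1 (d v : Ex) : Ex := .add (.num 1) (.mul d v)

/-- `2 + d v`. -/
def mP2 (d v : Ex) : Ex := .add (.num 2) (.mul d v)

/-- `1 + 2 a + d`, twice `j1`. -/
def mJ (a d : Ex) : Ex := .add (.add (.num 1) (.mul (.num 2) a)) d

/-- `LEG`. -/
def mLEG (a d v g W W1 R E K : Ex) : Ex := (.add (.add (.add (.mul (.mul (.mul (.num 400) a) (mP1 d v)) (mLEG1 a d v)) (.mul (.mul (.num 25) (mP1 d v)) (mLEGc a d v g W))) (.mul (.mul (.mul (.mul (.num (-168)) a) (mP2 d v)) (mP2 d v)) (mLEGv a d v g W))) (.mul (.mul (.mul (.num 400) a) (mP1 d v)) (mLEGw a d v g E)))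

theorem mLEG_eval (a d v g W W1 R E K : Ex) :
    (mLEG a d v g W W1 R E K).eval x = Closed.LEG (a.eval x) (d.eval x) (v.eval x) (g.eval x) (W.eval x) (W1.eval x) (R.eval x) (E.eval x) (K.eval x) := by
  simp only [mLEG, Closed.LEG, mLEG1_eval, mLEGc_eval, mLEGv_eval, mLEGw_eval, mAB, mP1, mP2, mJ, Ex.eval]
  push_cast
  ring

/-- `LGG`. -/
def mLGG (a d v g W W1 R E K : Ex) : Ex := (.add (.mul (.num 25) (mLGGc a d v)) (.mul (.mul (.mul (.num (-42)) a) (mP2 d v)) (mLGGv a d v)))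

theorem mLGG_eval (a d v g W W1 R E K : Ex) :
    (mLGG a d v g W W1 R E K).eval x = Closed.LGG (a.eval x) (d.eval x) (v.eval x) (g.eval x) (W.eval x) (W1.eval x) (R.eval x) (E.eval x) (K.eval x) := by
  simp only [mLGG, Closed.LGG, mLGGc_eval, mLGGv_eval, mAB, mP1, mP2, mJ, Ex.eval]
  push_cast
  ring

/-- `LEE`. -/
def mLEE (a d v g W W1 R E K : Ex) : Ex := (.add (.add (.add (.mul (.mul (.mul (.mul (.mul (.num 800) a) (mAB a d)) v) (mP1 d v)) (mLEE1 a d v)) (.mul (.mul (.num 25) (mP1 d v)) (mLEEc a d v g W W1))) (.mul (.mul (.mul (.mul (.mul (.num (-84)) a) (mAB a d)) (mP2 d v)) (mP2 d v)) (mLEEv a d v g W))) (.mul (.mul (.mul (.mul (.num 800) a) v) (mP1 d v)) (mLEEw a d v g E)))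

theorem mLEE_eval (a d v g W W1 R E K : Ex) :
    (mLEE a d v g W W1 R E K).eval x = Closed.LEE (a.eval x) (d.eval x) (v.eval x) (g.eval x) (W.eval x) (W1.eval x) (R.eval x) (E.eval x) (K.eval x) := by
  simp only [mLEE, Closed.LEE, mLEE1_eval, mLEEc_eval, mLEEv_eval, mLEEw_eval, mAB, mP1, mP2, mJ, Ex.eval]
  push_cast
  ring

/-- `LMG`. -/
def mLMG (a d v g W W1 R E K : Ex) : Ex := (.add (.add (.add (.mul (.mul (.mul (.mul (.mul (.num 800) a) (mAB a d)) v) (mP1 d v)) (mLMG1 a d v)) (.mul (.mul (.num 25) (mP1 d v)) (mLMGc a d v g W W1))) (.mul (.mul (.mul (.mul (.mul (.num (-336)) a) (mAB a d)) (mP2 d v)) (mP2 d v)) (mLMGv a d v g W))) (.mul (.mul (.mul (.num 400) a) (mP1 d v)) (mLMGw a d v g E K)))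

theorem mLMG_eval (a d v g W W1 R E K : Ex) :
    (mLMG a d v g W W1 R E K).eval x = Closed.LMG (a.eval x) (d.eval x) (v.eval x) (g.eval x) (W.eval x) (W1.eval x) (R.eval x) (E.eval x) (K.eval x) := by
  simp only [mLMG, Closed.LMG, mLMG1_eval, mLMGc_eval, mLMGv_eval, mLMGw_eval, mAB, mP1, mP2, mJ, Ex.eval]
  push_cast
  ring

/-- Twice `TGG`. -/
def mTGG2 (a d v g W W1 R E K : Ex) : Ex := (.sub (.mul (.mul (.mul (.mul (.mul (.mul (.mul (.num 3200) a) (mAB a d)) v) v) (mP2 d v)) (mP1 d v)) (mLGG a d v g W W1 R E K)) (.mul (mJ a d) (.add (.mul (mgG a d v g W) (mgG a d v g W)) (.mul (.mul (.mul (.mul (.mul (.mul (.mul (.mul (.mul (.num 5000) a) (mAB a d)) d) d) v) v) (mP1 d v)) (mhG a d v g W)) (mhG a d v g W)))))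

theorem mTGG2_eval (a d v g W W1 R E K : Ex) :
    (mTGG2 a d v g W W1 R E K).eval x = 2 * Closed.TGG (a.eval x) (d.eval x) (v.eval x) (g.eval x) (W.eval x) (W1.eval x) (R.eval x) (E.eval x) (K.eval x) := by
  simp only [mTGG2, Closed.TGG, mLGG_eval, mgG_eval, mhG_eval, Closed.j1, mAB, mP1, mP2, mJ, Ex.eval]
  push_cast
  ring

/-- `TEG`. -/
def mTEG (a d v g W W1 R E K : Ex) : Ex := (.sub (.mul (.mul (.mul (.mul (.num 32) a) (mAB a d)) v) (mLEG a d v g W W1 R E K)) (.mul (mJ a d) (.add (.mul (mgE a d v g W E) (mgG a d v g W)) (.mul (.mul (.mul (.num 8) a) (mAB a d)) (.mul (mhE a d v g W) (mhG a d v g W))))))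

theorem mTEG_eval (a d v g W W1 R E K : Ex) :
    (mTEG a d v g W W1 R E K).eval x = Closed.TEG (a.eval x) (d.eval x) (v.eval x) (g.eval x) (W.eval x) (W1.eval x) (R.eval x) (E.eval x) (K.eval x) := by
  simp only [mTEG, Closed.TEG, mLEG_eval, mgE_eval, mgG_eval, mhE_eval, mhG_eval, Closed.j1, mAB, mP1, mP2, mJ, Ex.eval]
  push_cast
  ring

/-- Twice `TMG`. -/
def mTMG2 (a d v g W W1 R E K : Ex) : Ex := (.sub (.sub (.mul (.mul (.mul (.mul (.num 1600) a) (mAB a d)) v) (mLMG a d v g W W1 R E K)) (.mul (.mul (.num 2) (.sub (.add (.mul (.num 2) a) d) (.num 1))) (mgramMG a d v g W))) (mgramEE a d v g W E))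

theorem mTMG2_eval (a d v g W W1 R E K : Ex) :
    (mTMG2 a d v g W W1 R E K).eval x = 2 * Closed.TMG (a.eval x) (d.eval x) (v.eval x) (g.eval x) (W.eval x) (W1.eval x) (R.eval x) (E.eval x) (K.eval x) := by
  simp only [mTMG2, Closed.TMG, mLMG_eval, mgramMG_eval, mgramEE_eval, Closed.j1, mAB, mP1, mP2, mJ, Ex.eval]
  push_cast
  ring

/-- Twice `TEE`. -/
def mTEE2 (a d v g W W1 R E K : Ex) : Ex := (.sub (.sub (.mul (.mul (.mul (.mul (.num 3200) a) (mAB a d)) v) (mLEE a d v g W W1 R E K)) (.mul (.add (.mul (.num 2) a) d) (mgramEE a d v g W E))) (.mul (.num 4) (mgramMG a d v g W)))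

theorem mTEE2_eval (a d v g W W1 R E K : Ex) :
    (mTEE2 a d v g W W1 R E K).eval x = 2 * Closed.TEE (a.eval x) (d.eval x) (v.eval x) (g.eval x) (W.eval x) (W1.eval x) (R.eval x) (E.eval x) (K.eval x) := by
  simp only [mTEE2, Closed.TEE, mLEE_eval, mgramMG_eval, mgramEE_eval, Closed.j1, mAB, mP1, mP2, mJ, Ex.eval]
  push_cast
  ring

/-- Twice `TA`. -/
def mTA2 (a d v g W W1 R E K : Ex) : Ex := (.add (mTEE2 a d v g W W1 R E K) (mTMG2 a d v g W W1 R E K))

theorem mTA2_eval (a d v g W W1 R E K : Ex) :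
    (mTA2 a d v g W W1 R E K).eval x = 2 * Closed.TA (a.eval x) (d.eval x) (v.eval x) (g.eval x) (W.eval x) (W1.eval x) (R.eval x) (E.eval x) (K.eval x) := by
  simp only [mTA2, Closed.TA, mTEE2_eval, mTMG2_eval, mAB, mP1, mP2, mJ, Ex.eval]
  push_cast
  ring

end Vale.Agent.P100.Calib.NegCert
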