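import Mathlib
import Vale.Agent.P100.Pack.Same
import Vale.Agent.P100.Calib.NegCert.Mirror
import Vale.Agent.P100.Calib.NegCert.Poly

/-!
# The closed forms in the variables `(r, v, d, X, Y, Z, Q)`
-/

set_option linter.unusedVariables false

namespace Vale.Agent.P100.Calib.NegCert

open Pack

/-- A point in seven variables. -/
def pt7 (a d v X Y Z Q : ℝ) : ℕ → ℝ
  | 0 => a
  | 1 => d
  | 2 => v
  | 3 => X
  | 4 => Y
  | 5 => Z
  | _ => Q

def sLTA : Ex := .mul (.num 2) (qTA (.mul (.num 2000) (.add (.sub (.mul (.num 10) (.var 0))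
  (.num 3)) (.mul (.num 5) (.var 1)))) (.mul (.num 5000000) (.var 2)) (.var 1) (.mul (.num
  100000) (.var 3)) (.mul (.num 100000) (.var 4)) (.mul (.num 100000) (.var 5)) (.mul (.num
  100000) (.var 6)))

def sRTA : Ex := .mul (.num
  156250000000000000000000000000000000000000000000000000000000000000000) (mTA2 (.var 0) (.var 1)
  (.var 2) (.num 1) (.var 3) (.var 5) (.num 0) (.sub (.num 0) (.var 4)) (.var 6))

theorem sameTA : checkSame 7 264 sLTA sRTA = true := by decide +kernel

theorem TA_closed (a d v X Y Z Q : ℝ) : rTA (10 * a - 3 + 5 * d) v d X Y Z Q = Closed.TA a d v 1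
    X Z 0 (-Y) Q := by
  have h := eval_eq_of_checkSame sameTA (pt7 a d v X Y Z Q)
  simp only [sLTA, sRTA, mTA2_eval, Ex.eval] at h
  rw [qTA_eval (r := 10 * a - 3 + 5 * d) (v := v) (d := d) (X := X) (Y := Y) (Z := Z) (Q := Q)] at h
  · simp only [pt7] at h
    push_cast at h
    simp only [zero_sub] at h
    linarith
  all_goals simp [Ex.eval, pt7]

def sLGG : Ex := .mul (.num 2) (qGG (.mul (.num 2000) (.add (.sub (.mul (.num 10) (.var 0))
  (.num 3)) (.mul (.num 5) (.var 1)))) (.mul (.num 5000000) (.var 2)) (.var 1) (.mul (.num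
  100000) (.var 3)))

def sRGG : Ex := .mul (.num 6250000000000000000000000000000000000000000000000000000000000)
  (mTGG2 (.var 0) (.var 1) (.var 2) (.num 1) (.var 3) (.var 5) (.num 0) (.sub (.num 0) (.var 4))
  (.var 6))

theorem sameGG : checkSame 7 235 sLGG sRGG = true := by decide +kernel

theorem GG_closed (a d v X Y Z Q : ℝ) : rGG (10 * a - 3 + 5 * d) v d X = Closed.TGG a d v 1 X Z
    0 (-Y) Q := by
  have h := eval_eq_of_checkSame sameGG (pt7 a d v X Y Z Q)
  simp only [sLGG, sRGG, mTGG2_eval, Ex.eval] at h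
  rw [qGG_eval (r := 10 * a - 3 + 5 * d) (v := v) (d := d) (X := X)] at h
  · simp only [pt7] at h
    push_cast at h
    simp only [zero_sub] at h
    linarith
  all_goals simp [Ex.eval, pt7]

def sLEG : Ex := .mul (.num 1) (qEG (.mul (.num 2000) (.add (.sub (.mul (.num 10) (.var 0))
  (.num 3)) (.mul (.num 5) (.var 1)))) (.mul (.num 5000000) (.var 2)) (.var 1) (.mul (.num
  100000) (.var 3)) (.mul (.num 100000) (.var 4)))

def sREG : Ex := .mul (.num 6250000000000000000000000000000000000000000000000000000) (mTEG (.var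
  0) (.var 1) (.var 2) (.num 1) (.var 3) (.var 5) (.num 0) (.sub (.num 0) (.var 4)) (.var 6))

theorem sameEG : checkSame 7 210 sLEG sREG = true := by decide +kernel

theorem EG_closed (a d v X Y Z Q : ℝ) : rEG (10 * a - 3 + 5 * d) v d X Y = Closed.TEG a d v 1 X
    Z 0 (-Y) Q := by
  have h := eval_eq_of_checkSame sameEG (pt7 a d v X Y Z Q)
  simp only [sLEG, sREG, mTEG_eval, Ex.eval] at h
  rw [qEG_eval (r := 10 * a - 3 + 5 * d) (v := v) (d := d) (X := X) (Y := Y)] at h
  · simp only [pt7] at h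
    push_cast at h
    simp only [zero_sub] at h
    linarith
  all_goals simp [Ex.eval, pt7]

def sLME : Ex := .mul (.num 1) (qME (.mul (.num 2000) (.add (.sub (.mul (.num 10) (.var 0))
  (.num 3)) (.mul (.num 5) (.var 1)))) (.mul (.num 5000000) (.var 2)) (.var 1) (.mul (.num
  100000) (.var 3)) (.mul (.num 100000) (.var 4)) (.mul (.num 100000) (.var 5)) (.mul (.num
  100000) (.var 6)))

def sRME : Ex := .mul (.num 500000000000000000000000000000000000000000) (mTME (.var 0) (.var 1)
  (.var 2) (.num 1) (.var 3) (.var 5) (.sub (.num 0) (.var 4)) (.var 6))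

theorem sameME : checkSame 7 157 sLME sRME = true := by decide +kernel

theorem ME_closed (a d v X Y Z Q : ℝ) : rME (10 * a - 3 + 5 * d) v d X Y Z Q = Closed.TME a d v
    1 X Z (-Y) Q := by
  have h := eval_eq_of_checkSame sameME (pt7 a d v X Y Z Q)
  simp only [sLME, sRME, mTME_eval, Ex.eval] at h
  rw [qME_eval (r := 10 * a - 3 + 5 * d) (v := v) (d := d) (X := X) (Y := Y) (Z := Z) (Q := Q)] at h
  · simp only [pt7] at h
    push_cast at h
    simp only [zero_sub] at h
    linarith
  all_goals simp [Ex.eval, pt7]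

def sLMG : Ex := .mul (.num 2) (qMG (.mul (.num 2000) (.add (.sub (.mul (.num 10) (.var 0))
  (.num 3)) (.mul (.num 5) (.var 1)))) (.mul (.num 5000000) (.var 2)) (.var 1) (.mul (.num
  100000) (.var 3)) (.mul (.num 100000) (.var 4)) (.mul (.num 100000) (.var 5)) (.mul (.num
  100000) (.var 6)))

def sRMG : Ex := .mul (.num 15625000000000000000000000000000000000000000000000000000000000000)
  (mTMG2 (.var 0) (.var 1) (.var 2) (.num 1) (.var 3) (.var 5) (.num 0) (.sub (.num 0) (.var 4))
  (.var 6))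

theorem sameMG : checkSame 7 249 sLMG sRMG = true := by decide +kernel

theorem MG_closed (a d v X Y Z Q : ℝ) : rMG (10 * a - 3 + 5 * d) v d X Y Z Q = Closed.TMG a d v
    1 X Z 0 (-Y) Q := by
  have h := eval_eq_of_checkSame sameMG (pt7 a d v X Y Z Q)
  simp only [sLMG, sRMG, mTMG2_eval, Ex.eval] at h
  rw [qMG_eval (r := 10 * a - 3 + 5 * d) (v := v) (d := d) (X := X) (Y := Y) (Z := Z) (Q := Q)] at h
  · simp only [pt7] at h
    push_cast at h
    simp only [zero_sub] at h
    linarith
  all_goals simp [Ex.eval, pt7]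

end Vale.Agent.P100.Calib.NegCert
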