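import Mathlib
import Vale.Agent.P100.Calib.NegCert.Entries
import Vale.Agent.P100.Calib.NegCert.Bounds
import Vale.Agent.P100.Calib.NegCert.GlobalRay
import Vale.Agent.P100.Calib.NegCert.Ident

/-!
# The closed signs from the data of a piece

The sums are homogeneous in `g`: at `g = 1` the arguments are `X, Z, -Y, Q`, which the data bound.
-/

set_option linter.unusedVariables false

namespace Vale.Agent.P100.Calib.NegCert

theorem TGG_scale (a d v g W W1 R E K : ℝ) :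
    Closed.TGG a d v g W W1 R E K =
      Closed.TGG a d v 1 (g * W) (g * W1) 0 (g * E) (g * K) := by
  simp only [Closed.TGG, Closed.LGG, Closed.gG, Closed.hG]
  ring

theorem TEG_scale (a d v g W W1 R E K : ℝ) :
    Closed.TEG a d v g W W1 R E K =
      Closed.TEG a d v 1 (g * W) (g * W1) 0 (g * E) (g * K) := by
  simp only [Closed.TEG, Closed.LEG, Closed.LEGc, Closed.LEGv, Closed.LEGw, Closed.gE, Closed.gG,
    Closed.hE, Closed.hG]
  ring

theorem TMG_scale (a d v g W W1 R E K : ℝ) :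
    Closed.TMG a d v g W W1 R E K =
      Closed.TMG a d v 1 (g * W) (g * W1) 0 (g * E) (g * K) := by
  simp only [Closed.TMG, Closed.LMG, Closed.LMGc, Closed.LMGv, Closed.LMGw, Closed.gramMG,
    Closed.gramEE, Closed.gM, Closed.gE, Closed.gG, Closed.hM, Closed.hE, Closed.hG]
  ring

theorem TEE_scale (a d v g W W1 R E K : ℝ) :
    Closed.TEE a d v g W W1 R E K =
      Closed.TEE a d v 1 (g * W) (g * W1) 0 (g * E) (g * K) := by
  simp only [Closed.TEE, Closed.LEE, Closed.LEEc, Closed.LEEv, Closed.LEEw, Closed.gramMG,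
    Closed.gramEE, Closed.gM, Closed.gE, Closed.gG, Closed.hM, Closed.hE, Closed.hG]
  ring

theorem TA_scale (a d v g W W1 R E K : ℝ) :
    Closed.TA a d v g W W1 R E K =
      Closed.TA a d v 1 (g * W) (g * W1) 0 (g * E) (g * K) := by
  rw [Closed.TA, Closed.TA, ← TEE_scale, ← TMG_scale]

theorem TME_scale (a d v g W W1 E K : ℝ) :
    g * Closed.TME a d v g W W1 E K = Closed.TME a d v 1 (g * W) (g * W1) (g * E) (g * K) := by
  simp only [Closed.TME]
  ring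

/-- The arrow from its form at `g = 1`. -/
theorem arrow_of_scaled {a d v G W W1 R E K S X Y : ℝ} (hdv : 0 < 1 + d * v)
    (hS : 1 - 2 * a - d = 1 - S) (hX : X = G * W) (hY : Y = -(G * E))
    (harr : 0 < 4 * Closed.TA a d v G W W1 R E K * Closed.TGG a d v G W W1 R E K *
        ((1 - S) * (X * Y)) -
      16 * (G * Closed.TME a d v G W W1 E K) ^ 2 * Closed.TGG a d v G W W1 R E K -
      625 * d ^ 2 * v ^ 2 * (1 + d * v) * Closed.TEG a d v G W W1 R E K ^ 2 *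
        ((1 - S) * (X * Y))) :
    0 < Closed.TArrow a d v G W W1 R E K := by
  have eq : G ^ 2 * Closed.TArrow a d v G W W1 R E K = (1 + d * v) *
      (4 * Closed.TA a d v G W W1 R E K * Closed.TGG a d v G W W1 R E K * ((1 - S) * (X * Y)) -
        16 * (G * Closed.TME a d v G W W1 E K) ^ 2 * Closed.TGG a d v G W W1 R E K -
        625 * d ^ 2 * v ^ 2 * (1 + d * v) * Closed.TEG a d v G W W1 R E K ^ 2 *
          ((1 - S) * (X * Y))) := by
    rw [hX, hY, ← hS, Closed.TArrow, Closed.TMM]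
    generalize Closed.TA a d v G W W1 R E K = TA
    generalize Closed.TGG a d v G W W1 R E K = GG
    generalize Closed.TEG a d v G W W1 R E K = EG
    generalize Closed.TME a d v G W W1 E K = ME
    ring
  by_contra hh
  have h1 := mul_nonpos_of_nonneg_of_nonpos (sq_nonneg G) (not_lt.1 hh)
  rw [eq] at h1
  linarith [mul_pos hdv harr]

/-- The ray gap at a point of the crude box. -/
theorem ray_nonneg {a d v W R : ℝ} (c : Crude d v) (a₁ : 39 / 200 ≤ a) (a₂ : a < 31 / 100)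
    (hR₀ : -16 / 25 ≤ R) (hR₁ : R ≤ 0) (ρ₁ : -57 / 100 ≤ R * W) (ρ₂ : R * W < 1 / 100)
    (G W1 : ℝ) :
    0 ≤ Closed.LLG a d v G W W1 R (Closed.eVal d v W R) (Closed.kVal d W R) := by
  have l₀ := g_LLG0_nonneg a₁ a₂ c.d0 c.d1 c.v0 c.v1 ρ₁ ρ₂ G W1
  have l₁ := g_LLG1_nonneg a₁ a₂ c.d0 c.d1 c.v0 c.v1 ρ₁ ρ₂ G W1
  have e0 : Closed.eVal d v (R * W) 1 = Closed.eVal d v W R := by
    simp only [Closed.eVal]; ring
  have k0 : Closed.kVal d (R * W) 1 = Closed.kVal d W R := by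
    simp only [Closed.kVal]; ring
  rw [e0, k0] at l₀ l₁
  generalize Closed.eVal d v W R = E at *
  generalize Closed.kVal d W R = K at *
  have eq : Closed.LLG a d v G W W1 R E K = (1 + 25 * R / 16) *
      (Closed.LLG a d v G (R * W) W1 1 E K + 200 * a * (1 + d * v) *
        (Closed.LLGw a d v 0 E K - Closed.LLGw a d v 1 E K)) + -(25 * R / 16) *
      (Closed.LLG a d v G (R * W) W1 1 E K + 200 * a * (1 + d * v) *
        (Closed.LLGw a d v (-16 / 25) E K - Closed.LLGw a d v 1 E K)) := by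
    simp only [Closed.LLG, Closed.LLGc, Closed.LLGv, Closed.LLGw]
    ring
  rw [eq]
  exact add_nonneg (mul_nonneg (by linarith) l₀) (mul_nonneg (by linarith) l₁)

/-- The values at the vertices, and the final test of a piece. -/
structure VertexData (d v r₀ r₁ α γ η μ xl xu yl yu zl zu ql qu : ℝ) : Prop where
  ta₀l : α ≤ rTA r₀ v d xu yl zu qu
  ta₀u : α ≤ rTA r₀ v d xu yu zu qu
  ta₁l : α ≤ rTA r₁ v d xu yl zu qu
  ta₁u : α ≤ rTA r₁ v d xu yu zu qu
  gg₀l : γ ≤ rGG r₀ v d xl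
  gg₀u : γ ≤ rGG r₀ v d xu
  gg₁l : γ ≤ rGG r₁ v d xl
  gg₁u : γ ≤ rGG r₁ v d xu
  egul : rEG r₁ v d xu yl ≤ η
  eguu : rEG r₁ v d xu yu ≤ η
  egll : -η ≤ rEG r₀ v d xl yl
  eglu : -η ≤ rEG r₀ v d xl yu
  menl : -μ ≤ rME r₁ v d xu yl zl ql
  menu : -μ ≤ rME r₁ v d xu yu zl ql
  mepl : rME r₀ v d xl yl zu qu ≤ μ
  mepu : rME r₀ v d xl yu zu qu ≤ μ
  gpos : 0 < γ
  arrow : 0 < 4 * α * γ * ((1 - (r₁ + 3) / 5) * (xl * yl)) - 16 * μ ^ 2 * γ -
    625 * d ^ 2 * v ^ 2 * (1 + d * v) * η ^ 2 * ((1 - (r₁ + 3) / 5) * (xl * yl))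

/-- The range of a piece in which `TMG` is tested. -/
def Zone (d xu zl qu : ℝ) : Prop :=
  (d < 16 / 133 ∧ xu ≤ 143 / 10 ∧ -35 / 2 ≤ zl ∧ qu ≤ 1) ∨
    (3 / 25 ≤ d ∧ xu ≤ 12 ∧ -13 ≤ zl ∧ qu ≤ -19 / 2)

/-- The five signs from the data. -/
theorem chartSigns_of_data {d S u v t n₀ m₀ r₀ r₁ α γ η μ xl xu yl yu zl zu ql qu : ℝ}
    (hd : 0 < d) (hd₂ : d ≤ 1 / 5) (hS : 3 / 5 < S) (hS₂ : S < 307 / 507)
    (hr₀ : 0 ≤ r₀) (hr : r₀ ≤ 5 * S - 3 ∧ 5 * S - 3 ≤ r₁) (hr₁ : r₁ < 3 / 100)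
    (hu : u ≤ 0) (hu₂ : -41 / 100 ≤ u) (hv : 27 / 100 ≤ v) (hv₂ : v < 113 / 200)
    (ht₀ : t0r d u ≤ t) (ht₁ : t ≤ t1r d) (hcut : 0 ≤ v + u * Closed.chH d S u v t)
    (hm : 0 < m₀) (hH : Closed.chH d S u v t ≤ n₀ / m₀)
    (b : BoundData d S u v n₀ m₀ xl xu yl yu zl zu ql qu)
    (g : Ranges xl xu yl yu zl zu ql qu) (z : Zone d xu zl qu)
    (w : VertexData d v r₀ r₁ α γ η μ xl xu yl yu zl zu ql qu) :
    Closed.ChartSigns d S u v t := by
  have hb : 0 < (S + d) / 2 := by linarith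
  have ht : t ≤ 143 / 100 := by
    simp only [t1r] at ht₁
    nlinarith
  set H := Closed.chH d S u v t with hHd
  have hH₀ : 1 ≤ S * (1 + (1 - (S - d) / 2) * v) / ((S + d) / 2 * (2 - S)) := by
    rw [le_div_iff₀ (mul_pos hb (by linarith)), one_mul]
    nlinarith [mul_nonneg (by linarith : (0 : ℝ) ≤ 1 / 5 - d) (by linarith : (0 : ℝ) ≤ 2 - S),
      mul_nonneg (mul_nonneg (by linarith : (0 : ℝ) ≤ S)
        (by linarith : (0 : ℝ) ≤ 1 - (S - d) / 2)) (by linarith : (0 : ℝ) ≤ v)]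
  have hHp : 0 < H := by
    have := mul_le_mul_of_nonpos_left ht hu
    simp only [hHd, Closed.chH]
    linarith
  have h1S : 0 < 1 - S := by linarith
  obtain ⟨hg, hX, hY, hZ, hQ⟩ := args_mem hd.le (by linarith) (by linarith) hu (by linarith)
    (hHd ▸ hHp.le) hm hH ht₀ ht₁ b
  set G := Closed.chG d S u v t
  set W := Closed.chW d S u v t with hW
  set W1 := Closed.chW1 d S u v t
  set R := Closed.chR S u with hR
  set E := Closed.eVal d v W R with hE
  set K := Closed.kVal d W R with hK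
  set a := (S - d) / 2 with ha
  set X := G * W with hXd
  set Y := -(G * E) with hYd
  set Z := G * W1 with hZd
  set Q := G * K with hQd
  have c : Crude d v := ⟨hd.le, by linarith, hv, hv₂⟩
  have er : 10 * a - 3 + 5 * d = 5 * S - 3 := by rw [ha]; ring
  have eY : -Y = G * E := by rw [hYd, neg_neg]
  have hXp : 0 < X := by linarith [g.X0, hX.1]
  have hYp : 0 < Y := by linarith [g.Y0, hY.1]
  have hTA := TA_ge c g hr₀ hr.1 hr.2 hr₁ hX hY hZ hQ w.ta₀l w.ta₀u w.ta₁l w.ta₁u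
  have hGG := GG_ge c g hr₀ hr.1 hr.2 hr₁ hX w.gg₀l w.gg₀u w.gg₁l w.gg₁u
  have hEG := EG_abs c g hr₀ hr.1 hr.2 hr₁ hX hY w.egul w.eguu w.egll w.eglu
  have hME := ME_abs c g hr₀ hr.1 hr.2 hr₁ hX hY hZ hQ w.menl w.menu w.mepl w.mepu
  have hMG := MG_nonneg (r := 5 * S - 3) (X := X) (Y := Y) (Z := Z) (Q := Q) c
    (hr₀.trans hr.1) (hr.2.trans_lt hr₁) (g.Y0.trans hY.1) (hY.2.trans g.Y1) (g.X0.trans hX.1)
    (by
      rcases z with ⟨z₀, z₁, z₂, z₃⟩ | ⟨z₀, z₁, z₂, z₃⟩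
      · exact .inl ⟨z₀, hX.2.trans z₁, z₂.trans hZ.1, hQ.2.trans z₃⟩
      · exact .inr ⟨z₀, hX.2.trans z₁, z₂.trans hZ.1, hQ.2.trans z₃⟩)
  rw [← er, TA_closed, eY, ← TA_scale (R := R)] at hTA
  rw [← er, GG_closed (Y := Y) (Z := Z) (Q := Q), eY, ← TGG_scale (R := R)] at hGG
  rw [← er, EG_closed (Z := Z) (Q := Q), eY, ← TEG_scale (R := R)] at hEG
  rw [← er, ME_closed, eY, ← TME_scale] at hME
  rw [← er, MG_closed, eY, ← TMG_scale (R := R)] at hMG
  have hEneg : E < 0 := by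
    by_contra hh
    have := mul_nonneg hg.le (not_lt.1 hh)
    linarith
  have hWp : 0 < W := by
    rw [hW, Closed.chW, ← hHd]
    exact mul_pos (div_pos h1S (by linarith)) hHp
  have hdv : 0 < 1 + d * v := by nlinarith
  have hxy : 0 < xl * yl := mul_pos (by linarith [g.X0]) (by linarith [g.Y0])
  have hs : 0 < 1 - (r₁ + 3) / 5 := by linarith
  have hc : 0 ≤ 625 * d ^ 2 * v ^ 2 * (1 + d * v) := by positivity
  have hα : 0 < α := by
    by_contra hh
    have h1 := mul_nonneg (mul_nonneg (neg_nonneg.2 (not_lt.1 hh)) w.gpos.le) (mul_pos hs hxy).le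
    have h2 := mul_nonneg (mul_nonneg hc (sq_nonneg η)) (mul_pos hs hxy).le
    have h3 := mul_nonneg (sq_nonneg μ) w.gpos.le
    linarith [w.arrow]
  have harr := arrow_pos (k := 1 - S) (P := X * Y) hTA hα hGG w.gpos hEG hME hxy
    (mul_le_mul hX.1 hY.1 (by linarith [g.Y0]) hXp.le) hs (by linarith [hr.2]) hc w.arrow
  have hArrow : 0 < Closed.TArrow a d v G W W1 R E K :=
    arrow_of_scaled hdv (by rw [ha]; ring) hXd hYd harr
  have hρ : R * W = u * H := by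
    rw [hR, hW, Closed.chR, Closed.chW, ← hHd]
    field_simp
  have hR₀ : -16 / 25 ≤ R := by
    rw [hR, Closed.chR, le_div_iff₀ h1S]
    linarith [mul_le_mul_of_nonneg_left hu₂ (by linarith : (0 : ℝ) ≤ S)]
  have hR₁ : R ≤ 0 := by
    rw [hR, Closed.chR]
    exact div_nonpos_of_nonpos_of_nonneg (mul_nonpos_of_nonneg_of_nonpos (by linarith) hu) h1S.le
  have hρ₀ : R * W ≤ 0 := hρ ▸ mul_nonpos_of_nonpos_of_nonneg hu hHp.le
  have hLLG : 0 ≤ Closed.LLG a d v G W W1 R E K :=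
    ray_nonneg c (by rw [ha]; linarith) (by rw [ha]; linarith) hR₀ hR₁
      (by rw [hρ]; linarith) (by linarith) G W1
  exact ⟨w.gpos.trans_le hGG, hWp, hEneg, hArrow, hMG, hLLG⟩

end Vale.Agent.P100.Calib.NegCert
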