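import Mathlib
import Vale.Agent.P100.Calib.NegCert.Signs

/-!
# Reading the checks of a piece
-/

set_option linter.unusedVariables false

namespace Vale.Agent.P100.Calib.NegCert

open Pack

/-- The hypotheses common to all pieces. -/
structure Hyp (d S u v t : ℝ) : Prop where
  d0 : 0 < d
  d1 : d ≤ 1 / 5
  S0 : 3 / 5 < S
  S1 : S < 307 / 507
  u0 : u ≤ 0
  u1 : -41 / 100 ≤ u
  v0 : 27 / 100 ≤ v
  v1 : v < 113 / 200
  um : -umr d (v - 9 / 50 * u) ≤ u
  t0 : t0r d u ≤ t
  t1 : t ≤ t1r d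
  cut : 0 ≤ v + u * Closed.chH d S u v t

theorem Hyp.bc_pos {d S u v t : ℝ} (h : Hyp d S u v t) : 0 < bcr d S :=
  mul_pos (by linarith [h.d0, h.S0]) (by linarith [h.S1])

theorem Hyp.H_le {d S u v t : ℝ} (h : Hyp d S u v t) :
    Closed.chH d S u v t ≤ hnr d S u v (t0r d u) / bcr d S := by
  rw [le_div_iff₀ h.bc_pos, mul_comm, bcr_mul_chH h.bc_pos.ne']
  have := mul_le_mul_of_nonpos_left h.t0 (mul_nonpos_of_nonneg_of_nonpos h.bc_pos.le h.u0)
  simp only [hnr]
  linarith

theorem Hyp.H_le_clip {d S u v t : ℝ} (h : Hyp d S u v t) (hu : u < 0) :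
    Closed.chH d S u v t ≤ 5000000 * v / (5000000 * -u) := by
  rw [le_div_iff₀ (by linarith)]
  linarith [h.cut]

/-- A point before `-U` is excluded by the cut. -/
theorem Hyp.no_crossing {d S u v t U : ℝ} (h : Hyp d S u v t)
    (hU : ∀ τ, 0 ≤ τ → τ ≤ 1 → ∀ u', u' = -(U + τ * (umr d (v - 9 / 50 * u) - U)) →
      (v - 9 / 50 * u + 9 / 50 * u') * bcr d S +
        u' * hnr d S u' (v - 9 / 50 * u + 9 / 50 * u') (t1r d) < 0) :
    -u ≤ U := by
  by_contra hh
  have hu := not_le.1 hh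
  have hw : 0 < umr d (v - 9 / 50 * u) - U := by linarith [h.um]
  have key := hU ((-u - U) / (umr d (v - 9 / 50 * u) - U)) (div_nonneg (by linarith) hw.le)
    (by rw [div_le_one hw]; linarith [h.um]) u (by rw [div_mul_cancel₀ _ hw.ne']; ring)
  rw [sub_add_cancel] at key
  have e := bcr_mul_chH (u := u) (v := v) (t := t1r d) h.bc_pos.ne'
  rw [← e] at key
  have hH : u * Closed.chH d S u v t ≤ u * Closed.chH d S u v (t1r d) := by
    refine mul_le_mul_of_nonpos_left ?_ h.u0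
    simp only [Closed.chH]
    linarith [mul_le_mul_of_nonpos_left h.t1 h.u0]
  have : 0 ≤ bcr d S * (v + u * Closed.chH d S u v (t1r d)) :=
    mul_nonneg h.bc_pos.le (by linarith [h.cut])
  linarith

theorem Xlo_mul (d S u v f n m k : ℝ) :
    Xlo d S u v f (k * n) (k * m) = k * Xlo d S u v f n m := by
  simp only [Xlo, Dr]; ring

theorem Ylo_mul (d S u v f n m k : ℝ) :
    Ylo d S u v f (k * n) (k * m) = k * Ylo d S u v f n m := by
  simp only [Ylo, Dr]; ring

theorem Qlo_mul (d S u v f n m k : ℝ) :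
    Qlo d S u v f (k * n) (k * m) = k * Qlo d S u v f n m := by
  simp only [Qlo, Dr]; ring

variable {D SE WE UE VE AE BE TE A G H M XE YE : Ex} {x : ℕ → ℝ}
  {d S v w U τ α γ η μ xl yl : ℝ}

theorem tF_eval (hD : D.eval x = d) (hV : VE.eval x = 5000000 * v)
    (hS : SE.eval x = 10000 * S) (hA : A.eval x = α) (hG : G.eval x = 1000 * γ)
    (hH : H.eval x = 10 * η) (hM : M.eval x = 10 * μ) (hX : XE.eval x = 100000 * xl)
    (hY : YE.eval x = 100000 * yl) :
    (tF D VE SE A G H M XE YE).eval x = 1250000000000000000000000000000000000 *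
      (4 * α * γ * ((1 - S) * (xl * yl)) - 16 * μ ^ 2 * γ -
        625 * d ^ 2 * v ^ 2 * (1 + d * v) * η ^ 2 * ((1 - S) * (xl * yl))) := by
  simp only [tF, Ex.eval, hD, hV, hS, hA, hG, hH, hM, hX, hY]
  push_cast
  ring

theorem tCut_eval (hD : D.eval x = d) (hS : SE.eval x = 10000 * S) (hW : WE.eval x = 10000 * w)
    (hU : UE.eval x = 100000 * U) (hA : AE.eval x = 10000 * (S - d))
    (hB : BE.eval x = 10000 * (S + d)) (hT : TE.eval x = τ) (u' : ℝ)
    (hu : u' = -(U + τ * (umr d w - U))) :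
    (tCut D SE WE UE AE BE TE).eval x = -(3200000000000000000000 *
      ((w + 9 / 50 * u') * bcr d S + u' * hnr d S u' (w + 9 / 50 * u') (t1r d))) := by
  subst hu
  simp only [tCut, tUm, tT1raw, bcr, hnr, t1r, umr, Ex.eval, hD, hS, hW, hU, hA, hB, hT]
  push_cast
  ring

end Vale.Agent.P100.Calib.NegCert
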