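import Mathlib
import Vale.Agent.P100.Pack.FastFour
import Vale.Agent.P100.Calib.NegCert.Coef
import Vale.Agent.P100.Calib.NegCert.Tpl

/-!
# Piece AL of the region `u ≤ 0`: data and checks
-/

set_option linter.unusedVariables false

namespace Vale.Agent.P100.Calib.NegCert

open Pack

def ALS0 : Ex := (.num 6000)

def ALS1 : Ex := (.num 6056)

def ALS : Ex := (.add ALS0 (.mul (.var 3) (.sub ALS1 ALS0)))

def ALU : Ex := (.add (.mul (.add (.mul (.num (-183)) (.var 1)) (.num 28301)) (.var 0)) (.add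
  (.mul (.num 13081) (.var 1)) (.num 21921)))

def ALu : Ex := (.sub (.num 0) (.mul (.var 2) ALU))

def ALW0 : Ex := (.sub (.add (.num 9560) (.mul (.num 625) (.var 0))) ALS1)

def ALW : Ex := (.add ALW0 (.mul (.var 1) (.sub (.sub (.num 5600) (.mul (.num 500) (.var 0)))
  ALW0)))

def ALv : Ex := (.add (.mul (.num 500) ALW) (.mul (.num 9) ALu))

def ALa : Ex := (.sub ALS (.mul (.num 10000) (.var 0)))

def ALb : Ex := (.add ALS (.mul (.num 10000) (.var 0)))

def ALZl : Ex := (.add (.mul (.add (.mul (.num 817374) (.var 0)) (.add (.mul (.num (-298104))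
  (.var 1)) (.add (.mul (.num 2201277) (.var 2)) (.num 1368633)))) (.var 0)) (.add (.mul (.add
  (.mul (.num (-18662)) (.var 1)) (.add (.mul (.num (-214409)) (.var 2)) (.num 105359))) (.var
  1)) (.add (.mul (.add (.mul (.num (-47076)) (.var 2)) (.num (-480439))) (.var 2)) (.num
  (-1044644)))))

def ALT0 : Ex := (tT0 (.var 0) ALu)

def ALZu : Ex := (.add (.mul (.add (.mul (.num (-2530510)) (.var 0)) (.add (.mul (.num
  (-1146563)) (.var 1)) (.add (.mul (.num 329016) (.var 2)) (.num 1726336)))) (.var 0)) (.add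
  (.mul (.add (.mul (.num 742) (.var 1)) (.add (.mul (.num 54060) (.var 2)) (.num 135097)))
  (.var 1)) (.add (.mul (.add (.mul (.num 59910) (.var 2)) (.num (-83813))) (.var 2)) (.num
  (-809398)))))

def ALXl : Ex := (.add (.mul (.add (.mul (.num 2645179) (.var 0)) (.add (.mul (.num (-132392))
  (.var 1)) (.add (.mul (.num 40812) (.var 2)) (.num (-1802183))))) (.var 0)) (.add (.mul (.add
  (.mul (.num 79) (.var 1)) (.add (.mul (.num (-11372)) (.var 2)) (.num 138286))) (.var 1))
  (.add (.mul (.add (.mul (.num (-52861)) (.var 2)) (.num 25491)) (.var 2)) (.num 1177602))))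

def ALHn0 : Ex := (tHn ALS ALu ALv ALa ALb ALT0)

def ALHd : Ex := (tBCH ALb ALS)

def ALYl : Ex := (.add (.mul (.add (.mul (.num 651117) (.var 0)) (.add (.mul (.num 4990) (.var
  1)) (.add (.mul (.num 1129931) (.var 2)) (.num 314848)))) (.var 0)) (.add (.mul (.add (.mul
  (.num 677) (.var 1)) (.add (.mul (.num 1273165) (.var 2)) (.num 21320))) (.var 1)) (.add (.mul
  (.add (.mul (.num (-9697)) (.var 2)) (.num 2186157)) (.var 2)) (.num 10010603))))

def ALQl : Ex := (.add (.mul (.add (.mul (.num (-988207)) (.var 0)) (.add (.mul (.num (-595387))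
  (.var 1)) (.add (.mul (.num (-2353863)) (.var 2)) (.num (-8913553))))) (.var 0)) (.add (.mul
  (.add (.mul (.num (-332)) (.var 1)) (.add (.mul (.num (-64977)) (.var 2)) (.num 36035))) (.var
  1)) (.add (.mul (.add (.mul (.num 11) (.var 2)) (.num 21717)) (.var 2)) (.num 38164))))

def ALXu : Ex := (.add (.mul (.add (.mul (.num 2398278) (.var 0)) (.add (.mul (.num (-251220))
  (.var 1)) (.add (.mul (.num (-82973)) (.var 2)) (.num (-1747667))))) (.var 0)) (.add (.mul
  (.add (.mul (.num 10961) (.var 1)) (.add (.mul (.num 43763) (.var 2)) (.num 140704))) (.var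
  1)) (.add (.mul (.add (.mul (.num (-6882)) (.var 2)) (.num 38538)) (.var 2)) (.num 1187549))))

def ALYu : Ex := (.add (.mul (.add (.mul (.num 588874) (.var 0)) (.add (.mul (.num 28757) (.var
  1)) (.add (.mul (.num 1252852) (.var 2)) (.num 320728)))) (.var 0)) (.add (.mul (.add (.mul
  (.num 8762) (.var 1)) (.add (.mul (.num 1297014) (.var 2)) (.num 18150))) (.var 1)) (.add
  (.mul (.add (.mul (.num (-2135)) (.var 2)) (.num 2209447)) (.var 2)) (.num 10163431))))

def ALQu : Ex := (.add (.mul (.add (.mul (.num (-567985)) (.var 0)) (.add (.mul (.num (-579312))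
  (.var 1)) (.add (.mul (.num (-2308000)) (.var 2)) (.num (-8850265))))) (.var 0)) (.add (.mul
  (.add (.mul (.num 87) (.var 1)) (.add (.mul (.num (-62863)) (.var 2)) (.num 34798))) (.var 1))
  (.add (.mul (.add (.mul (.num 1142) (.var 2)) (.num 20432)) (.var 2)) (.num 51742))))

def ALT1 : Ex := (tT1 (.var 0))

def ALHn1 : Ex := (tHn ALS ALu ALv ALa ALb ALT1)

def ALr0 : Ex := (.sub ALS0 (.num 6000))

def ALTA : Ex := (.add (.mul (.add (.mul (.add (.mul (.num 7919728) (.var 0)) (.add (.mul (.num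
  (-2768339)) (.var 1)) (.add (.mul (.num (-370776)) (.var 2)) (.num (-3574601))))) (.var 0))
  (.add (.mul (.add (.mul (.num (-42568)) (.var 1)) (.add (.mul (.num (-202186)) (.var 2)) (.num
  143660))) (.var 1)) (.add (.mul (.add (.mul (.num 6656) (.var 2)) (.num (-36712))) (.var 2))
  (.num 2778)))) (.var 0)) (.add (.mul (.add (.mul (.add (.mul (.num (-7237)) (.var 1)) (.add
  (.mul (.num 8540) (.var 2)) (.num 1977))) (.var 1)) (.add (.mul (.add (.mul (.num (-6220))
  (.var 2)) (.num 42035)) (.var 2)) (.num 105897))) (.var 1)) (.add (.mul (.add (.mul (.add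
  (.mul (.num 185) (.var 2)) (.num (-5786))) (.var 2)) (.num 20341)) (.var 2)) (.num 192796))))

def ALGG : Ex := (.add (.mul (.add (.mul (.add (.mul (.add (.mul (.num 7346841) (.var 0)) (.add
  (.mul (.num (-6939228)) (.var 1)) (.add (.mul (.num 2137376) (.var 2)) (.num 2015931)))) (.var
  0)) (.add (.mul (.add (.mul (.num 57824) (.var 1)) (.add (.mul (.num (-6075)) (.var 2)) (.num
  (-448784)))) (.var 1)) (.add (.mul (.add (.mul (.num (-11978)) (.var 2)) (.num 86720)) (.var
  2)) (.num (-1655690))))) (.var 0)) (.add (.mul (.add (.mul (.add (.mul (.num (-19244)) (.var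
  1)) (.add (.mul (.num (-9076)) (.var 2)) (.num 125981))) (.var 1)) (.add (.mul (.add (.mul
  (.num 125583) (.var 2)) (.num (-268094))) (.var 2)) (.num 271818))) (.var 1)) (.add (.mul
  (.add (.mul (.add (.mul (.num (-17787)) (.var 2)) (.num (-131556))) (.var 2)) (.num 49647))
  (.var 2)) (.num 68266)))) (.var 0)) (.add (.mul (.add (.mul (.add (.mul (.add (.mul (.num
  (-106)) (.var 1)) (.add (.mul (.num 264) (.var 2)) (.num 90))) (.var 1)) (.add (.mul (.add
  (.mul (.num 1765) (.var 2)) (.num 5835)) (.var 2)) (.num (-61941)))) (.var 1)) (.add (.mul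
  (.add (.mul (.add (.mul (.num (-8651)) (.var 2)) (.num 85731)) (.var 2)) (.num (-90147)))
  (.var 2)) (.num 364355))) (.var 1)) (.add (.mul (.add (.mul (.add (.mul (.add (.mul (.num
  (-16012)) (.var 2)) (.num 16806)) (.var 2)) (.num (-57524))) (.var 2)) (.num (-15801))) (.var
  2)) (.num 109398))))

def ALr1 : Ex := (.sub ALS1 (.num 6000))

def ALEG : Ex := (.add (.mul (.add (.mul (.add (.mul (.add (.mul (.num (-3734790)) (.var 0))
  (.add (.mul (.num 8125276) (.var 1)) (.add (.mul (.num (-771423)) (.var 2)) (.num (-35929)))))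
  (.var 0)) (.add (.mul (.add (.mul (.num (-925884)) (.var 1)) (.add (.mul (.num 223015) (.var
  2)) (.num (-1423250)))) (.var 1)) (.add (.mul (.add (.mul (.num 41212) (.var 2)) (.num 46226))
  (.var 2)) (.num 120985)))) (.var 0)) (.add (.mul (.add (.mul (.add (.mul (.num 205997) (.var
  1)) (.add (.mul (.num (-493376)) (.var 2)) (.num (-431203)))) (.var 1)) (.add (.mul (.add
  (.mul (.num 142295) (.var 2)) (.num 16233)) (.var 2)) (.num 97731))) (.var 1)) (.add (.mul
  (.add (.mul (.add (.mul (.num (-6829)) (.var 2)) (.num (-4645))) (.var 2)) (.num (-12600)))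
  (.var 2)) (.num (-4909))))) (.var 0)) (.add (.mul (.add (.mul (.add (.mul (.add (.mul (.num
  (-1548639)) (.var 1)) (.add (.mul (.num 518207) (.var 2)) (.num 839583))) (.var 1)) (.add
  (.mul (.add (.mul (.num (-107139)) (.var 2)) (.num (-76209))) (.var 2)) (.num 30139))) (.var
  1)) (.add (.mul (.add (.mul (.add (.mul (.num (-15926)) (.var 2)) (.num 2313)) (.var 2)) (.num
  8719)) (.var 2)) (.num (-41510)))) (.var 1)) (.add (.mul (.add (.mul (.add (.mul (.add (.mul
  (.num 6438) (.var 2)) (.num (-6520))) (.var 2)) (.num 13906)) (.var 2)) (.num 319)) (.var 2))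
  (.num 9965))))

def ALME : Ex := (.add (.mul (.add (.mul (.add (.mul (.num 285327) (.var 0)) (.add (.mul (.num
  (-32657)) (.var 1)) (.add (.mul (.num (-9008)) (.var 2)) (.num (-46948))))) (.var 0)) (.add
  (.mul (.add (.mul (.num 2479) (.var 1)) (.add (.mul (.num (-9152)) (.var 2)) (.num (-33060))))
  (.var 1)) (.add (.mul (.add (.mul (.num (-1042)) (.var 2)) (.num (-4047))) (.var 2)) (.num
  (-2851))))) (.var 0)) (.add (.mul (.add (.mul (.add (.mul (.num 31) (.var 1)) (.add (.mul
  (.num 2952) (.var 2)) (.num 868))) (.var 1)) (.add (.mul (.add (.mul (.num 532) (.var 2))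
  (.num 7731)) (.var 2)) (.num 20079))) (.var 1)) (.add (.mul (.add (.mul (.add (.mul (.num
  (-125)) (.var 2)) (.num (-286))) (.var 2)) (.num 2599)) (.var 2)) (.num 6857))))

/-- Scaled by `1000000000000000000000000000000000000000000000000000`. -/
def ALZl0 : Ex := (bZl (.var 0) ALS ALu ALv ALa ALb ALZl ALT0)

/-- Scaled by `1000000000000000000000000000000000000000000000000000`. -/
def ALZu0 : Ex := (bZu (.var 0) ALS ALu ALv ALa ALb ALZu ALT0)

/-- Scaled by `20000000000000000000000000000000000000000`. -/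
def ALXl0 : Ex := (bXl (.var 0) ALS ALu ALv ALb ALXl ALHn0 ALHd)

/-- Scaled by `100000000000000000000000000000000000000000000`. -/
def ALYl0 : Ex := (bYl (.var 0) ALS ALu ALv ALb ALYl ALHn0 ALHd)

/-- Scaled by `2000000000000000000000000000000000000000000`. -/
def ALQl0 : Ex := (bQl (.var 0) ALS ALu ALv ALb ALQl ALHn0 ALHd)

/-- Scaled by `20000000000000000000000000000000000000000`. -/
def ALXu0 : Ex := (bXu (.var 0) ALS ALu ALv ALb ALXu ALHn0 ALHd)

/-- Scaled by `100000000000000000000000000000000000000000000`. -/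
def ALYu0 : Ex := (bYu (.var 0) ALS ALu ALv ALb ALYu ALHn0 ALHd)

/-- Scaled by `2000000000000000000000000000000000000000000`. -/
def ALQu0 : Ex := (bQu (.var 0) ALS ALu ALv ALb ALQu ALHn0 ALHd)

/-- Scaled by `1000000000000000000000000000000000000000000000000000`. -/
def ALZl1 : Ex := (bZl (.var 0) ALS ALu ALv ALa ALb ALZl ALT1)

/-- Scaled by `1000000000000000000000000000000000000000000000000000`. -/
def ALZu1 : Ex := (bZu (.var 0) ALS ALu ALv ALa ALb ALZu ALT1)

/-- Scaled by `20000000000000000000000000000000000000000`. -/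
def ALXl1 : Ex := (bXl (.var 0) ALS ALu ALv ALb ALXl ALHn1 ALHd)

/-- Scaled by `100000000000000000000000000000000000000000000`. -/
def ALYl1 : Ex := (bYl (.var 0) ALS ALu ALv ALb ALYl ALHn1 ALHd)

/-- Scaled by `2000000000000000000000000000000000000000000`. -/
def ALQl1 : Ex := (bQl (.var 0) ALS ALu ALv ALb ALQl ALHn1 ALHd)

/-- Scaled by `20000000000000000000000000000000000000000`. -/
def ALXu1 : Ex := (bXu (.var 0) ALS ALu ALv ALb ALXu ALHn1 ALHd)

/-- Scaled by `100000000000000000000000000000000000000000000`. -/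
def ALYu1 : Ex := (bYu (.var 0) ALS ALu ALv ALb ALYu ALHn1 ALHd)

/-- Scaled by `2000000000000000000000000000000000000000000`. -/
def ALQu1 : Ex := (bQu (.var 0) ALS ALu ALv ALb ALQu ALHn1 ALHd)

/-- Scaled by `156250000000000000000000000000000000000000000000000000000000000000000`. -/
def ALTA0l : Ex := (.sub (qTA ALr0 ALv (.var 0) ALXu ALYl ALZu ALQu) (.mul (.num
  156250000000000000000000000000000000000000000000000000000000000000000) ALTA))

/-- Scaled by `6250000000000000000000000000000000000000000000000000000000000`. -/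
def ALGG0l : Ex := (.sub (qGG ALr0 ALv (.var 0) ALXl) (.mul (.num
  6250000000000000000000000000000000000000000000000000000000) ALGG))

/-- Scaled by `156250000000000000000000000000000000000000000000000000000000000000000`. -/
def ALTA0u : Ex := (.sub (qTA ALr0 ALv (.var 0) ALXu ALYu ALZu ALQu) (.mul (.num
  156250000000000000000000000000000000000000000000000000000000000000000) ALTA))

/-- Scaled by `6250000000000000000000000000000000000000000000000000000000000`. -/
def ALGG0u : Ex := (.sub (qGG ALr0 ALv (.var 0) ALXu) (.mul (.num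
  6250000000000000000000000000000000000000000000000000000000) ALGG))

/-- Scaled by `156250000000000000000000000000000000000000000000000000000000000000000`. -/
def ALTA1l : Ex := (.sub (qTA ALr1 ALv (.var 0) ALXu ALYl ALZu ALQu) (.mul (.num
  156250000000000000000000000000000000000000000000000000000000000000000) ALTA))

/-- Scaled by `6250000000000000000000000000000000000000000000000000000000000`. -/
def ALGG1l : Ex := (.sub (qGG ALr1 ALv (.var 0) ALXl) (.mul (.num
  6250000000000000000000000000000000000000000000000000000000) ALGG))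

/-- Scaled by `156250000000000000000000000000000000000000000000000000000000000000000`. -/
def ALTA1u : Ex := (.sub (qTA ALr1 ALv (.var 0) ALXu ALYu ALZu ALQu) (.mul (.num
  156250000000000000000000000000000000000000000000000000000000000000000) ALTA))

/-- Scaled by `6250000000000000000000000000000000000000000000000000000000000`. -/
def ALGG1u : Ex := (.sub (qGG ALr1 ALv (.var 0) ALXu) (.mul (.num
  6250000000000000000000000000000000000000000000000000000000) ALGG))

/-- Scaled by `6250000000000000000000000000000000000000000000000000000`. -/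
def ALEGul : Ex := (.sub (.mul (.num 625000000000000000000000000000000000000000000000000000)
  ALEG) (qEG ALr1 ALv (.var 0) ALXu ALYl))

/-- Scaled by `6250000000000000000000000000000000000000000000000000000`. -/
def ALEGll : Ex := (.add (.mul (.num 625000000000000000000000000000000000000000000000000000)
  ALEG) (qEG ALr0 ALv (.var 0) ALXl ALYl))

/-- Scaled by `6250000000000000000000000000000000000000000000000000000`. -/
def ALEGuu : Ex := (.sub (.mul (.num 625000000000000000000000000000000000000000000000000000)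
  ALEG) (qEG ALr1 ALv (.var 0) ALXu ALYu))

/-- Scaled by `6250000000000000000000000000000000000000000000000000000`. -/
def ALEGlu : Ex := (.add (.mul (.num 625000000000000000000000000000000000000000000000000000)
  ALEG) (qEG ALr0 ALv (.var 0) ALXl ALYu))

/-- Scaled by `500000000000000000000000000000000000000000`. -/
def ALMEnl : Ex := (.add (.mul (.num 50000000000000000000000000000000000000000) ALME) (qME ALr1
  ALv (.var 0) ALXu ALYl ALZl ALQl))

/-- Scaled by `500000000000000000000000000000000000000000`. -/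
def ALMEpl : Ex := (.sub (.mul (.num 50000000000000000000000000000000000000000) ALME) (qME ALr0
  ALv (.var 0) ALXl ALYl ALZu ALQu))

/-- Scaled by `500000000000000000000000000000000000000000`. -/
def ALMEnu : Ex := (.add (.mul (.num 50000000000000000000000000000000000000000) ALME) (qME ALr1
  ALv (.var 0) ALXu ALYu ALZl ALQl))

/-- Scaled by `500000000000000000000000000000000000000000`. -/
def ALMEpu : Ex := (.sub (.mul (.num 50000000000000000000000000000000000000000) ALME) (qME ALr0
  ALv (.var 0) ALXl ALYu ALZu ALQu))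

/-- Scaled by `100000`. -/
def ALrgXl : Ex := (.sub ALXl (.num 900000))

/-- Scaled by `100000`. -/
def ALrgXu : Ex := (.sub (.num 1430000) ALXu)

/-- Scaled by `100000`. -/
def ALrgYl : Ex := (.sub ALYl (.num 9900000))

/-- Scaled by `100000`. -/
def ALrgYu : Ex := (.sub (.num 14000000) ALYu)

/-- Scaled by `100000`. -/
def ALrgZl : Ex := (.sub ALZl (.num (-1750000)))

/-- Scaled by `100000`. -/
def ALrgZu : Ex := (.sub (.num (-500000)) ALZu)

/-- Scaled by `100000`. -/
def ALrgQl : Ex := (.sub ALQl (.num (-2500000)))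

/-- Scaled by `100000`. -/
def ALrgQu : Ex := (.sub (.num 100000) ALQu)

/-- Scaled by `1`. -/
def ALgpos : Ex := (.sub ALGG (.num 1))

/-- Scaled by `1`. -/
def ALUpos : Ex := (.sub ALU (.num 1))

/-- Scaled by `1250000000000000000000000000000000000`. -/
def ALF : Ex := (.sub (tF (.var 0) ALv ALS1 ALTA ALGG ALEG ALME ALXl ALYl) (.num 1))

/-- Scaled by `3200000000000000000000`. -/
def ALcut : Ex := (.sub (tCut (.var 0) ALS ALW ALU ALa ALb (.var 2)) (.num 1))

def ALC0 : ℕ → Chart
  | 0 => ⟨0, 16, 1, 133⟩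
  | 1 => ⟨0, 47, 1, 156⟩
  | 2 => ⟨0, 501, 1, 500⟩
  | _ => ⟨0, 501, 1, 500⟩

def ALC1 : ℕ → Chart
  | 0 => ⟨0, 16, 1, 133⟩
  | 1 => ⟨0, 47, 1, 156⟩
  | 2 => ⟨0, 1, 1, 2⟩
  | _ => ⟨0, 501, 1, 500⟩

def ALC2 : ℕ → Chart
  | 0 => ⟨0, 16, 1, 133⟩
  | 1 => ⟨0, 47, 1, 156⟩
  | 2 => ⟨1, 501, 2, 500⟩
  | _ => ⟨0, 501, 1, 500⟩

def ALC3 : ℕ → Chart
  | 0 => ⟨0, 16, 1, 133⟩
  | 1 => ⟨0, 8, 1, 53⟩
  | 2 => ⟨0, 1, 1, 2⟩
  | _ => ⟨0, 501, 1, 500⟩

def ALC4 : ℕ → Chart
  | 0 => ⟨0, 16, 1, 133⟩
  | 1 => ⟨0, 8, 1, 53⟩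
  | 2 => ⟨1, 501, 2, 500⟩
  | _ => ⟨0, 501, 1, 500⟩

def ALC5 : ℕ → Chart
  | 0 => ⟨0, 16, 1, 133⟩
  | 1 => ⟨8, 47, 53, 156⟩
  | 2 => ⟨0, 1, 1, 2⟩
  | _ => ⟨0, 501, 1, 500⟩

def ALC6 : ℕ → Chart
  | 0 => ⟨0, 16, 1, 133⟩
  | 1 => ⟨8, 47, 53, 156⟩
  | 2 => ⟨1, 501, 2, 500⟩
  | _ => ⟨0, 501, 1, 500⟩

def ALC7 : ℕ → Chart
  | 0 => ⟨0, 3, 1, 50⟩
  | 1 => ⟨0, 8, 1, 53⟩
  | 2 => ⟨0, 501, 1, 500⟩
  | _ => ⟨0, 501, 1, 500⟩

def ALC8 : ℕ → Chart
  | 0 => ⟨0, 3, 1, 50⟩
  | 1 => ⟨8, 47, 53, 156⟩
  | 2 => ⟨0, 501, 1, 500⟩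
  | _ => ⟨0, 501, 1, 500⟩

def ALC9 : ℕ → Chart
  | 0 => ⟨3, 16, 50, 133⟩
  | 1 => ⟨0, 8, 1, 53⟩
  | 2 => ⟨0, 501, 1, 500⟩
  | _ => ⟨0, 501, 1, 500⟩

def ALC10 : ℕ → Chart
  | 0 => ⟨3, 16, 50, 133⟩
  | 1 => ⟨8, 47, 53, 156⟩
  | 2 => ⟨0, 501, 1, 500⟩
  | _ => ⟨0, 501, 1, 500⟩

theorem ALZl0_ok0 :
    checkFour ALC0 394 11 5 5 6 ALZl0 = true := by decide +kernel

theorem ALZu0_ok0 :
    checkFour ALC0 394 11 5 5 6 ALZu0 = true := by decide +kernel

theorem ALXl0_ok0 :
    checkFour ALC0 332 10 5 5 4 ALXl0 = true := by decide +kernel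

theorem ALYl0_ok0 :
    checkFour ALC0 347 10 5 5 4 ALYl0 = true := by decide +kernel

theorem ALQl0_ok0 :
    checkFour ALC0 346 11 5 5 4 ALQl0 = true := by decide +kernel

theorem ALXu0_ok0 :
    checkFour ALC0 332 10 5 5 4 ALXu0 = true := by decide +kernel

theorem ALYu0_ok0 :
    checkFour ALC0 347 10 5 5 4 ALYu0 = true := by decide +kernel

theorem ALQu0_ok0 :
    checkFour ALC0 346 11 5 5 4 ALQu0 = true := by decide +kernel

theorem ALZl1_ok0 :
    checkFour ALC0 371 10 4 4 6 ALZl1 = true := by decide +kernel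

theorem ALZu1_ok0 :
    checkFour ALC0 370 10 4 4 6 ALZu1 = true := by decide +kernel

theorem ALXl1_ok0 :
    checkFour ALC1 279 9 4 4 4 ALXl1 = true := by decide +kernel

theorem ALXl1_ok1 :
    checkFour ALC2 308 9 4 4 4 ALXl1 = true := by decide +kernel

theorem ALYl1_ok0 :
    checkFour ALC0 324 9 4 4 4 ALYl1 = true := by decide +kernel

theorem ALQl1_ok0 :
    checkFour ALC0 322 10 4 4 4 ALQl1 = true := by decide +kernel

theorem ALXu1_ok0 :
    checkFour ALC0 308 9 4 4 4 ALXu1 = true := by decide +kernel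

theorem ALYu1_ok0 :
    checkFour ALC0 324 9 4 4 4 ALYu1 = true := by decide +kernel

theorem ALQu1_ok0 :
    checkFour ALC0 322 10 4 4 4 ALQu1 = true := by decide +kernel

theorem ALTA0l_ok0 :
    checkFour ALC0 501 16 8 8 0 ALTA0l = true := by decide +kernel

theorem ALGG0l_ok0 :
    checkFour ALC0 439 14 7 7 0 ALGG0l = true := by decide +kernel

theorem ALTA0u_ok0 :
    checkFour ALC0 501 16 8 8 0 ALTA0u = true := by decide +kernel

theorem ALGG0u_ok0 :
    checkFour ALC0 439 14 7 7 0 ALGG0u = true := by decide +kernel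

theorem ALTA1l_ok0 :
    checkFour ALC0 501 16 8 8 0 ALTA1l = true := by decide +kernel

theorem ALGG1l_ok0 :
    checkFour ALC0 439 14 7 7 0 ALGG1l = true := by decide +kernel

theorem ALTA1u_ok0 :
    checkFour ALC0 501 16 8 8 0 ALTA1u = true := by decide +kernel

theorem ALGG1u_ok0 :
    checkFour ALC0 439 14 7 7 0 ALGG1u = true := by decide +kernel

theorem ALEGul_ok0 :
    checkFour ALC0 389 12 6 6 0 ALEGul = true := by decide +kernel

theorem ALEGll_ok0 :
    checkFour ALC0 389 12 6 6 0 ALEGll = true := by decide +kernel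

theorem ALEGuu_ok0 :
    checkFour ALC1 344 12 6 6 0 ALEGuu = true := by decide +kernel

theorem ALEGuu_ok1 :
    checkFour ALC2 389 12 6 6 0 ALEGuu = true := by decide +kernel

theorem ALEGlu_ok0 :
    checkFour ALC3 335 12 6 6 0 ALEGlu = true := by decide +kernel

theorem ALEGlu_ok1 :
    checkFour ALC4 379 12 6 6 0 ALEGlu = true := by decide +kernel

theorem ALEGlu_ok2 :
    checkFour ALC5 347 12 6 6 0 ALEGlu = true := by decide +kernel

theorem ALEGlu_ok3 :
    checkFour ALC6 391 12 6 6 0 ALEGlu = true := by decide +kernel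

theorem ALMEnl_ok0 :
    checkFour ALC0 312 10 5 5 0 ALMEnl = true := by decide +kernel

theorem ALMEpl_ok0 :
    checkFour ALC0 312 10 5 5 0 ALMEpl = true := by decide +kernel

theorem ALMEnu_ok0 :
    checkFour ALC0 312 10 5 5 0 ALMEnu = true := by decide +kernel

theorem ALMEpu_ok0 :
    checkFour ALC0 312 10 5 5 0 ALMEpu = true := by decide +kernel

theorem ALrgXl_ok0 :
    checkFour ALC0 69 2 2 2 0 ALrgXl = true := by decide +kernel

theorem ALrgXu_ok0 :
    checkFour ALC0 70 2 2 2 0 ALrgXu = true := by decide +kernel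

theorem ALrgYl_ok0 :
    checkFour ALC0 73 2 2 2 0 ALrgYl = true := by decide +kernel

theorem ALrgYu_ok0 :
    checkFour ALC0 73 2 2 2 0 ALrgYu = true := by decide +kernel

theorem ALrgZl_ok0 :
    checkFour ALC0 70 2 2 2 0 ALrgZl = true := by decide +kernel

theorem ALrgZu_ok0 :
    checkFour ALC0 69 2 2 2 0 ALrgZu = true := by decide +kernel

theorem ALrgQl_ok0 :
    checkFour ALC0 70 2 2 2 0 ALrgQl = true := by decide +kernel

theorem ALrgQu_ok0 :
    checkFour ALC0 69 2 2 2 0 ALrgQu = true := by decide +kernel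

theorem ALgpos_ok0 :
    checkFour ALC0 114 4 4 4 0 ALgpos = true := by decide +kernel

theorem ALUpos_ok0 :
    checkFour ALC0 31 1 1 0 0 ALUpos = true := by decide +kernel

theorem ALF_ok0 :
    checkFour ALC0 538 18 15 15 0 ALF = true := by decide +kernel

theorem ALcut_ok0 :
    checkFour ALC7 165 7 2 2 2 ALcut = true := by decide +kernel

theorem ALcut_ok1 :
    checkFour ALC8 170 7 2 2 2 ALcut = true := by decide +kernel

theorem ALcut_ok2 :
    checkFour ALC9 179 7 2 2 2 ALcut = true := by decide +kernel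

theorem ALcut_ok3 :
    checkFour ALC10 183 7 2 2 2 ALcut = true := by decide +kernel

end Vale.Agent.P100.Calib.NegCert
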