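import Mathlib
import Vale.Agent.P100.Pack.FastFour
import Vale.Agent.P100.Calib.NegCert.Coef
import Vale.Agent.P100.Calib.NegCert.Tpl

/-!
# Piece BH of the region `u ≤ 0`: data and checks
-/

set_option linter.unusedVariables false

namespace Vale.Agent.P100.Calib.NegCert

open Pack

def BHS0 : Ex := (.num 6000)

def BHS1 : Ex := (.num 6056)

def BHS : Ex := (.add BHS0 (.mul (.var 3) (.sub BHS1 BHS0)))

def BHU : Ex := (.add (.mul (.add (.mul (.num (-6638)) (.var 1)) (.num 26038)) (.var 0)) (.add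
  (.mul (.num 13356) (.var 1)) (.num 22298)))

def BHu : Ex := (.sub (.num 0) (.mul (.var 2) BHU))

def BHW0 : Ex := (.sub (.add (.num 9560) (.mul (.num 625) (.var 0))) BHS1)

def BHW : Ex := (.add BHW0 (.mul (.var 1) (.sub (.sub (.num 5600) (.mul (.num 500) (.var 0)))
  BHW0)))

def BHv : Ex := (.add (.mul (.num 500) BHW) (.mul (.num 9) BHu))

def BHa : Ex := (.sub BHS (.mul (.num 10000) (.var 0)))

def BHb : Ex := (.add BHS (.mul (.num 10000) (.var 0)))

def BHZl : Ex := (.add (.mul (.add (.mul (.num (-4099468)) (.var 0)) (.add (.mul (.num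
  (-290408)) (.var 1)) (.add (.mul (.num 1920234) (.var 2)) (.num 2523754)))) (.var 0)) (.add
  (.mul (.add (.mul (.num (-5670)) (.var 1)) (.add (.mul (.num (-100969)) (.var 2)) (.num
  40401))) (.var 1)) (.add (.mul (.add (.mul (.num (-29662)) (.var 2)) (.num (-500121))) (.var
  2)) (.num (-1089775)))))

def BHT0 : Ex := (tT0 (.var 0) BHu)

def BHZu : Ex := (.add (.mul (.add (.mul (.num (-6109031)) (.var 0)) (.add (.mul (.num
  (-822801)) (.var 1)) (.add (.mul (.num (-193214)) (.var 2)) (.num 2697258)))) (.var 0)) (.add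
  (.mul (.add (.mul (.num (-2629)) (.var 1)) (.add (.mul (.num 46110) (.var 2)) (.num 113772)))
  (.var 1)) (.add (.mul (.add (.mul (.num 58413) (.var 2)) (.num (-15102))) (.var 2)) (.num
  (-882517)))))

def BHXl : Ex := (.add (.mul (.add (.mul (.num 1647285) (.var 0)) (.add (.mul (.num (-126772))
  (.var 1)) (.add (.mul (.num 89816) (.var 2)) (.num (-1641609))))) (.var 0)) (.add (.mul (.add
  (.mul (.num (-793)) (.var 1)) (.add (.mul (.num (-686)) (.var 2)) (.num 137829))) (.var 1))
  (.add (.mul (.add (.mul (.num (-58808)) (.var 2)) (.num 24051)) (.var 2)) (.num 1173401))))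

def BHHn0 : Ex := (tHn BHS BHu BHv BHa BHb BHT0)

def BHHd : Ex := (tBCH BHb BHS)

def BHYl : Ex := (.add (.mul (.add (.mul (.num 703860) (.var 0)) (.add (.mul (.num (-94051))
  (.var 1)) (.add (.mul (.num 699876) (.var 2)) (.num 343422)))) (.var 0)) (.add (.mul (.add
  (.mul (.num 16613) (.var 1)) (.add (.mul (.num 1215524) (.var 2)) (.num 29765))) (.var 1))
  (.add (.mul (.add (.mul (.num (-31547)) (.var 2)) (.num 2274695)) (.var 2)) (.num 10006448))))

def BHQl : Ex := (.add (.mul (.add (.mul (.num (-616795)) (.var 0)) (.add (.mul (.num (-528672))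
  (.var 1)) (.add (.mul (.num (-3217558)) (.var 2)) (.num (-8570000))))) (.var 0)) (.add (.mul
  (.add (.mul (.num (-2893)) (.var 1)) (.add (.mul (.num (-170611)) (.var 2)) (.num 84278)))
  (.var 1)) (.add (.mul (.add (.mul (.num (-457)) (.var 2)) (.num 161920)) (.var 2)) (.num
  (-25918)))))

def BHXu : Ex := (.add (.mul (.add (.mul (.num 1380104) (.var 0)) (.add (.mul (.num (-231694))
  (.var 1)) (.add (.mul (.num (-212288)) (.var 2)) (.num (-1476958))))) (.var 0)) (.add (.mul
  (.add (.mul (.num 5679) (.var 1)) (.add (.mul (.num 41532) (.var 2)) (.num 141179))) (.var 1))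
  (.add (.mul (.add (.mul (.num (-8797)) (.var 2)) (.num 56671)) (.var 2)) (.num 1168343))))

def BHYu : Ex := (.add (.mul (.add (.mul (.num 408293) (.var 0)) (.add (.mul (.num (-74683))
  (.var 1)) (.add (.mul (.num 800503) (.var 2)) (.num 426811)))) (.var 0)) (.add (.mul (.add
  (.mul (.num 16919) (.var 1)) (.add (.mul (.num 1252563) (.var 2)) (.num 26909))) (.var 1))
  (.add (.mul (.add (.mul (.num (-4800)) (.var 2)) (.num 2279323)) (.var 2)) (.num 10151517))))

def BHQu : Ex := (.add (.mul (.add (.mul (.num (-621762)) (.var 0)) (.add (.mul (.num (-507314))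
  (.var 1)) (.add (.mul (.num (-3129815)) (.var 2)) (.num (-8455641))))) (.var 0)) (.add (.mul
  (.add (.mul (.num (-2273)) (.var 1)) (.add (.mul (.num (-164672)) (.var 2)) (.num 80172)))
  (.var 1)) (.add (.mul (.add (.mul (.num 5664) (.var 2)) (.num 149309)) (.var 2)) (.num
  (-13123)))))

def BHT1 : Ex := (tT1 (.var 0))

def BHHn1 : Ex := (tHn BHS BHu BHv BHa BHb BHT1)

def BHr0 : Ex := (.sub BHS0 (.num 6000))

def BHTA : Ex := (.add (.mul (.add (.mul (.add (.mul (.num 7535081) (.var 0)) (.add (.mul (.num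
  (-1142155)) (.var 1)) (.add (.mul (.num (-65075)) (.var 2)) (.num (-3732229))))) (.var 0))
  (.add (.mul (.add (.mul (.num (-174651)) (.var 1)) (.add (.mul (.num (-448362)) (.var 2))
  (.num 49611))) (.var 1)) (.add (.mul (.add (.mul (.num 50751) (.var 2)) (.num (-1040))) (.var
  2)) (.num (-51073))))) (.var 0)) (.add (.mul (.add (.mul (.add (.mul (.num (-1301)) (.var 1))
  (.add (.mul (.num (-5358)) (.var 2)) (.num 22898))) (.var 1)) (.add (.mul (.add (.mul (.num
  (-6513)) (.var 2)) (.num 85835)) (.var 2)) (.num 86939))) (.var 1)) (.add (.mul (.add (.mul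
  (.add (.mul (.num 1552) (.var 2)) (.num (-13033))) (.var 2)) (.num 8219)) (.var 2)) (.num
  204342))))

def BHGG : Ex := (.add (.mul (.add (.mul (.add (.mul (.add (.mul (.num 72349661) (.var 0)) (.add
  (.mul (.num (-18613621)) (.var 1)) (.add (.mul (.num (-9041801)) (.var 2)) (.num
  (-30869145))))) (.var 0)) (.add (.mul (.add (.mul (.num 4745591) (.var 1)) (.add (.mul (.num
  117629) (.var 2)) (.num 630006))) (.var 1)) (.add (.mul (.add (.mul (.num (-450436)) (.var 2))
  (.num 5165509)) (.var 2)) (.num 4240388)))) (.var 0)) (.add (.mul (.add (.mul (.add (.mul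
  (.num (-1301601)) (.var 1)) (.add (.mul (.num 944613) (.var 2)) (.num 1487947))) (.var 1))
  (.add (.mul (.add (.mul (.num 732338) (.var 2)) (.num (-1472042))) (.var 2)) (.num
  (-913264)))) (.var 1)) (.add (.mul (.add (.mul (.add (.mul (.num (-39208)) (.var 2)) (.num
  (-286693))) (.var 2)) (.num (-348017))) (.var 2)) (.num (-146202))))) (.var 0)) (.add (.mul
  (.add (.mul (.add (.mul (.add (.mul (.num 277465) (.var 1)) (.add (.mul (.num (-111814)) (.var
  2)) (.num (-598795)))) (.var 1)) (.add (.mul (.add (.mul (.num (-261873)) (.var 2)) (.num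
  89297)) (.var 2)) (.num 437892))) (.var 1)) (.add (.mul (.add (.mul (.add (.mul (.num 44166)
  (.var 2)) (.num 225397)) (.var 2)) (.num (-71611))) (.var 2)) (.num 203582))) (.var 1)) (.add
  (.mul (.add (.mul (.add (.mul (.add (.mul (.num (-4675)) (.var 2)) (.num (-25589))) (.var 2))
  (.num (-57183))) (.var 2)) (.num 7143)) (.var 2)) (.num 134108))))

def BHr1 : Ex := (.sub BHS1 (.num 6000))

def BHEG : Ex := (.add (.mul (.add (.mul (.add (.mul (.add (.mul (.num (-600943)) (.var 0))
  (.add (.mul (.num 366258) (.var 1)) (.add (.mul (.num 392089) (.var 2)) (.num 887747)))) (.var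
  0)) (.add (.mul (.add (.mul (.num (-35744)) (.var 1)) (.add (.mul (.num (-74260)) (.var 2))
  (.num (-162162)))) (.var 1)) (.add (.mul (.add (.mul (.num 6267) (.var 2)) (.num (-165728)))
  (.var 2)) (.num (-417997))))) (.var 0)) (.add (.mul (.add (.mul (.add (.mul (.num 102) (.var
  1)) (.add (.mul (.num (-12811)) (.var 2)) (.num 10472))) (.var 1)) (.add (.mul (.add (.mul
  (.num (-4802)) (.var 2)) (.num (-4582))) (.var 2)) (.num (-91765)))) (.var 1)) (.add (.mul
  (.add (.mul (.add (.mul (.num 213) (.var 2)) (.num (-10089))) (.var 2)) (.num (-17089))) (.var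
  2)) (.num 69951)))) (.var 0)) (.add (.mul (.add (.mul (.add (.mul (.add (.mul (.num 9) (.var
  1)) (.add (.mul (.num 306) (.var 2)) (.num 71))) (.var 1)) (.add (.mul (.add (.mul (.num 1102)
  (.var 2)) (.num 6290)) (.var 2)) (.num 1567))) (.var 1)) (.add (.mul (.add (.mul (.add (.mul
  (.num (-315)) (.var 2)) (.num 3272)) (.var 2)) (.num 16558)) (.var 2)) (.num 46369))) (.var
  1)) (.add (.mul (.add (.mul (.add (.mul (.add (.mul (.num 7) (.var 2)) (.num (-502))) (.var
  2)) (.num 474)) (.var 2)) (.num 6595)) (.var 2)) (.num (-8336)))))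

def BHME : Ex := (.add (.mul (.add (.mul (.add (.mul (.num 209735) (.var 0)) (.add (.mul (.num
  (-36345)) (.var 1)) (.add (.mul (.num (-17123)) (.var 2)) (.num (-103604))))) (.var 0)) (.add
  (.mul (.add (.mul (.num (-308)) (.var 1)) (.add (.mul (.num (-18736)) (.var 2)) (.num
  (-24370)))) (.var 1)) (.add (.mul (.add (.mul (.num (-4084)) (.var 2)) (.num (-5357))) (.var
  2)) (.num 13073)))) (.var 0)) (.add (.mul (.add (.mul (.add (.mul (.num 109) (.var 1)) (.add
  (.mul (.num 2527) (.var 2)) (.num 836))) (.var 1)) (.add (.mul (.add (.mul (.num 649) (.var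
  2)) (.num 8830)) (.var 2)) (.num 19243))) (.var 1)) (.add (.mul (.add (.mul (.add (.mul (.num
  (-203)) (.var 2)) (.num (-7))) (.var 2)) (.num 3011)) (.var 2)) (.num 5810))))

/-- Scaled by `1000000000000000000000000000000000000000000000000000`. -/
def BHZl0 : Ex := (bZl (.var 0) BHS BHu BHv BHa BHb BHZl BHT0)

/-- Scaled by `1000000000000000000000000000000000000000000000000000`. -/
def BHZu0 : Ex := (bZu (.var 0) BHS BHu BHv BHa BHb BHZu BHT0)

/-- Scaled by `20000000000000000000000000000000000000000`. -/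
def BHXl0 : Ex := (bXl (.var 0) BHS BHu BHv BHb BHXl BHHn0 BHHd)

/-- Scaled by `100000000000000000000000000000000000000000000`. -/
def BHYl0 : Ex := (bYl (.var 0) BHS BHu BHv BHb BHYl BHHn0 BHHd)

/-- Scaled by `2000000000000000000000000000000000000000000`. -/
def BHQl0 : Ex := (bQl (.var 0) BHS BHu BHv BHb BHQl BHHn0 BHHd)

/-- Scaled by `20000000000000000000000000000000000000000`. -/
def BHXu0 : Ex := (bXu (.var 0) BHS BHu BHv BHb BHXu BHHn0 BHHd)

/-- Scaled by `100000000000000000000000000000000000000000000`. -/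
def BHYu0 : Ex := (bYu (.var 0) BHS BHu BHv BHb BHYu BHHn0 BHHd)

/-- Scaled by `2000000000000000000000000000000000000000000`. -/
def BHQu0 : Ex := (bQu (.var 0) BHS BHu BHv BHb BHQu BHHn0 BHHd)

/-- Scaled by `1000000000000000000000000000000000000000000000000000`. -/
def BHZl1 : Ex := (bZl (.var 0) BHS BHu BHv BHa BHb BHZl BHT1)

/-- Scaled by `1000000000000000000000000000000000000000000000000000`. -/
def BHZu1 : Ex := (bZu (.var 0) BHS BHu BHv BHa BHb BHZu BHT1)

/-- Scaled by `20000000000000000000000000000000000000000`. -/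
def BHXl1 : Ex := (bXl (.var 0) BHS BHu BHv BHb BHXl BHHn1 BHHd)

/-- Scaled by `100000000000000000000000000000000000000000000`. -/
def BHYl1 : Ex := (bYl (.var 0) BHS BHu BHv BHb BHYl BHHn1 BHHd)

/-- Scaled by `2000000000000000000000000000000000000000000`. -/
def BHQl1 : Ex := (bQl (.var 0) BHS BHu BHv BHb BHQl BHHn1 BHHd)

/-- Scaled by `20000000000000000000000000000000000000000`. -/
def BHXu1 : Ex := (bXu (.var 0) BHS BHu BHv BHb BHXu BHHn1 BHHd)

/-- Scaled by `100000000000000000000000000000000000000000000`. -/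
def BHYu1 : Ex := (bYu (.var 0) BHS BHu BHv BHb BHYu BHHn1 BHHd)

/-- Scaled by `2000000000000000000000000000000000000000000`. -/
def BHQu1 : Ex := (bQu (.var 0) BHS BHu BHv BHb BHQu BHHn1 BHHd)

/-- Scaled by `156250000000000000000000000000000000000000000000000000000000000000000`. -/
def BHTA0l : Ex := (.sub (qTA BHr0 BHv (.var 0) BHXu BHYl BHZu BHQu) (.mul (.num
  156250000000000000000000000000000000000000000000000000000000000000000) BHTA))

/-- Scaled by `6250000000000000000000000000000000000000000000000000000000000`. -/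
def BHGG0l : Ex := (.sub (qGG BHr0 BHv (.var 0) BHXl) (.mul (.num
  6250000000000000000000000000000000000000000000000000000000) BHGG))

/-- Scaled by `156250000000000000000000000000000000000000000000000000000000000000000`. -/
def BHTA0u : Ex := (.sub (qTA BHr0 BHv (.var 0) BHXu BHYu BHZu BHQu) (.mul (.num
  156250000000000000000000000000000000000000000000000000000000000000000) BHTA))

/-- Scaled by `6250000000000000000000000000000000000000000000000000000000000`. -/
def BHGG0u : Ex := (.sub (qGG BHr0 BHv (.var 0) BHXu) (.mul (.num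
  6250000000000000000000000000000000000000000000000000000000) BHGG))

/-- Scaled by `156250000000000000000000000000000000000000000000000000000000000000000`. -/
def BHTA1l : Ex := (.sub (qTA BHr1 BHv (.var 0) BHXu BHYl BHZu BHQu) (.mul (.num
  156250000000000000000000000000000000000000000000000000000000000000000) BHTA))

/-- Scaled by `6250000000000000000000000000000000000000000000000000000000000`. -/
def BHGG1l : Ex := (.sub (qGG BHr1 BHv (.var 0) BHXl) (.mul (.num
  6250000000000000000000000000000000000000000000000000000000) BHGG))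

/-- Scaled by `156250000000000000000000000000000000000000000000000000000000000000000`. -/
def BHTA1u : Ex := (.sub (qTA BHr1 BHv (.var 0) BHXu BHYu BHZu BHQu) (.mul (.num
  156250000000000000000000000000000000000000000000000000000000000000000) BHTA))

/-- Scaled by `6250000000000000000000000000000000000000000000000000000000000`. -/
def BHGG1u : Ex := (.sub (qGG BHr1 BHv (.var 0) BHXu) (.mul (.num
  6250000000000000000000000000000000000000000000000000000000) BHGG))

/-- Scaled by `6250000000000000000000000000000000000000000000000000000`. -/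
def BHEGul : Ex := (.sub (.mul (.num 625000000000000000000000000000000000000000000000000000)
  BHEG) (qEG BHr1 BHv (.var 0) BHXu BHYl))

/-- Scaled by `6250000000000000000000000000000000000000000000000000000`. -/
def BHEGll : Ex := (.add (.mul (.num 625000000000000000000000000000000000000000000000000000)
  BHEG) (qEG BHr0 BHv (.var 0) BHXl BHYl))

/-- Scaled by `6250000000000000000000000000000000000000000000000000000`. -/
def BHEGuu : Ex := (.sub (.mul (.num 625000000000000000000000000000000000000000000000000000)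
  BHEG) (qEG BHr1 BHv (.var 0) BHXu BHYu))

/-- Scaled by `6250000000000000000000000000000000000000000000000000000`. -/
def BHEGlu : Ex := (.add (.mul (.num 625000000000000000000000000000000000000000000000000000)
  BHEG) (qEG BHr0 BHv (.var 0) BHXl BHYu))

/-- Scaled by `500000000000000000000000000000000000000000`. -/
def BHMEnl : Ex := (.add (.mul (.num 50000000000000000000000000000000000000000) BHME) (qME BHr1
  BHv (.var 0) BHXu BHYl BHZl BHQl))

/-- Scaled by `500000000000000000000000000000000000000000`. -/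
def BHMEpl : Ex := (.sub (.mul (.num 50000000000000000000000000000000000000000) BHME) (qME BHr0
  BHv (.var 0) BHXl BHYl BHZu BHQu))

/-- Scaled by `500000000000000000000000000000000000000000`. -/
def BHMEnu : Ex := (.add (.mul (.num 50000000000000000000000000000000000000000) BHME) (qME BHr1
  BHv (.var 0) BHXu BHYu BHZl BHQl))

/-- Scaled by `500000000000000000000000000000000000000000`. -/
def BHMEpu : Ex := (.sub (.mul (.num 50000000000000000000000000000000000000000) BHME) (qME BHr0
  BHv (.var 0) BHXl BHYu BHZu BHQu))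

/-- Scaled by `100000`. -/
def BHrgXl : Ex := (.sub BHXl (.num 900000))

/-- Scaled by `100000`. -/
def BHrgXu : Ex := (.sub (.num 1200000) BHXu)

/-- Scaled by `100000`. -/
def BHrgYl : Ex := (.sub BHYl (.num 9900000))

/-- Scaled by `100000`. -/
def BHrgYu : Ex := (.sub (.num 14000000) BHYu)

/-- Scaled by `100000`. -/
def BHrgZl : Ex := (.sub BHZl (.num (-1300000)))

/-- Scaled by `100000`. -/
def BHrgZu : Ex := (.sub (.num (-500000)) BHZu)

/-- Scaled by `100000`. -/
def BHrgQl : Ex := (.sub BHQl (.num (-2500000)))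

/-- Scaled by `100000`. -/
def BHrgQu : Ex := (.sub (.num (-950000)) BHQu)

/-- Scaled by `1`. -/
def BHgpos : Ex := (.sub BHGG (.num 1))

/-- Scaled by `1`. -/
def BHUpos : Ex := (.sub BHU (.num 1))

/-- Scaled by `1250000000000000000000000000000000000`. -/
def BHF : Ex := (.sub (tF (.var 0) BHv BHS1 BHTA BHGG BHEG BHME BHXl BHYl) (.num 1))

/-- Scaled by `3200000000000000000000`. -/
def BHcut : Ex := (.sub (tCut (.var 0) BHS BHW BHU BHa BHb (.var 2)) (.num 1))

def BHC0 : ℕ → Chart
  | 0 => ⟨3, 20, 25, 109⟩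
  | 1 => ⟨2, 501, 5, 500⟩
  | 2 => ⟨0, 16, 1, 17⟩
  | _ => ⟨0, 501, 1, 500⟩

def BHC1 : ℕ → Chart
  | 0 => ⟨3, 20, 25, 109⟩
  | 1 => ⟨2, 501, 5, 500⟩
  | 2 => ⟨0, 8, 1, 17⟩
  | _ => ⟨0, 501, 1, 500⟩

def BHC2 : ℕ → Chart
  | 0 => ⟨3, 20, 25, 109⟩
  | 1 => ⟨2, 501, 5, 500⟩
  | 2 => ⟨8, 16, 17, 17⟩
  | _ => ⟨0, 501, 1, 500⟩

def BHC3 : ℕ → Chart
  | 0 => ⟨3, 20, 25, 109⟩
  | 1 => ⟨2, 40, 5, 57⟩
  | 2 => ⟨0, 8, 1, 17⟩
  | _ => ⟨0, 501, 1, 500⟩

def BHC4 : ℕ → Chart
  | 0 => ⟨3, 20, 25, 109⟩
  | 1 => ⟨2, 40, 5, 57⟩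
  | 2 => ⟨8, 16, 17, 17⟩
  | _ => ⟨0, 501, 1, 500⟩

def BHC5 : ℕ → Chart
  | 0 => ⟨3, 20, 25, 109⟩
  | 1 => ⟨40, 501, 57, 500⟩
  | 2 => ⟨0, 8, 1, 17⟩
  | _ => ⟨0, 501, 1, 500⟩

def BHC6 : ℕ → Chart
  | 0 => ⟨3, 20, 25, 109⟩
  | 1 => ⟨40, 501, 57, 500⟩
  | 2 => ⟨8, 16, 17, 17⟩
  | _ => ⟨0, 501, 1, 500⟩

def BHC7 : ℕ → Chart
  | 0 => ⟨3, 20, 25, 109⟩
  | 1 => ⟨2, 40, 5, 57⟩
  | 2 => ⟨0, 501, 1, 500⟩
  | _ => ⟨0, 501, 1, 500⟩

def BHC8 : ℕ → Chart
  | 0 => ⟨3, 20, 25, 109⟩
  | 1 => ⟨40, 501, 57, 500⟩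
  | 2 => ⟨0, 501, 1, 500⟩
  | _ => ⟨0, 501, 1, 500⟩

theorem BHZl0_ok0 :
    checkFour BHC0 380 11 5 5 6 BHZl0 = true := by decide +kernel

theorem BHZu0_ok0 :
    checkFour BHC0 380 11 5 5 6 BHZu0 = true := by decide +kernel

theorem BHXl0_ok0 :
    checkFour BHC0 317 10 5 5 4 BHXl0 = true := by decide +kernel

theorem BHYl0_ok0 :
    checkFour BHC0 332 10 5 5 4 BHYl0 = true := by decide +kernel

theorem BHQl0_ok0 :
    checkFour BHC0 331 11 5 5 4 BHQl0 = true := by decide +kernel

theorem BHXu0_ok0 :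
    checkFour BHC1 317 10 5 5 4 BHXu0 = true := by decide +kernel

theorem BHXu0_ok1 :
    checkFour BHC2 321 10 5 5 4 BHXu0 = true := by decide +kernel

theorem BHYu0_ok0 :
    checkFour BHC0 332 10 5 5 4 BHYu0 = true := by decide +kernel

theorem BHQu0_ok0 :
    checkFour BHC0 331 11 5 5 4 BHQu0 = true := by decide +kernel

theorem BHZl1_ok0 :
    checkFour BHC0 359 10 4 4 6 BHZl1 = true := by decide +kernel

theorem BHZu1_ok0 :
    checkFour BHC0 359 10 4 4 6 BHZu1 = true := by decide +kernel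

theorem BHXl1_ok0 :
    checkFour BHC1 296 9 4 4 4 BHXl1 = true := by decide +kernel

theorem BHXl1_ok1 :
    checkFour BHC2 300 9 4 4 4 BHXl1 = true := by decide +kernel

theorem BHYl1_ok0 :
    checkFour BHC0 312 9 4 4 4 BHYl1 = true := by decide +kernel

theorem BHQl1_ok0 :
    checkFour BHC0 311 10 4 4 4 BHQl1 = true := by decide +kernel

theorem BHXu1_ok0 :
    checkFour BHC0 297 9 4 4 4 BHXu1 = true := by decide +kernel

theorem BHYu1_ok0 :
    checkFour BHC0 312 9 4 4 4 BHYu1 = true := by decide +kernel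

theorem BHQu1_ok0 :
    checkFour BHC0 311 10 4 4 4 BHQu1 = true := by decide +kernel

theorem BHTA0l_ok0 :
    checkFour BHC0 479 16 8 8 0 BHTA0l = true := by decide +kernel

theorem BHGG0l_ok0 :
    checkFour BHC0 420 14 7 7 0 BHGG0l = true := by decide +kernel

theorem BHTA0u_ok0 :
    checkFour BHC0 479 16 8 8 0 BHTA0u = true := by decide +kernel

theorem BHGG0u_ok0 :
    checkFour BHC0 420 14 7 7 0 BHGG0u = true := by decide +kernel

theorem BHTA1l_ok0 :
    checkFour BHC0 479 16 8 8 0 BHTA1l = true := by decide +kernel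

theorem BHGG1l_ok0 :
    checkFour BHC0 420 14 7 7 0 BHGG1l = true := by decide +kernel

theorem BHTA1u_ok0 :
    checkFour BHC0 479 16 8 8 0 BHTA1u = true := by decide +kernel

theorem BHGG1u_ok0 :
    checkFour BHC3 398 14 7 7 0 BHGG1u = true := by decide +kernel

theorem BHGG1u_ok1 :
    checkFour BHC4 404 14 7 7 0 BHGG1u = true := by decide +kernel

theorem BHGG1u_ok2 :
    checkFour BHC5 421 14 7 7 0 BHGG1u = true := by decide +kernel

theorem BHGG1u_ok3 :
    checkFour BHC6 427 14 7 7 0 BHGG1u = true := by decide +kernel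

theorem BHEGul_ok0 :
    checkFour BHC0 371 12 6 6 0 BHEGul = true := by decide +kernel

theorem BHEGll_ok0 :
    checkFour BHC0 371 12 6 6 0 BHEGll = true := by decide +kernel

theorem BHEGuu_ok0 :
    checkFour BHC0 371 12 6 6 0 BHEGuu = true := by decide +kernel

theorem BHEGlu_ok0 :
    checkFour BHC0 371 12 6 6 0 BHEGlu = true := by decide +kernel

theorem BHMEnl_ok0 :
    checkFour BHC0 297 10 5 5 0 BHMEnl = true := by decide +kernel

theorem BHMEpl_ok0 :
    checkFour BHC0 297 10 5 5 0 BHMEpl = true := by decide +kernel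

theorem BHMEnu_ok0 :
    checkFour BHC0 297 10 5 5 0 BHMEnu = true := by decide +kernel

theorem BHMEpu_ok0 :
    checkFour BHC0 297 10 5 5 0 BHMEpu = true := by decide +kernel

theorem BHrgXl_ok0 :
    checkFour BHC0 63 2 2 2 0 BHrgXl = true := by decide +kernel

theorem BHrgXu_ok0 :
    checkFour BHC0 63 2 2 2 0 BHrgXu = true := by decide +kernel

theorem BHrgYl_ok0 :
    checkFour BHC0 66 2 2 2 0 BHrgYl = true := by decide +kernel

theorem BHrgYu_ok0 :
    checkFour BHC0 67 2 2 2 0 BHrgYu = true := by decide +kernel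

theorem BHrgZl_ok0 :
    checkFour BHC0 64 2 2 2 0 BHrgZl = true := by decide +kernel

theorem BHrgZu_ok0 :
    checkFour BHC0 63 2 2 2 0 BHrgZu = true := by decide +kernel

theorem BHrgQl_ok0 :
    checkFour BHC0 64 2 2 2 0 BHrgQl = true := by decide +kernel

theorem BHrgQu_ok0 :
    checkFour BHC0 64 2 2 2 0 BHrgQu = true := by decide +kernel

theorem BHgpos_ok0 :
    checkFour BHC0 104 4 4 4 0 BHgpos = true := by decide +kernel

theorem BHUpos_ok0 :
    checkFour BHC0 33 1 1 0 0 BHUpos = true := by decide +kernel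

theorem BHF_ok0 :
    checkFour BHC0 495 18 15 15 0 BHF = true := by decide +kernel

theorem BHcut_ok0 :
    checkFour BHC7 177 7 2 2 2 BHcut = true := by decide +kernel

theorem BHcut_ok1 :
    checkFour BHC8 184 7 2 2 2 BHcut = true := by decide +kernel

end Vale.Agent.P100.Calib.NegCert
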