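import Mathlib
import Vale.Agent.P100.Pack.FastFour
import Vale.Agent.P100.Calib.NegCert.Coef
import Vale.Agent.P100.Calib.NegCert.Tpl

/-!
# Piece BLa of the region `u ≤ 0`: data and checks
-/

set_option linter.unusedVariables false

namespace Vale.Agent.P100.Calib.NegCert

open Pack

def BLaS0 : Ex := (.num 6000)

def BLaS1 : Ex := (.num 6028)

def BLaS : Ex := (.add BLaS0 (.mul (.var 3) (.sub BLaS1 BLaS0)))

def BLaU : Ex := (.add (.mul (.add (.mul (.num (-4127)) (.var 1)) (.num 25051)) (.var 0)) (.add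
  (.mul (.num 13313) (.var 1)) (.num 22392)))

def BLau : Ex := (.sub (.num 0) (.mul (.var 2) BLaU))

def BLaW0 : Ex := (.sub (.add (.num 9560) (.mul (.num 625) (.var 0))) BLaS1)

def BLaW : Ex := (.add BLaW0 (.mul (.var 1) (.sub (.sub (.num 5600) (.mul (.num 500) (.var 0)))
  BLaW0)))

def BLav : Ex := (.add (.mul (.num 500) BLaW) (.mul (.num 9) BLau))

def BLaa : Ex := (.sub BLaS (.mul (.num 10000) (.var 0)))

def BLab : Ex := (.add BLaS (.mul (.num 10000) (.var 0)))

def BLaZl : Ex := (.add (.mul (.add (.mul (.num (-4321447)) (.var 0)) (.add (.mul (.num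
  (-217025)) (.var 1)) (.add (.mul (.num 1533379) (.var 2)) (.num 2757452)))) (.var 0)) (.add
  (.mul (.add (.mul (.num (-7754)) (.var 1)) (.add (.mul (.num (-107638)) (.var 2)) (.num
  31248))) (.var 1)) (.add (.mul (.add (.mul (.num (-20942)) (.var 2)) (.num (-447217))) (.var
  2)) (.num (-1119374)))))

def BLaT0 : Ex := (tT0 (.var 0) BLau)

def BLaZu : Ex := (.add (.mul (.add (.mul (.num (-6943524)) (.var 0)) (.add (.mul (.num
  (-761405)) (.var 1)) (.add (.mul (.num (-66481)) (.var 2)) (.num 2863023)))) (.var 0)) (.add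
  (.mul (.add (.mul (.num (-3271)) (.var 1)) (.add (.mul (.num 37588) (.var 2)) (.num 107845)))
  (.var 1)) (.add (.mul (.add (.mul (.num 38439) (.var 2)) (.num (-12758))) (.var 2)) (.num
  (-905464)))))

def BLaXl : Ex := (.add (.mul (.add (.mul (.num 1569309) (.var 0)) (.add (.mul (.num (-112748))
  (.var 1)) (.add (.mul (.num 79651) (.var 2)) (.num (-1616055))))) (.var 0)) (.add (.mul (.add
  (.mul (.num (-2831)) (.var 1)) (.add (.mul (.num (-6349)) (.var 2)) (.num 133987))) (.var 1))
  (.add (.mul (.add (.mul (.num (-39438)) (.var 2)) (.num 7381)) (.var 2)) (.num 1178571))))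

def BLaHn0 : Ex := (tHn BLaS BLau BLav BLaa BLab BLaT0)

def BLaHd : Ex := (tBCH BLab BLaS)

def BLaYl : Ex := (.add (.mul (.add (.mul (.num 700539) (.var 0)) (.add (.mul (.num (-84026))
  (.var 1)) (.add (.mul (.num 958537) (.var 2)) (.num 218035)))) (.var 0)) (.add (.mul (.add
  (.mul (.num 17318) (.var 1)) (.add (.mul (.num 1213540) (.var 2)) (.num 44560))) (.var 1))
  (.add (.mul (.add (.mul (.num (-22114)) (.var 2)) (.num 2234575)) (.var 2)) (.num 10019536))))

def BLaQl : Ex := (.add (.mul (.add (.mul (.num (-701361)) (.var 0)) (.add (.mul (.num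
  (-557694)) (.var 1)) (.add (.mul (.num (-2639113)) (.var 2)) (.num (-8738501))))) (.var 0))
  (.add (.mul (.add (.mul (.num (-2805)) (.var 1)) (.add (.mul (.num (-168275)) (.var 2)) (.num
  85753))) (.var 1)) (.add (.mul (.add (.mul (.num 278) (.var 2)) (.num 74679)) (.var 2)) (.num
  13742))))

def BLaXu : Ex := (.add (.mul (.add (.mul (.num 1347292) (.var 0)) (.add (.mul (.num (-211485))
  (.var 1)) (.add (.mul (.num (-130470)) (.var 2)) (.num (-1515346))))) (.var 0)) (.add (.mul
  (.add (.mul (.num 5726) (.var 1)) (.add (.mul (.num 31807) (.var 2)) (.num 142203))) (.var 1))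
  (.add (.mul (.add (.mul (.num (-6352)) (.var 2)) (.num 46230)) (.var 2)) (.num 1174057))))

def BLaYu : Ex := (.add (.mul (.add (.mul (.num 362162) (.var 0)) (.add (.mul (.num (-68252))
  (.var 1)) (.add (.mul (.num 1025777) (.var 2)) (.num 315390)))) (.var 0)) (.add (.mul (.add
  (.mul (.num 19968) (.var 1)) (.add (.mul (.num 1237450) (.var 2)) (.num 40773))) (.var 1))
  (.add (.mul (.add (.mul (.num (-6099)) (.var 2)) (.num 2236804)) (.var 2)) (.num 10091189))))

def BLaQu : Ex := (.add (.mul (.add (.mul (.num (-706487)) (.var 0)) (.add (.mul (.num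
  (-541869)) (.var 1)) (.add (.mul (.num (-2594815)) (.var 2)) (.num (-8676655))))) (.var 0))
  (.add (.mul (.add (.mul (.num (-2223)) (.var 1)) (.add (.mul (.num (-164382)) (.var 2)) (.num
  83123))) (.var 1)) (.add (.mul (.add (.mul (.num 3889) (.var 2)) (.num 68649)) (.var 2)) (.num
  21973))))

def BLaT1 : Ex := (tT1 (.var 0))

def BLaHn1 : Ex := (tHn BLaS BLau BLav BLaa BLab BLaT1)

def BLar0 : Ex := (.sub BLaS0 (.num 6000))

def BLaTA : Ex := (.add (.mul (.add (.mul (.add (.mul (.num 6937762) (.var 0)) (.add (.mul (.num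
  (-331966)) (.var 1)) (.add (.mul (.num 83801) (.var 2)) (.num (-3871211))))) (.var 0)) (.add
  (.mul (.add (.mul (.num (-120347)) (.var 1)) (.add (.mul (.num (-258926)) (.var 2)) (.num
  (-324648)))) (.var 1)) (.add (.mul (.add (.mul (.num 31316) (.var 2)) (.num (-135626))) (.var
  2)) (.num 86507)))) (.var 0)) (.add (.mul (.add (.mul (.add (.mul (.num (-2229)) (.var 1))
  (.add (.mul (.num (-1503)) (.var 2)) (.num 14756))) (.var 1)) (.add (.mul (.add (.mul (.num
  (-4198)) (.var 2)) (.num 51984)) (.var 2)) (.num 123487))) (.var 1)) (.add (.mul (.add (.mul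
  (.add (.mul (.num 465) (.var 2)) (.num (-9358))) (.var 2)) (.num 25885)) (.var 2)) (.num
  190510))))

def BLaGG : Ex := (.add (.mul (.add (.mul (.add (.mul (.add (.mul (.num 5053577) (.var 0)) (.add
  (.mul (.num (-3745514)) (.var 1)) (.add (.mul (.num 1817021) (.var 2)) (.num (-1422664)))))
  (.var 0)) (.add (.mul (.add (.mul (.num (-34042)) (.var 1)) (.add (.mul (.num 20072) (.var 2))
  (.num 472992))) (.var 1)) (.add (.mul (.add (.mul (.num (-262328)) (.var 2)) (.num 178394))
  (.var 2)) (.num (-1931512))))) (.var 0)) (.add (.mul (.add (.mul (.add (.mul (.num (-10086))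
  (.var 1)) (.add (.mul (.num (-16410)) (.var 2)) (.num 102391))) (.var 1)) (.add (.mul (.add
  (.mul (.num 96774) (.var 2)) (.num (-275116))) (.var 2)) (.num 45318))) (.var 1)) (.add (.mul
  (.add (.mul (.add (.mul (.num 31034) (.var 2)) (.num (-88139))) (.var 2)) (.num 54242)) (.var
  2)) (.num 226357)))) (.var 0)) (.add (.mul (.add (.mul (.add (.mul (.add (.mul (.num 143)
  (.var 1)) (.add (.mul (.num (-225)) (.var 2)) (.num 3684))) (.var 1)) (.add (.mul (.add (.mul
  (.num 2691) (.var 2)) (.num (-3037))) (.var 2)) (.num (-59891)))) (.var 1)) (.add (.mul (.add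
  (.mul (.add (.mul (.num (-5593)) (.var 2)) (.num 63471)) (.var 2)) (.num (-57537))) (.var 2))
  (.num 355230))) (.var 1)) (.add (.mul (.add (.mul (.add (.mul (.add (.mul (.num (-12197))
  (.var 2)) (.num 8097)) (.var 2)) (.num (-37926))) (.var 2)) (.num (-37316))) (.var 2)) (.num
  114447))))

def BLar1 : Ex := (.sub BLaS1 (.num 6000))

def BLaEG : Ex := (.add (.mul (.add (.mul (.add (.mul (.add (.mul (.num 14726942) (.var 0))
  (.add (.mul (.num 9323924) (.var 1)) (.add (.mul (.num 884687) (.var 2)) (.num (-11089880)))))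
  (.var 0)) (.add (.mul (.add (.mul (.num (-2532518)) (.var 1)) (.add (.mul (.num 510470) (.var
  2)) (.num (-3368476)))) (.var 1)) (.add (.mul (.add (.mul (.num (-27218)) (.var 2)) (.num
  (-519991))) (.var 2)) (.num 3065693)))) (.var 0)) (.add (.mul (.add (.mul (.add (.mul (.num
  1061749) (.var 1)) (.add (.mul (.num (-598599)) (.var 2)) (.num (-230794)))) (.var 1)) (.add
  (.mul (.add (.mul (.num 153091) (.var 2)) (.num (-51348))) (.var 2)) (.num 435242))) (.var 1))
  (.add (.mul (.add (.mul (.add (.mul (.num 1096) (.var 2)) (.num (-12341))) (.var 2)) (.num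
  73494)) (.var 2)) (.num (-349020))))) (.var 0)) (.add (.mul (.add (.mul (.add (.mul (.add
  (.mul (.num (-645736)) (.var 1)) (.add (.mul (.num 213308) (.var 2)) (.num 321360))) (.var 1))
  (.add (.mul (.add (.mul (.num (-34836)) (.var 2)) (.num 21213)) (.var 2)) (.num 69323))) (.var
  1)) (.add (.mul (.add (.mul (.add (.mul (.num (-6091)) (.var 2)) (.num (-26719))) (.var 2))
  (.num 6957)) (.var 2)) (.num (-50354)))) (.var 1)) (.add (.mul (.add (.mul (.add (.mul (.add
  (.mul (.num 3016) (.var 2)) (.num (-3205))) (.var 2)) (.num 12968)) (.var 2)) (.num (-2602)))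
  (.var 2)) (.num 21785))))

def BLaME : Ex := (.add (.mul (.add (.mul (.add (.mul (.num 182929) (.var 0)) (.add (.mul (.num
  (-22347)) (.var 1)) (.add (.mul (.num (-8678)) (.var 2)) (.num (-103709))))) (.var 0)) (.add
  (.mul (.add (.mul (.num (-665)) (.var 1)) (.add (.mul (.num (-12256)) (.var 2)) (.num
  (-29336)))) (.var 1)) (.add (.mul (.add (.mul (.num (-1691)) (.var 2)) (.num (-6198))) (.var
  2)) (.num 13260)))) (.var 0)) (.add (.mul (.add (.mul (.add (.mul (.num 114) (.var 1)) (.add
  (.mul (.num 2239) (.var 2)) (.num 1013))) (.var 1)) (.add (.mul (.add (.mul (.num 267) (.var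
  2)) (.num 7503)) (.var 2)) (.num 19638))) (.var 1)) (.add (.mul (.add (.mul (.add (.mul (.num
  (-115)) (.var 2)) (.num (-135))) (.var 2)) (.num 2920)) (.var 2)) (.num 5639))))

/-- Scaled by `1000000000000000000000000000000000000000000000000000`. -/
def BLaZl0 : Ex := (bZl (.var 0) BLaS BLau BLav BLaa BLab BLaZl BLaT0)

/-- Scaled by `1000000000000000000000000000000000000000000000000000`. -/
def BLaZu0 : Ex := (bZu (.var 0) BLaS BLau BLav BLaa BLab BLaZu BLaT0)

/-- Scaled by `20000000000000000000000000000000000000000`. -/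
def BLaXl0 : Ex := (bXl (.var 0) BLaS BLau BLav BLab BLaXl BLaHn0 BLaHd)

/-- Scaled by `100000000000000000000000000000000000000000000`. -/
def BLaYl0 : Ex := (bYl (.var 0) BLaS BLau BLav BLab BLaYl BLaHn0 BLaHd)

/-- Scaled by `2000000000000000000000000000000000000000000`. -/
def BLaQl0 : Ex := (bQl (.var 0) BLaS BLau BLav BLab BLaQl BLaHn0 BLaHd)

/-- Scaled by `20000000000000000000000000000000000000000`. -/
def BLaXu0 : Ex := (bXu (.var 0) BLaS BLau BLav BLab BLaXu BLaHn0 BLaHd)

/-- Scaled by `100000000000000000000000000000000000000000000`. -/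
def BLaYu0 : Ex := (bYu (.var 0) BLaS BLau BLav BLab BLaYu BLaHn0 BLaHd)

/-- Scaled by `2000000000000000000000000000000000000000000`. -/
def BLaQu0 : Ex := (bQu (.var 0) BLaS BLau BLav BLab BLaQu BLaHn0 BLaHd)

/-- Scaled by `1000000000000000000000000000000000000000000000000000`. -/
def BLaZl1 : Ex := (bZl (.var 0) BLaS BLau BLav BLaa BLab BLaZl BLaT1)

/-- Scaled by `1000000000000000000000000000000000000000000000000000`. -/
def BLaZu1 : Ex := (bZu (.var 0) BLaS BLau BLav BLaa BLab BLaZu BLaT1)

/-- Scaled by `20000000000000000000000000000000000000000`. -/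
def BLaXl1 : Ex := (bXl (.var 0) BLaS BLau BLav BLab BLaXl BLaHn1 BLaHd)

/-- Scaled by `100000000000000000000000000000000000000000000`. -/
def BLaYl1 : Ex := (bYl (.var 0) BLaS BLau BLav BLab BLaYl BLaHn1 BLaHd)

/-- Scaled by `2000000000000000000000000000000000000000000`. -/
def BLaQl1 : Ex := (bQl (.var 0) BLaS BLau BLav BLab BLaQl BLaHn1 BLaHd)

/-- Scaled by `20000000000000000000000000000000000000000`. -/
def BLaXu1 : Ex := (bXu (.var 0) BLaS BLau BLav BLab BLaXu BLaHn1 BLaHd)

/-- Scaled by `100000000000000000000000000000000000000000000`. -/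
def BLaYu1 : Ex := (bYu (.var 0) BLaS BLau BLav BLab BLaYu BLaHn1 BLaHd)

/-- Scaled by `2000000000000000000000000000000000000000000`. -/
def BLaQu1 : Ex := (bQu (.var 0) BLaS BLau BLav BLab BLaQu BLaHn1 BLaHd)

/-- Scaled by `156250000000000000000000000000000000000000000000000000000000000000000`. -/
def BLaTA0l : Ex := (.sub (qTA BLar0 BLav (.var 0) BLaXu BLaYl BLaZu BLaQu) (.mul (.num
  156250000000000000000000000000000000000000000000000000000000000000000) BLaTA))

/-- Scaled by `6250000000000000000000000000000000000000000000000000000000000`. -/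
def BLaGG0l : Ex := (.sub (qGG BLar0 BLav (.var 0) BLaXl) (.mul (.num
  6250000000000000000000000000000000000000000000000000000000) BLaGG))

/-- Scaled by `156250000000000000000000000000000000000000000000000000000000000000000`. -/
def BLaTA0u : Ex := (.sub (qTA BLar0 BLav (.var 0) BLaXu BLaYu BLaZu BLaQu) (.mul (.num
  156250000000000000000000000000000000000000000000000000000000000000000) BLaTA))

/-- Scaled by `6250000000000000000000000000000000000000000000000000000000000`. -/
def BLaGG0u : Ex := (.sub (qGG BLar0 BLav (.var 0) BLaXu) (.mul (.num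
  6250000000000000000000000000000000000000000000000000000000) BLaGG))

/-- Scaled by `156250000000000000000000000000000000000000000000000000000000000000000`. -/
def BLaTA1l : Ex := (.sub (qTA BLar1 BLav (.var 0) BLaXu BLaYl BLaZu BLaQu) (.mul (.num
  156250000000000000000000000000000000000000000000000000000000000000000) BLaTA))

/-- Scaled by `6250000000000000000000000000000000000000000000000000000000000`. -/
def BLaGG1l : Ex := (.sub (qGG BLar1 BLav (.var 0) BLaXl) (.mul (.num
  6250000000000000000000000000000000000000000000000000000000) BLaGG))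

/-- Scaled by `156250000000000000000000000000000000000000000000000000000000000000000`. -/
def BLaTA1u : Ex := (.sub (qTA BLar1 BLav (.var 0) BLaXu BLaYu BLaZu BLaQu) (.mul (.num
  156250000000000000000000000000000000000000000000000000000000000000000) BLaTA))

/-- Scaled by `6250000000000000000000000000000000000000000000000000000000000`. -/
def BLaGG1u : Ex := (.sub (qGG BLar1 BLav (.var 0) BLaXu) (.mul (.num
  6250000000000000000000000000000000000000000000000000000000) BLaGG))

/-- Scaled by `6250000000000000000000000000000000000000000000000000000`. -/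
def BLaEGul : Ex := (.sub (.mul (.num 625000000000000000000000000000000000000000000000000000)
  BLaEG) (qEG BLar1 BLav (.var 0) BLaXu BLaYl))

/-- Scaled by `6250000000000000000000000000000000000000000000000000000`. -/
def BLaEGll : Ex := (.add (.mul (.num 625000000000000000000000000000000000000000000000000000)
  BLaEG) (qEG BLar0 BLav (.var 0) BLaXl BLaYl))

/-- Scaled by `6250000000000000000000000000000000000000000000000000000`. -/
def BLaEGuu : Ex := (.sub (.mul (.num 625000000000000000000000000000000000000000000000000000)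
  BLaEG) (qEG BLar1 BLav (.var 0) BLaXu BLaYu))

/-- Scaled by `6250000000000000000000000000000000000000000000000000000`. -/
def BLaEGlu : Ex := (.add (.mul (.num 625000000000000000000000000000000000000000000000000000)
  BLaEG) (qEG BLar0 BLav (.var 0) BLaXl BLaYu))

/-- Scaled by `500000000000000000000000000000000000000000`. -/
def BLaMEnl : Ex := (.add (.mul (.num 50000000000000000000000000000000000000000) BLaME) (qME
  BLar1 BLav (.var 0) BLaXu BLaYl BLaZl BLaQl))

/-- Scaled by `500000000000000000000000000000000000000000`. -/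
def BLaMEpl : Ex := (.sub (.mul (.num 50000000000000000000000000000000000000000) BLaME) (qME
  BLar0 BLav (.var 0) BLaXl BLaYl BLaZu BLaQu))

/-- Scaled by `500000000000000000000000000000000000000000`. -/
def BLaMEnu : Ex := (.add (.mul (.num 50000000000000000000000000000000000000000) BLaME) (qME
  BLar1 BLav (.var 0) BLaXu BLaYu BLaZl BLaQl))

/-- Scaled by `500000000000000000000000000000000000000000`. -/
def BLaMEpu : Ex := (.sub (.mul (.num 50000000000000000000000000000000000000000) BLaME) (qME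
  BLar0 BLav (.var 0) BLaXl BLaYu BLaZu BLaQu))

/-- Scaled by `100000`. -/
def BLargXl : Ex := (.sub BLaXl (.num 900000))

/-- Scaled by `100000`. -/
def BLargXu : Ex := (.sub (.num 1200000) BLaXu)

/-- Scaled by `100000`. -/
def BLargYl : Ex := (.sub BLaYl (.num 9900000))

/-- Scaled by `100000`. -/
def BLargYu : Ex := (.sub (.num 14000000) BLaYu)

/-- Scaled by `100000`. -/
def BLargZl : Ex := (.sub BLaZl (.num (-1300000)))

/-- Scaled by `100000`. -/
def BLargZu : Ex := (.sub (.num (-500000)) BLaZu)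

/-- Scaled by `100000`. -/
def BLargQl : Ex := (.sub BLaQl (.num (-2500000)))

/-- Scaled by `100000`. -/
def BLargQu : Ex := (.sub (.num (-950000)) BLaQu)

/-- Scaled by `1`. -/
def BLagpos : Ex := (.sub BLaGG (.num 1))

/-- Scaled by `1`. -/
def BLaUpos : Ex := (.sub BLaU (.num 1))

/-- Scaled by `1250000000000000000000000000000000000`. -/
def BLaF : Ex := (.sub (tF (.var 0) BLav BLaS1 BLaTA BLaGG BLaEG BLaME BLaXl BLaYl) (.num 1))

/-- Scaled by `3200000000000000000000`. -/
def BLacut : Ex := (.sub (tCut (.var 0) BLaS BLaW BLaU BLaa BLab (.var 2)) (.num 1))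

def BLaC0 : ℕ → Chart
  | 0 => ⟨3, 20, 25, 109⟩
  | 1 => ⟨0, 41, 1, 102⟩
  | 2 => ⟨0, 501, 1, 500⟩
  | _ => ⟨0, 501, 1, 500⟩

def BLaC1 : ℕ → Chart
  | 0 => ⟨3, 20, 25, 109⟩
  | 1 => ⟨0, 41, 1, 102⟩
  | 2 => ⟨0, 1, 1, 2⟩
  | _ => ⟨0, 501, 1, 500⟩

def BLaC2 : ℕ → Chart
  | 0 => ⟨3, 20, 25, 109⟩
  | 1 => ⟨0, 41, 1, 102⟩
  | 2 => ⟨1, 501, 2, 500⟩
  | _ => ⟨0, 501, 1, 500⟩

def BLaC3 : ℕ → Chart
  | 0 => ⟨3, 20, 25, 109⟩
  | 1 => ⟨0, 1, 1, 5⟩
  | 2 => ⟨0, 501, 1, 500⟩
  | _ => ⟨0, 501, 1, 500⟩

def BLaC4 : ℕ → Chart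
  | 0 => ⟨3, 20, 25, 109⟩
  | 1 => ⟨1, 41, 5, 102⟩
  | 2 => ⟨0, 501, 1, 500⟩
  | _ => ⟨0, 501, 1, 500⟩

theorem BLaZl0_ok0 :
    checkFour BLaC0 392 11 5 5 6 BLaZl0 = true := by decide +kernel

theorem BLaZu0_ok0 :
    checkFour BLaC0 391 11 5 5 6 BLaZu0 = true := by decide +kernel

theorem BLaXl0_ok0 :
    checkFour BLaC0 329 10 5 5 4 BLaXl0 = true := by decide +kernel

theorem BLaYl0_ok0 :
    checkFour BLaC0 345 10 5 5 4 BLaYl0 = true := by decide +kernel

theorem BLaQl0_ok0 :
    checkFour BLaC0 343 11 5 5 4 BLaQl0 = true := by decide +kernel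

theorem BLaXu0_ok0 :
    checkFour BLaC0 329 10 5 5 4 BLaXu0 = true := by decide +kernel

theorem BLaYu0_ok0 :
    checkFour BLaC0 345 10 5 5 4 BLaYu0 = true := by decide +kernel

theorem BLaQu0_ok0 :
    checkFour BLaC0 343 11 5 5 4 BLaQu0 = true := by decide +kernel

theorem BLaZl1_ok0 :
    checkFour BLaC0 369 10 4 4 6 BLaZl1 = true := by decide +kernel

theorem BLaZu1_ok0 :
    checkFour BLaC0 369 10 4 4 6 BLaZu1 = true := by decide +kernel

theorem BLaXl1_ok0 :
    checkFour BLaC1 277 9 4 4 4 BLaXl1 = true := by decide +kernel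

theorem BLaXl1_ok1 :
    checkFour BLaC2 306 9 4 4 4 BLaXl1 = true := by decide +kernel

theorem BLaYl1_ok0 :
    checkFour BLaC0 322 9 4 4 4 BLaYl1 = true := by decide +kernel

theorem BLaQl1_ok0 :
    checkFour BLaC0 321 10 4 4 4 BLaQl1 = true := by decide +kernel

theorem BLaXu1_ok0 :
    checkFour BLaC0 306 9 4 4 4 BLaXu1 = true := by decide +kernel

theorem BLaYu1_ok0 :
    checkFour BLaC0 322 9 4 4 4 BLaYu1 = true := by decide +kernel

theorem BLaQu1_ok0 :
    checkFour BLaC0 321 10 4 4 4 BLaQu1 = true := by decide +kernel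

theorem BLaTA0l_ok0 :
    checkFour BLaC0 498 16 8 8 0 BLaTA0l = true := by decide +kernel

theorem BLaGG0l_ok0 :
    checkFour BLaC0 436 14 7 7 0 BLaGG0l = true := by decide +kernel

theorem BLaTA0u_ok0 :
    checkFour BLaC0 498 16 8 8 0 BLaTA0u = true := by decide +kernel

theorem BLaGG0u_ok0 :
    checkFour BLaC0 436 14 7 7 0 BLaGG0u = true := by decide +kernel

theorem BLaTA1l_ok0 :
    checkFour BLaC0 498 16 8 8 0 BLaTA1l = true := by decide +kernel

theorem BLaGG1l_ok0 :
    checkFour BLaC0 436 14 7 7 0 BLaGG1l = true := by decide +kernel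

theorem BLaTA1u_ok0 :
    checkFour BLaC0 498 16 8 8 0 BLaTA1u = true := by decide +kernel

theorem BLaGG1u_ok0 :
    checkFour BLaC0 436 14 7 7 0 BLaGG1u = true := by decide +kernel

theorem BLaEGul_ok0 :
    checkFour BLaC1 341 12 6 6 0 BLaEGul = true := by decide +kernel

theorem BLaEGul_ok1 :
    checkFour BLaC2 386 12 6 6 0 BLaEGul = true := by decide +kernel

theorem BLaEGll_ok0 :
    checkFour BLaC3 361 12 6 6 0 BLaEGll = true := by decide +kernel

theorem BLaEGll_ok1 :
    checkFour BLaC4 386 12 6 6 0 BLaEGll = true := by decide +kernel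

theorem BLaEGuu_ok0 :
    checkFour BLaC1 341 12 6 6 0 BLaEGuu = true := by decide +kernel

theorem BLaEGuu_ok1 :
    checkFour BLaC2 386 12 6 6 0 BLaEGuu = true := by decide +kernel

theorem BLaEGlu_ok0 :
    checkFour BLaC3 361 12 6 6 0 BLaEGlu = true := by decide +kernel

theorem BLaEGlu_ok1 :
    checkFour BLaC4 386 12 6 6 0 BLaEGlu = true := by decide +kernel

theorem BLaMEnl_ok0 :
    checkFour BLaC0 309 10 5 5 0 BLaMEnl = true := by decide +kernel

theorem BLaMEpl_ok0 :
    checkFour BLaC0 309 10 5 5 0 BLaMEpl = true := by decide +kernel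

theorem BLaMEnu_ok0 :
    checkFour BLaC0 309 10 5 5 0 BLaMEnu = true := by decide +kernel

theorem BLaMEpu_ok0 :
    checkFour BLaC0 309 10 5 5 0 BLaMEpu = true := by decide +kernel

theorem BLargXl_ok0 :
    checkFour BLaC0 68 2 2 2 0 BLargXl = true := by decide +kernel

theorem BLargXu_ok0 :
    checkFour BLaC0 68 2 2 2 0 BLargXu = true := by decide +kernel

theorem BLargYl_ok0 :
    checkFour BLaC0 71 2 2 2 0 BLargYl = true := by decide +kernel

theorem BLargYu_ok0 :
    checkFour BLaC0 72 2 2 2 0 BLargYu = true := by decide +kernel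

theorem BLargZl_ok0 :
    checkFour BLaC0 69 2 2 2 0 BLargZl = true := by decide +kernel

theorem BLargZu_ok0 :
    checkFour BLaC0 68 2 2 2 0 BLargZu = true := by decide +kernel

theorem BLargQl_ok0 :
    checkFour BLaC0 69 2 2 2 0 BLargQl = true := by decide +kernel

theorem BLargQu_ok0 :
    checkFour BLaC0 69 2 2 2 0 BLargQu = true := by decide +kernel

theorem BLagpos_ok0 :
    checkFour BLaC0 112 4 4 4 0 BLagpos = true := by decide +kernel

theorem BLaUpos_ok0 :
    checkFour BLaC0 30 1 1 0 0 BLaUpos = true := by decide +kernel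

theorem BLaF_ok0 :
    checkFour BLaC0 534 18 15 15 0 BLaF = true := by decide +kernel

theorem BLacut_ok0 :
    checkFour BLaC3 169 7 2 2 2 BLacut = true := by decide +kernel

theorem BLacut_ok1 :
    checkFour BLaC4 178 7 2 2 2 BLacut = true := by decide +kernel

end Vale.Agent.P100.Calib.NegCert
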