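import Mathlib
import Vale.Agent.P100.Pack.FastFour
import Vale.Agent.P100.Calib.NegCert.Coef
import Vale.Agent.P100.Calib.NegCert.Tpl

/-!
# Piece BLb of the region `u ≤ 0`: data and checks
-/

set_option linter.unusedVariables false

namespace Vale.Agent.P100.Calib.NegCert

open Pack

def BLbS0 : Ex := (.num 6028)

def BLbS1 : Ex := (.num 6056)

def BLbS : Ex := (.add BLbS0 (.mul (.var 3) (.sub BLbS1 BLbS0)))

def BLbU : Ex := (.add (.mul (.add (.mul (.num (-4020)) (.var 1)) (.num 24803)) (.var 0)) (.add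
  (.mul (.num 13442) (.var 1)) (.num 22156)))

def BLbu : Ex := (.sub (.num 0) (.mul (.var 2) BLbU))

def BLbW0 : Ex := (.sub (.add (.num 9560) (.mul (.num 625) (.var 0))) BLbS1)

def BLbW : Ex := (.add BLbW0 (.mul (.var 1) (.sub (.sub (.num 5600) (.mul (.num 500) (.var 0)))
  BLbW0)))

def BLbv : Ex := (.add (.mul (.num 500) BLbW) (.mul (.num 9) BLbu))

def BLba : Ex := (.sub BLbS (.mul (.num 10000) (.var 0)))

def BLbb : Ex := (.add BLbS (.mul (.num 10000) (.var 0)))

def BLbZl : Ex := (.add (.mul (.add (.mul (.num (-4245382)) (.var 0)) (.add (.mul (.num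
  (-222917)) (.var 1)) (.add (.mul (.num 1502480) (.var 2)) (.num 2705297)))) (.var 0)) (.add
  (.mul (.add (.mul (.num (-7730)) (.var 1)) (.add (.mul (.num (-107600)) (.var 2)) (.num
  32703))) (.var 1)) (.add (.mul (.add (.mul (.num (-20595)) (.var 2)) (.num (-437772))) (.var
  2)) (.num (-1097842)))))

def BLbT0 : Ex := (tT0 (.var 0) BLbu)

def BLbZu : Ex := (.add (.mul (.add (.mul (.num (-6857320)) (.var 0)) (.add (.mul (.num
  (-764882)) (.var 1)) (.add (.mul (.num (-64249)) (.var 2)) (.num 2816084)))) (.var 0)) (.add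
  (.mul (.add (.mul (.num (-3139)) (.var 1)) (.add (.mul (.num 37528) (.var 2)) (.num 108963)))
  (.var 1)) (.add (.mul (.add (.mul (.num 37363) (.var 2)) (.num (-12517))) (.var 2)) (.num
  (-886880)))))

def BLbXl : Ex := (.add (.mul (.add (.mul (.num 1564161) (.var 0)) (.add (.mul (.num (-111306))
  (.var 1)) (.add (.mul (.num 77163) (.var 2)) (.num (-1606019))))) (.var 0)) (.add (.mul (.add
  (.mul (.num (-2606)) (.var 1)) (.add (.mul (.num (-6108)) (.var 2)) (.num 134948))) (.var 1))
  (.add (.mul (.add (.mul (.num (-38672)) (.var 2)) (.num 7837)) (.var 2)) (.num 1173499))))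

def BLbHn0 : Ex := (tHn BLbS BLbu BLbv BLba BLbb BLbT0)

def BLbHd : Ex := (tBCH BLbb BLbS)

def BLbYl : Ex := (.add (.mul (.add (.mul (.num 687877) (.var 0)) (.add (.mul (.num (-75593))
  (.var 1)) (.add (.mul (.num 968465) (.var 2)) (.num 220878)))) (.var 0)) (.add (.mul (.add
  (.mul (.num 18006) (.var 1)) (.add (.mul (.num 1236915) (.var 2)) (.num 43875))) (.var 1))
  (.add (.mul (.add (.mul (.num (-21734)) (.var 2)) (.num 2226370)) (.var 2)) (.num 10089870))))

def BLbQl : Ex := (.add (.mul (.add (.mul (.num (-704500)) (.var 0)) (.add (.mul (.num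
  (-569638)) (.var 1)) (.add (.mul (.num (-2638927)) (.var 2)) (.num (-8799493))))) (.var 0))
  (.add (.mul (.add (.mul (.num (-2905)) (.var 1)) (.add (.mul (.num (-171515)) (.var 2)) (.num
  87606))) (.var 1)) (.add (.mul (.add (.mul (.num 261) (.var 2)) (.num 75526)) (.var 2)) (.num
  13590))))

def BLbXu : Ex := (.add (.mul (.add (.mul (.num 1328492) (.var 0)) (.add (.mul (.num (-211494))
  (.var 1)) (.add (.mul (.num (-128307)) (.var 2)) (.num (-1501400))))) (.var 0)) (.add (.mul
  (.add (.mul (.num 5911) (.var 1)) (.add (.mul (.num 32082) (.var 2)) (.num 143368))) (.var 1))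
  (.add (.mul (.add (.mul (.num (-6336)) (.var 2)) (.num 45835)) (.var 2)) (.num 1168673))))

def BLbYu : Ex := (.add (.mul (.add (.mul (.num 361336) (.var 0)) (.add (.mul (.num (-59688))
  (.var 1)) (.add (.mul (.num 1034920) (.var 2)) (.num 314575)))) (.var 0)) (.add (.mul (.add
  (.mul (.num 20429) (.var 1)) (.add (.mul (.num 1261111) (.var 2)) (.num 40134))) (.var 1))
  (.add (.mul (.add (.mul (.num (-5967)) (.var 2)) (.num 2228829)) (.var 2)) (.num 10162749))))

def BLbQu : Ex := (.add (.mul (.add (.mul (.num (-709307)) (.var 0)) (.add (.mul (.num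
  (-553641)) (.var 1)) (.add (.mul (.num (-2594852)) (.var 2)) (.num (-8736879))))) (.var 0))
  (.add (.mul (.add (.mul (.num (-2309)) (.var 1)) (.add (.mul (.num (-167582)) (.var 2)) (.num
  84943))) (.var 1)) (.add (.mul (.add (.mul (.num 3823) (.var 2)) (.num 69551)) (.var 2)) (.num
  21979))))

def BLbT1 : Ex := (tT1 (.var 0))

def BLbHn1 : Ex := (tHn BLbS BLbu BLbv BLba BLbb BLbT1)

def BLbr0 : Ex := (.sub BLbS0 (.num 6000))

def BLbTA : Ex := (.add (.mul (.add (.mul (.add (.mul (.num 6911468) (.var 0)) (.add (.mul (.num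
  (-353824)) (.var 1)) (.add (.mul (.num 79959) (.var 2)) (.num (-3861745))))) (.var 0)) (.add
  (.mul (.add (.mul (.num (-124930)) (.var 1)) (.add (.mul (.num (-262427)) (.var 2)) (.num
  (-325278)))) (.var 1)) (.add (.mul (.add (.mul (.num 31044) (.var 2)) (.num (-132306))) (.var
  2)) (.num 88203)))) (.var 0)) (.add (.mul (.add (.mul (.add (.mul (.num (-2433)) (.var 1))
  (.add (.mul (.num (-1539)) (.var 2)) (.num 15362))) (.var 1)) (.add (.mul (.add (.mul (.num
  (-4234)) (.var 2)) (.num 52700)) (.var 2)) (.num 125593))) (.var 1)) (.add (.mul (.add (.mul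
  (.add (.mul (.num 446) (.var 2)) (.num (-9226))) (.var 2)) (.num 25295)) (.var 2)) (.num
  190241))))

def BLbGG : Ex := (.add (.mul (.add (.mul (.add (.mul (.add (.mul (.num 4890920) (.var 0)) (.add
  (.mul (.num (-3785793)) (.var 1)) (.add (.mul (.num 1780344) (.var 2)) (.num (-1330468)))))
  (.var 0)) (.add (.mul (.add (.mul (.num (-36321)) (.var 1)) (.add (.mul (.num 26982) (.var 2))
  (.num 461268))) (.var 1)) (.add (.mul (.add (.mul (.num (-251795)) (.var 2)) (.num 173291))
  (.var 2)) (.num (-1915971))))) (.var 0)) (.add (.mul (.add (.mul (.add (.mul (.num (-11113))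
  (.var 1)) (.add (.mul (.num (-18010)) (.var 2)) (.num 105132))) (.var 1)) (.add (.mul (.add
  (.mul (.num 98484) (.var 2)) (.num (-277900))) (.var 2)) (.num 52474))) (.var 1)) (.add (.mul
  (.add (.mul (.add (.mul (.num 30606) (.var 2)) (.num (-87888))) (.var 2)) (.num 53132)) (.var
  2)) (.num 223205)))) (.var 0)) (.add (.mul (.add (.mul (.add (.mul (.add (.mul (.num 134)
  (.var 1)) (.add (.mul (.num (-199)) (.var 2)) (.num 3423))) (.var 1)) (.add (.mul (.add (.mul
  (.num 2992) (.var 2)) (.num (-3677))) (.var 2)) (.num (-60997)))) (.var 1)) (.add (.mul (.add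
  (.mul (.add (.mul (.num (-5425)) (.var 2)) (.num 63409)) (.var 2)) (.num (-58661))) (.var 2))
  (.num 360532))) (.var 1)) (.add (.mul (.add (.mul (.add (.mul (.add (.mul (.num (-11834))
  (.var 2)) (.num 8006)) (.var 2)) (.num (-37020))) (.var 2)) (.num (-36793))) (.var 2)) (.num
  115014))))

def BLbr1 : Ex := (.sub BLbS1 (.num 6000))

def BLbEG : Ex := (.add (.mul (.add (.mul (.add (.mul (.add (.mul (.num 28732503) (.var 0))
  (.add (.mul (.num 10502151) (.var 1)) (.add (.mul (.num 943626) (.var 2)) (.num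
  (-20177388))))) (.var 0)) (.add (.mul (.add (.mul (.num (-2957634)) (.var 1)) (.add (.mul
  (.num 451191) (.var 2)) (.num (-3728256)))) (.var 1)) (.add (.mul (.add (.mul (.num 29943)
  (.var 2)) (.num (-579525))) (.var 2)) (.num 5220568)))) (.var 0)) (.add (.mul (.add (.mul
  (.add (.mul (.num 1407334) (.var 1)) (.add (.mul (.num (-581044)) (.var 2)) (.num (-314732))))
  (.var 1)) (.add (.mul (.add (.mul (.num 130556) (.var 2)) (.num (-22429))) (.var 2)) (.num
  486439))) (.var 1)) (.add (.mul (.add (.mul (.add (.mul (.num 1081) (.var 2)) (.num (-24101)))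
  (.var 2)) (.num 82679)) (.var 2)) (.num (-570561))))) (.var 0)) (.add (.mul (.add (.mul (.add
  (.mul (.add (.mul (.num (-770667)) (.var 1)) (.add (.mul (.num 218852) (.var 2)) (.num
  355355))) (.var 1)) (.add (.mul (.add (.mul (.num (-25699)) (.var 2)) (.num 10282)) (.var 2))
  (.num 80336))) (.var 1)) (.add (.mul (.add (.mul (.add (.mul (.num (-4618)) (.var 2)) (.num
  (-29661))) (.var 2)) (.num 8400)) (.var 2)) (.num (-54225)))) (.var 1)) (.add (.mul (.add
  (.mul (.add (.mul (.add (.mul (.num 3224) (.var 2)) (.num (-4210))) (.var 2)) (.num 14493))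
  (.var 2)) (.num (-3311))) (.var 2)) (.num 30096))))

def BLbME : Ex := (.add (.mul (.add (.mul (.add (.mul (.num 181663) (.var 0)) (.add (.mul (.num
  (-22697)) (.var 1)) (.add (.mul (.num (-8815)) (.var 2)) (.num (-103267))))) (.var 0)) (.add
  (.mul (.add (.mul (.num (-622)) (.var 1)) (.add (.mul (.num (-12274)) (.var 2)) (.num
  (-29657)))) (.var 1)) (.add (.mul (.add (.mul (.num (-1666)) (.var 2)) (.num (-6032))) (.var
  2)) (.num 13424)))) (.var 0)) (.add (.mul (.add (.mul (.add (.mul (.num 119) (.var 1)) (.add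
  (.mul (.num 2312) (.var 2)) (.num 1041))) (.var 1)) (.add (.mul (.add (.mul (.num 273) (.var
  2)) (.num 7567)) (.var 2)) (.num 19983))) (.var 1)) (.add (.mul (.add (.mul (.add (.mul (.num
  (-115)) (.var 2)) (.num (-137))) (.var 2)) (.num 2888)) (.var 2)) (.num 5533))))

/-- Scaled by `1000000000000000000000000000000000000000000000000000`. -/
def BLbZl0 : Ex := (bZl (.var 0) BLbS BLbu BLbv BLba BLbb BLbZl BLbT0)

/-- Scaled by `1000000000000000000000000000000000000000000000000000`. -/
def BLbZu0 : Ex := (bZu (.var 0) BLbS BLbu BLbv BLba BLbb BLbZu BLbT0)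

/-- Scaled by `20000000000000000000000000000000000000000`. -/
def BLbXl0 : Ex := (bXl (.var 0) BLbS BLbu BLbv BLbb BLbXl BLbHn0 BLbHd)

/-- Scaled by `100000000000000000000000000000000000000000000`. -/
def BLbYl0 : Ex := (bYl (.var 0) BLbS BLbu BLbv BLbb BLbYl BLbHn0 BLbHd)

/-- Scaled by `2000000000000000000000000000000000000000000`. -/
def BLbQl0 : Ex := (bQl (.var 0) BLbS BLbu BLbv BLbb BLbQl BLbHn0 BLbHd)

/-- Scaled by `20000000000000000000000000000000000000000`. -/
def BLbXu0 : Ex := (bXu (.var 0) BLbS BLbu BLbv BLbb BLbXu BLbHn0 BLbHd)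

/-- Scaled by `100000000000000000000000000000000000000000000`. -/
def BLbYu0 : Ex := (bYu (.var 0) BLbS BLbu BLbv BLbb BLbYu BLbHn0 BLbHd)

/-- Scaled by `2000000000000000000000000000000000000000000`. -/
def BLbQu0 : Ex := (bQu (.var 0) BLbS BLbu BLbv BLbb BLbQu BLbHn0 BLbHd)

/-- Scaled by `1000000000000000000000000000000000000000000000000000`. -/
def BLbZl1 : Ex := (bZl (.var 0) BLbS BLbu BLbv BLba BLbb BLbZl BLbT1)

/-- Scaled by `1000000000000000000000000000000000000000000000000000`. -/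
def BLbZu1 : Ex := (bZu (.var 0) BLbS BLbu BLbv BLba BLbb BLbZu BLbT1)

/-- Scaled by `20000000000000000000000000000000000000000`. -/
def BLbXl1 : Ex := (bXl (.var 0) BLbS BLbu BLbv BLbb BLbXl BLbHn1 BLbHd)

/-- Scaled by `100000000000000000000000000000000000000000000`. -/
def BLbYl1 : Ex := (bYl (.var 0) BLbS BLbu BLbv BLbb BLbYl BLbHn1 BLbHd)

/-- Scaled by `2000000000000000000000000000000000000000000`. -/
def BLbQl1 : Ex := (bQl (.var 0) BLbS BLbu BLbv BLbb BLbQl BLbHn1 BLbHd)

/-- Scaled by `20000000000000000000000000000000000000000`. -/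
def BLbXu1 : Ex := (bXu (.var 0) BLbS BLbu BLbv BLbb BLbXu BLbHn1 BLbHd)

/-- Scaled by `100000000000000000000000000000000000000000000`. -/
def BLbYu1 : Ex := (bYu (.var 0) BLbS BLbu BLbv BLbb BLbYu BLbHn1 BLbHd)

/-- Scaled by `2000000000000000000000000000000000000000000`. -/
def BLbQu1 : Ex := (bQu (.var 0) BLbS BLbu BLbv BLbb BLbQu BLbHn1 BLbHd)

/-- Scaled by `156250000000000000000000000000000000000000000000000000000000000000000`. -/
def BLbTA0l : Ex := (.sub (qTA BLbr0 BLbv (.var 0) BLbXu BLbYl BLbZu BLbQu) (.mul (.num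
  156250000000000000000000000000000000000000000000000000000000000000000) BLbTA))

/-- Scaled by `6250000000000000000000000000000000000000000000000000000000000`. -/
def BLbGG0l : Ex := (.sub (qGG BLbr0 BLbv (.var 0) BLbXl) (.mul (.num
  6250000000000000000000000000000000000000000000000000000000) BLbGG))

/-- Scaled by `156250000000000000000000000000000000000000000000000000000000000000000`. -/
def BLbTA0u : Ex := (.sub (qTA BLbr0 BLbv (.var 0) BLbXu BLbYu BLbZu BLbQu) (.mul (.num
  156250000000000000000000000000000000000000000000000000000000000000000) BLbTA))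

/-- Scaled by `6250000000000000000000000000000000000000000000000000000000000`. -/
def BLbGG0u : Ex := (.sub (qGG BLbr0 BLbv (.var 0) BLbXu) (.mul (.num
  6250000000000000000000000000000000000000000000000000000000) BLbGG))

/-- Scaled by `156250000000000000000000000000000000000000000000000000000000000000000`. -/
def BLbTA1l : Ex := (.sub (qTA BLbr1 BLbv (.var 0) BLbXu BLbYl BLbZu BLbQu) (.mul (.num
  156250000000000000000000000000000000000000000000000000000000000000000) BLbTA))

/-- Scaled by `6250000000000000000000000000000000000000000000000000000000000`. -/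
def BLbGG1l : Ex := (.sub (qGG BLbr1 BLbv (.var 0) BLbXl) (.mul (.num
  6250000000000000000000000000000000000000000000000000000000) BLbGG))

/-- Scaled by `156250000000000000000000000000000000000000000000000000000000000000000`. -/
def BLbTA1u : Ex := (.sub (qTA BLbr1 BLbv (.var 0) BLbXu BLbYu BLbZu BLbQu) (.mul (.num
  156250000000000000000000000000000000000000000000000000000000000000000) BLbTA))

/-- Scaled by `6250000000000000000000000000000000000000000000000000000000000`. -/
def BLbGG1u : Ex := (.sub (qGG BLbr1 BLbv (.var 0) BLbXu) (.mul (.num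
  6250000000000000000000000000000000000000000000000000000000) BLbGG))

/-- Scaled by `6250000000000000000000000000000000000000000000000000000`. -/
def BLbEGul : Ex := (.sub (.mul (.num 625000000000000000000000000000000000000000000000000000)
  BLbEG) (qEG BLbr1 BLbv (.var 0) BLbXu BLbYl))

/-- Scaled by `6250000000000000000000000000000000000000000000000000000`. -/
def BLbEGll : Ex := (.add (.mul (.num 625000000000000000000000000000000000000000000000000000)
  BLbEG) (qEG BLbr0 BLbv (.var 0) BLbXl BLbYl))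

/-- Scaled by `6250000000000000000000000000000000000000000000000000000`. -/
def BLbEGuu : Ex := (.sub (.mul (.num 625000000000000000000000000000000000000000000000000000)
  BLbEG) (qEG BLbr1 BLbv (.var 0) BLbXu BLbYu))

/-- Scaled by `6250000000000000000000000000000000000000000000000000000`. -/
def BLbEGlu : Ex := (.add (.mul (.num 625000000000000000000000000000000000000000000000000000)
  BLbEG) (qEG BLbr0 BLbv (.var 0) BLbXl BLbYu))

/-- Scaled by `500000000000000000000000000000000000000000`. -/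
def BLbMEnl : Ex := (.add (.mul (.num 50000000000000000000000000000000000000000) BLbME) (qME
  BLbr1 BLbv (.var 0) BLbXu BLbYl BLbZl BLbQl))

/-- Scaled by `500000000000000000000000000000000000000000`. -/
def BLbMEpl : Ex := (.sub (.mul (.num 50000000000000000000000000000000000000000) BLbME) (qME
  BLbr0 BLbv (.var 0) BLbXl BLbYl BLbZu BLbQu))

/-- Scaled by `500000000000000000000000000000000000000000`. -/
def BLbMEnu : Ex := (.add (.mul (.num 50000000000000000000000000000000000000000) BLbME) (qME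
  BLbr1 BLbv (.var 0) BLbXu BLbYu BLbZl BLbQl))

/-- Scaled by `500000000000000000000000000000000000000000`. -/
def BLbMEpu : Ex := (.sub (.mul (.num 50000000000000000000000000000000000000000) BLbME) (qME
  BLbr0 BLbv (.var 0) BLbXl BLbYu BLbZu BLbQu))

/-- Scaled by `100000`. -/
def BLbrgXl : Ex := (.sub BLbXl (.num 900000))

/-- Scaled by `100000`. -/
def BLbrgXu : Ex := (.sub (.num 1200000) BLbXu)

/-- Scaled by `100000`. -/
def BLbrgYl : Ex := (.sub BLbYl (.num 9900000))

/-- Scaled by `100000`. -/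
def BLbrgYu : Ex := (.sub (.num 14000000) BLbYu)

/-- Scaled by `100000`. -/
def BLbrgZl : Ex := (.sub BLbZl (.num (-1300000)))

/-- Scaled by `100000`. -/
def BLbrgZu : Ex := (.sub (.num (-500000)) BLbZu)

/-- Scaled by `100000`. -/
def BLbrgQl : Ex := (.sub BLbQl (.num (-2500000)))

/-- Scaled by `100000`. -/
def BLbrgQu : Ex := (.sub (.num (-950000)) BLbQu)

/-- Scaled by `1`. -/
def BLbgpos : Ex := (.sub BLbGG (.num 1))

/-- Scaled by `1`. -/
def BLbUpos : Ex := (.sub BLbU (.num 1))

/-- Scaled by `1250000000000000000000000000000000000`. -/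
def BLbF : Ex := (.sub (tF (.var 0) BLbv BLbS1 BLbTA BLbGG BLbEG BLbME BLbXl BLbYl) (.num 1))

/-- Scaled by `3200000000000000000000`. -/
def BLbcut : Ex := (.sub (tCut (.var 0) BLbS BLbW BLbU BLba BLbb (.var 2)) (.num 1))

def BLbC0 : ℕ → Chart
  | 0 => ⟨3, 20, 25, 109⟩
  | 1 => ⟨0, 41, 1, 102⟩
  | 2 => ⟨0, 501, 1, 500⟩
  | _ => ⟨0, 501, 1, 500⟩

def BLbC1 : ℕ → Chart
  | 0 => ⟨3, 20, 25, 109⟩
  | 1 => ⟨0, 41, 1, 102⟩
  | 2 => ⟨0, 1, 1, 2⟩
  | _ => ⟨0, 501, 1, 500⟩

def BLbC2 : ℕ → Chart
  | 0 => ⟨3, 20, 25, 109⟩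
  | 1 => ⟨0, 41, 1, 102⟩
  | 2 => ⟨1, 501, 2, 500⟩
  | _ => ⟨0, 501, 1, 500⟩

def BLbC3 : ℕ → Chart
  | 0 => ⟨3, 20, 25, 109⟩
  | 1 => ⟨0, 1, 1, 5⟩
  | 2 => ⟨0, 501, 1, 500⟩
  | _ => ⟨0, 501, 1, 500⟩

def BLbC4 : ℕ → Chart
  | 0 => ⟨3, 20, 25, 109⟩
  | 1 => ⟨1, 41, 5, 102⟩
  | 2 => ⟨0, 501, 1, 500⟩
  | _ => ⟨0, 501, 1, 500⟩

theorem BLbZl0_ok0 :
    checkFour BLbC0 392 11 5 5 6 BLbZl0 = true := by decide +kernel

theorem BLbZu0_ok0 :
    checkFour BLbC0 392 11 5 5 6 BLbZu0 = true := by decide +kernel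

theorem BLbXl0_ok0 :
    checkFour BLbC0 329 10 5 5 4 BLbXl0 = true := by decide +kernel

theorem BLbYl0_ok0 :
    checkFour BLbC0 345 10 5 5 4 BLbYl0 = true := by decide +kernel

theorem BLbQl0_ok0 :
    checkFour BLbC0 343 11 5 5 4 BLbQl0 = true := by decide +kernel

theorem BLbXu0_ok0 :
    checkFour BLbC0 329 10 5 5 4 BLbXu0 = true := by decide +kernel

theorem BLbYu0_ok0 :
    checkFour BLbC0 345 10 5 5 4 BLbYu0 = true := by decide +kernel

theorem BLbQu0_ok0 :
    checkFour BLbC0 343 11 5 5 4 BLbQu0 = true := by decide +kernel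

theorem BLbZl1_ok0 :
    checkFour BLbC0 369 10 4 4 6 BLbZl1 = true := by decide +kernel

theorem BLbZu1_ok0 :
    checkFour BLbC0 369 10 4 4 6 BLbZu1 = true := by decide +kernel

theorem BLbXl1_ok0 :
    checkFour BLbC1 277 9 4 4 4 BLbXl1 = true := by decide +kernel

theorem BLbXl1_ok1 :
    checkFour BLbC2 306 9 4 4 4 BLbXl1 = true := by decide +kernel

theorem BLbYl1_ok0 :
    checkFour BLbC0 322 9 4 4 4 BLbYl1 = true := by decide +kernel

theorem BLbQl1_ok0 :
    checkFour BLbC0 321 10 4 4 4 BLbQl1 = true := by decide +kernel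

theorem BLbXu1_ok0 :
    checkFour BLbC0 306 9 4 4 4 BLbXu1 = true := by decide +kernel

theorem BLbYu1_ok0 :
    checkFour BLbC0 322 9 4 4 4 BLbYu1 = true := by decide +kernel

theorem BLbQu1_ok0 :
    checkFour BLbC0 321 10 4 4 4 BLbQu1 = true := by decide +kernel

theorem BLbTA0l_ok0 :
    checkFour BLbC0 498 16 8 8 0 BLbTA0l = true := by decide +kernel

theorem BLbGG0l_ok0 :
    checkFour BLbC0 436 14 7 7 0 BLbGG0l = true := by decide +kernel

theorem BLbTA0u_ok0 :
    checkFour BLbC0 498 16 8 8 0 BLbTA0u = true := by decide +kernel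

theorem BLbGG0u_ok0 :
    checkFour BLbC0 436 14 7 7 0 BLbGG0u = true := by decide +kernel

theorem BLbTA1l_ok0 :
    checkFour BLbC0 498 16 8 8 0 BLbTA1l = true := by decide +kernel

theorem BLbGG1l_ok0 :
    checkFour BLbC0 436 14 7 7 0 BLbGG1l = true := by decide +kernel

theorem BLbTA1u_ok0 :
    checkFour BLbC0 498 16 8 8 0 BLbTA1u = true := by decide +kernel

theorem BLbGG1u_ok0 :
    checkFour BLbC0 436 14 7 7 0 BLbGG1u = true := by decide +kernel

theorem BLbEGul_ok0 :
    checkFour BLbC3 361 12 6 6 0 BLbEGul = true := by decide +kernel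

theorem BLbEGul_ok1 :
    checkFour BLbC4 386 12 6 6 0 BLbEGul = true := by decide +kernel

theorem BLbEGll_ok0 :
    checkFour BLbC3 361 12 6 6 0 BLbEGll = true := by decide +kernel

theorem BLbEGll_ok1 :
    checkFour BLbC4 386 12 6 6 0 BLbEGll = true := by decide +kernel

theorem BLbEGuu_ok0 :
    checkFour BLbC3 361 12 6 6 0 BLbEGuu = true := by decide +kernel

theorem BLbEGuu_ok1 :
    checkFour BLbC4 386 12 6 6 0 BLbEGuu = true := by decide +kernel

theorem BLbEGlu_ok0 :
    checkFour BLbC3 361 12 6 6 0 BLbEGlu = true := by decide +kernel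

theorem BLbEGlu_ok1 :
    checkFour BLbC4 386 12 6 6 0 BLbEGlu = true := by decide +kernel

theorem BLbMEnl_ok0 :
    checkFour BLbC0 309 10 5 5 0 BLbMEnl = true := by decide +kernel

theorem BLbMEpl_ok0 :
    checkFour BLbC0 309 10 5 5 0 BLbMEpl = true := by decide +kernel

theorem BLbMEnu_ok0 :
    checkFour BLbC0 309 10 5 5 0 BLbMEnu = true := by decide +kernel

theorem BLbMEpu_ok0 :
    checkFour BLbC0 309 10 5 5 0 BLbMEpu = true := by decide +kernel

theorem BLbrgXl_ok0 :
    checkFour BLbC0 68 2 2 2 0 BLbrgXl = true := by decide +kernel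

theorem BLbrgXu_ok0 :
    checkFour BLbC0 68 2 2 2 0 BLbrgXu = true := by decide +kernel

theorem BLbrgYl_ok0 :
    checkFour BLbC0 71 2 2 2 0 BLbrgYl = true := by decide +kernel

theorem BLbrgYu_ok0 :
    checkFour BLbC0 72 2 2 2 0 BLbrgYu = true := by decide +kernel

theorem BLbrgZl_ok0 :
    checkFour BLbC0 69 2 2 2 0 BLbrgZl = true := by decide +kernel

theorem BLbrgZu_ok0 :
    checkFour BLbC0 68 2 2 2 0 BLbrgZu = true := by decide +kernel

theorem BLbrgQl_ok0 :
    checkFour BLbC0 69 2 2 2 0 BLbrgQl = true := by decide +kernel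

theorem BLbrgQu_ok0 :
    checkFour BLbC0 69 2 2 2 0 BLbrgQu = true := by decide +kernel

theorem BLbgpos_ok0 :
    checkFour BLbC0 112 4 4 4 0 BLbgpos = true := by decide +kernel

theorem BLbUpos_ok0 :
    checkFour BLbC0 30 1 1 0 0 BLbUpos = true := by decide +kernel

theorem BLbF_ok0 :
    checkFour BLbC0 535 18 15 15 0 BLbF = true := by decide +kernel

theorem BLbcut_ok0 :
    checkFour BLbC3 169 7 2 2 2 BLbcut = true := by decide +kernel

theorem BLbcut_ok1 :
    checkFour BLbC4 178 7 2 2 2 BLbcut = true := by decide +kernel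

end Vale.Agent.P100.Calib.NegCert
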