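import Mathlib
import Vale.Agent.P100.Calib.NegCert.PieceBLb
import Vale.Agent.P100.Calib.NegCert.PieceLib

/-!
# The closed signs on piece BLb
-/

set_option linter.unusedVariables false

namespace Vale.Agent.P100.Calib.NegCert

open Pack

theorem BLb_box0 {e : Ex} {d ω σ l : ℝ} {K0 a0 b0 c0 e0 : ℕ} (d₀ : (3 / 25 : ℝ) ≤ d) (d₁ : d <
    (20 / 109 : ℝ)) (ω₀ : (0 : ℝ) ≤ ω) (ω₁ : ω < (41 / 102 : ℝ)) (σ₀ : (0 : ℝ) ≤ σ) (σ₁ : σ <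
    (501 / 500 : ℝ)) (l₀ : (0 : ℝ) ≤ l) (l₁ : l < (501 / 500 : ℝ)) (h0 : checkFour BLbC0 K0 a0
    b0 c0 e0 e = true) : 0 ≤ e.eval (pt d ω σ l) := by
  exact nonneg_of_checkFour h0 (mem4 (by decide) (by decide) (by decide) (by decide)
    (by norm_num [InChart, BLbC0]; constructor <;> linarith)
    (by norm_num [InChart, BLbC0]; constructor <;> linarith)
    (by norm_num [InChart, BLbC0]; constructor <;> linarith)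
    (by norm_num [InChart, BLbC0]; constructor <;> linarith))

theorem BLb_box1 {e : Ex} {d ω σ l : ℝ} {K0 a0 b0 c0 e0 : ℕ} {K1 a1 b1 c1 e1 : ℕ} (d₀ : (3 / 25
    : ℝ) ≤ d) (d₁ : d < (20 / 109 : ℝ)) (ω₀ : (0 : ℝ) ≤ ω) (ω₁ : ω < (41 / 102 : ℝ)) (σ₀ : (0 :
    ℝ) ≤ σ) (σ₁ : σ < (501 / 500 : ℝ)) (l₀ : (0 : ℝ) ≤ l) (l₁ : l < (501 / 500 : ℝ)) (h0 :
    checkFour BLbC1 K0 a0 b0 c0 e0 e = true) (h1 : checkFour BLbC2 K1 a1 b1 c1 e1 e = true) : 0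
    ≤ e.eval (pt d ω σ l) := by
  rcases lt_or_ge σ (1 / 2 : ℝ) with h | h
  ·
    exact nonneg_of_checkFour h0 (mem4 (by decide) (by decide) (by decide) (by decide)
      (by norm_num [InChart, BLbC1]; constructor <;> linarith)
      (by norm_num [InChart, BLbC1]; constructor <;> linarith)
      (by norm_num [InChart, BLbC1]; constructor <;> linarith)
      (by norm_num [InChart, BLbC1]; constructor <;> linarith))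
  ·
    exact nonneg_of_checkFour h1 (mem4 (by decide) (by decide) (by decide) (by decide)
      (by norm_num [InChart, BLbC2]; constructor <;> linarith)
      (by norm_num [InChart, BLbC2]; constructor <;> linarith)
      (by norm_num [InChart, BLbC2]; constructor <;> linarith)
      (by norm_num [InChart, BLbC2]; constructor <;> linarith))

theorem BLb_box2 {e : Ex} {d ω σ l : ℝ} {K0 a0 b0 c0 e0 : ℕ} {K1 a1 b1 c1 e1 : ℕ} (d₀ : (3 / 25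
    : ℝ) ≤ d) (d₁ : d < (20 / 109 : ℝ)) (ω₀ : (0 : ℝ) ≤ ω) (ω₁ : ω < (41 / 102 : ℝ)) (σ₀ : (0 :
    ℝ) ≤ σ) (σ₁ : σ < (501 / 500 : ℝ)) (l₀ : (0 : ℝ) ≤ l) (l₁ : l < (501 / 500 : ℝ)) (h0 :
    checkFour BLbC3 K0 a0 b0 c0 e0 e = true) (h1 : checkFour BLbC4 K1 a1 b1 c1 e1 e = true) : 0
    ≤ e.eval (pt d ω σ l) := by
  rcases lt_or_ge ω (1 / 5 : ℝ) with h | h
  ·
    exact nonneg_of_checkFour h0 (mem4 (by decide) (by decide) (by decide) (by decide)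
      (by norm_num [InChart, BLbC3]; constructor <;> linarith)
      (by norm_num [InChart, BLbC3]; constructor <;> linarith)
      (by norm_num [InChart, BLbC3]; constructor <;> linarith)
      (by norm_num [InChart, BLbC3]; constructor <;> linarith))
  ·
    exact nonneg_of_checkFour h1 (mem4 (by decide) (by decide) (by decide) (by decide)
      (by norm_num [InChart, BLbC4]; constructor <;> linarith)
      (by norm_num [InChart, BLbC4]; constructor <;> linarith)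
      (by norm_num [InChart, BLbC4]; constructor <;> linarith)
      (by norm_num [InChart, BLbC4]; constructor <;> linarith))

/-- The end of the `u`-range of piece `BLb`. -/
noncomputable def BLbUr (d ω : ℝ) : ℝ := BLbU.eval (pt d ω 0 0) / 100000

theorem BLb_range {d S u v t ω l U : ℝ} (h : Hyp d S u v t) (hd₀ : (3 / 25 : ℝ) ≤ d) (hd₁ : d <
    (20 / 109 : ℝ)) (hω₀ : (0 : ℝ) ≤ ω) (hω₁ : ω < (41 / 102 : ℝ)) (l₀ : (0 : ℝ) ≤ l) (l₁ : l <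
    (501 / 500 : ℝ)) (hlS : l * ((757 / 1250 : ℝ) - (1507 / 2500 : ℝ)) = S - (1507 / 2500 : ℝ))
    (hUd : U = BLbUr d ω) (hw : v - 9 / 50 * u = ((239 / 250 : ℝ) + (1 / 16 : ℝ) * d - (757 /
    1250 : ℝ)) + ω * (14 / 25 - 1 / 20 * d - ((239 / 250 : ℝ) + (1 / 16 : ℝ) * d - (757 / 1250 :
    ℝ)))) : (∀ σ, BLbS.eval (pt d ω σ l) = 10000 * S) ∧ (∀ σ, BLbS0.eval (pt d ω σ l) = 10000 *
    (1507 / 2500 : ℝ)) ∧ (∀ σ, BLbS1.eval (pt d ω σ l) = 10000 * (757 / 1250 : ℝ)) ∧ (∀ σ,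
    BLbW.eval (pt d ω σ l) = 10000 * (v - 9 / 50 * u)) ∧ (∀ σ, BLbU.eval (pt d ω σ l) = 100000 *
    U) ∧ (∀ σ, BLba.eval (pt d ω σ l) = 10000 * (S - d)) ∧ (∀ σ, BLbb.eval (pt d ω σ l) = 10000
    * (S + d)) ∧ 0 < U ∧ -u ≤ U := by
  have eD : ∀ σ, (Ex.var 0).eval (pt d ω σ l) = d := fun σ => by simp [Ex.eval, pt]
  have eS : ∀ σ, BLbS.eval (pt d ω σ l) = 10000 * S := fun σ => by
    simp [BLbS, BLbS0, BLbS1, Ex.eval, pt]; linear_combination 10000 * hlS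
  have eS₀ : ∀ σ, BLbS0.eval (pt d ω σ l) = 10000 * (1507 / 2500 : ℝ) := fun σ => by
    simp [BLbS0, Ex.eval, pt] <;> ring
  have eS₁ : ∀ σ, BLbS1.eval (pt d ω σ l) = 10000 * (757 / 1250 : ℝ) := fun σ => by
    simp [BLbS1, Ex.eval, pt] <;> ring
  have eW : ∀ σ, BLbW.eval (pt d ω σ l) = 10000 * (v - 9 / 50 * u) := fun σ => by
    simp [BLbW, BLbW0, BLbS1, Ex.eval, pt]; linear_combination -10000 * hw
  have eU : ∀ σ, BLbU.eval (pt d ω σ l) = 100000 * U := fun σ => by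
    simp [hUd, BLbUr, BLbU, Ex.eval, pt] <;> ring
  have eA : ∀ σ, BLba.eval (pt d ω σ l) = 10000 * (S - d) := fun σ => by
    simp only [BLba, Ex.eval, eS, pt]; push_cast; ring
  have eB : ∀ σ, BLbb.eval (pt d ω σ l) = 10000 * (S + d) := fun σ => by
    simp only [BLbb, Ex.eval, eS, pt]; push_cast; ring
  have hU : 0 < U := by
    have k := BLb_box0 (σ := (0 : ℝ)) hd₀ hd₁ hω₀ hω₁ le_rfl (by norm_num) l₀ l₁ BLbUpos_ok0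
    simp only [BLbUpos, Ex.eval, eU] at k
    push_cast at k; linarith
  obtain ⟨d0, d1, gS0, gS1, u0, u1, v0, v1, -, ht0, ht1, hc⟩ := id h
  have hσU : -u ≤ U := h.no_crossing fun τ τ₀ τ₁ u' hu' => by
    have k := BLb_box2 (σ := τ) hd₀ hd₁ hω₀ hω₁ τ₀ (by linarith) l₀ l₁ BLbcut_ok0 BLbcut_ok1
    simp only [BLbcut, Ex.eval] at k
    rw [tCut_eval (d := d) (w := v - 9 / 50 * u) (U := U) (τ := τ) (by simp [Ex.eval, pt]) (eS τ) (eW τ) (eU τ) (eA τ) (eB τ)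
      (by simp [Ex.eval, pt]) u' hu'] at k
    push_cast at k; linarith
  exact ⟨eS, eS₀, eS₁, eW, eU, eA, eB, hU, hσU⟩

theorem BLb_bounds {p : ℕ → ℝ} {d S u v Xl Xu Yl Yu Zl Zu Ql Qu : ℝ} (hD : (Ex.var 0).eval p =
    d) (hS : BLbS.eval p = 10000 * S) (hA : BLba.eval p = 10000 * (S - d)) (hB : BLbb.eval p =
    10000 * (S + d)) (hu' : BLbu.eval p = 100000 * u) (hv : BLbv.eval p = 5000000 * v) (hT0 :
    BLbT0.eval p = 10000000 * t0r d u) (hT1 : BLbT1.eval p = 10000000 * t1r d) (eXl : BLbXl.eval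
    p = 100000 * Xl) (eXu : BLbXu.eval p = 100000 * Xu) (eYl : BLbYl.eval p = 100000 * Yl) (eYu
    : BLbYu.eval p = 100000 * Yu) (eZl : BLbZl.eval p = 100000 * Zl) (eZu : BLbZu.eval p =
    100000 * Zu) (eQl : BLbQl.eval p = 100000 * Ql) (eQu : BLbQu.eval p = 100000 * Qu) (kXl0 : 0
    ≤ BLbXl0.eval p) (kXl1 : 0 ≤ BLbXl1.eval p) (kXu0 : 0 ≤ BLbXu0.eval p) (kXu1 : 0 ≤
    BLbXu1.eval p) (kYl0 : 0 ≤ BLbYl0.eval p) (kYl1 : 0 ≤ BLbYl1.eval p) (kYu0 : 0 ≤ BLbYu0.eval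
    p) (kYu1 : 0 ≤ BLbYu1.eval p) (kQl0 : 0 ≤ BLbQl0.eval p) (kQl1 : 0 ≤ BLbQl1.eval p) (kQu0 :
    0 ≤ BLbQu0.eval p) (kQu1 : 0 ≤ BLbQu1.eval p) (kZl0 : 0 ≤ BLbZl0.eval p) (kZl1 : 0 ≤
    BLbZl1.eval p) (kZu0 : 0 ≤ BLbZu0.eval p) (kZu1 : 0 ≤ BLbZu1.eval p) : BoundData d S u v
    (hnr d S u v (t0r d u)) (bcr d S) Xl Xu Yl Yu Zl Zu Ql Qu := by
  have hHn : BLbHn1.eval p = _ := tHn_eval hS hu' hv hA hB hT1
  have hHd : BLbHd.eval p = _ := tBCH_eval (d := d) hS hB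
  have hHn0 : BLbHn0.eval p = _ := tHn_eval hS hu' hv hA hB hT0
  exact {
    Xl₀ := by
      rw [BLbXl0, bXl_eval hD hS hu' hv hB eXl hHn0 hHd] at kXl0
      rw [Xlo_mul] at kXl0
      linarith
    Xl₁ := by
      rw [BLbXl1, bXl_eval hD hS hu' hv hB eXl hHn hHd] at kXl1
      rw [Xlo_mul] at kXl1
      linarith
    Xu₀ := by
      rw [BLbXu0, bXu_eval hD hS hu' hv hB eXu hHn0 hHd] at kXu0
      rw [Xlo_mul] at kXu0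
      linarith
    Xu₁ := by
      rw [BLbXu1, bXu_eval hD hS hu' hv hB eXu hHn hHd] at kXu1
      rw [Xlo_mul] at kXu1
      linarith
    Yl₀ := by
      rw [BLbYl0, bYl_eval hD hS hu' hv hB eYl hHn0 hHd] at kYl0
      rw [Ylo_mul] at kYl0
      linarith
    Yl₁ := by
      rw [BLbYl1, bYl_eval hD hS hu' hv hB eYl hHn hHd] at kYl1
      rw [Ylo_mul] at kYl1
      linarith
    Yu₀ := by
      rw [BLbYu0, bYu_eval hD hS hu' hv hB eYu hHn0 hHd] at kYu0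
      rw [Ylo_mul] at kYu0
      linarith
    Yu₁ := by
      rw [BLbYu1, bYu_eval hD hS hu' hv hB eYu hHn hHd] at kYu1
      rw [Ylo_mul] at kYu1
      linarith
    Ql₀ := by
      rw [BLbQl0, bQl_eval hD hS hu' hv hB eQl hHn0 hHd] at kQl0
      rw [Qlo_mul] at kQl0
      linarith
    Ql₁ := by
      rw [BLbQl1, bQl_eval hD hS hu' hv hB eQl hHn hHd] at kQl1
      rw [Qlo_mul] at kQl1
      linarith
    Qu₀ := by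
      rw [BLbQu0, bQu_eval hD hS hu' hv hB eQu hHn0 hHd] at kQu0
      rw [Qlo_mul] at kQu0
      linarith
    Qu₁ := by
      rw [BLbQu1, bQu_eval hD hS hu' hv hB eQu hHn hHd] at kQu1
      rw [Qlo_mul] at kQu1
      linarith
    Zl₀ := by
      rw [BLbZl0, bZl_eval hD hS hu' hv hA hB eZl hT0] at kZl0
      linarith
    Zl₁ := by
      rw [BLbZl1, bZl_eval hD hS hu' hv hA hB eZl hT1] at kZl1
      linarith
    Zu₀ := by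
      rw [BLbZu0, bZu_eval hD hS hu' hv hA hB eZu hT0] at kZu0
      linarith
    Zu₁ := by
      rw [BLbZu1, bZu_eval hD hS hu' hv hA hB eZu hT1] at kZu1
      linarith }

theorem BLb_vertex {p : ℕ → ℝ} {d v α γ η μ Xl Xu Yl Yu Zl Zu Ql Qu : ℝ} (hD : (Ex.var 0).eval p
    = d) (hv : BLbv.eval p = 5000000 * v) (hr₀ : BLbr0.eval p = 2000 * (5 * (1507 / 2500 : ℝ) -
    3)) (hr₁ : BLbr1.eval p = 2000 * (5 * (757 / 1250 : ℝ) - 3)) (hS₁ : BLbS1.eval p = 10000 *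
    (757 / 1250 : ℝ)) (eXl : BLbXl.eval p = 100000 * Xl) (eXu : BLbXu.eval p = 100000 * Xu) (eYl
    : BLbYl.eval p = 100000 * Yl) (eYu : BLbYu.eval p = 100000 * Yu) (eZl : BLbZl.eval p =
    100000 * Zl) (eZu : BLbZu.eval p = 100000 * Zu) (eQl : BLbQl.eval p = 100000 * Ql) (eQu :
    BLbQu.eval p = 100000 * Qu) (eTA : BLbTA.eval p = α) (eGG : BLbGG.eval p = 1000 * γ) (eEG :
    BLbEG.eval p = 10 * η) (eME : BLbME.eval p = 10 * μ) (hγ : 0 < γ) (kTA0l : 0 ≤ BLbTA0l.eval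
    p) (kGG0l : 0 ≤ BLbGG0l.eval p) (kTA0u : 0 ≤ BLbTA0u.eval p) (kGG0u : 0 ≤ BLbGG0u.eval p)
    (kTA1l : 0 ≤ BLbTA1l.eval p) (kGG1l : 0 ≤ BLbGG1l.eval p) (kTA1u : 0 ≤ BLbTA1u.eval p)
    (kGG1u : 0 ≤ BLbGG1u.eval p) (kEGul : 0 ≤ BLbEGul.eval p) (kEGll : 0 ≤ BLbEGll.eval p)
    (kMEnl : 0 ≤ BLbMEnl.eval p) (kMEpl : 0 ≤ BLbMEpl.eval p) (kEGuu : 0 ≤ BLbEGuu.eval p)
    (kEGlu : 0 ≤ BLbEGlu.eval p) (kMEnu : 0 ≤ BLbMEnu.eval p) (kMEpu : 0 ≤ BLbMEpu.eval p) (kF :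
    0 ≤ BLbF.eval p) : VertexData d v (5 * (1507 / 2500 : ℝ) - 3) (5 * (757 / 1250 : ℝ) - 3) α γ
    η μ Xl Xu Yl Yu Zl Zu Ql Qu := by
  exact {
    ta₀l := by
      simp only [BLbTA0l, Ex.eval, qTA_eval hr₀ hv hD eXu eYl eZu eQu, eTA] at kTA0l
      push_cast at kTA0l
      linarith
    gg₀l := by
      simp only [BLbGG0l, Ex.eval, qGG_eval hr₀ hv hD eXl, eGG] at kGG0l
      push_cast at kGG0l
      linarith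
    ta₀u := by
      simp only [BLbTA0u, Ex.eval, qTA_eval hr₀ hv hD eXu eYu eZu eQu, eTA] at kTA0u
      push_cast at kTA0u
      linarith
    gg₀u := by
      simp only [BLbGG0u, Ex.eval, qGG_eval hr₀ hv hD eXu, eGG] at kGG0u
      push_cast at kGG0u
      linarith
    ta₁l := by
      simp only [BLbTA1l, Ex.eval, qTA_eval hr₁ hv hD eXu eYl eZu eQu, eTA] at kTA1l
      push_cast at kTA1l
      linarith
    gg₁l := by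
      simp only [BLbGG1l, Ex.eval, qGG_eval hr₁ hv hD eXl, eGG] at kGG1l
      push_cast at kGG1l
      linarith
    ta₁u := by
      simp only [BLbTA1u, Ex.eval, qTA_eval hr₁ hv hD eXu eYu eZu eQu, eTA] at kTA1u
      push_cast at kTA1u
      linarith
    gg₁u := by
      simp only [BLbGG1u, Ex.eval, qGG_eval hr₁ hv hD eXu, eGG] at kGG1u
      push_cast at kGG1u
      linarith
    egul := by
      simp only [BLbEGul, Ex.eval, qEG_eval hr₁ hv hD eXu eYl, eEG] at kEGul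
      push_cast at kEGul
      linarith
    egll := by
      simp only [BLbEGll, Ex.eval, qEG_eval hr₀ hv hD eXl eYl, eEG] at kEGll
      push_cast at kEGll
      linarith
    menl := by
      simp only [BLbMEnl, Ex.eval, qME_eval hr₁ hv hD eXu eYl eZl eQl, eME] at kMEnl
      push_cast at kMEnl
      linarith
    mepl := by
      simp only [BLbMEpl, Ex.eval, qME_eval hr₀ hv hD eXl eYl eZu eQu, eME] at kMEpl
      push_cast at kMEpl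
      linarith
    eguu := by
      simp only [BLbEGuu, Ex.eval, qEG_eval hr₁ hv hD eXu eYu, eEG] at kEGuu
      push_cast at kEGuu
      linarith
    eglu := by
      simp only [BLbEGlu, Ex.eval, qEG_eval hr₀ hv hD eXl eYu, eEG] at kEGlu
      push_cast at kEGlu
      linarith
    menu := by
      simp only [BLbMEnu, Ex.eval, qME_eval hr₁ hv hD eXu eYu eZl eQl, eME] at kMEnu
      push_cast at kMEnu
      linarith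
    mepu := by
      simp only [BLbMEpu, Ex.eval, qME_eval hr₀ hv hD eXl eYu eZu eQu, eME] at kMEpu
      push_cast at kMEpu
      linarith
    gpos := hγ
    arrow := by
      simp only [BLbF, Ex.eval] at kF
      rw [tF_eval hD hv hS₁ eTA eGG eEG eME eXl eYl] at kF
      push_cast at kF
      linarith }

/-- The closed signs on piece `BLb`. -/
theorem BLb_signs {d S u v t ω : ℝ} (h : Hyp d S u v t) (hd₀ : (3 / 25 : ℝ) ≤ d) (hd₁ : d < (20 / 109 : ℝ))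
    (hS₀ : (1507 / 2500 : ℝ) ≤ S) (hS₁ : S ≤ (757 / 1250 : ℝ))
    (hw : v - 9 / 50 * u = ((239 / 250 : ℝ) + (1 / 16 : ℝ) * d - (757 / 1250 : ℝ)) + ω * (14 / 25 - 1 / 20 * d - ((239 / 250 : ℝ) + (1 / 16 : ℝ) * d - (757 / 1250 : ℝ))))
    (hω₀ : (0 : ℝ) ≤ ω) (hω₁ : ω < (41 / 102 : ℝ)) :
    Closed.ChartSigns d S u v t := by
  obtain ⟨d0, d1, gS0, gS1, u0, u1, v0, v1, -, ht0, ht1, hc⟩ := id h
  have hlt : (1507 / 2500 : ℝ) < (757 / 1250 : ℝ) := by linarith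
  have hgap : 0 < (757 / 1250 : ℝ) - (1507 / 2500 : ℝ) := by linarith
  obtain ⟨l, hl⟩ : ∃ l, l = (S - (1507 / 2500 : ℝ)) / ((757 / 1250 : ℝ) - (1507 / 2500 : ℝ)) := ⟨_, rfl⟩
  have l₀ : (0 : ℝ) ≤ l := (hl ▸ div_nonneg (by linarith) hgap.le)
  have l₁ : l < (501 / 500 : ℝ) := lt_of_le_of_lt (by rw [hl, div_le_one hgap]; linarith : l ≤ 1) (by norm_num)
  have hlS : l * ((757 / 1250 : ℝ) - (1507 / 2500 : ℝ)) = S - (1507 / 2500 : ℝ) := by rw [hl]; exact div_mul_cancel₀ _ hgap.ne'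
  obtain ⟨U, hUd⟩ : ∃ U, U = BLbUr d ω := ⟨_, rfl⟩
  obtain ⟨eS, eS₀, eS₁, eW, eU, eA, eB, hU, hσU⟩ := BLb_range h hd₀ hd₁ hω₀ hω₁ l₀ l₁ hlS hUd hw
  have eD : ∀ σ, (Ex.var 0).eval (pt d ω σ l) = d := fun σ => by simp [Ex.eval, pt]
  obtain ⟨σ, hσd⟩ : ∃ σ, σ = -u / U := ⟨_, rfl⟩
  have hσu : σ * U = -u := by rw [hσd]; exact div_mul_cancel₀ _ hU.ne'
  have σ₀ : (0 : ℝ) ≤ σ := by rw [hσd]; exact div_nonneg (by linarith) hU.le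
  have σ₁ : σ < (501 / 500 : ℝ) := lt_of_le_of_lt (by rw [hσd, div_le_one hU]; linarith : σ ≤ 1) (by norm_num)
  set p := pt d ω σ l with hp
  have hD : (Ex.var 0).eval p = d := eD σ
  have hS : BLbS.eval p = 10000 * S := eS σ
  have hA : BLba.eval p = 10000 * (S - d) := eA σ
  have hB : BLbb.eval p = 10000 * (S + d) := eB σ
  have hu' : BLbu.eval p = 100000 * u := by
    simp only [BLbu, Ex.eval, hp, eU]; simp only [pt]; push_cast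
    linear_combination -100000 * hσu
  have hv : BLbv.eval p = 5000000 * v := by
    simp only [BLbv, Ex.eval, hu']; rw [hp, eW]; push_cast; ring
  have hT0 : BLbT0.eval p = 10000000 * t0r d u := tT0_eval hD hu'
  have hT1 : BLbT1.eval p = 10000000 * t1r d := tT1_eval hD
  have hr : ∀ (R S0E : Ex) (s : ℝ), R = .sub S0E (.num 6000) → S0E.eval p = 10000 * s → R.eval p = 2000 * (5 * s - 3) := fun R S0E s e1 e2 => by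
    subst e1; simp only [Ex.eval, e2]; push_cast; ring
  have hr₀ := hr BLbr0 BLbS0 (1507 / 2500 : ℝ) rfl (eS₀ σ)
  have hr₁ := hr BLbr1 BLbS1 (757 / 1250 : ℝ) rfl (eS₁ σ)
  obtain ⟨Xl, eXl⟩ : ∃ y, BLbXl.eval p = 100000 * y := ⟨BLbXl.eval p / 100000, by ring⟩
  obtain ⟨Xu, eXu⟩ : ∃ y, BLbXu.eval p = 100000 * y := ⟨BLbXu.eval p / 100000, by ring⟩
  obtain ⟨Yl, eYl⟩ : ∃ y, BLbYl.eval p = 100000 * y := ⟨BLbYl.eval p / 100000, by ring⟩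
  obtain ⟨Yu, eYu⟩ : ∃ y, BLbYu.eval p = 100000 * y := ⟨BLbYu.eval p / 100000, by ring⟩
  obtain ⟨Zl, eZl⟩ : ∃ y, BLbZl.eval p = 100000 * y := ⟨BLbZl.eval p / 100000, by ring⟩
  obtain ⟨Zu, eZu⟩ : ∃ y, BLbZu.eval p = 100000 * y := ⟨BLbZu.eval p / 100000, by ring⟩
  obtain ⟨Ql, eQl⟩ : ∃ y, BLbQl.eval p = 100000 * y := ⟨BLbQl.eval p / 100000, by ring⟩
  obtain ⟨Qu, eQu⟩ : ∃ y, BLbQu.eval p = 100000 * y := ⟨BLbQu.eval p / 100000, by ring⟩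
  obtain ⟨α, eTA⟩ : ∃ y, BLbTA.eval p = y := ⟨_, rfl⟩
  obtain ⟨γ, eGG⟩ : ∃ y, BLbGG.eval p = 1000 * y := ⟨BLbGG.eval p / 1000, by ring⟩
  obtain ⟨η, eEG⟩ : ∃ y, BLbEG.eval p = 10 * y := ⟨BLbEG.eval p / 10, by ring⟩
  obtain ⟨μ, eME⟩ : ∃ y, BLbME.eval p = 10 * y := ⟨BLbME.eval p / 10, by ring⟩
  have kZl0 := BLb_box0 (e := BLbZl0) hd₀ hd₁ hω₀ hω₁ σ₀ σ₁ l₀ l₁ BLbZl0_ok0
  have kZu0 := BLb_box0 (e := BLbZu0) hd₀ hd₁ hω₀ hω₁ σ₀ σ₁ l₀ l₁ BLbZu0_ok0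
  have kXl0 := BLb_box0 (e := BLbXl0) hd₀ hd₁ hω₀ hω₁ σ₀ σ₁ l₀ l₁ BLbXl0_ok0
  have kYl0 := BLb_box0 (e := BLbYl0) hd₀ hd₁ hω₀ hω₁ σ₀ σ₁ l₀ l₁ BLbYl0_ok0
  have kQl0 := BLb_box0 (e := BLbQl0) hd₀ hd₁ hω₀ hω₁ σ₀ σ₁ l₀ l₁ BLbQl0_ok0
  have kXu0 := BLb_box0 (e := BLbXu0) hd₀ hd₁ hω₀ hω₁ σ₀ σ₁ l₀ l₁ BLbXu0_ok0
  have kYu0 := BLb_box0 (e := BLbYu0) hd₀ hd₁ hω₀ hω₁ σ₀ σ₁ l₀ l₁ BLbYu0_ok0
  have kQu0 := BLb_box0 (e := BLbQu0) hd₀ hd₁ hω₀ hω₁ σ₀ σ₁ l₀ l₁ BLbQu0_ok0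
  have kZl1 := BLb_box0 (e := BLbZl1) hd₀ hd₁ hω₀ hω₁ σ₀ σ₁ l₀ l₁ BLbZl1_ok0
  have kZu1 := BLb_box0 (e := BLbZu1) hd₀ hd₁ hω₀ hω₁ σ₀ σ₁ l₀ l₁ BLbZu1_ok0
  have kXl1 := BLb_box1 (e := BLbXl1) hd₀ hd₁ hω₀ hω₁ σ₀ σ₁ l₀ l₁ BLbXl1_ok0 BLbXl1_ok1
  have kYl1 := BLb_box0 (e := BLbYl1) hd₀ hd₁ hω₀ hω₁ σ₀ σ₁ l₀ l₁ BLbYl1_ok0
  have kQl1 := BLb_box0 (e := BLbQl1) hd₀ hd₁ hω₀ hω₁ σ₀ σ₁ l₀ l₁ BLbQl1_ok0
  have kXu1 := BLb_box0 (e := BLbXu1) hd₀ hd₁ hω₀ hω₁ σ₀ σ₁ l₀ l₁ BLbXu1_ok0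
  have kYu1 := BLb_box0 (e := BLbYu1) hd₀ hd₁ hω₀ hω₁ σ₀ σ₁ l₀ l₁ BLbYu1_ok0
  have kQu1 := BLb_box0 (e := BLbQu1) hd₀ hd₁ hω₀ hω₁ σ₀ σ₁ l₀ l₁ BLbQu1_ok0
  have kTA0l := BLb_box0 (e := BLbTA0l) hd₀ hd₁ hω₀ hω₁ σ₀ σ₁ l₀ l₁ BLbTA0l_ok0
  have kGG0l := BLb_box0 (e := BLbGG0l) hd₀ hd₁ hω₀ hω₁ σ₀ σ₁ l₀ l₁ BLbGG0l_ok0
  have kTA0u := BLb_box0 (e := BLbTA0u) hd₀ hd₁ hω₀ hω₁ σ₀ σ₁ l₀ l₁ BLbTA0u_ok0
  have kGG0u := BLb_box0 (e := BLbGG0u) hd₀ hd₁ hω₀ hω₁ σ₀ σ₁ l₀ l₁ BLbGG0u_ok0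
  have kTA1l := BLb_box0 (e := BLbTA1l) hd₀ hd₁ hω₀ hω₁ σ₀ σ₁ l₀ l₁ BLbTA1l_ok0
  have kGG1l := BLb_box0 (e := BLbGG1l) hd₀ hd₁ hω₀ hω₁ σ₀ σ₁ l₀ l₁ BLbGG1l_ok0
  have kTA1u := BLb_box0 (e := BLbTA1u) hd₀ hd₁ hω₀ hω₁ σ₀ σ₁ l₀ l₁ BLbTA1u_ok0
  have kGG1u := BLb_box0 (e := BLbGG1u) hd₀ hd₁ hω₀ hω₁ σ₀ σ₁ l₀ l₁ BLbGG1u_ok0
  have kEGul := BLb_box2 (e := BLbEGul) hd₀ hd₁ hω₀ hω₁ σ₀ σ₁ l₀ l₁ BLbEGul_ok0 BLbEGul_ok1
  have kEGll := BLb_box2 (e := BLbEGll) hd₀ hd₁ hω₀ hω₁ σ₀ σ₁ l₀ l₁ BLbEGll_ok0 BLbEGll_ok1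
  have kEGuu := BLb_box2 (e := BLbEGuu) hd₀ hd₁ hω₀ hω₁ σ₀ σ₁ l₀ l₁ BLbEGuu_ok0 BLbEGuu_ok1
  have kEGlu := BLb_box2 (e := BLbEGlu) hd₀ hd₁ hω₀ hω₁ σ₀ σ₁ l₀ l₁ BLbEGlu_ok0 BLbEGlu_ok1
  have kMEnl := BLb_box0 (e := BLbMEnl) hd₀ hd₁ hω₀ hω₁ σ₀ σ₁ l₀ l₁ BLbMEnl_ok0
  have kMEpl := BLb_box0 (e := BLbMEpl) hd₀ hd₁ hω₀ hω₁ σ₀ σ₁ l₀ l₁ BLbMEpl_ok0
  have kMEnu := BLb_box0 (e := BLbMEnu) hd₀ hd₁ hω₀ hω₁ σ₀ σ₁ l₀ l₁ BLbMEnu_ok0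
  have kMEpu := BLb_box0 (e := BLbMEpu) hd₀ hd₁ hω₀ hω₁ σ₀ σ₁ l₀ l₁ BLbMEpu_ok0
  have krgXl := BLb_box0 (e := BLbrgXl) hd₀ hd₁ hω₀ hω₁ σ₀ σ₁ l₀ l₁ BLbrgXl_ok0
  have krgXu := BLb_box0 (e := BLbrgXu) hd₀ hd₁ hω₀ hω₁ σ₀ σ₁ l₀ l₁ BLbrgXu_ok0
  have krgYl := BLb_box0 (e := BLbrgYl) hd₀ hd₁ hω₀ hω₁ σ₀ σ₁ l₀ l₁ BLbrgYl_ok0
  have krgYu := BLb_box0 (e := BLbrgYu) hd₀ hd₁ hω₀ hω₁ σ₀ σ₁ l₀ l₁ BLbrgYu_ok0
  have krgZl := BLb_box0 (e := BLbrgZl) hd₀ hd₁ hω₀ hω₁ σ₀ σ₁ l₀ l₁ BLbrgZl_ok0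
  have krgZu := BLb_box0 (e := BLbrgZu) hd₀ hd₁ hω₀ hω₁ σ₀ σ₁ l₀ l₁ BLbrgZu_ok0
  have krgQl := BLb_box0 (e := BLbrgQl) hd₀ hd₁ hω₀ hω₁ σ₀ σ₁ l₀ l₁ BLbrgQl_ok0
  have krgQu := BLb_box0 (e := BLbrgQu) hd₀ hd₁ hω₀ hω₁ σ₀ σ₁ l₀ l₁ BLbrgQu_ok0
  have kgpos := BLb_box0 (e := BLbgpos) hd₀ hd₁ hω₀ hω₁ σ₀ σ₁ l₀ l₁ BLbgpos_ok0
  have kF := BLb_box0 (e := BLbF) hd₀ hd₁ hω₀ hω₁ σ₀ σ₁ l₀ l₁ BLbF_ok0
  rw [← hp] at kZl0 kZu0 kXl0 kYl0 kQl0 kXu0 kYu0 kQu0 kZl1 kZu1 kXl1 kYl1 kQl1 kXu1 kYu1 kQu1 kTA0l kGG0l kTA0u kGG0u kTA1l kGG1l kTA1u kGG1u kEGul kEGll kEGuu kEGlu kMEnl kMEpl kMEnu kMEpu krgXl krgXu krgYl krgYu krgZl krgZu krgQl krgQu kgpos kF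
  have hbd := BLb_bounds hD hS hA hB hu' hv hT0 hT1 eXl eXu eYl eYu eZl eZu eQl eQu kXl0 kXl1 kXu0 kXu1 kYl0 kYl1 kYu0 kYu1 kQl0 kQl1 kQu0 kQu1 kZl0 kZl1 kZu0 kZu1
  simp only [BLbrgXl, BLbrgXu, BLbrgYl, BLbrgYu, BLbrgZl, BLbrgZu, BLbrgQl, BLbrgQu, BLbgpos, Ex.eval, eXl, eXu, eYl, eYu, eZl, eZu, eQl, eQu, eGG] at krgXl krgXu krgYl krgYu krgZl krgZu krgQl krgQu kgpos
  push_cast at krgXl krgXu krgYl krgYu krgZl krgZu krgQl krgQu kgpos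
  have hrg : Ranges Xl Xu Yl Yu Zl Zu Ql Qu :=
    ⟨by linarith, by linarith, by linarith, by linarith, by linarith, by linarith, by linarith, by linarith⟩
  have hz : Zone d Xu Zl Qu :=
    .inr ⟨by linarith, by linarith, by linarith, by linarith⟩
  have hvd := BLb_vertex hD hv hr₀ hr₁ (eS₁ σ) eXl eXu eYl eYu eZl eZu eQl eQu eTA eGG eEG eME (by linarith : 0 < γ) kTA0l kGG0l kTA0u kGG0u kTA1l kGG1l kTA1u kGG1u kEGul kEGll kMEnl kMEpl kEGuu kEGlu kMEnu kMEpu kF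
  exact chartSigns_of_data d0 d1 gS0 gS1 (by linarith) ⟨by linarith, by linarith⟩ (by linarith)
    u0 u1 v0 v1 ht0 ht1 hc h.bc_pos h.H_le hbd hrg hz hvd

end Vale.Agent.P100.Calib.NegCert
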