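import Mathlib
import Vale.Agent.P100.Pack.FastFour
import Vale.Agent.P100.Calib.NegCert.Coef
import Vale.Agent.P100.Calib.NegCert.Tpl

/-!
# Piece BT of the region `u ≤ 0`: data and checks
-/

set_option linter.unusedVariables false

namespace Vale.Agent.P100.Calib.NegCert

open Pack

def BTS0 : Ex := (.num 6000)

def BTS1 : Ex := (.num 6056)

def BTS : Ex := (.add BTS0 (.mul (.var 3) (.sub BTS1 BTS0)))

def BTU : Ex := (.add (.mul (.add (.mul (.num (-6638)) (.var 1)) (.num 26038)) (.var 0)) (.add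
  (.mul (.num 13356) (.var 1)) (.num 22298)))

def BTu : Ex := (.sub (.num 0) (.mul (.var 2) BTU))

def BTW0 : Ex := (.sub (.add (.num 9560) (.mul (.num 625) (.var 0))) BTS1)

def BTW : Ex := (.add BTW0 (.mul (.var 1) (.sub (.sub (.num 5600) (.mul (.num 500) (.var 0)))
  BTW0)))

def BTv : Ex := (.add (.mul (.num 500) BTW) (.mul (.num 9) BTu))

def BTa : Ex := (.sub BTS (.mul (.num 10000) (.var 0)))

def BTb : Ex := (.add BTS (.mul (.num 10000) (.var 0)))

def BTZl : Ex := (.add (.mul (.add (.mul (.num (-6973523)) (.var 0)) (.add (.mul (.num 110833)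
  (.var 1)) (.add (.mul (.num 2213482) (.var 2)) (.num 2840783)))) (.var 0)) (.add (.mul (.add
  (.mul (.num (-4470)) (.var 1)) (.add (.mul (.num (-118225)) (.var 2)) (.num (-6425)))) (.var
  1)) (.add (.mul (.add (.mul (.num (-18466)) (.var 2)) (.num (-549662))) (.var 2)) (.num
  (-1069845)))))

def BTT0 : Ex := (tT0 (.var 0) BTu)

def BTZu : Ex := (.add (.mul (.add (.mul (.num (-5802386)) (.var 0)) (.add (.mul (.num
  (-1002041)) (.var 1)) (.add (.mul (.num (-602170)) (.var 2)) (.num 3077301)))) (.var 0)) (.add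
  (.mul (.add (.mul (.num 4172) (.var 1)) (.add (.mul (.num 87650) (.var 2)) (.num 95653)))
  (.var 1)) (.add (.mul (.add (.mul (.num 53163) (.var 2)) (.num 23776)) (.var 2)) (.num
  (-924261)))))

def BTXl : Ex := (.add (.mul (.add (.mul (.num 1112109) (.var 0)) (.add (.mul (.num (-65463))
  (.var 1)) (.add (.mul (.num 325676) (.var 2)) (.num (-1690060))))) (.var 0)) (.add (.mul (.add
  (.mul (.num (-367)) (.var 1)) (.add (.mul (.num (-40935)) (.var 2)) (.num 164413))) (.var 1))
  (.add (.mul (.add (.mul (.num (-6329527)) (.var 2)) (.num 12109272)) (.var 2)) (.num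
  (-4659664)))))

def BTnu : Ex := (.mul (.num 50) (.sub (.num 0) BTu))

def BTYl : Ex := (.add (.mul (.add (.mul (.num 1627339) (.var 0)) (.add (.mul (.num (-381965))
  (.var 1)) (.add (.mul (.num 496865) (.var 2)) (.num 450982)))) (.var 0)) (.add (.mul (.add
  (.mul (.num 28583) (.var 1)) (.add (.mul (.num 1175571) (.var 2)) (.num 94137))) (.var 1))
  (.add (.mul (.add (.mul (.num (-678988)) (.var 2)) (.num 3574910)) (.var 2)) (.num 9353546))))

def BTQl : Ex := (.add (.mul (.add (.mul (.num (-1303289)) (.var 0)) (.add (.mul (.num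
  (-1074254)) (.var 1)) (.add (.mul (.num (-2558462)) (.var 2)) (.num (-8603632))))) (.var 0))
  (.add (.mul (.add (.mul (.num (-4350)) (.var 1)) (.add (.mul (.num (-150077)) (.var 2)) (.num
  151742))) (.var 1)) (.add (.mul (.add (.mul (.num (-302615)) (.var 2)) (.num 687605)) (.var
  2)) (.num (-322184)))))

def BTXu : Ex := (.add (.mul (.add (.mul (.num 1102089) (.var 0)) (.add (.mul (.num (-60495))
  (.var 1)) (.add (.mul (.num 756201) (.var 2)) (.num (-2133736))))) (.var 0)) (.add (.mul (.add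
  (.mul (.num (-11763)) (.var 1)) (.add (.mul (.num (-41314)) (.var 2)) (.num 180540))) (.var
  1)) (.add (.mul (.add (.mul (.num 3818974) (.var 2)) (.num (-8482937))) (.var 2)) (.num
  5795422))))

def BTYu : Ex := (.add (.mul (.add (.mul (.num 1574116) (.var 0)) (.add (.mul (.num (-350102))
  (.var 1)) (.add (.mul (.num (-1216867)) (.var 2)) (.num 2210527)))) (.var 0)) (.add (.mul
  (.add (.mul (.num 27478) (.var 1)) (.add (.mul (.num 1121225) (.var 2)) (.num 165485))) (.var
  1)) (.add (.mul (.add (.mul (.num 1982895) (.var 2)) (.num (-1474033))) (.var 2)) (.num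
  11920844))))

def BTQu : Ex := (.add (.mul (.add (.mul (.num (-1230356)) (.var 0)) (.add (.mul (.num
  (-1046704)) (.var 1)) (.add (.mul (.num (-3038704)) (.var 2)) (.num (-7978681))))) (.var 0))
  (.add (.mul (.add (.mul (.num (-4056)) (.var 1)) (.add (.mul (.num (-160751)) (.var 2)) (.num
  160822))) (.var 1)) (.add (.mul (.add (.mul (.num 248235) (.var 2)) (.num (-335279))) (.var
  2)) (.num 152076))))

def BTT1 : Ex := (tT1 (.var 0))

def BTHn1 : Ex := (tHn BTS BTu BTv BTa BTb BTT1)

def BTHd : Ex := (tBCH BTb BTS)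

def BTr0 : Ex := (.sub BTS0 (.num 6000))

def BTTA : Ex := (.add (.mul (.add (.mul (.add (.mul (.num 7660404) (.var 0)) (.add (.mul (.num
  (-1075488)) (.var 1)) (.add (.mul (.num 1034787) (.var 2)) (.num (-4831911))))) (.var 0))
  (.add (.mul (.add (.mul (.num (-281493)) (.var 1)) (.add (.mul (.num (-248351)) (.var 2))
  (.num 5754))) (.var 1)) (.add (.mul (.add (.mul (.num (-539121)) (.var 2)) (.num 746753))
  (.var 2)) (.num (-290552))))) (.var 0)) (.add (.mul (.add (.mul (.add (.mul (.num (-4764))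
  (.var 1)) (.add (.mul (.num (-3611)) (.var 2)) (.num 46972))) (.var 1)) (.add (.mul (.add
  (.mul (.num (-141341)) (.var 2)) (.num 347386)) (.var 2)) (.num (-69119)))) (.var 1)) (.add
  (.mul (.add (.mul (.add (.mul (.num 192629) (.var 2)) (.num (-589368))) (.var 2)) (.num
  643988)) (.var 2)) (.num (-31828)))))

def BTGG : Ex := (.add (.mul (.add (.mul (.add (.mul (.add (.mul (.num (-1002386)) (.var 0))
  (.add (.mul (.num (-1653302)) (.var 1)) (.add (.mul (.num (-3775023)) (.var 2)) (.num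
  6434416)))) (.var 0)) (.add (.mul (.add (.mul (.num 255903) (.var 1)) (.add (.mul (.num
  (-20004520)) (.var 2)) (.num 19676679))) (.var 1)) (.add (.mul (.add (.mul (.num 56747213)
  (.var 2)) (.num (-101463343))) (.var 2)) (.num 42055180)))) (.var 0)) (.add (.mul (.add (.mul
  (.add (.mul (.num (-46770)) (.var 1)) (.add (.mul (.num 4747109) (.var 2)) (.num (-4706983))))
  (.var 1)) (.add (.mul (.add (.mul (.num (-18521514)) (.var 2)) (.num 36354713)) (.var 2))
  (.num (-17921082)))) (.var 1)) (.add (.mul (.add (.mul (.add (.mul (.num 92619214) (.var 2))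
  (.num (-291439743))) (.var 2)) (.num 303202227)) (.var 2)) (.num (-103970781))))) (.var 0))
  (.add (.mul (.add (.mul (.add (.mul (.add (.mul (.num 157989) (.var 1)) (.add (.mul (.num
  553190) (.var 2)) (.num (-985629)))) (.var 1)) (.add (.mul (.add (.mul (.num (-42188528))
  (.var 2)) (.num 81957483)) (.var 2)) (.num (-39397071)))) (.var 1)) (.add (.mul (.add (.mul
  (.add (.mul (.num 269255022) (.var 2)) (.num (-727586429))) (.var 2)) (.num 650682668)) (.var
  2)) (.num (-192150571)))) (.var 1)) (.add (.mul (.add (.mul (.add (.mul (.add (.mul (.num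
  (-582199719)) (.var 2)) (.num 2105177026)) (.var 2)) (.num (-2858844766))) (.var 2)) (.num
  1729320671)) (.var 2)) (.num (-393433352)))))

def BTr1 : Ex := (.sub BTS1 (.num 6000))

def BTEG : Ex := (.add (.mul (.add (.mul (.add (.mul (.add (.mul (.add (.mul (.num 4380883)
  (.var 0)) (.add (.mul (.num 3165405) (.var 1)) (.add (.mul (.num 89561687) (.var 2)) (.num
  (-92381503))))) (.var 0)) (.add (.mul (.add (.mul (.num (-4916465)) (.var 1)) (.add (.mul
  (.num 42879351) (.var 2)) (.num (-36102245)))) (.var 1)) (.add (.mul (.add (.mul (.num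
  (-40981389)) (.var 2)) (.num (-5529617))) (.var 2)) (.num 44640372)))) (.var 0)) (.add (.mul
  (.add (.mul (.add (.mul (.num 75575) (.var 1)) (.add (.mul (.num (-1758388)) (.var 2)) (.num
  4291339))) (.var 1)) (.add (.mul (.add (.mul (.num 22505537) (.var 2)) (.num (-65060756)))
  (.var 2)) (.num 37993902))) (.var 1)) (.add (.mul (.add (.mul (.add (.mul (.num (-19448851))
  (.var 2)) (.num 73417001)) (.var 2)) (.num (-56927214))) (.var 2)) (.num 4491879)))) (.var 0))
  (.add (.mul (.add (.mul (.add (.mul (.add (.mul (.num (-574157)) (.var 1)) (.add (.mul (.num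
  8181684) (.var 2)) (.num (-6237537)))) (.var 1)) (.add (.mul (.add (.mul (.num (-46371810))
  (.var 2)) (.num 72299702)) (.var 2)) (.num (-28764304)))) (.var 1)) (.add (.mul (.add (.mul
  (.add (.mul (.num 101352894) (.var 2)) (.num (-236240484))) (.var 2)) (.num 188170105)) (.var
  2)) (.num (-51305720)))) (.var 1)) (.add (.mul (.add (.mul (.add (.mul (.add (.mul (.num
  (-363224121)) (.var 2)) (.num 1356843712)) (.var 2)) (.num (-1920684400))) (.var 2)) (.num
  1215447520)) (.var 2)) (.num (-288859853))))) (.var 0)) (.add (.mul (.add (.mul (.add (.mul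
  (.add (.mul (.add (.mul (.num 36702) (.var 1)) (.add (.mul (.num (-725593)) (.var 2)) (.num
  705204))) (.var 1)) (.add (.mul (.add (.mul (.num 4345940) (.var 2)) (.num (-8262014))) (.var
  2)) (.num 3670169))) (.var 1)) (.add (.mul (.add (.mul (.add (.mul (.num (-8941359)) (.var 2))
  (.num 29120738)) (.var 2)) (.num (-28698143))) (.var 2)) (.num 9036220))) (.var 1)) (.add
  (.mul (.add (.mul (.add (.mul (.add (.mul (.num (-87122349)) (.var 2)) (.num 313088973)) (.var
  2)) (.num (-432501440))) (.var 2)) (.num 270232478)) (.var 2)) (.num (-64037227)))) (.var 1))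
  (.add (.mul (.add (.mul (.add (.mul (.add (.mul (.add (.mul (.num (-70594283)) (.var 2)) (.num
  504777332)) (.var 2)) (.num (-1269132303))) (.var 2)) (.num 1495545626)) (.var 2)) (.num
  (-848495671))) (.var 2)) (.num 187980808))))

def BTME : Ex := (.add (.mul (.add (.mul (.add (.mul (.num 188300) (.var 0)) (.add (.mul (.num
  (-39893)) (.var 1)) (.add (.mul (.num 269014) (.var 2)) (.num (-390053))))) (.var 0)) (.add
  (.mul (.add (.mul (.num (-498)) (.var 1)) (.add (.mul (.num (-6289)) (.var 2)) (.num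
  (-13718)))) (.var 1)) (.add (.mul (.add (.mul (.num (-113358)) (.var 2)) (.num 248468)) (.var
  2)) (.num (-109080))))) (.var 0)) (.add (.mul (.add (.mul (.add (.mul (.num (-23)) (.var 1))
  (.add (.mul (.num 480) (.var 2)) (.num 1020))) (.var 1)) (.add (.mul (.add (.mul (.num 35214)
  (.var 2)) (.num (-78314))) (.var 2)) (.num 66382))) (.var 1)) (.add (.mul (.add (.mul (.add
  (.mul (.num 64557) (.var 2)) (.num 152619)) (.var 2)) (.num (-574803))) (.var 2)) (.num
  358994))))

/-- Scaled by `1000000000000000000000000000000000000000000000000000`. -/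
def BTZl0 : Ex := (bZl (.var 0) BTS BTu BTv BTa BTb BTZl BTT0)

/-- Scaled by `1000000000000000000000000000000000000000000000000000`. -/
def BTZu0 : Ex := (bZu (.var 0) BTS BTu BTv BTa BTb BTZu BTT0)

/-- Scaled by `500000000000000000000000000`. -/
def BTXl0 : Ex := (bXl (.var 0) BTS BTu BTv BTb BTXl BTv BTnu)

/-- Scaled by `2500000000000000000000000000000`. -/
def BTYl0 : Ex := (bYl (.var 0) BTS BTu BTv BTb BTYl BTv BTnu)

/-- Scaled by `50000000000000000000000000000`. -/
def BTQl0 : Ex := (bQl (.var 0) BTS BTu BTv BTb BTQl BTv BTnu)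

/-- Scaled by `500000000000000000000000000`. -/
def BTXu0 : Ex := (bXu (.var 0) BTS BTu BTv BTb BTXu BTv BTnu)

/-- Scaled by `2500000000000000000000000000000`. -/
def BTYu0 : Ex := (bYu (.var 0) BTS BTu BTv BTb BTYu BTv BTnu)

/-- Scaled by `50000000000000000000000000000`. -/
def BTQu0 : Ex := (bQu (.var 0) BTS BTu BTv BTb BTQu BTv BTnu)

/-- Scaled by `1000000000000000000000000000000000000000000000000000`. -/
def BTZl1 : Ex := (bZl (.var 0) BTS BTu BTv BTa BTb BTZl BTT1)

/-- Scaled by `1000000000000000000000000000000000000000000000000000`. -/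
def BTZu1 : Ex := (bZu (.var 0) BTS BTu BTv BTa BTb BTZu BTT1)

/-- Scaled by `20000000000000000000000000000000000000000`. -/
def BTXl1 : Ex := (bXl (.var 0) BTS BTu BTv BTb BTXl BTHn1 BTHd)

/-- Scaled by `100000000000000000000000000000000000000000000`. -/
def BTYl1 : Ex := (bYl (.var 0) BTS BTu BTv BTb BTYl BTHn1 BTHd)

/-- Scaled by `2000000000000000000000000000000000000000000`. -/
def BTQl1 : Ex := (bQl (.var 0) BTS BTu BTv BTb BTQl BTHn1 BTHd)

/-- Scaled by `20000000000000000000000000000000000000000`. -/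
def BTXu1 : Ex := (bXu (.var 0) BTS BTu BTv BTb BTXu BTHn1 BTHd)

/-- Scaled by `100000000000000000000000000000000000000000000`. -/
def BTYu1 : Ex := (bYu (.var 0) BTS BTu BTv BTb BTYu BTHn1 BTHd)

/-- Scaled by `2000000000000000000000000000000000000000000`. -/
def BTQu1 : Ex := (bQu (.var 0) BTS BTu BTv BTb BTQu BTHn1 BTHd)

/-- Scaled by `156250000000000000000000000000000000000000000000000000000000000000000`. -/
def BTTA0l : Ex := (.sub (qTA BTr0 BTv (.var 0) BTXu BTYl BTZu BTQu) (.mul (.num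
  156250000000000000000000000000000000000000000000000000000000000000000) BTTA))

/-- Scaled by `6250000000000000000000000000000000000000000000000000000000000`. -/
def BTGG0l : Ex := (.sub (qGG BTr0 BTv (.var 0) BTXl) (.mul (.num
  6250000000000000000000000000000000000000000000000000000000) BTGG))

/-- Scaled by `156250000000000000000000000000000000000000000000000000000000000000000`. -/
def BTTA0u : Ex := (.sub (qTA BTr0 BTv (.var 0) BTXu BTYu BTZu BTQu) (.mul (.num
  156250000000000000000000000000000000000000000000000000000000000000000) BTTA))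

/-- Scaled by `6250000000000000000000000000000000000000000000000000000000000`. -/
def BTGG0u : Ex := (.sub (qGG BTr0 BTv (.var 0) BTXu) (.mul (.num
  6250000000000000000000000000000000000000000000000000000000) BTGG))

/-- Scaled by `156250000000000000000000000000000000000000000000000000000000000000000`. -/
def BTTA1l : Ex := (.sub (qTA BTr1 BTv (.var 0) BTXu BTYl BTZu BTQu) (.mul (.num
  156250000000000000000000000000000000000000000000000000000000000000000) BTTA))

/-- Scaled by `6250000000000000000000000000000000000000000000000000000000000`. -/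
def BTGG1l : Ex := (.sub (qGG BTr1 BTv (.var 0) BTXl) (.mul (.num
  6250000000000000000000000000000000000000000000000000000000) BTGG))

/-- Scaled by `156250000000000000000000000000000000000000000000000000000000000000000`. -/
def BTTA1u : Ex := (.sub (qTA BTr1 BTv (.var 0) BTXu BTYu BTZu BTQu) (.mul (.num
  156250000000000000000000000000000000000000000000000000000000000000000) BTTA))

/-- Scaled by `6250000000000000000000000000000000000000000000000000000000000`. -/
def BTGG1u : Ex := (.sub (qGG BTr1 BTv (.var 0) BTXu) (.mul (.num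
  6250000000000000000000000000000000000000000000000000000000) BTGG))

/-- Scaled by `6250000000000000000000000000000000000000000000000000000`. -/
def BTEGul : Ex := (.sub (.mul (.num 625000000000000000000000000000000000000000000000000000)
  BTEG) (qEG BTr1 BTv (.var 0) BTXu BTYl))

/-- Scaled by `6250000000000000000000000000000000000000000000000000000`. -/
def BTEGll : Ex := (.add (.mul (.num 625000000000000000000000000000000000000000000000000000)
  BTEG) (qEG BTr0 BTv (.var 0) BTXl BTYl))

/-- Scaled by `6250000000000000000000000000000000000000000000000000000`. -/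
def BTEGuu : Ex := (.sub (.mul (.num 625000000000000000000000000000000000000000000000000000)
  BTEG) (qEG BTr1 BTv (.var 0) BTXu BTYu))

/-- Scaled by `6250000000000000000000000000000000000000000000000000000`. -/
def BTEGlu : Ex := (.add (.mul (.num 625000000000000000000000000000000000000000000000000000)
  BTEG) (qEG BTr0 BTv (.var 0) BTXl BTYu))

/-- Scaled by `500000000000000000000000000000000000000000`. -/
def BTMEnl : Ex := (.add (.mul (.num 50000000000000000000000000000000000000000) BTME) (qME BTr1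
  BTv (.var 0) BTXu BTYl BTZl BTQl))

/-- Scaled by `500000000000000000000000000000000000000000`. -/
def BTMEpl : Ex := (.sub (.mul (.num 50000000000000000000000000000000000000000) BTME) (qME BTr0
  BTv (.var 0) BTXl BTYl BTZu BTQu))

/-- Scaled by `500000000000000000000000000000000000000000`. -/
def BTMEnu : Ex := (.add (.mul (.num 50000000000000000000000000000000000000000) BTME) (qME BTr1
  BTv (.var 0) BTXu BTYu BTZl BTQl))

/-- Scaled by `500000000000000000000000000000000000000000`. -/
def BTMEpu : Ex := (.sub (.mul (.num 50000000000000000000000000000000000000000) BTME) (qME BTr0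
  BTv (.var 0) BTXl BTYu BTZu BTQu))

/-- Scaled by `100000`. -/
def BTrgXl : Ex := (.sub BTXl (.num 900000))

/-- Scaled by `100000`. -/
def BTrgXu : Ex := (.sub (.num 1200000) BTXu)

/-- Scaled by `100000`. -/
def BTrgYl : Ex := (.sub BTYl (.num 9900000))

/-- Scaled by `100000`. -/
def BTrgYu : Ex := (.sub (.num 14000000) BTYu)

/-- Scaled by `100000`. -/
def BTrgZl : Ex := (.sub BTZl (.num (-1300000)))

/-- Scaled by `100000`. -/
def BTrgZu : Ex := (.sub (.num (-500000)) BTZu)

/-- Scaled by `100000`. -/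
def BTrgQl : Ex := (.sub BTQl (.num (-2500000)))

/-- Scaled by `100000`. -/
def BTrgQu : Ex := (.sub (.num (-950000)) BTQu)

/-- Scaled by `1`. -/
def BTgpos : Ex := (.sub BTGG (.num 1))

/-- Scaled by `1`. -/
def BTUpos : Ex := (.sub BTU (.num 1))

/-- Scaled by `1250000000000000000000000000000000000`. -/
def BTF : Ex := (.sub (tF (.var 0) BTv BTS1 BTTA BTGG BTEG BTME BTXl BTYl) (.num 1))

/-- Scaled by `3200000000000000000000`. -/
def BTcut : Ex := (.sub (tCut (.var 0) BTS BTW BTU BTa BTb (.var 2)) (.num 1))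

def BTC0 : ℕ → Chart
  | 0 => ⟨3, 20, 25, 109⟩
  | 1 => ⟨2, 501, 5, 500⟩
  | 2 => ⟨47, 501, 50, 500⟩
  | _ => ⟨0, 501, 1, 500⟩

def BTC1 : ℕ → Chart
  | 0 => ⟨3, 20, 25, 109⟩
  | 1 => ⟨2, 501, 5, 500⟩
  | 2 => ⟨47, 33, 50, 34⟩
  | _ => ⟨0, 501, 1, 500⟩

def BTC2 : ℕ → Chart
  | 0 => ⟨3, 20, 25, 109⟩
  | 1 => ⟨2, 501, 5, 500⟩
  | 2 => ⟨33, 501, 34, 500⟩
  | _ => ⟨0, 501, 1, 500⟩

def BTC3 : ℕ → Chart
  | 0 => ⟨3, 20, 25, 109⟩
  | 1 => ⟨2, 40, 5, 57⟩
  | 2 => ⟨47, 33, 50, 34⟩
  | _ => ⟨0, 501, 1, 500⟩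

def BTC4 : ℕ → Chart
  | 0 => ⟨3, 20, 25, 109⟩
  | 1 => ⟨2, 40, 5, 57⟩
  | 2 => ⟨33, 501, 34, 500⟩
  | _ => ⟨0, 501, 1, 500⟩

def BTC5 : ℕ → Chart
  | 0 => ⟨3, 20, 25, 109⟩
  | 1 => ⟨40, 501, 57, 500⟩
  | 2 => ⟨47, 33, 50, 34⟩
  | _ => ⟨0, 501, 1, 500⟩

def BTC6 : ℕ → Chart
  | 0 => ⟨3, 20, 25, 109⟩
  | 1 => ⟨40, 501, 57, 500⟩
  | 2 => ⟨33, 501, 34, 500⟩
  | _ => ⟨0, 501, 1, 500⟩

def BTC7 : ℕ → Chart
  | 0 => ⟨3, 20, 25, 109⟩
  | 1 => ⟨2, 11, 5, 20⟩
  | 2 => ⟨47, 501, 50, 500⟩
  | _ => ⟨0, 501, 1, 500⟩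

def BTC8 : ℕ → Chart
  | 0 => ⟨3, 20, 25, 109⟩
  | 1 => ⟨11, 40, 20, 57⟩
  | 2 => ⟨47, 501, 50, 500⟩
  | _ => ⟨0, 501, 1, 500⟩

def BTC9 : ℕ → Chart
  | 0 => ⟨3, 20, 25, 109⟩
  | 1 => ⟨40, 23, 57, 27⟩
  | 2 => ⟨47, 501, 50, 500⟩
  | _ => ⟨0, 501, 1, 500⟩

def BTC10 : ℕ → Chart
  | 0 => ⟨3, 20, 25, 109⟩
  | 1 => ⟨23, 501, 27, 500⟩
  | 2 => ⟨47, 501, 50, 500⟩
  | _ => ⟨0, 501, 1, 500⟩

def BTC11 : ℕ → Chart
  | 0 => ⟨3, 20, 25, 109⟩
  | 1 => ⟨2, 40, 5, 57⟩
  | 2 => ⟨0, 501, 1, 500⟩
  | _ => ⟨0, 501, 1, 500⟩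

def BTC12 : ℕ → Chart
  | 0 => ⟨3, 20, 25, 109⟩
  | 1 => ⟨40, 501, 57, 500⟩
  | 2 => ⟨0, 501, 1, 500⟩
  | _ => ⟨0, 501, 1, 500⟩

theorem BTZl0_ok0 :
    checkFour BTC0 404 11 5 5 6 BTZl0 = true := by decide +kernel

theorem BTZu0_ok0 :
    checkFour BTC0 404 11 5 5 6 BTZu0 = true := by decide +kernel

theorem BTXl0_ok0 :
    checkFour BTC0 232 6 4 4 2 BTXl0 = true := by decide +kernel

theorem BTYl0_ok0 :
    checkFour BTC0 245 6 4 4 2 BTYl0 = true := by decide +kernel

theorem BTQl0_ok0 :
    checkFour BTC0 244 7 4 4 2 BTQl0 = true := by decide +kernel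

theorem BTXu0_ok0 :
    checkFour BTC1 221 6 4 4 2 BTXu0 = true := by decide +kernel

theorem BTXu0_ok1 :
    checkFour BTC2 232 6 4 4 2 BTXu0 = true := by decide +kernel

theorem BTYu0_ok0 :
    checkFour BTC0 245 6 4 4 2 BTYu0 = true := by decide +kernel

theorem BTQu0_ok0 :
    checkFour BTC0 244 7 4 4 2 BTQu0 = true := by decide +kernel

theorem BTZl1_ok0 :
    checkFour BTC0 379 10 4 4 6 BTZl1 = true := by decide +kernel

theorem BTZu1_ok0 :
    checkFour BTC0 379 10 4 4 6 BTZu1 = true := by decide +kernel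

theorem BTXl1_ok0 :
    checkFour BTC3 296 9 4 4 4 BTXl1 = true := by decide +kernel

theorem BTXl1_ok1 :
    checkFour BTC4 307 9 4 4 4 BTXl1 = true := by decide +kernel

theorem BTXl1_ok2 :
    checkFour BTC5 309 9 4 4 4 BTXl1 = true := by decide +kernel

theorem BTXl1_ok3 :
    checkFour BTC6 320 9 4 4 4 BTXl1 = true := by decide +kernel

theorem BTYl1_ok0 :
    checkFour BTC0 332 9 4 4 4 BTYl1 = true := by decide +kernel

theorem BTQl1_ok0 :
    checkFour BTC0 331 10 4 4 4 BTQl1 = true := by decide +kernel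

theorem BTXu1_ok0 :
    checkFour BTC0 319 9 4 4 4 BTXu1 = true := by decide +kernel

theorem BTYu1_ok0 :
    checkFour BTC0 332 9 4 4 4 BTYu1 = true := by decide +kernel

theorem BTQu1_ok0 :
    checkFour BTC0 331 10 4 4 4 BTQu1 = true := by decide +kernel

theorem BTTA0l_ok0 :
    checkFour BTC0 520 16 8 8 0 BTTA0l = true := by decide +kernel

theorem BTGG0l_ok0 :
    checkFour BTC0 458 14 7 7 0 BTGG0l = true := by decide +kernel

theorem BTTA0u_ok0 :
    checkFour BTC0 520 16 8 8 0 BTTA0u = true := by decide +kernel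

theorem BTGG0u_ok0 :
    checkFour BTC0 457 14 7 7 0 BTGG0u = true := by decide +kernel

theorem BTTA1l_ok0 :
    checkFour BTC0 520 16 8 8 0 BTTA1l = true := by decide +kernel

theorem BTGG1l_ok0 :
    checkFour BTC0 458 14 7 7 0 BTGG1l = true := by decide +kernel

theorem BTTA1u_ok0 :
    checkFour BTC0 520 16 8 8 0 BTTA1u = true := by decide +kernel

theorem BTGG1u_ok0 :
    checkFour BTC0 457 14 7 7 0 BTGG1u = true := by decide +kernel

theorem BTEGul_ok0 :
    checkFour BTC0 406 12 6 6 0 BTEGul = true := by decide +kernel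

theorem BTEGll_ok0 :
    checkFour BTC0 406 12 6 6 0 BTEGll = true := by decide +kernel

theorem BTEGuu_ok0 :
    checkFour BTC7 380 12 6 6 0 BTEGuu = true := by decide +kernel

theorem BTEGuu_ok1 :
    checkFour BTC8 390 12 6 6 0 BTEGuu = true := by decide +kernel

theorem BTEGuu_ok2 :
    checkFour BTC9 391 12 6 6 0 BTEGuu = true := by decide +kernel

theorem BTEGuu_ok3 :
    checkFour BTC10 407 12 6 6 0 BTEGuu = true := by decide +kernel

theorem BTEGlu_ok0 :
    checkFour BTC0 406 12 6 6 0 BTEGlu = true := by decide +kernel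

theorem BTMEnl_ok0 :
    checkFour BTC0 324 10 5 5 0 BTMEnl = true := by decide +kernel

theorem BTMEpl_ok0 :
    checkFour BTC0 325 10 5 5 0 BTMEpl = true := by decide +kernel

theorem BTMEnu_ok0 :
    checkFour BTC0 324 10 5 5 0 BTMEnu = true := by decide +kernel

theorem BTMEpu_ok0 :
    checkFour BTC0 325 10 5 5 0 BTMEpu = true := by decide +kernel

theorem BTrgXl_ok0 :
    checkFour BTC0 76 2 2 2 0 BTrgXl = true := by decide +kernel

theorem BTrgXu_ok0 :
    checkFour BTC0 76 2 2 2 0 BTrgXu = true := by decide +kernel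

theorem BTrgYl_ok0 :
    checkFour BTC0 76 2 2 2 0 BTrgYl = true := by decide +kernel

theorem BTrgYu_ok0 :
    checkFour BTC0 77 2 2 2 0 BTrgYu = true := by decide +kernel

theorem BTrgZl_ok0 :
    checkFour BTC0 74 2 2 2 0 BTrgZl = true := by decide +kernel

theorem BTrgZu_ok0 :
    checkFour BTC0 73 2 2 2 0 BTrgZu = true := by decide +kernel

theorem BTrgQl_ok0 :
    checkFour BTC0 74 2 2 2 0 BTrgQl = true := by decide +kernel

theorem BTrgQu_ok0 :
    checkFour BTC0 74 2 2 2 0 BTrgQu = true := by decide +kernel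

theorem BTgpos_ok0 :
    checkFour BTC0 135 4 4 4 0 BTgpos = true := by decide +kernel

theorem BTUpos_ok0 :
    checkFour BTC0 33 1 1 0 0 BTUpos = true := by decide +kernel

theorem BTF_ok0 :
    checkFour BTC0 653 20 17 17 0 BTF = true := by decide +kernel

theorem BTcut_ok0 :
    checkFour BTC11 177 7 2 2 2 BTcut = true := by decide +kernel

theorem BTcut_ok1 :
    checkFour BTC12 184 7 2 2 2 BTcut = true := by decide +kernel

end Vale.Agent.P100.Calib.NegCert
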