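import Mathlib
import Vale.Agent.P100.Calib.NegCert.PieceBT
import Vale.Agent.P100.Calib.NegCert.PieceLib

/-!
# The closed signs on piece BT
-/

set_option linter.unusedVariables false

namespace Vale.Agent.P100.Calib.NegCert

open Pack

theorem BT_box0 {e : Ex} {d ω σ l : ℝ} {K0 a0 b0 c0 e0 : ℕ} (d₀ : (3 / 25 : ℝ) ≤ d) (d₁ : d <
    (20 / 109 : ℝ)) (ω₀ : (2 / 5 : ℝ) ≤ ω) (ω₁ : ω < (501 / 500 : ℝ)) (σ₀ : (47 / 50 : ℝ) ≤ σ)
    (σ₁ : σ < (501 / 500 : ℝ)) (l₀ : (0 : ℝ) ≤ l) (l₁ : l < (501 / 500 : ℝ)) (h0 : checkFour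
    BTC0 K0 a0 b0 c0 e0 e = true) : 0 ≤ e.eval (pt d ω σ l) := by
  exact nonneg_of_checkFour h0 (mem4 (by decide) (by decide) (by decide) (by decide)
    (by norm_num [InChart, BTC0]; constructor <;> linarith)
    (by norm_num [InChart, BTC0]; constructor <;> linarith)
    (by norm_num [InChart, BTC0]; constructor <;> linarith)
    (by norm_num [InChart, BTC0]; constructor <;> linarith))

theorem BT_box1 {e : Ex} {d ω σ l : ℝ} {K0 a0 b0 c0 e0 : ℕ} {K1 a1 b1 c1 e1 : ℕ} (d₀ : (3 / 25 :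
    ℝ) ≤ d) (d₁ : d < (20 / 109 : ℝ)) (ω₀ : (2 / 5 : ℝ) ≤ ω) (ω₁ : ω < (501 / 500 : ℝ)) (σ₀ :
    (47 / 50 : ℝ) ≤ σ) (σ₁ : σ < (501 / 500 : ℝ)) (l₀ : (0 : ℝ) ≤ l) (l₁ : l < (501 / 500 : ℝ))
    (h0 : checkFour BTC1 K0 a0 b0 c0 e0 e = true) (h1 : checkFour BTC2 K1 a1 b1 c1 e1 e = true)
    : 0 ≤ e.eval (pt d ω σ l) := by
  rcases lt_or_ge σ (33 / 34 : ℝ) with h | h
  ·
    exact nonneg_of_checkFour h0 (mem4 (by decide) (by decide) (by decide) (by decide)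
      (by norm_num [InChart, BTC1]; constructor <;> linarith)
      (by norm_num [InChart, BTC1]; constructor <;> linarith)
      (by norm_num [InChart, BTC1]; constructor <;> linarith)
      (by norm_num [InChart, BTC1]; constructor <;> linarith))
  ·
    exact nonneg_of_checkFour h1 (mem4 (by decide) (by decide) (by decide) (by decide)
      (by norm_num [InChart, BTC2]; constructor <;> linarith)
      (by norm_num [InChart, BTC2]; constructor <;> linarith)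
      (by norm_num [InChart, BTC2]; constructor <;> linarith)
      (by norm_num [InChart, BTC2]; constructor <;> linarith))

theorem BT_box2 {e : Ex} {d ω σ l : ℝ} {K0 a0 b0 c0 e0 : ℕ} {K1 a1 b1 c1 e1 : ℕ} {K2 a2 b2 c2 e2
    : ℕ} {K3 a3 b3 c3 e3 : ℕ} (d₀ : (3 / 25 : ℝ) ≤ d) (d₁ : d < (20 / 109 : ℝ)) (ω₀ : (2 / 5 :
    ℝ) ≤ ω) (ω₁ : ω < (501 / 500 : ℝ)) (σ₀ : (47 / 50 : ℝ) ≤ σ) (σ₁ : σ < (501 / 500 : ℝ)) (l₀ :
    (0 : ℝ) ≤ l) (l₁ : l < (501 / 500 : ℝ)) (h0 : checkFour BTC3 K0 a0 b0 c0 e0 e = true) (h1 :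
    checkFour BTC4 K1 a1 b1 c1 e1 e = true) (h2 : checkFour BTC5 K2 a2 b2 c2 e2 e = true) (h3 :
    checkFour BTC6 K3 a3 b3 c3 e3 e = true) : 0 ≤ e.eval (pt d ω σ l) := by
  rcases lt_or_ge ω (40 / 57 : ℝ) with h | h
  ·
    rcases lt_or_ge σ (33 / 34 : ℝ) with h | h
    ·
      exact nonneg_of_checkFour h0 (mem4 (by decide) (by decide) (by decide) (by decide)
        (by norm_num [InChart, BTC3]; constructor <;> linarith)
        (by norm_num [InChart, BTC3]; constructor <;> linarith)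
        (by norm_num [InChart, BTC3]; constructor <;> linarith)
        (by norm_num [InChart, BTC3]; constructor <;> linarith))
    ·
      exact nonneg_of_checkFour h1 (mem4 (by decide) (by decide) (by decide) (by decide)
        (by norm_num [InChart, BTC4]; constructor <;> linarith)
        (by norm_num [InChart, BTC4]; constructor <;> linarith)
        (by norm_num [InChart, BTC4]; constructor <;> linarith)
        (by norm_num [InChart, BTC4]; constructor <;> linarith))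
  ·
    rcases lt_or_ge σ (33 / 34 : ℝ) with h | h
    ·
      exact nonneg_of_checkFour h2 (mem4 (by decide) (by decide) (by decide) (by decide)
        (by norm_num [InChart, BTC5]; constructor <;> linarith)
        (by norm_num [InChart, BTC5]; constructor <;> linarith)
        (by norm_num [InChart, BTC5]; constructor <;> linarith)
        (by norm_num [InChart, BTC5]; constructor <;> linarith))
    ·
      exact nonneg_of_checkFour h3 (mem4 (by decide) (by decide) (by decide) (by decide)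
        (by norm_num [InChart, BTC6]; constructor <;> linarith)
        (by norm_num [InChart, BTC6]; constructor <;> linarith)
        (by norm_num [InChart, BTC6]; constructor <;> linarith)
        (by norm_num [InChart, BTC6]; constructor <;> linarith))

theorem BT_box3 {e : Ex} {d ω σ l : ℝ} {K0 a0 b0 c0 e0 : ℕ} {K1 a1 b1 c1 e1 : ℕ} {K2 a2 b2 c2 e2
    : ℕ} {K3 a3 b3 c3 e3 : ℕ} (d₀ : (3 / 25 : ℝ) ≤ d) (d₁ : d < (20 / 109 : ℝ)) (ω₀ : (2 / 5 :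
    ℝ) ≤ ω) (ω₁ : ω < (501 / 500 : ℝ)) (σ₀ : (47 / 50 : ℝ) ≤ σ) (σ₁ : σ < (501 / 500 : ℝ)) (l₀ :
    (0 : ℝ) ≤ l) (l₁ : l < (501 / 500 : ℝ)) (h0 : checkFour BTC7 K0 a0 b0 c0 e0 e = true) (h1 :
    checkFour BTC8 K1 a1 b1 c1 e1 e = true) (h2 : checkFour BTC9 K2 a2 b2 c2 e2 e = true) (h3 :
    checkFour BTC10 K3 a3 b3 c3 e3 e = true) : 0 ≤ e.eval (pt d ω σ l) := by
  rcases lt_or_ge ω (11 / 20 : ℝ) with h | h
  ·
    exact nonneg_of_checkFour h0 (mem4 (by decide) (by decide) (by decide) (by decide)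
      (by norm_num [InChart, BTC7]; constructor <;> linarith)
      (by norm_num [InChart, BTC7]; constructor <;> linarith)
      (by norm_num [InChart, BTC7]; constructor <;> linarith)
      (by norm_num [InChart, BTC7]; constructor <;> linarith))
  ·
    rcases lt_or_ge ω (40 / 57 : ℝ) with h | h
    ·
      exact nonneg_of_checkFour h1 (mem4 (by decide) (by decide) (by decide) (by decide)
        (by norm_num [InChart, BTC8]; constructor <;> linarith)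
        (by norm_num [InChart, BTC8]; constructor <;> linarith)
        (by norm_num [InChart, BTC8]; constructor <;> linarith)
        (by norm_num [InChart, BTC8]; constructor <;> linarith))
    ·
      rcases lt_or_ge ω (23 / 27 : ℝ) with h | h
      ·
        exact nonneg_of_checkFour h2 (mem4 (by decide) (by decide) (by decide) (by decide)
          (by norm_num [InChart, BTC9]; constructor <;> linarith)
          (by norm_num [InChart, BTC9]; constructor <;> linarith)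
          (by norm_num [InChart, BTC9]; constructor <;> linarith)
          (by norm_num [InChart, BTC9]; constructor <;> linarith))
      ·
        exact nonneg_of_checkFour h3 (mem4 (by decide) (by decide) (by decide) (by decide)
          (by norm_num [InChart, BTC10]; constructor <;> linarith)
          (by norm_num [InChart, BTC10]; constructor <;> linarith)
          (by norm_num [InChart, BTC10]; constructor <;> linarith)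
          (by norm_num [InChart, BTC10]; constructor <;> linarith))

theorem BT_box4 {e : Ex} {d ω σ l : ℝ} {K0 a0 b0 c0 e0 : ℕ} {K1 a1 b1 c1 e1 : ℕ} (d₀ : (3 / 25 :
    ℝ) ≤ d) (d₁ : d < (20 / 109 : ℝ)) (ω₀ : (2 / 5 : ℝ) ≤ ω) (ω₁ : ω < (501 / 500 : ℝ)) (σ₀ : (0
    : ℝ) ≤ σ) (σ₁ : σ < (501 / 500 : ℝ)) (l₀ : (0 : ℝ) ≤ l) (l₁ : l < (501 / 500 : ℝ)) (h0 :
    checkFour BTC11 K0 a0 b0 c0 e0 e = true) (h1 : checkFour BTC12 K1 a1 b1 c1 e1 e = true) : 0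
    ≤ e.eval (pt d ω σ l) := by
  rcases lt_or_ge ω (40 / 57 : ℝ) with h | h
  ·
    exact nonneg_of_checkFour h0 (mem4 (by decide) (by decide) (by decide) (by decide)
      (by norm_num [InChart, BTC11]; constructor <;> linarith)
      (by norm_num [InChart, BTC11]; constructor <;> linarith)
      (by norm_num [InChart, BTC11]; constructor <;> linarith)
      (by norm_num [InChart, BTC11]; constructor <;> linarith))
  ·
    exact nonneg_of_checkFour h1 (mem4 (by decide) (by decide) (by decide) (by decide)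
      (by norm_num [InChart, BTC12]; constructor <;> linarith)
      (by norm_num [InChart, BTC12]; constructor <;> linarith)
      (by norm_num [InChart, BTC12]; constructor <;> linarith)
      (by norm_num [InChart, BTC12]; constructor <;> linarith))

/-- The end of the `u`-range of piece `BT`. -/
noncomputable def BTUr (d ω : ℝ) : ℝ := BTU.eval (pt d ω 0 0) / 100000

theorem BT_range {d S u v t ω l U : ℝ} (h : Hyp d S u v t) (hd₀ : (3 / 25 : ℝ) ≤ d) (hd₁ : d <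
    (20 / 109 : ℝ)) (hω₀ : (2 / 5 : ℝ) ≤ ω) (hω₁ : ω < (501 / 500 : ℝ)) (l₀ : (0 : ℝ) ≤ l) (l₁ :
    l < (501 / 500 : ℝ)) (hlS : l * ((757 / 1250 : ℝ) - (3 / 5 : ℝ)) = S - (3 / 5 : ℝ)) (hUd : U
    = BTUr d ω) (hw : v - 9 / 50 * u = ((239 / 250 : ℝ) + (1 / 16 : ℝ) * d - (757 / 1250 : ℝ)) +
    ω * (14 / 25 - 1 / 20 * d - ((239 / 250 : ℝ) + (1 / 16 : ℝ) * d - (757 / 1250 : ℝ)))) : (∀
    σ, BTS.eval (pt d ω σ l) = 10000 * S) ∧ (∀ σ, BTS0.eval (pt d ω σ l) = 10000 * (3 / 5 : ℝ))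
    ∧ (∀ σ, BTS1.eval (pt d ω σ l) = 10000 * (757 / 1250 : ℝ)) ∧ (∀ σ, BTW.eval (pt d ω σ l) =
    10000 * (v - 9 / 50 * u)) ∧ (∀ σ, BTU.eval (pt d ω σ l) = 100000 * U) ∧ (∀ σ, BTa.eval (pt d
    ω σ l) = 10000 * (S - d)) ∧ (∀ σ, BTb.eval (pt d ω σ l) = 10000 * (S + d)) ∧ 0 < U ∧ -u ≤ U
    := by
  have eD : ∀ σ, (Ex.var 0).eval (pt d ω σ l) = d := fun σ => by simp [Ex.eval, pt]
  have eS : ∀ σ, BTS.eval (pt d ω σ l) = 10000 * S := fun σ => by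
    simp [BTS, BTS0, BTS1, Ex.eval, pt]; linear_combination 10000 * hlS
  have eS₀ : ∀ σ, BTS0.eval (pt d ω σ l) = 10000 * (3 / 5 : ℝ) := fun σ => by
    simp [BTS0, Ex.eval, pt] <;> ring
  have eS₁ : ∀ σ, BTS1.eval (pt d ω σ l) = 10000 * (757 / 1250 : ℝ) := fun σ => by
    simp [BTS1, Ex.eval, pt] <;> ring
  have eW : ∀ σ, BTW.eval (pt d ω σ l) = 10000 * (v - 9 / 50 * u) := fun σ => by
    simp [BTW, BTW0, BTS1, Ex.eval, pt]; linear_combination -10000 * hw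
  have eU : ∀ σ, BTU.eval (pt d ω σ l) = 100000 * U := fun σ => by
    simp [hUd, BTUr, BTU, Ex.eval, pt] <;> ring
  have eA : ∀ σ, BTa.eval (pt d ω σ l) = 10000 * (S - d) := fun σ => by
    simp only [BTa, Ex.eval, eS, pt]; push_cast; ring
  have eB : ∀ σ, BTb.eval (pt d ω σ l) = 10000 * (S + d) := fun σ => by
    simp only [BTb, Ex.eval, eS, pt]; push_cast; ring
  have hU : 0 < U := by
    have k := BT_box0 (σ := (47 / 50 : ℝ)) hd₀ hd₁ hω₀ hω₁ le_rfl (by norm_num) l₀ l₁ BTUpos_ok0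
    simp only [BTUpos, Ex.eval, eU] at k
    push_cast at k; linarith
  obtain ⟨d0, d1, gS0, gS1, u0, u1, v0, v1, -, ht0, ht1, hc⟩ := id h
  have hσU : -u ≤ U := h.no_crossing fun τ τ₀ τ₁ u' hu' => by
    have k := BT_box4 (σ := τ) hd₀ hd₁ hω₀ hω₁ τ₀ (by linarith) l₀ l₁ BTcut_ok0 BTcut_ok1
    simp only [BTcut, Ex.eval] at k
    rw [tCut_eval (d := d) (w := v - 9 / 50 * u) (U := U) (τ := τ) (by simp [Ex.eval, pt]) (eS τ) (eW τ) (eU τ) (eA τ) (eB τ)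
      (by simp [Ex.eval, pt]) u' hu'] at k
    push_cast at k; linarith
  exact ⟨eS, eS₀, eS₁, eW, eU, eA, eB, hU, hσU⟩

theorem BT_bounds {p : ℕ → ℝ} {d S u v Xl Xu Yl Yu Zl Zu Ql Qu : ℝ} (hD : (Ex.var 0).eval p = d)
    (hS : BTS.eval p = 10000 * S) (hA : BTa.eval p = 10000 * (S - d)) (hB : BTb.eval p = 10000 *
    (S + d)) (hu' : BTu.eval p = 100000 * u) (hv : BTv.eval p = 5000000 * v) (hn : BTnu.eval p =
    5000000 * -u) (hT0 : BTT0.eval p = 10000000 * t0r d u) (hT1 : BTT1.eval p = 10000000 * t1r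
    d) (eXl : BTXl.eval p = 100000 * Xl) (eXu : BTXu.eval p = 100000 * Xu) (eYl : BTYl.eval p =
    100000 * Yl) (eYu : BTYu.eval p = 100000 * Yu) (eZl : BTZl.eval p = 100000 * Zl) (eZu :
    BTZu.eval p = 100000 * Zu) (eQl : BTQl.eval p = 100000 * Ql) (eQu : BTQu.eval p = 100000 *
    Qu) (kXl0 : 0 ≤ BTXl0.eval p) (kXl1 : 0 ≤ BTXl1.eval p) (kXu0 : 0 ≤ BTXu0.eval p) (kXu1 : 0
    ≤ BTXu1.eval p) (kYl0 : 0 ≤ BTYl0.eval p) (kYl1 : 0 ≤ BTYl1.eval p) (kYu0 : 0 ≤ BTYu0.eval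
    p) (kYu1 : 0 ≤ BTYu1.eval p) (kQl0 : 0 ≤ BTQl0.eval p) (kQl1 : 0 ≤ BTQl1.eval p) (kQu0 : 0 ≤
    BTQu0.eval p) (kQu1 : 0 ≤ BTQu1.eval p) (kZl0 : 0 ≤ BTZl0.eval p) (kZl1 : 0 ≤ BTZl1.eval p)
    (kZu0 : 0 ≤ BTZu0.eval p) (kZu1 : 0 ≤ BTZu1.eval p) : BoundData d S u v (5000000 * v)
    (5000000 * -u) Xl Xu Yl Yu Zl Zu Ql Qu := by
  have hHn : BTHn1.eval p = _ := tHn_eval hS hu' hv hA hB hT1
  have hHd : BTHd.eval p = _ := tBCH_eval (d := d) hS hB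
  exact {
    Xl₀ := by
      rw [BTXl0, bXl_eval hD hS hu' hv hB eXl hv hn] at kXl0
      linarith
    Xl₁ := by
      rw [BTXl1, bXl_eval hD hS hu' hv hB eXl hHn hHd] at kXl1
      rw [Xlo_mul] at kXl1
      linarith
    Xu₀ := by
      rw [BTXu0, bXu_eval hD hS hu' hv hB eXu hv hn] at kXu0
      linarith
    Xu₁ := by
      rw [BTXu1, bXu_eval hD hS hu' hv hB eXu hHn hHd] at kXu1
      rw [Xlo_mul] at kXu1
      linarith
    Yl₀ := by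
      rw [BTYl0, bYl_eval hD hS hu' hv hB eYl hv hn] at kYl0
      linarith
    Yl₁ := by
      rw [BTYl1, bYl_eval hD hS hu' hv hB eYl hHn hHd] at kYl1
      rw [Ylo_mul] at kYl1
      linarith
    Yu₀ := by
      rw [BTYu0, bYu_eval hD hS hu' hv hB eYu hv hn] at kYu0
      linarith
    Yu₁ := by
      rw [BTYu1, bYu_eval hD hS hu' hv hB eYu hHn hHd] at kYu1
      rw [Ylo_mul] at kYu1
      linarith
    Ql₀ := by
      rw [BTQl0, bQl_eval hD hS hu' hv hB eQl hv hn] at kQl0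
      linarith
    Ql₁ := by
      rw [BTQl1, bQl_eval hD hS hu' hv hB eQl hHn hHd] at kQl1
      rw [Qlo_mul] at kQl1
      linarith
    Qu₀ := by
      rw [BTQu0, bQu_eval hD hS hu' hv hB eQu hv hn] at kQu0
      linarith
    Qu₁ := by
      rw [BTQu1, bQu_eval hD hS hu' hv hB eQu hHn hHd] at kQu1
      rw [Qlo_mul] at kQu1
      linarith
    Zl₀ := by
      rw [BTZl0, bZl_eval hD hS hu' hv hA hB eZl hT0] at kZl0
      linarith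
    Zl₁ := by
      rw [BTZl1, bZl_eval hD hS hu' hv hA hB eZl hT1] at kZl1
      linarith
    Zu₀ := by
      rw [BTZu0, bZu_eval hD hS hu' hv hA hB eZu hT0] at kZu0
      linarith
    Zu₁ := by
      rw [BTZu1, bZu_eval hD hS hu' hv hA hB eZu hT1] at kZu1
      linarith }

theorem BT_vertex {p : ℕ → ℝ} {d v α γ η μ Xl Xu Yl Yu Zl Zu Ql Qu : ℝ} (hD : (Ex.var 0).eval p
    = d) (hv : BTv.eval p = 5000000 * v) (hr₀ : BTr0.eval p = 2000 * (5 * (3 / 5 : ℝ) - 3)) (hr₁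
    : BTr1.eval p = 2000 * (5 * (757 / 1250 : ℝ) - 3)) (hS₁ : BTS1.eval p = 10000 * (757 / 1250
    : ℝ)) (eXl : BTXl.eval p = 100000 * Xl) (eXu : BTXu.eval p = 100000 * Xu) (eYl : BTYl.eval p
    = 100000 * Yl) (eYu : BTYu.eval p = 100000 * Yu) (eZl : BTZl.eval p = 100000 * Zl) (eZu :
    BTZu.eval p = 100000 * Zu) (eQl : BTQl.eval p = 100000 * Ql) (eQu : BTQu.eval p = 100000 *
    Qu) (eTA : BTTA.eval p = α) (eGG : BTGG.eval p = 1000 * γ) (eEG : BTEG.eval p = 10 * η) (eME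
    : BTME.eval p = 10 * μ) (hγ : 0 < γ) (kTA0l : 0 ≤ BTTA0l.eval p) (kGG0l : 0 ≤ BTGG0l.eval p)
    (kTA0u : 0 ≤ BTTA0u.eval p) (kGG0u : 0 ≤ BTGG0u.eval p) (kTA1l : 0 ≤ BTTA1l.eval p) (kGG1l :
    0 ≤ BTGG1l.eval p) (kTA1u : 0 ≤ BTTA1u.eval p) (kGG1u : 0 ≤ BTGG1u.eval p) (kEGul : 0 ≤
    BTEGul.eval p) (kEGll : 0 ≤ BTEGll.eval p) (kMEnl : 0 ≤ BTMEnl.eval p) (kMEpl : 0 ≤
    BTMEpl.eval p) (kEGuu : 0 ≤ BTEGuu.eval p) (kEGlu : 0 ≤ BTEGlu.eval p) (kMEnu : 0 ≤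
    BTMEnu.eval p) (kMEpu : 0 ≤ BTMEpu.eval p) (kF : 0 ≤ BTF.eval p) : VertexData d v (5 * (3 /
    5 : ℝ) - 3) (5 * (757 / 1250 : ℝ) - 3) α γ η μ Xl Xu Yl Yu Zl Zu Ql Qu := by
  exact {
    ta₀l := by
      simp only [BTTA0l, Ex.eval, qTA_eval hr₀ hv hD eXu eYl eZu eQu, eTA] at kTA0l
      push_cast at kTA0l
      linarith
    gg₀l := by
      simp only [BTGG0l, Ex.eval, qGG_eval hr₀ hv hD eXl, eGG] at kGG0l
      push_cast at kGG0l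
      linarith
    ta₀u := by
      simp only [BTTA0u, Ex.eval, qTA_eval hr₀ hv hD eXu eYu eZu eQu, eTA] at kTA0u
      push_cast at kTA0u
      linarith
    gg₀u := by
      simp only [BTGG0u, Ex.eval, qGG_eval hr₀ hv hD eXu, eGG] at kGG0u
      push_cast at kGG0u
      linarith
    ta₁l := by
      simp only [BTTA1l, Ex.eval, qTA_eval hr₁ hv hD eXu eYl eZu eQu, eTA] at kTA1l
      push_cast at kTA1l
      linarith
    gg₁l := by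
      simp only [BTGG1l, Ex.eval, qGG_eval hr₁ hv hD eXl, eGG] at kGG1l
      push_cast at kGG1l
      linarith
    ta₁u := by
      simp only [BTTA1u, Ex.eval, qTA_eval hr₁ hv hD eXu eYu eZu eQu, eTA] at kTA1u
      push_cast at kTA1u
      linarith
    gg₁u := by
      simp only [BTGG1u, Ex.eval, qGG_eval hr₁ hv hD eXu, eGG] at kGG1u
      push_cast at kGG1u
      linarith
    egul := by
      simp only [BTEGul, Ex.eval, qEG_eval hr₁ hv hD eXu eYl, eEG] at kEGul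
      push_cast at kEGul
      linarith
    egll := by
      simp only [BTEGll, Ex.eval, qEG_eval hr₀ hv hD eXl eYl, eEG] at kEGll
      push_cast at kEGll
      linarith
    menl := by
      simp only [BTMEnl, Ex.eval, qME_eval hr₁ hv hD eXu eYl eZl eQl, eME] at kMEnl
      push_cast at kMEnl
      linarith
    mepl := by
      simp only [BTMEpl, Ex.eval, qME_eval hr₀ hv hD eXl eYl eZu eQu, eME] at kMEpl
      push_cast at kMEpl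
      linarith
    eguu := by
      simp only [BTEGuu, Ex.eval, qEG_eval hr₁ hv hD eXu eYu, eEG] at kEGuu
      push_cast at kEGuu
      linarith
    eglu := by
      simp only [BTEGlu, Ex.eval, qEG_eval hr₀ hv hD eXl eYu, eEG] at kEGlu
      push_cast at kEGlu
      linarith
    menu := by
      simp only [BTMEnu, Ex.eval, qME_eval hr₁ hv hD eXu eYu eZl eQl, eME] at kMEnu
      push_cast at kMEnu
      linarith
    mepu := by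
      simp only [BTMEpu, Ex.eval, qME_eval hr₀ hv hD eXl eYu eZu eQu, eME] at kMEpu
      push_cast at kMEpu
      linarith
    gpos := hγ
    arrow := by
      simp only [BTF, Ex.eval] at kF
      rw [tF_eval hD hv hS₁ eTA eGG eEG eME eXl eYl] at kF
      push_cast at kF
      linarith }

/-- The closed signs on piece `BT`. -/
theorem BT_signs {d S u v t ω : ℝ} (h : Hyp d S u v t) (hd₀ : (3 / 25 : ℝ) ≤ d) (hd₁ : d < (20 / 109 : ℝ))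
    (hS₀ : (3 / 5 : ℝ) ≤ S) (hS₁ : S ≤ (757 / 1250 : ℝ))
    (hw : v - 9 / 50 * u = ((239 / 250 : ℝ) + (1 / 16 : ℝ) * d - (757 / 1250 : ℝ)) + ω * (14 / 25 - 1 / 20 * d - ((239 / 250 : ℝ) + (1 / 16 : ℝ) * d - (757 / 1250 : ℝ))))
    (hω₀ : (2 / 5 : ℝ) ≤ ω) (hω₁ : ω < (501 / 500 : ℝ))
    (hσ : (47 / 50 : ℝ) * BTUr d ω ≤ -u) :
    Closed.ChartSigns d S u v t := by
  obtain ⟨d0, d1, gS0, gS1, u0, u1, v0, v1, -, ht0, ht1, hc⟩ := id h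
  have hlt : (3 / 5 : ℝ) < (757 / 1250 : ℝ) := by linarith
  have hgap : 0 < (757 / 1250 : ℝ) - (3 / 5 : ℝ) := by linarith
  obtain ⟨l, hl⟩ : ∃ l, l = (S - (3 / 5 : ℝ)) / ((757 / 1250 : ℝ) - (3 / 5 : ℝ)) := ⟨_, rfl⟩
  have l₀ : (0 : ℝ) ≤ l := (hl ▸ div_nonneg (by linarith) hgap.le)
  have l₁ : l < (501 / 500 : ℝ) := lt_of_le_of_lt (by rw [hl, div_le_one hgap]; linarith : l ≤ 1) (by norm_num)
  have hlS : l * ((757 / 1250 : ℝ) - (3 / 5 : ℝ)) = S - (3 / 5 : ℝ) := by rw [hl]; exact div_mul_cancel₀ _ hgap.ne'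
  obtain ⟨U, hUd⟩ : ∃ U, U = BTUr d ω := ⟨_, rfl⟩
  obtain ⟨eS, eS₀, eS₁, eW, eU, eA, eB, hU, hσU⟩ := BT_range h hd₀ hd₁ hω₀ hω₁ l₀ l₁ hlS hUd hw
  have eD : ∀ σ, (Ex.var 0).eval (pt d ω σ l) = d := fun σ => by simp [Ex.eval, pt]
  obtain ⟨σ, hσd⟩ : ∃ σ, σ = -u / U := ⟨_, rfl⟩
  have hσu : σ * U = -u := by rw [hσd]; exact div_mul_cancel₀ _ hU.ne'
  have σ₀ : (47 / 50 : ℝ) ≤ σ := by rw [hσd, le_div_iff₀ hU]; (rw [hUd]; exact hσ)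
  have hu : u < 0 := by linarith
  have σ₁ : σ < (501 / 500 : ℝ) := lt_of_le_of_lt (by rw [hσd, div_le_one hU]; linarith : σ ≤ 1) (by norm_num)
  set p := pt d ω σ l with hp
  have hD : (Ex.var 0).eval p = d := eD σ
  have hS : BTS.eval p = 10000 * S := eS σ
  have hA : BTa.eval p = 10000 * (S - d) := eA σ
  have hB : BTb.eval p = 10000 * (S + d) := eB σ
  have hu' : BTu.eval p = 100000 * u := by
    simp only [BTu, Ex.eval, hp, eU]; simp only [pt]; push_cast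
    linear_combination -100000 * hσu
  have hv : BTv.eval p = 5000000 * v := by
    simp only [BTv, Ex.eval, hu']; rw [hp, eW]; push_cast; ring
  have hT0 : BTT0.eval p = 10000000 * t0r d u := tT0_eval hD hu'
  have hT1 : BTT1.eval p = 10000000 * t1r d := tT1_eval hD
  have hr : ∀ (R S0E : Ex) (s : ℝ), R = .sub S0E (.num 6000) → S0E.eval p = 10000 * s → R.eval p = 2000 * (5 * s - 3) := fun R S0E s e1 e2 => by
    subst e1; simp only [Ex.eval, e2]; push_cast; ring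
  have hr₀ := hr BTr0 BTS0 (3 / 5 : ℝ) rfl (eS₀ σ)
  have hr₁ := hr BTr1 BTS1 (757 / 1250 : ℝ) rfl (eS₁ σ)
  obtain ⟨Xl, eXl⟩ : ∃ y, BTXl.eval p = 100000 * y := ⟨BTXl.eval p / 100000, by ring⟩
  obtain ⟨Xu, eXu⟩ : ∃ y, BTXu.eval p = 100000 * y := ⟨BTXu.eval p / 100000, by ring⟩
  obtain ⟨Yl, eYl⟩ : ∃ y, BTYl.eval p = 100000 * y := ⟨BTYl.eval p / 100000, by ring⟩
  obtain ⟨Yu, eYu⟩ : ∃ y, BTYu.eval p = 100000 * y := ⟨BTYu.eval p / 100000, by ring⟩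
  obtain ⟨Zl, eZl⟩ : ∃ y, BTZl.eval p = 100000 * y := ⟨BTZl.eval p / 100000, by ring⟩
  obtain ⟨Zu, eZu⟩ : ∃ y, BTZu.eval p = 100000 * y := ⟨BTZu.eval p / 100000, by ring⟩
  obtain ⟨Ql, eQl⟩ : ∃ y, BTQl.eval p = 100000 * y := ⟨BTQl.eval p / 100000, by ring⟩
  obtain ⟨Qu, eQu⟩ : ∃ y, BTQu.eval p = 100000 * y := ⟨BTQu.eval p / 100000, by ring⟩
  obtain ⟨α, eTA⟩ : ∃ y, BTTA.eval p = y := ⟨_, rfl⟩
  obtain ⟨γ, eGG⟩ : ∃ y, BTGG.eval p = 1000 * y := ⟨BTGG.eval p / 1000, by ring⟩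
  obtain ⟨η, eEG⟩ : ∃ y, BTEG.eval p = 10 * y := ⟨BTEG.eval p / 10, by ring⟩
  obtain ⟨μ, eME⟩ : ∃ y, BTME.eval p = 10 * y := ⟨BTME.eval p / 10, by ring⟩
  have kZl0 := BT_box0 (e := BTZl0) hd₀ hd₁ hω₀ hω₁ σ₀ σ₁ l₀ l₁ BTZl0_ok0
  have kZu0 := BT_box0 (e := BTZu0) hd₀ hd₁ hω₀ hω₁ σ₀ σ₁ l₀ l₁ BTZu0_ok0
  have kXl0 := BT_box0 (e := BTXl0) hd₀ hd₁ hω₀ hω₁ σ₀ σ₁ l₀ l₁ BTXl0_ok0
  have kYl0 := BT_box0 (e := BTYl0) hd₀ hd₁ hω₀ hω₁ σ₀ σ₁ l₀ l₁ BTYl0_ok0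
  have kQl0 := BT_box0 (e := BTQl0) hd₀ hd₁ hω₀ hω₁ σ₀ σ₁ l₀ l₁ BTQl0_ok0
  have kXu0 := BT_box1 (e := BTXu0) hd₀ hd₁ hω₀ hω₁ σ₀ σ₁ l₀ l₁ BTXu0_ok0 BTXu0_ok1
  have kYu0 := BT_box0 (e := BTYu0) hd₀ hd₁ hω₀ hω₁ σ₀ σ₁ l₀ l₁ BTYu0_ok0
  have kQu0 := BT_box0 (e := BTQu0) hd₀ hd₁ hω₀ hω₁ σ₀ σ₁ l₀ l₁ BTQu0_ok0
  have kZl1 := BT_box0 (e := BTZl1) hd₀ hd₁ hω₀ hω₁ σ₀ σ₁ l₀ l₁ BTZl1_ok0
  have kZu1 := BT_box0 (e := BTZu1) hd₀ hd₁ hω₀ hω₁ σ₀ σ₁ l₀ l₁ BTZu1_ok0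
  have kXl1 := BT_box2 (e := BTXl1) hd₀ hd₁ hω₀ hω₁ σ₀ σ₁ l₀ l₁ BTXl1_ok0 BTXl1_ok1 BTXl1_ok2 BTXl1_ok3
  have kYl1 := BT_box0 (e := BTYl1) hd₀ hd₁ hω₀ hω₁ σ₀ σ₁ l₀ l₁ BTYl1_ok0
  have kQl1 := BT_box0 (e := BTQl1) hd₀ hd₁ hω₀ hω₁ σ₀ σ₁ l₀ l₁ BTQl1_ok0
  have kXu1 := BT_box0 (e := BTXu1) hd₀ hd₁ hω₀ hω₁ σ₀ σ₁ l₀ l₁ BTXu1_ok0
  have kYu1 := BT_box0 (e := BTYu1) hd₀ hd₁ hω₀ hω₁ σ₀ σ₁ l₀ l₁ BTYu1_ok0
  have kQu1 := BT_box0 (e := BTQu1) hd₀ hd₁ hω₀ hω₁ σ₀ σ₁ l₀ l₁ BTQu1_ok0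
  have kTA0l := BT_box0 (e := BTTA0l) hd₀ hd₁ hω₀ hω₁ σ₀ σ₁ l₀ l₁ BTTA0l_ok0
  have kGG0l := BT_box0 (e := BTGG0l) hd₀ hd₁ hω₀ hω₁ σ₀ σ₁ l₀ l₁ BTGG0l_ok0
  have kTA0u := BT_box0 (e := BTTA0u) hd₀ hd₁ hω₀ hω₁ σ₀ σ₁ l₀ l₁ BTTA0u_ok0
  have kGG0u := BT_box0 (e := BTGG0u) hd₀ hd₁ hω₀ hω₁ σ₀ σ₁ l₀ l₁ BTGG0u_ok0
  have kTA1l := BT_box0 (e := BTTA1l) hd₀ hd₁ hω₀ hω₁ σ₀ σ₁ l₀ l₁ BTTA1l_ok0
  have kGG1l := BT_box0 (e := BTGG1l) hd₀ hd₁ hω₀ hω₁ σ₀ σ₁ l₀ l₁ BTGG1l_ok0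
  have kTA1u := BT_box0 (e := BTTA1u) hd₀ hd₁ hω₀ hω₁ σ₀ σ₁ l₀ l₁ BTTA1u_ok0
  have kGG1u := BT_box0 (e := BTGG1u) hd₀ hd₁ hω₀ hω₁ σ₀ σ₁ l₀ l₁ BTGG1u_ok0
  have kEGul := BT_box0 (e := BTEGul) hd₀ hd₁ hω₀ hω₁ σ₀ σ₁ l₀ l₁ BTEGul_ok0
  have kEGll := BT_box0 (e := BTEGll) hd₀ hd₁ hω₀ hω₁ σ₀ σ₁ l₀ l₁ BTEGll_ok0
  have kEGuu := BT_box3 (e := BTEGuu) hd₀ hd₁ hω₀ hω₁ σ₀ σ₁ l₀ l₁ BTEGuu_ok0 BTEGuu_ok1 BTEGuu_ok2 BTEGuu_ok3
  have kEGlu := BT_box0 (e := BTEGlu) hd₀ hd₁ hω₀ hω₁ σ₀ σ₁ l₀ l₁ BTEGlu_ok0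
  have kMEnl := BT_box0 (e := BTMEnl) hd₀ hd₁ hω₀ hω₁ σ₀ σ₁ l₀ l₁ BTMEnl_ok0
  have kMEpl := BT_box0 (e := BTMEpl) hd₀ hd₁ hω₀ hω₁ σ₀ σ₁ l₀ l₁ BTMEpl_ok0
  have kMEnu := BT_box0 (e := BTMEnu) hd₀ hd₁ hω₀ hω₁ σ₀ σ₁ l₀ l₁ BTMEnu_ok0
  have kMEpu := BT_box0 (e := BTMEpu) hd₀ hd₁ hω₀ hω₁ σ₀ σ₁ l₀ l₁ BTMEpu_ok0
  have krgXl := BT_box0 (e := BTrgXl) hd₀ hd₁ hω₀ hω₁ σ₀ σ₁ l₀ l₁ BTrgXl_ok0
  have krgXu := BT_box0 (e := BTrgXu) hd₀ hd₁ hω₀ hω₁ σ₀ σ₁ l₀ l₁ BTrgXu_ok0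
  have krgYl := BT_box0 (e := BTrgYl) hd₀ hd₁ hω₀ hω₁ σ₀ σ₁ l₀ l₁ BTrgYl_ok0
  have krgYu := BT_box0 (e := BTrgYu) hd₀ hd₁ hω₀ hω₁ σ₀ σ₁ l₀ l₁ BTrgYu_ok0
  have krgZl := BT_box0 (e := BTrgZl) hd₀ hd₁ hω₀ hω₁ σ₀ σ₁ l₀ l₁ BTrgZl_ok0
  have krgZu := BT_box0 (e := BTrgZu) hd₀ hd₁ hω₀ hω₁ σ₀ σ₁ l₀ l₁ BTrgZu_ok0
  have krgQl := BT_box0 (e := BTrgQl) hd₀ hd₁ hω₀ hω₁ σ₀ σ₁ l₀ l₁ BTrgQl_ok0
  have krgQu := BT_box0 (e := BTrgQu) hd₀ hd₁ hω₀ hω₁ σ₀ σ₁ l₀ l₁ BTrgQu_ok0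
  have kgpos := BT_box0 (e := BTgpos) hd₀ hd₁ hω₀ hω₁ σ₀ σ₁ l₀ l₁ BTgpos_ok0
  have kF := BT_box0 (e := BTF) hd₀ hd₁ hω₀ hω₁ σ₀ σ₁ l₀ l₁ BTF_ok0
  rw [← hp] at kZl0 kZu0 kXl0 kYl0 kQl0 kXu0 kYu0 kQu0 kZl1 kZu1 kXl1 kYl1 kQl1 kXu1 kYu1 kQu1 kTA0l kGG0l kTA0u kGG0u kTA1l kGG1l kTA1u kGG1u kEGul kEGll kEGuu kEGlu kMEnl kMEpl kMEnu kMEpu krgXl krgXu krgYl krgYu krgZl krgZu krgQl krgQu kgpos kF
  have hn : BTnu.eval p = 5000000 * -u := by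
    simp only [BTnu, Ex.eval, hu']; push_cast; ring
  have hbd := BT_bounds hD hS hA hB hu' hv hn hT0 hT1 eXl eXu eYl eYu eZl eZu eQl eQu kXl0 kXl1 kXu0 kXu1 kYl0 kYl1 kYu0 kYu1 kQl0 kQl1 kQu0 kQu1 kZl0 kZl1 kZu0 kZu1
  simp only [BTrgXl, BTrgXu, BTrgYl, BTrgYu, BTrgZl, BTrgZu, BTrgQl, BTrgQu, BTgpos, Ex.eval, eXl, eXu, eYl, eYu, eZl, eZu, eQl, eQu, eGG] at krgXl krgXu krgYl krgYu krgZl krgZu krgQl krgQu kgpos
  push_cast at krgXl krgXu krgYl krgYu krgZl krgZu krgQl krgQu kgpos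
  have hrg : Ranges Xl Xu Yl Yu Zl Zu Ql Qu :=
    ⟨by linarith, by linarith, by linarith, by linarith, by linarith, by linarith, by linarith, by linarith⟩
  have hz : Zone d Xu Zl Qu :=
    .inr ⟨by linarith, by linarith, by linarith, by linarith⟩
  have hvd := BT_vertex hD hv hr₀ hr₁ (eS₁ σ) eXl eXu eYl eYu eZl eZu eQl eQu eTA eGG eEG eME (by linarith : 0 < γ) kTA0l kGG0l kTA0u kGG0u kTA1l kGG1l kTA1u kGG1u kEGul kEGll kMEnl kMEpl kEGuu kEGlu kMEnu kMEpu kF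
  exact chartSigns_of_data d0 d1 gS0 gS1 (by linarith) ⟨by linarith, by linarith⟩ (by linarith)
    u0 u1 v0 v1 ht0 ht1 hc (by linarith) (h.H_le_clip hu) hbd hrg hz hvd

end Vale.Agent.P100.Calib.NegCert
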