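import Mathlib
import Vale.Agent.P100.Pack.FastFour
import Vale.Agent.P100.Calib.NegCert.Coef
import Vale.Agent.P100.Calib.NegCert.Tpl

/-!
# Piece CLa of the region `u ≤ 0`: data and checks
-/

set_option linter.unusedVariables false

namespace Vale.Agent.P100.Calib.NegCert

open Pack

def CLaS0 : Ex := (.num 6000)

def CLaS1 : Ex := (.add (.num 6333) (.mul (.num (-1665)) (.var 0)))

def CLaS : Ex := (.add CLaS0 (.mul (.var 3) (.sub CLaS1 CLaS0)))

def CLaU : Ex := (.add (.mul (.add (.mul (.num (-16410)) (.var 1)) (.num 36421)) (.var 0)) (.add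
  (.mul (.num 15563) (.var 1)) (.num 20302)))

def CLau : Ex := (.sub (.num 0) (.mul (.var 2) CLaU))

def CLaW0 : Ex := (.sub (.add (.num 9560) (.mul (.num 625) (.var 0))) CLaS1)

def CLaW : Ex := (.add CLaW0 (.mul (.var 1) (.sub (.sub (.num 5600) (.mul (.num 500) (.var 0)))
  CLaW0)))

def CLav : Ex := (.add (.mul (.num 500) CLaW) (.mul (.num 9) CLau))

def CLaa : Ex := (.sub CLaS (.mul (.num 10000) (.var 0)))

def CLab : Ex := (.add CLaS (.mul (.num 10000) (.var 0)))

def CLaZl : Ex := (.add (.mul (.add (.mul (.num (-11032238)) (.var 0)) (.add (.mul (.num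
  (-146318)) (.var 1)) (.add (.mul (.num 1167544) (.var 2)) (.num 5363221)))) (.var 0)) (.add
  (.mul (.add (.mul (.num (-6024)) (.var 1)) (.add (.mul (.num (-76471)) (.var 2)) (.num 1151)))
  (.var 1)) (.add (.mul (.add (.mul (.num (-12932)) (.var 2)) (.num (-394663))) (.var 2)) (.num
  (-1365967)))))

def CLaT0 : Ex := (tT0 (.var 0) CLau)

def CLaZu : Ex := (.add (.mul (.add (.mul (.num (-3561700)) (.var 0)) (.add (.mul (.num
  (-628858)) (.var 1)) (.add (.mul (.num (-113627)) (.var 2)) (.num 817696)))) (.var 0)) (.add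
  (.mul (.add (.mul (.num (-3727)) (.var 1)) (.add (.mul (.num 28330) (.var 2)) (.num 90234)))
  (.var 1)) (.add (.mul (.add (.mul (.num 28600) (.var 2)) (.num 6555)) (.var 2)) (.num
  (-646931)))))

def CLaXl : Ex := (.add (.mul (.add (.mul (.num (-419519)) (.var 0)) (.add (.mul (.num
  (-246963)) (.var 1)) (.add (.mul (.num 33379) (.var 2)) (.num (-654392))))) (.var 0)) (.add
  (.mul (.add (.mul (.num 359) (.var 1)) (.add (.mul (.num (-1150)) (.var 2)) (.num 155857)))
  (.var 1)) (.add (.mul (.add (.mul (.num (-33333)) (.var 2)) (.num 9701)) (.var 2)) (.num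
  1070496))))

def CLaHn0 : Ex := (tHn CLaS CLau CLav CLaa CLab CLaT0)

def CLaHd : Ex := (tBCH CLab CLaS)

def CLaYl : Ex := (.add (.mul (.add (.mul (.num (-22150345)) (.var 0)) (.add (.mul (.num
  (-589331)) (.var 1)) (.add (.mul (.num 1854942) (.var 2)) (.num 8950434)))) (.var 0)) (.add
  (.mul (.add (.mul (.num 24236) (.var 1)) (.add (.mul (.num 1178640) (.var 2)) (.num 151648)))
  (.var 1)) (.add (.mul (.add (.mul (.num (-28718)) (.var 2)) (.num 2083633)) (.var 2)) (.num
  9182494))))

def CLaQl : Ex := (.add (.mul (.add (.mul (.num (-4467990)) (.var 0)) (.add (.mul (.num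
  (-389692)) (.var 1)) (.add (.mul (.num (-2669054)) (.var 2)) (.num (-6560469))))) (.var 0))
  (.add (.mul (.add (.mul (.num (-3795)) (.var 1)) (.add (.mul (.num (-210139)) (.var 2)) (.num
  76326))) (.var 1)) (.add (.mul (.add (.mul (.num 816) (.var 2)) (.num 88184)) (.var 2)) (.num
  (-260227)))))

def CLaXu : Ex := (.add (.mul (.add (.mul (.num 1577749) (.var 0)) (.add (.mul (.num (-305151))
  (.var 1)) (.add (.mul (.num (-163232)) (.var 2)) (.num (-1489924))))) (.var 0)) (.add (.mul
  (.add (.mul (.num 4045) (.var 1)) (.add (.mul (.num 26147) (.var 2)) (.num 162907))) (.var 1))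
  (.add (.mul (.add (.mul (.num (-7169)) (.var 2)) (.num 54106)) (.var 2)) (.num 1160690))))

def CLaYu : Ex := (.add (.mul (.add (.mul (.num 30080833) (.var 0)) (.add (.mul (.num
  (-1052544)) (.var 1)) (.add (.mul (.num 605888) (.var 2)) (.num (-14982325))))) (.var 0))
  (.add (.mul (.add (.mul (.num 24108) (.var 1)) (.add (.mul (.num 1201435) (.var 2)) (.num
  237414))) (.var 1)) (.add (.mul (.add (.mul (.num (-8900)) (.var 2)) (.num 2323107)) (.var 2))
  (.num 11893430))))

def CLaQu : Ex := (.add (.mul (.add (.mul (.num 6155408) (.var 0)) (.add (.mul (.num (-432764))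
  (.var 1)) (.add (.mul (.num (-2855262)) (.var 2)) (.num (-11249666))))) (.var 0)) (.add (.mul
  (.add (.mul (.num (-4074)) (.var 1)) (.add (.mul (.num (-206008)) (.var 2)) (.num 84689)))
  (.var 1)) (.add (.mul (.add (.mul (.num 4994) (.var 2)) (.num 123737)) (.var 2)) (.num
  256190))))

def CLaT1 : Ex := (tT1 (.var 0))

def CLaHn1 : Ex := (tHn CLaS CLau CLav CLaa CLab CLaT1)

def CLar0 : Ex := (.sub CLaS0 (.num 6000))

def CLaTA : Ex := (.add (.mul (.add (.mul (.add (.mul (.num (-9117151)) (.var 0)) (.add (.mul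
  (.num 950566) (.var 1)) (.add (.mul (.num 329254) (.var 2)) (.num 4065521)))) (.var 0)) (.add
  (.mul (.add (.mul (.num (-126371)) (.var 1)) (.add (.mul (.num (-245507)) (.var 2)) (.num
  (-847822)))) (.var 1)) (.add (.mul (.add (.mul (.num 34395) (.var 2)) (.num (-229420))) (.var
  2)) (.num (-1146002))))) (.var 0)) (.add (.mul (.add (.mul (.add (.mul (.num (-2235)) (.var
  1)) (.add (.mul (.num (-6234)) (.var 2)) (.num 18505))) (.var 1)) (.add (.mul (.add (.mul
  (.num (-2554)) (.var 2)) (.num 51245)) (.var 2)) (.num 174630))) (.var 1)) (.add (.mul (.add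
  (.mul (.add (.mul (.num 672) (.var 2)) (.num (-10432))) (.var 2)) (.num 34791)) (.var 2))
  (.num 248948))))

def CLaGG : Ex := (.add (.mul (.add (.mul (.add (.mul (.add (.mul (.num (-59828977433)) (.var
  0)) (.add (.mul (.num 84799137) (.var 1)) (.add (.mul (.num 5149330) (.var 2)) (.num
  45577927555)))) (.var 0)) (.add (.mul (.add (.mul (.num (-222800)) (.var 1)) (.add (.mul (.num
  227737) (.var 2)) (.num (-46478684)))) (.var 1)) (.add (.mul (.add (.mul (.num (-1392315))
  (.var 2)) (.num (-1465639))) (.var 2)) (.num (-13021765716))))) (.var 0)) (.add (.mul (.add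
  (.mul (.add (.mul (.num 7838) (.var 1)) (.add (.mul (.num 6425) (.var 2)) (.num 282887)))
  (.var 1)) (.add (.mul (.add (.mul (.num (-11720)) (.var 2)) (.num (-145218))) (.var 2)) (.num
  7656661))) (.var 1)) (.add (.mul (.add (.mul (.add (.mul (.num 12777) (.var 2)) (.num 499764))
  (.var 2)) (.num 95817)) (.var 2)) (.num 1653618331)))) (.var 0)) (.add (.mul (.add (.mul (.add
  (.mul (.add (.mul (.num (-165)) (.var 1)) (.add (.mul (.num (-253)) (.var 2)) (.num (-5203))))
  (.var 1)) (.add (.mul (.add (.mul (.num 5884) (.var 2)) (.num (-18880))) (.var 2)) (.num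
  (-76531)))) (.var 1)) (.add (.mul (.add (.mul (.add (.mul (.num (-2255)) (.var 2)) (.num
  68346)) (.var 2)) (.num (-67469))) (.var 2)) (.num (-14654)))) (.var 1)) (.add (.mul (.add
  (.mul (.add (.mul (.add (.mul (.num (-9818)) (.var 2)) (.num 8414)) (.var 2)) (.num (-96883)))
  (.var 2)) (.num (-20133))) (.var 2)) (.num (-78660850)))))

def CLar1 : Ex := (.sub CLaS1 (.num 6000))

def CLaEG : Ex := (.add (.mul (.add (.mul (.add (.mul (.add (.mul (.num (-121574598)) (.var 0))
  (.add (.mul (.num 4797109) (.var 1)) (.add (.mul (.num 1069741) (.var 2)) (.num 89119418))))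
  (.var 0)) (.add (.mul (.add (.mul (.num 2595723) (.var 1)) (.add (.mul (.num 1356854) (.var
  2)) (.num (-4556737)))) (.var 1)) (.add (.mul (.add (.mul (.num (-66338)) (.var 2)) (.num
  (-591738))) (.var 2)) (.num (-23693929))))) (.var 0)) (.add (.mul (.add (.mul (.add (.mul
  (.num (-597594)) (.var 1)) (.add (.mul (.num (-532598)) (.var 2)) (.num (-1352803)))) (.var
  1)) (.add (.mul (.add (.mul (.num 347671) (.var 2)) (.num (-654161))) (.var 2)) (.num
  1337207))) (.var 1)) (.add (.mul (.add (.mul (.add (.mul (.num (-16843)) (.var 2)) (.num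
  (-9604))) (.var 2)) (.num 119730)) (.var 2)) (.num 2650797)))) (.var 0)) (.add (.mul (.add
  (.mul (.add (.mul (.add (.mul (.num (-154722)) (.var 1)) (.add (.mul (.num 142767) (.var 2))
  (.num 281071))) (.var 1)) (.add (.mul (.add (.mul (.num (-55620)) (.var 2)) (.num 78758))
  (.var 2)) (.num 166888))) (.var 1)) (.add (.mul (.add (.mul (.add (.mul (.num (-3392)) (.var
  2)) (.num (-59151))) (.var 2)) (.num 73078)) (.var 2)) (.num (-148837)))) (.var 1)) (.add
  (.mul (.add (.mul (.add (.mul (.add (.mul (.num 3512) (.var 2)) (.num (-1476))) (.var 2))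
  (.num 14110)) (.var 2)) (.num (-8845))) (.var 2)) (.num (-92748)))))

def CLaME : Ex := (.add (.mul (.add (.mul (.add (.mul (.num 12998665) (.var 0)) (.add (.mul
  (.num 85311) (.var 1)) (.add (.mul (.num 41606) (.var 2)) (.num (-7385888))))) (.var 0)) (.add
  (.mul (.add (.mul (.num (-5796)) (.var 1)) (.add (.mul (.num (-17786)) (.var 2)) (.num
  (-86910)))) (.var 1)) (.add (.mul (.add (.mul (.num (-2148)) (.var 2)) (.num (-28134))) (.var
  2)) (.num 1389229)))) (.var 0)) (.add (.mul (.add (.mul (.add (.mul (.num 144) (.var 1)) (.add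
  (.mul (.num 1913) (.var 2)) (.num 1938))) (.var 1)) (.add (.mul (.add (.mul (.num 107) (.var
  2)) (.num 8352)) (.var 2)) (.num 26769))) (.var 1)) (.add (.mul (.add (.mul (.add (.mul (.num
  (-122)) (.var 2)) (.num (-83))) (.var 2)) (.num 5362)) (.var 2)) (.num (-80901)))))

/-- Scaled by `1000000000000000000000000000000000000000000000000000`. -/
def CLaZl0 : Ex := (bZl (.var 0) CLaS CLau CLav CLaa CLab CLaZl CLaT0)

/-- Scaled by `1000000000000000000000000000000000000000000000000000`. -/
def CLaZu0 : Ex := (bZu (.var 0) CLaS CLau CLav CLaa CLab CLaZu CLaT0)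

/-- Scaled by `20000000000000000000000000000000000000000`. -/
def CLaXl0 : Ex := (bXl (.var 0) CLaS CLau CLav CLab CLaXl CLaHn0 CLaHd)

/-- Scaled by `100000000000000000000000000000000000000000000`. -/
def CLaYl0 : Ex := (bYl (.var 0) CLaS CLau CLav CLab CLaYl CLaHn0 CLaHd)

/-- Scaled by `2000000000000000000000000000000000000000000`. -/
def CLaQl0 : Ex := (bQl (.var 0) CLaS CLau CLav CLab CLaQl CLaHn0 CLaHd)

/-- Scaled by `20000000000000000000000000000000000000000`. -/
def CLaXu0 : Ex := (bXu (.var 0) CLaS CLau CLav CLab CLaXu CLaHn0 CLaHd)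

/-- Scaled by `100000000000000000000000000000000000000000000`. -/
def CLaYu0 : Ex := (bYu (.var 0) CLaS CLau CLav CLab CLaYu CLaHn0 CLaHd)

/-- Scaled by `2000000000000000000000000000000000000000000`. -/
def CLaQu0 : Ex := (bQu (.var 0) CLaS CLau CLav CLab CLaQu CLaHn0 CLaHd)

/-- Scaled by `1000000000000000000000000000000000000000000000000000`. -/
def CLaZl1 : Ex := (bZl (.var 0) CLaS CLau CLav CLaa CLab CLaZl CLaT1)

/-- Scaled by `1000000000000000000000000000000000000000000000000000`. -/
def CLaZu1 : Ex := (bZu (.var 0) CLaS CLau CLav CLaa CLab CLaZu CLaT1)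

/-- Scaled by `20000000000000000000000000000000000000000`. -/
def CLaXl1 : Ex := (bXl (.var 0) CLaS CLau CLav CLab CLaXl CLaHn1 CLaHd)

/-- Scaled by `100000000000000000000000000000000000000000000`. -/
def CLaYl1 : Ex := (bYl (.var 0) CLaS CLau CLav CLab CLaYl CLaHn1 CLaHd)

/-- Scaled by `2000000000000000000000000000000000000000000`. -/
def CLaQl1 : Ex := (bQl (.var 0) CLaS CLau CLav CLab CLaQl CLaHn1 CLaHd)

/-- Scaled by `20000000000000000000000000000000000000000`. -/
def CLaXu1 : Ex := (bXu (.var 0) CLaS CLau CLav CLab CLaXu CLaHn1 CLaHd)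

/-- Scaled by `100000000000000000000000000000000000000000000`. -/
def CLaYu1 : Ex := (bYu (.var 0) CLaS CLau CLav CLab CLaYu CLaHn1 CLaHd)

/-- Scaled by `2000000000000000000000000000000000000000000`. -/
def CLaQu1 : Ex := (bQu (.var 0) CLaS CLau CLav CLab CLaQu CLaHn1 CLaHd)

/-- Scaled by `156250000000000000000000000000000000000000000000000000000000000000000`. -/
def CLaTA0l : Ex := (.sub (qTA CLar0 CLav (.var 0) CLaXu CLaYl CLaZu CLaQu) (.mul (.num
  156250000000000000000000000000000000000000000000000000000000000000000) CLaTA))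

/-- Scaled by `6250000000000000000000000000000000000000000000000000000000000`. -/
def CLaGG0l : Ex := (.sub (qGG CLar0 CLav (.var 0) CLaXl) (.mul (.num
  6250000000000000000000000000000000000000000000000000000000) CLaGG))

/-- Scaled by `156250000000000000000000000000000000000000000000000000000000000000000`. -/
def CLaTA0u : Ex := (.sub (qTA CLar0 CLav (.var 0) CLaXu CLaYu CLaZu CLaQu) (.mul (.num
  156250000000000000000000000000000000000000000000000000000000000000000) CLaTA))

/-- Scaled by `6250000000000000000000000000000000000000000000000000000000000`. -/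
def CLaGG0u : Ex := (.sub (qGG CLar0 CLav (.var 0) CLaXu) (.mul (.num
  6250000000000000000000000000000000000000000000000000000000) CLaGG))

/-- Scaled by `156250000000000000000000000000000000000000000000000000000000000000000`. -/
def CLaTA1l : Ex := (.sub (qTA CLar1 CLav (.var 0) CLaXu CLaYl CLaZu CLaQu) (.mul (.num
  156250000000000000000000000000000000000000000000000000000000000000000) CLaTA))

/-- Scaled by `6250000000000000000000000000000000000000000000000000000000000`. -/
def CLaGG1l : Ex := (.sub (qGG CLar1 CLav (.var 0) CLaXl) (.mul (.num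
  6250000000000000000000000000000000000000000000000000000000) CLaGG))

/-- Scaled by `156250000000000000000000000000000000000000000000000000000000000000000`. -/
def CLaTA1u : Ex := (.sub (qTA CLar1 CLav (.var 0) CLaXu CLaYu CLaZu CLaQu) (.mul (.num
  156250000000000000000000000000000000000000000000000000000000000000000) CLaTA))

/-- Scaled by `6250000000000000000000000000000000000000000000000000000000000`. -/
def CLaGG1u : Ex := (.sub (qGG CLar1 CLav (.var 0) CLaXu) (.mul (.num
  6250000000000000000000000000000000000000000000000000000000) CLaGG))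

/-- Scaled by `6250000000000000000000000000000000000000000000000000000`. -/
def CLaEGul : Ex := (.sub (.mul (.num 625000000000000000000000000000000000000000000000000000)
  CLaEG) (qEG CLar1 CLav (.var 0) CLaXu CLaYl))

/-- Scaled by `6250000000000000000000000000000000000000000000000000000`. -/
def CLaEGll : Ex := (.add (.mul (.num 625000000000000000000000000000000000000000000000000000)
  CLaEG) (qEG CLar0 CLav (.var 0) CLaXl CLaYl))

/-- Scaled by `6250000000000000000000000000000000000000000000000000000`. -/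
def CLaEGuu : Ex := (.sub (.mul (.num 625000000000000000000000000000000000000000000000000000)
  CLaEG) (qEG CLar1 CLav (.var 0) CLaXu CLaYu))

/-- Scaled by `6250000000000000000000000000000000000000000000000000000`. -/
def CLaEGlu : Ex := (.add (.mul (.num 625000000000000000000000000000000000000000000000000000)
  CLaEG) (qEG CLar0 CLav (.var 0) CLaXl CLaYu))

/-- Scaled by `500000000000000000000000000000000000000000`. -/
def CLaMEnl : Ex := (.add (.mul (.num 50000000000000000000000000000000000000000) CLaME) (qME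
  CLar1 CLav (.var 0) CLaXu CLaYl CLaZl CLaQl))

/-- Scaled by `500000000000000000000000000000000000000000`. -/
def CLaMEpl : Ex := (.sub (.mul (.num 50000000000000000000000000000000000000000) CLaME) (qME
  CLar0 CLav (.var 0) CLaXl CLaYl CLaZu CLaQu))

/-- Scaled by `500000000000000000000000000000000000000000`. -/
def CLaMEnu : Ex := (.add (.mul (.num 50000000000000000000000000000000000000000) CLaME) (qME
  CLar1 CLav (.var 0) CLaXu CLaYu CLaZl CLaQl))

/-- Scaled by `500000000000000000000000000000000000000000`. -/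
def CLaMEpu : Ex := (.sub (.mul (.num 50000000000000000000000000000000000000000) CLaME) (qME
  CLar0 CLav (.var 0) CLaXl CLaYu CLaZu CLaQu))

/-- Scaled by `100000`. -/
def CLargXl : Ex := (.sub CLaXl (.num 900000))

/-- Scaled by `100000`. -/
def CLargXu : Ex := (.sub (.num 1200000) CLaXu)

/-- Scaled by `100000`. -/
def CLargYl : Ex := (.sub CLaYl (.num 9900000))

/-- Scaled by `100000`. -/
def CLargYu : Ex := (.sub (.num 14000000) CLaYu)

/-- Scaled by `100000`. -/
def CLargZl : Ex := (.sub CLaZl (.num (-1300000)))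

/-- Scaled by `100000`. -/
def CLargZu : Ex := (.sub (.num (-500000)) CLaZu)

/-- Scaled by `100000`. -/
def CLargQl : Ex := (.sub CLaQl (.num (-2500000)))

/-- Scaled by `100000`. -/
def CLargQu : Ex := (.sub (.num (-950000)) CLaQu)

/-- Scaled by `1`. -/
def CLagpos : Ex := (.sub CLaGG (.num 1))

/-- Scaled by `1`. -/
def CLaUpos : Ex := (.sub CLaU (.num 1))

/-- Scaled by `1250000000000000000000000000000000000`. -/
def CLaF : Ex := (.sub (tF (.var 0) CLav CLaS1 CLaTA CLaGG CLaEG CLaME CLaXl CLaYl) (.num 1))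

/-- Scaled by `3200000000000000000000`. -/
def CLacut : Ex := (.sub (tCut (.var 0) CLaS CLaW CLaU CLaa CLab (.var 2)) (.num 1))

def CLaC0 : ℕ → Chart
  | 0 => ⟨11, 61, 60, 304⟩
  | 1 => ⟨0, 41, 1, 102⟩
  | 2 => ⟨0, 501, 1, 500⟩
  | _ => ⟨0, 501, 1, 500⟩

def CLaC1 : ℕ → Chart
  | 0 => ⟨11, 61, 60, 304⟩
  | 1 => ⟨0, 41, 1, 102⟩
  | 2 => ⟨0, 1, 1, 2⟩
  | _ => ⟨0, 501, 1, 500⟩

def CLaC2 : ℕ → Chart
  | 0 => ⟨11, 61, 60, 304⟩
  | 1 => ⟨0, 41, 1, 102⟩
  | 2 => ⟨1, 501, 2, 500⟩
  | _ => ⟨0, 501, 1, 500⟩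

def CLaC3 : ℕ → Chart
  | 0 => ⟨11, 61, 60, 304⟩
  | 1 => ⟨0, 1, 1, 5⟩
  | 2 => ⟨0, 501, 1, 500⟩
  | _ => ⟨0, 501, 1, 500⟩

def CLaC4 : ℕ → Chart
  | 0 => ⟨11, 61, 60, 304⟩
  | 1 => ⟨1, 41, 5, 102⟩
  | 2 => ⟨0, 501, 1, 500⟩
  | _ => ⟨0, 501, 1, 500⟩

theorem CLaZl0_ok0 :
    checkFour CLaC0 434 14 5 5 6 CLaZl0 = true := by decide +kernel

theorem CLaZu0_ok0 :
    checkFour CLaC0 433 14 5 5 6 CLaZu0 = true := by decide +kernel

theorem CLaXl0_ok0 :
    checkFour CLaC0 361 12 5 5 4 CLaXl0 = true := by decide +kernel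

theorem CLaYl0_ok0 :
    checkFour CLaC0 376 12 5 5 4 CLaYl0 = true := by decide +kernel

theorem CLaQl0_ok0 :
    checkFour CLaC0 377 13 5 5 4 CLaQl0 = true := by decide +kernel

theorem CLaXu0_ok0 :
    checkFour CLaC0 361 12 5 5 4 CLaXu0 = true := by decide +kernel

theorem CLaYu0_ok0 :
    checkFour CLaC0 377 12 5 5 4 CLaYu0 = true := by decide +kernel

theorem CLaQu0_ok0 :
    checkFour CLaC0 377 13 5 5 4 CLaQu0 = true := by decide +kernel

theorem CLaZl1_ok0 :
    checkFour CLaC0 409 13 4 4 6 CLaZl1 = true := by decide +kernel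

theorem CLaZu1_ok0 :
    checkFour CLaC0 409 13 4 4 6 CLaZu1 = true := by decide +kernel

theorem CLaXl1_ok0 :
    checkFour CLaC1 307 11 4 4 4 CLaXl1 = true := by decide +kernel

theorem CLaXl1_ok1 :
    checkFour CLaC2 336 11 4 4 4 CLaXl1 = true := by decide +kernel

theorem CLaYl1_ok0 :
    checkFour CLaC0 352 11 4 4 4 CLaYl1 = true := by decide +kernel

theorem CLaQl1_ok0 :
    checkFour CLaC0 353 12 4 4 4 CLaQl1 = true := by decide +kernel

theorem CLaXu1_ok0 :
    checkFour CLaC0 337 11 4 4 4 CLaXu1 = true := by decide +kernel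

theorem CLaYu1_ok0 :
    checkFour CLaC0 353 11 4 4 4 CLaYu1 = true := by decide +kernel

theorem CLaQu1_ok0 :
    checkFour CLaC0 353 12 4 4 4 CLaQu1 = true := by decide +kernel

theorem CLaTA0l_ok0 :
    checkFour CLaC0 521 16 8 8 0 CLaTA0l = true := by decide +kernel

theorem CLaGG0l_ok0 :
    checkFour CLaC0 456 14 7 7 0 CLaGG0l = true := by decide +kernel

theorem CLaTA0u_ok0 :
    checkFour CLaC0 522 16 8 8 0 CLaTA0u = true := by decide +kernel

theorem CLaGG0u_ok0 :
    checkFour CLaC0 456 14 7 7 0 CLaGG0u = true := by decide +kernel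

theorem CLaTA1l_ok0 :
    checkFour CLaC0 530 17 8 8 0 CLaTA1l = true := by decide +kernel

theorem CLaGG1l_ok0 :
    checkFour CLaC0 465 15 7 7 0 CLaGG1l = true := by decide +kernel

theorem CLaTA1u_ok0 :
    checkFour CLaC0 531 17 8 8 0 CLaTA1u = true := by decide +kernel

theorem CLaGG1u_ok0 :
    checkFour CLaC0 465 15 7 7 0 CLaGG1u = true := by decide +kernel

theorem CLaEGul_ok0 :
    checkFour CLaC0 412 13 6 6 0 CLaEGul = true := by decide +kernel

theorem CLaEGll_ok0 :
    checkFour CLaC3 378 12 6 6 0 CLaEGll = true := by decide +kernel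

theorem CLaEGll_ok1 :
    checkFour CLaC4 403 12 6 6 0 CLaEGll = true := by decide +kernel

theorem CLaEGuu_ok0 :
    checkFour CLaC0 412 13 6 6 0 CLaEGuu = true := by decide +kernel

theorem CLaEGlu_ok0 :
    checkFour CLaC3 378 12 6 6 0 CLaEGlu = true := by decide +kernel

theorem CLaEGlu_ok1 :
    checkFour CLaC4 404 12 6 6 0 CLaEGlu = true := by decide +kernel

theorem CLaMEnl_ok0 :
    checkFour CLaC0 332 11 5 5 0 CLaMEnl = true := by decide +kernel

theorem CLaMEpl_ok0 :
    checkFour CLaC0 324 10 5 5 0 CLaMEpl = true := by decide +kernel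

theorem CLaMEnu_ok0 :
    checkFour CLaC0 333 11 5 5 0 CLaMEnu = true := by decide +kernel

theorem CLaMEpu_ok0 :
    checkFour CLaC0 324 10 5 5 0 CLaMEpu = true := by decide +kernel

theorem CLargXl_ok0 :
    checkFour CLaC0 71 2 2 2 0 CLargXl = true := by decide +kernel

theorem CLargXu_ok0 :
    checkFour CLaC0 71 2 2 2 0 CLargXu = true := by decide +kernel

theorem CLargYl_ok0 :
    checkFour CLaC0 74 2 2 2 0 CLargYl = true := by decide +kernel

theorem CLargYu_ok0 :
    checkFour CLaC0 75 2 2 2 0 CLargYu = true := by decide +kernel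

theorem CLargZl_ok0 :
    checkFour CLaC0 72 2 2 2 0 CLargZl = true := by decide +kernel

theorem CLargZu_ok0 :
    checkFour CLaC0 70 2 2 2 0 CLargZu = true := by decide +kernel

theorem CLargQl_ok0 :
    checkFour CLaC0 72 2 2 2 0 CLargQl = true := by decide +kernel

theorem CLargQu_ok0 :
    checkFour CLaC0 72 2 2 2 0 CLargQu = true := by decide +kernel

theorem CLagpos_ok0 :
    checkFour CLaC0 128 4 4 4 0 CLagpos = true := by decide +kernel

theorem CLaUpos_ok0 :
    checkFour CLaC0 32 1 1 0 0 CLaUpos = true := by decide +kernel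

theorem CLaF_ok0 :
    checkFour CLaC0 576 19 15 15 0 CLaF = true := by decide +kernel

theorem CLacut_ok0 :
    checkFour CLaC3 188 8 2 2 2 CLacut = true := by decide +kernel

theorem CLacut_ok1 :
    checkFour CLaC4 197 8 2 2 2 CLacut = true := by decide +kernel

end Vale.Agent.P100.Calib.NegCert
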