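import Mathlib
import Vale.Agent.P100.Pack.FastFour
import Vale.Agent.P100.Calib.NegCert.Coef
import Vale.Agent.P100.Calib.NegCert.Tpl

/-!
# Piece CLb of the region `u ≤ 0`: data and checks
-/

set_option linter.unusedVariables false

namespace Vale.Agent.P100.Calib.NegCert

open Pack

def CLbS0 : Ex := (.add (.num 6333) (.mul (.num (-1665)) (.var 0)))

def CLbS1 : Ex := (.add (.num 6667) (.mul (.num (-3333)) (.var 0)))

def CLbS : Ex := (.add CLbS0 (.mul (.var 3) (.sub CLbS1 CLbS0)))

def CLbU : Ex := (.add (.mul (.add (.mul (.num (-25360)) (.var 1)) (.num 53098)) (.var 0)) (.add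
  (.mul (.num 17356) (.var 1)) (.num 16963)))

def CLbu : Ex := (.sub (.num 0) (.mul (.var 2) CLbU))

def CLbW0 : Ex := (.sub (.add (.num 9560) (.mul (.num 625) (.var 0))) CLbS1)

def CLbW : Ex := (.add CLbW0 (.mul (.var 1) (.sub (.sub (.num 5600) (.mul (.num 500) (.var 0)))
  CLbW0)))

def CLbv : Ex := (.add (.mul (.num 500) CLbW) (.mul (.num 9) CLbu))

def CLba : Ex := (.sub CLbS (.mul (.num 10000) (.var 0)))

def CLbb : Ex := (.add CLbS (.mul (.num 10000) (.var 0)))

def CLbZl : Ex := (.add (.mul (.add (.mul (.num (-8545448)) (.var 0)) (.add (.mul (.num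
  (-190393)) (.var 1)) (.add (.mul (.num 918990) (.var 2)) (.num 3561859)))) (.var 0)) (.add
  (.mul (.add (.mul (.num (-6040)) (.var 1)) (.add (.mul (.num (-76844)) (.var 2)) (.num 9854)))
  (.var 1)) (.add (.mul (.add (.mul (.num (-12746)) (.var 2)) (.num (-345095))) (.var 2)) (.num
  (-1104935)))))

def CLbT0 : Ex := (tT0 (.var 0) CLbu)

def CLbZu : Ex := (.add (.mul (.add (.mul (.num (-5689241)) (.var 0)) (.add (.mul (.num
  (-657560)) (.var 1)) (.add (.mul (.num (-89105)) (.var 2)) (.num 848943)))) (.var 0)) (.add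
  (.mul (.add (.mul (.num (-4674)) (.var 1)) (.add (.mul (.num 28573) (.var 2)) (.num 96217)))
  (.var 1)) (.add (.mul (.add (.mul (.num 28143) (.var 2)) (.num 1984)) (.var 2)) (.num
  (-568094)))))

def CLbXl : Ex := (.add (.mul (.add (.mul (.num (-11174)) (.var 0)) (.add (.mul (.num (-305766))
  (.var 1)) (.add (.mul (.num (-18427)) (.var 2)) (.num (-599249))))) (.var 0)) (.add (.mul
  (.add (.mul (.num 1244) (.var 1)) (.add (.mul (.num (-1103)) (.var 2)) (.num 167582))) (.var
  1)) (.add (.mul (.add (.mul (.num (-33002)) (.var 2)) (.num 19731)) (.var 2)) (.num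
  1043187))))

def CLbHn0 : Ex := (tHn CLbS CLbu CLbv CLba CLbb CLbT0)

def CLbHd : Ex := (tBCH CLbb CLbS)

def CLbYl : Ex := (.add (.mul (.add (.mul (.num (-25980856)) (.var 0)) (.add (.mul (.num
  (-1433974)) (.var 1)) (.add (.mul (.num 1928029) (.var 2)) (.num 6406504)))) (.var 0)) (.add
  (.mul (.add (.mul (.num 18761) (.var 1)) (.add (.mul (.num 1195509) (.var 2)) (.num 312759)))
  (.var 1)) (.add (.mul (.add (.mul (.num (-27411)) (.var 2)) (.num 2064146)) (.var 2)) (.num
  9846326))))

def CLbQl : Ex := (.add (.mul (.add (.mul (.num 1184503) (.var 0)) (.add (.mul (.num (-269024))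
  (.var 1)) (.add (.mul (.num (-2676523)) (.var 2)) (.num (-8062749))))) (.var 0)) (.add (.mul
  (.add (.mul (.num (-3731)) (.var 1)) (.add (.mul (.num (-212109)) (.var 2)) (.num 53144)))
  (.var 1)) (.add (.mul (.add (.mul (.num 792) (.var 2)) (.num 90146)) (.var 2)) (.num
  (-185886)))))

def CLbXu : Ex := (.add (.mul (.add (.mul (.num 966336) (.var 0)) (.add (.mul (.num (-385244))
  (.var 1)) (.add (.mul (.num (-168230)) (.var 2)) (.num (-1049041))))) (.var 0)) (.add (.mul
  (.add (.mul (.num 3876) (.var 1)) (.add (.mul (.num 26218) (.var 2)) (.num 179023))) (.var 1))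
  (.add (.mul (.add (.mul (.num (-7061)) (.var 2)) (.num 54988)) (.var 2)) (.num 1096937))))

def CLbYu : Ex := (.add (.mul (.add (.mul (.num 33200576) (.var 0)) (.add (.mul (.num
  (-1758937)) (.var 1)) (.add (.mul (.num 689828) (.var 2)) (.num (-20342680))))) (.var 0))
  (.add (.mul (.add (.mul (.num 20582) (.var 1)) (.add (.mul (.num 1215474) (.var 2)) (.num
  374525))) (.var 1)) (.add (.mul (.add (.mul (.num (-9114)) (.var 2)) (.num 2303905)) (.var 2))
  (.num 12843075))))

def CLbQu : Ex := (.add (.mul (.add (.mul (.num 7212281) (.var 0)) (.add (.mul (.num (-315588))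
  (.var 1)) (.add (.mul (.num (-2868337)) (.var 2)) (.num (-11017977))))) (.var 0)) (.add (.mul
  (.add (.mul (.num (-3508)) (.var 1)) (.add (.mul (.num (-207963)) (.var 2)) (.num 61889)))
  (.var 1)) (.add (.mul (.add (.mul (.num 4900) (.var 2)) (.num 126802)) (.var 2)) (.num
  167072))))

def CLbT1 : Ex := (tT1 (.var 0))

def CLbHn1 : Ex := (tHn CLbS CLbu CLbv CLba CLbb CLbT1)

def CLbr0 : Ex := (.sub CLbS0 (.num 6000))

def CLbTA : Ex := (.add (.mul (.add (.mul (.add (.mul (.num 3507218) (.var 0)) (.add (.mul (.num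
  1804226) (.var 1)) (.add (.mul (.num 253740) (.var 2)) (.num (-3275872))))) (.var 0)) (.add
  (.mul (.add (.mul (.num (-99191)) (.var 1)) (.add (.mul (.num (-239978)) (.var 2)) (.num
  (-1257410)))) (.var 1)) (.add (.mul (.add (.mul (.num 32920) (.var 2)) (.num (-197690))) (.var
  2)) (.num 266173)))) (.var 0)) (.add (.mul (.add (.mul (.add (.mul (.num (-2300)) (.var 1))
  (.add (.mul (.num (-6275)) (.var 2)) (.num 13124))) (.var 1)) (.add (.mul (.add (.mul (.num
  (-2571)) (.var 2)) (.num 50217)) (.var 2)) (.num 222381))) (.var 1)) (.add (.mul (.add (.mul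
  (.add (.mul (.num 683) (.var 2)) (.num (-10144))) (.var 2)) (.num 31450)) (.var 2)) (.num
  159187))))

def CLbGG : Ex := (.add (.mul (.add (.mul (.add (.mul (.add (.mul (.num (-37649358110)) (.var
  0)) (.add (.mul (.num 58752502) (.var 1)) (.add (.mul (.num 3943323) (.var 2)) (.num
  28677504188)))) (.var 0)) (.add (.mul (.add (.mul (.num (-1008619)) (.var 1)) (.add (.mul
  (.num 276237) (.var 2)) (.num (-32288648)))) (.var 1)) (.add (.mul (.add (.mul (.num
  (-1013588)) (.var 2)) (.num (-910682))) (.var 2)) (.num (-8193060611))))) (.var 0)) (.add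
  (.mul (.add (.mul (.add (.mul (.num 11998) (.var 1)) (.add (.mul (.num 37049) (.var 2)) (.num
  618787))) (.var 1)) (.add (.mul (.add (.mul (.num (-90448)) (.var 2)) (.num 18159)) (.var 2))
  (.num 4740877))) (.var 1)) (.add (.mul (.add (.mul (.add (.mul (.num (-8039)) (.var 2)) (.num
  362194)) (.var 2)) (.num (-63659))) (.var 2)) (.num 1040466960)))) (.var 0)) (.add (.mul (.add
  (.mul (.add (.mul (.add (.mul (.num (-310)) (.var 1)) (.add (.mul (.num (-230)) (.var 2))
  (.num (-7653)))) (.var 1)) (.add (.mul (.add (.mul (.num 6525) (.var 2)) (.num (-25527)))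
  (.var 2)) (.num (-110735)))) (.var 1)) (.add (.mul (.add (.mul (.add (.mul (.num (-2221))
  (.var 2)) (.num 83424)) (.var 2)) (.num (-101368))) (.var 2)) (.num 209112))) (.var 1)) (.add
  (.mul (.add (.mul (.add (.mul (.add (.mul (.num (-9657)) (.var 2)) (.num 12346)) (.var 2))
  (.num (-83889))) (.var 2)) (.num (-1320))) (.var 2)) (.num (-49462647)))))

def CLbr1 : Ex := (.sub CLbS1 (.num 6000))

def CLbEG : Ex := (.add (.mul (.add (.mul (.add (.mul (.add (.mul (.num 121194001) (.var 0))
  (.add (.mul (.num (-520638)) (.var 1)) (.add (.mul (.num (-3987625)) (.var 2)) (.num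
  (-88533018))))) (.var 0)) (.add (.mul (.add (.mul (.num 9487626) (.var 1)) (.add (.mul (.num
  3317087) (.var 2)) (.num (-4168813)))) (.var 1)) (.add (.mul (.add (.mul (.num (-467069))
  (.var 2)) (.num 2341427)) (.var 2)) (.num 25121123)))) (.var 0)) (.add (.mul (.add (.mul (.add
  (.mul (.num (-892943)) (.var 1)) (.add (.mul (.num (-926072)) (.var 2)) (.num (-3963680))))
  (.var 1)) (.add (.mul (.add (.mul (.num 442523) (.var 2)) (.num (-1371325))) (.var 2)) (.num
  1754791))) (.var 1)) (.add (.mul (.add (.mul (.add (.mul (.num 20040) (.var 2)) (.num 74750))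
  (.var 2)) (.num (-408456))) (.var 2)) (.num (-3316233))))) (.var 0)) (.add (.mul (.add (.mul
  (.add (.mul (.add (.mul (.num (-222035)) (.var 1)) (.add (.mul (.num 145287) (.var 2)) (.num
  388239))) (.var 1)) (.add (.mul (.add (.mul (.num (-50972)) (.var 2)) (.num 150559)) (.var 2))
  (.num 404463))) (.var 1)) (.add (.mul (.add (.mul (.add (.mul (.num (-3639)) (.var 2)) (.num
  (-79389))) (.var 2)) (.num 140097)) (.var 2)) (.num (-205161)))) (.var 1)) (.add (.mul (.add
  (.mul (.add (.mul (.add (.mul (.num 3454) (.var 2)) (.num (-8477))) (.var 2)) (.num 12788))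
  (.var 2)) (.num 20071)) (.var 2)) (.num 180855))))

def CLbME : Ex := (.add (.mul (.add (.mul (.add (.mul (.num 7083750) (.var 0)) (.add (.mul (.num
  110994) (.var 1)) (.add (.mul (.num 28735) (.var 2)) (.num (-4028801))))) (.var 0)) (.add
  (.mul (.add (.mul (.num (-9375)) (.var 1)) (.add (.mul (.num (-20809)) (.var 2)) (.num
  (-113786)))) (.var 1)) (.add (.mul (.add (.mul (.num (-2285)) (.var 2)) (.num (-23414))) (.var
  2)) (.num 758717)))) (.var 0)) (.add (.mul (.add (.mul (.add (.mul (.num 129) (.var 1)) (.add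
  (.mul (.num 1931) (.var 2)) (.num 2645))) (.var 1)) (.add (.mul (.add (.mul (.num 107) (.var
  2)) (.num 8968)) (.var 2)) (.num 31123))) (.var 1)) (.add (.mul (.add (.mul (.add (.mul (.num
  (-120)) (.var 2)) (.num (-50))) (.var 2)) (.num 4922)) (.var 2)) (.num (-41765)))))

/-- Scaled by `1000000000000000000000000000000000000000000000000000`. -/
def CLbZl0 : Ex := (bZl (.var 0) CLbS CLbu CLbv CLba CLbb CLbZl CLbT0)

/-- Scaled by `1000000000000000000000000000000000000000000000000000`. -/
def CLbZu0 : Ex := (bZu (.var 0) CLbS CLbu CLbv CLba CLbb CLbZu CLbT0)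

/-- Scaled by `20000000000000000000000000000000000000000`. -/
def CLbXl0 : Ex := (bXl (.var 0) CLbS CLbu CLbv CLbb CLbXl CLbHn0 CLbHd)

/-- Scaled by `100000000000000000000000000000000000000000000`. -/
def CLbYl0 : Ex := (bYl (.var 0) CLbS CLbu CLbv CLbb CLbYl CLbHn0 CLbHd)

/-- Scaled by `2000000000000000000000000000000000000000000`. -/
def CLbQl0 : Ex := (bQl (.var 0) CLbS CLbu CLbv CLbb CLbQl CLbHn0 CLbHd)

/-- Scaled by `20000000000000000000000000000000000000000`. -/
def CLbXu0 : Ex := (bXu (.var 0) CLbS CLbu CLbv CLbb CLbXu CLbHn0 CLbHd)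

/-- Scaled by `100000000000000000000000000000000000000000000`. -/
def CLbYu0 : Ex := (bYu (.var 0) CLbS CLbu CLbv CLbb CLbYu CLbHn0 CLbHd)

/-- Scaled by `2000000000000000000000000000000000000000000`. -/
def CLbQu0 : Ex := (bQu (.var 0) CLbS CLbu CLbv CLbb CLbQu CLbHn0 CLbHd)

/-- Scaled by `1000000000000000000000000000000000000000000000000000`. -/
def CLbZl1 : Ex := (bZl (.var 0) CLbS CLbu CLbv CLba CLbb CLbZl CLbT1)

/-- Scaled by `1000000000000000000000000000000000000000000000000000`. -/
def CLbZu1 : Ex := (bZu (.var 0) CLbS CLbu CLbv CLba CLbb CLbZu CLbT1)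

/-- Scaled by `20000000000000000000000000000000000000000`. -/
def CLbXl1 : Ex := (bXl (.var 0) CLbS CLbu CLbv CLbb CLbXl CLbHn1 CLbHd)

/-- Scaled by `100000000000000000000000000000000000000000000`. -/
def CLbYl1 : Ex := (bYl (.var 0) CLbS CLbu CLbv CLbb CLbYl CLbHn1 CLbHd)

/-- Scaled by `2000000000000000000000000000000000000000000`. -/
def CLbQl1 : Ex := (bQl (.var 0) CLbS CLbu CLbv CLbb CLbQl CLbHn1 CLbHd)

/-- Scaled by `20000000000000000000000000000000000000000`. -/
def CLbXu1 : Ex := (bXu (.var 0) CLbS CLbu CLbv CLbb CLbXu CLbHn1 CLbHd)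

/-- Scaled by `100000000000000000000000000000000000000000000`. -/
def CLbYu1 : Ex := (bYu (.var 0) CLbS CLbu CLbv CLbb CLbYu CLbHn1 CLbHd)

/-- Scaled by `2000000000000000000000000000000000000000000`. -/
def CLbQu1 : Ex := (bQu (.var 0) CLbS CLbu CLbv CLbb CLbQu CLbHn1 CLbHd)

/-- Scaled by `156250000000000000000000000000000000000000000000000000000000000000000`. -/
def CLbTA0l : Ex := (.sub (qTA CLbr0 CLbv (.var 0) CLbXu CLbYl CLbZu CLbQu) (.mul (.num
  156250000000000000000000000000000000000000000000000000000000000000000) CLbTA))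

/-- Scaled by `6250000000000000000000000000000000000000000000000000000000000`. -/
def CLbGG0l : Ex := (.sub (qGG CLbr0 CLbv (.var 0) CLbXl) (.mul (.num
  6250000000000000000000000000000000000000000000000000000000) CLbGG))

/-- Scaled by `156250000000000000000000000000000000000000000000000000000000000000000`. -/
def CLbTA0u : Ex := (.sub (qTA CLbr0 CLbv (.var 0) CLbXu CLbYu CLbZu CLbQu) (.mul (.num
  156250000000000000000000000000000000000000000000000000000000000000000) CLbTA))

/-- Scaled by `6250000000000000000000000000000000000000000000000000000000000`. -/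
def CLbGG0u : Ex := (.sub (qGG CLbr0 CLbv (.var 0) CLbXu) (.mul (.num
  6250000000000000000000000000000000000000000000000000000000) CLbGG))

/-- Scaled by `156250000000000000000000000000000000000000000000000000000000000000000`. -/
def CLbTA1l : Ex := (.sub (qTA CLbr1 CLbv (.var 0) CLbXu CLbYl CLbZu CLbQu) (.mul (.num
  156250000000000000000000000000000000000000000000000000000000000000000) CLbTA))

/-- Scaled by `6250000000000000000000000000000000000000000000000000000000000`. -/
def CLbGG1l : Ex := (.sub (qGG CLbr1 CLbv (.var 0) CLbXl) (.mul (.num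
  6250000000000000000000000000000000000000000000000000000000) CLbGG))

/-- Scaled by `156250000000000000000000000000000000000000000000000000000000000000000`. -/
def CLbTA1u : Ex := (.sub (qTA CLbr1 CLbv (.var 0) CLbXu CLbYu CLbZu CLbQu) (.mul (.num
  156250000000000000000000000000000000000000000000000000000000000000000) CLbTA))

/-- Scaled by `6250000000000000000000000000000000000000000000000000000000000`. -/
def CLbGG1u : Ex := (.sub (qGG CLbr1 CLbv (.var 0) CLbXu) (.mul (.num
  6250000000000000000000000000000000000000000000000000000000) CLbGG))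

/-- Scaled by `6250000000000000000000000000000000000000000000000000000`. -/
def CLbEGul : Ex := (.sub (.mul (.num 625000000000000000000000000000000000000000000000000000)
  CLbEG) (qEG CLbr1 CLbv (.var 0) CLbXu CLbYl))

/-- Scaled by `6250000000000000000000000000000000000000000000000000000`. -/
def CLbEGll : Ex := (.add (.mul (.num 625000000000000000000000000000000000000000000000000000)
  CLbEG) (qEG CLbr0 CLbv (.var 0) CLbXl CLbYl))

/-- Scaled by `6250000000000000000000000000000000000000000000000000000`. -/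
def CLbEGuu : Ex := (.sub (.mul (.num 625000000000000000000000000000000000000000000000000000)
  CLbEG) (qEG CLbr1 CLbv (.var 0) CLbXu CLbYu))

/-- Scaled by `6250000000000000000000000000000000000000000000000000000`. -/
def CLbEGlu : Ex := (.add (.mul (.num 625000000000000000000000000000000000000000000000000000)
  CLbEG) (qEG CLbr0 CLbv (.var 0) CLbXl CLbYu))

/-- Scaled by `500000000000000000000000000000000000000000`. -/
def CLbMEnl : Ex := (.add (.mul (.num 50000000000000000000000000000000000000000) CLbME) (qME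
  CLbr1 CLbv (.var 0) CLbXu CLbYl CLbZl CLbQl))

/-- Scaled by `500000000000000000000000000000000000000000`. -/
def CLbMEpl : Ex := (.sub (.mul (.num 50000000000000000000000000000000000000000) CLbME) (qME
  CLbr0 CLbv (.var 0) CLbXl CLbYl CLbZu CLbQu))

/-- Scaled by `500000000000000000000000000000000000000000`. -/
def CLbMEnu : Ex := (.add (.mul (.num 50000000000000000000000000000000000000000) CLbME) (qME
  CLbr1 CLbv (.var 0) CLbXu CLbYu CLbZl CLbQl))

/-- Scaled by `500000000000000000000000000000000000000000`. -/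
def CLbMEpu : Ex := (.sub (.mul (.num 50000000000000000000000000000000000000000) CLbME) (qME
  CLbr0 CLbv (.var 0) CLbXl CLbYu CLbZu CLbQu))

/-- Scaled by `100000`. -/
def CLbrgXl : Ex := (.sub CLbXl (.num 900000))

/-- Scaled by `100000`. -/
def CLbrgXu : Ex := (.sub (.num 1200000) CLbXu)

/-- Scaled by `100000`. -/
def CLbrgYl : Ex := (.sub CLbYl (.num 9900000))

/-- Scaled by `100000`. -/
def CLbrgYu : Ex := (.sub (.num 14000000) CLbYu)

/-- Scaled by `100000`. -/
def CLbrgZl : Ex := (.sub CLbZl (.num (-1300000)))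

/-- Scaled by `100000`. -/
def CLbrgZu : Ex := (.sub (.num (-500000)) CLbZu)

/-- Scaled by `100000`. -/
def CLbrgQl : Ex := (.sub CLbQl (.num (-2500000)))

/-- Scaled by `100000`. -/
def CLbrgQu : Ex := (.sub (.num (-950000)) CLbQu)

/-- Scaled by `1`. -/
def CLbgpos : Ex := (.sub CLbGG (.num 1))

/-- Scaled by `1`. -/
def CLbUpos : Ex := (.sub CLbU (.num 1))

/-- Scaled by `1250000000000000000000000000000000000`. -/
def CLbF : Ex := (.sub (tF (.var 0) CLbv CLbS1 CLbTA CLbGG CLbEG CLbME CLbXl CLbYl) (.num 1))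

/-- Scaled by `3200000000000000000000`. -/
def CLbcut : Ex := (.sub (tCut (.var 0) CLbS CLbW CLbU CLba CLbb (.var 2)) (.num 1))

def CLbC0 : ℕ → Chart
  | 0 => ⟨11, 61, 60, 304⟩
  | 1 => ⟨0, 41, 1, 102⟩
  | 2 => ⟨0, 501, 1, 500⟩
  | _ => ⟨0, 501, 1, 500⟩

def CLbC1 : ℕ → Chart
  | 0 => ⟨11, 61, 60, 304⟩
  | 1 => ⟨0, 41, 1, 102⟩
  | 2 => ⟨0, 1, 1, 2⟩
  | _ => ⟨0, 501, 1, 500⟩

def CLbC2 : ℕ → Chart
  | 0 => ⟨11, 61, 60, 304⟩
  | 1 => ⟨0, 41, 1, 102⟩
  | 2 => ⟨1, 501, 2, 500⟩
  | _ => ⟨0, 501, 1, 500⟩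

def CLbC3 : ℕ → Chart
  | 0 => ⟨11, 61, 60, 304⟩
  | 1 => ⟨0, 1, 1, 5⟩
  | 2 => ⟨0, 501, 1, 500⟩
  | _ => ⟨0, 501, 1, 500⟩

def CLbC4 : ℕ → Chart
  | 0 => ⟨11, 61, 60, 304⟩
  | 1 => ⟨1, 41, 5, 102⟩
  | 2 => ⟨0, 501, 1, 500⟩
  | _ => ⟨0, 501, 1, 500⟩

theorem CLbZl0_ok0 :
    checkFour CLbC0 434 14 5 5 6 CLbZl0 = true := by decide +kernel

theorem CLbZu0_ok0 :
    checkFour CLbC0 434 14 5 5 6 CLbZu0 = true := by decide +kernel

theorem CLbXl0_ok0 :
    checkFour CLbC0 361 12 5 5 4 CLbXl0 = true := by decide +kernel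

theorem CLbYl0_ok0 :
    checkFour CLbC0 377 12 5 5 4 CLbYl0 = true := by decide +kernel

theorem CLbQl0_ok0 :
    checkFour CLbC0 377 13 5 5 4 CLbQl0 = true := by decide +kernel

theorem CLbXu0_ok0 :
    checkFour CLbC0 361 12 5 5 4 CLbXu0 = true := by decide +kernel

theorem CLbYu0_ok0 :
    checkFour CLbC0 377 12 5 5 4 CLbYu0 = true := by decide +kernel

theorem CLbQu0_ok0 :
    checkFour CLbC0 378 13 5 5 4 CLbQu0 = true := by decide +kernel

theorem CLbZl1_ok0 :
    checkFour CLbC0 410 13 4 4 6 CLbZl1 = true := by decide +kernel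

theorem CLbZu1_ok0 :
    checkFour CLbC0 410 13 4 4 6 CLbZu1 = true := by decide +kernel

theorem CLbXl1_ok0 :
    checkFour CLbC1 307 11 4 4 4 CLbXl1 = true := by decide +kernel

theorem CLbXl1_ok1 :
    checkFour CLbC2 337 11 4 4 4 CLbXl1 = true := by decide +kernel

theorem CLbYl1_ok0 :
    checkFour CLbC0 353 11 4 4 4 CLbYl1 = true := by decide +kernel

theorem CLbQl1_ok0 :
    checkFour CLbC0 353 12 4 4 4 CLbQl1 = true := by decide +kernel

theorem CLbXu1_ok0 :
    checkFour CLbC0 337 11 4 4 4 CLbXu1 = true := by decide +kernel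

theorem CLbYu1_ok0 :
    checkFour CLbC0 353 11 4 4 4 CLbYu1 = true := by decide +kernel

theorem CLbQu1_ok0 :
    checkFour CLbC0 353 12 4 4 4 CLbQu1 = true := by decide +kernel

theorem CLbTA0l_ok0 :
    checkFour CLbC0 530 17 8 8 0 CLbTA0l = true := by decide +kernel

theorem CLbGG0l_ok0 :
    checkFour CLbC0 465 15 7 7 0 CLbGG0l = true := by decide +kernel

theorem CLbTA0u_ok0 :
    checkFour CLbC0 531 17 8 8 0 CLbTA0u = true := by decide +kernel

theorem CLbGG0u_ok0 :
    checkFour CLbC0 465 15 7 7 0 CLbGG0u = true := by decide +kernel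

theorem CLbTA1l_ok0 :
    checkFour CLbC0 531 17 8 8 0 CLbTA1l = true := by decide +kernel

theorem CLbGG1l_ok0 :
    checkFour CLbC0 466 15 7 7 0 CLbGG1l = true := by decide +kernel

theorem CLbTA1u_ok0 :
    checkFour CLbC0 531 17 8 8 0 CLbTA1u = true := by decide +kernel

theorem CLbGG1u_ok0 :
    checkFour CLbC0 466 15 7 7 0 CLbGG1u = true := by decide +kernel

theorem CLbEGul_ok0 :
    checkFour CLbC0 412 13 6 6 0 CLbEGul = true := by decide +kernel

theorem CLbEGll_ok0 :
    checkFour CLbC3 387 13 6 6 0 CLbEGll = true := by decide +kernel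

theorem CLbEGll_ok1 :
    checkFour CLbC4 412 13 6 6 0 CLbEGll = true := by decide +kernel

theorem CLbEGuu_ok0 :
    checkFour CLbC0 413 13 6 6 0 CLbEGuu = true := by decide +kernel

theorem CLbEGlu_ok0 :
    checkFour CLbC3 387 13 6 6 0 CLbEGlu = true := by decide +kernel

theorem CLbEGlu_ok1 :
    checkFour CLbC4 413 13 6 6 0 CLbEGlu = true := by decide +kernel

theorem CLbMEnl_ok0 :
    checkFour CLbC0 333 11 5 5 0 CLbMEnl = true := by decide +kernel

theorem CLbMEpl_ok0 :
    checkFour CLbC0 332 11 5 5 0 CLbMEpl = true := by decide +kernel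

theorem CLbMEnu_ok0 :
    checkFour CLbC0 333 11 5 5 0 CLbMEnu = true := by decide +kernel

theorem CLbMEpu_ok0 :
    checkFour CLbC0 333 11 5 5 0 CLbMEpu = true := by decide +kernel

theorem CLbrgXl_ok0 :
    checkFour CLbC0 71 2 2 2 0 CLbrgXl = true := by decide +kernel

theorem CLbrgXu_ok0 :
    checkFour CLbC0 71 2 2 2 0 CLbrgXu = true := by decide +kernel

theorem CLbrgYl_ok0 :
    checkFour CLbC0 74 2 2 2 0 CLbrgYl = true := by decide +kernel

theorem CLbrgYu_ok0 :
    checkFour CLbC0 75 2 2 2 0 CLbrgYu = true := by decide +kernel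

theorem CLbrgZl_ok0 :
    checkFour CLbC0 72 2 2 2 0 CLbrgZl = true := by decide +kernel

theorem CLbrgZu_ok0 :
    checkFour CLbC0 70 2 2 2 0 CLbrgZu = true := by decide +kernel

theorem CLbrgQl_ok0 :
    checkFour CLbC0 72 2 2 2 0 CLbrgQl = true := by decide +kernel

theorem CLbrgQu_ok0 :
    checkFour CLbC0 72 2 2 2 0 CLbrgQu = true := by decide +kernel

theorem CLbgpos_ok0 :
    checkFour CLbC0 128 4 4 4 0 CLbgpos = true := by decide +kernel

theorem CLbUpos_ok0 :
    checkFour CLbC0 32 1 1 0 0 CLbUpos = true := by decide +kernel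

theorem CLbF_ok0 :
    checkFour CLbC0 575 19 15 15 0 CLbF = true := by decide +kernel

theorem CLbcut_ok0 :
    checkFour CLbC3 189 8 2 2 2 CLbcut = true := by decide +kernel

theorem CLbcut_ok1 :
    checkFour CLbC4 197 8 2 2 2 CLbcut = true := by decide +kernel

end Vale.Agent.P100.Calib.NegCert
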