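import Mathlib
import Vale.Agent.P100.Pack.FastFour
import Vale.Agent.P100.Calib.NegCert.Coef
import Vale.Agent.P100.Calib.NegCert.Tpl

/-!
# Piece CT of the region `u ≤ 0`: data and checks
-/

set_option linter.unusedVariables false

namespace Vale.Agent.P100.Calib.NegCert

open Pack

def CTS0 : Ex := (.num 6000)

def CTS1 : Ex := (.add (.num 6667) (.mul (.num (-3333)) (.var 0)))

def CTS : Ex := (.add CTS0 (.mul (.var 3) (.sub CTS1 CTS0)))

def CTU : Ex := (.add (.mul (.add (.mul (.num (-28067)) (.var 1)) (.num 47820)) (.var 0)) (.add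
  (.mul (.num 17282) (.var 1)) (.num 18304)))

def CTu : Ex := (.sub (.num 0) (.mul (.var 2) CTU))

def CTW0 : Ex := (.sub (.add (.num 9560) (.mul (.num 625) (.var 0))) CTS1)

def CTW : Ex := (.add CTW0 (.mul (.var 1) (.sub (.sub (.num 5600) (.mul (.num 500) (.var 0)))
  CTW0)))

def CTv : Ex := (.add (.mul (.num 500) CTW) (.mul (.num 9) CTu))

def CTa : Ex := (.sub CTS (.mul (.num 10000) (.var 0)))

def CTb : Ex := (.add CTS (.mul (.num 10000) (.var 0)))

def CTZl : Ex := (.add (.mul (.add (.mul (.num (-17622723)) (.var 0)) (.add (.mul (.num 202338)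
  (.var 1)) (.add (.mul (.num 1666067) (.var 2)) (.num 7271278)))) (.var 0)) (.add (.mul (.add
  (.mul (.num (-5777)) (.var 1)) (.add (.mul (.num (-75563)) (.var 2)) (.num (-63137)))) (.var
  1)) (.add (.mul (.add (.mul (.num (-30516)) (.var 2)) (.num (-459319))) (.var 2)) (.num
  (-1503547)))))

def CTT0 : Ex := (tT0 (.var 0) CTu)

def CTZu : Ex := (.add (.mul (.add (.mul (.num 1478868) (.var 0)) (.add (.mul (.num (-841349))
  (.var 1)) (.add (.mul (.num (-441750)) (.var 2)) (.num (-1510048))))) (.var 0)) (.add (.mul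
  (.add (.mul (.num (-1833)) (.var 1)) (.add (.mul (.num 62763) (.var 2)) (.num 99441))) (.var
  1)) (.add (.mul (.add (.mul (.num 44861) (.var 2)) (.num 28672)) (.var 2)) (.num (-356565)))))

def CTXl : Ex := (.add (.mul (.add (.mul (.num (-4406791)) (.var 0)) (.add (.mul (.num
  (-262000)) (.var 1)) (.add (.mul (.num 6325492) (.var 2)) (.num (-5015648))))) (.var 0)) (.add
  (.mul (.add (.mul (.num (-3564)) (.var 1)) (.add (.mul (.num (-24365)) (.var 2)) (.num
  188466))) (.var 1)) (.add (.mul (.add (.mul (.num (-4545353)) (.var 2)) (.num 7508276)) (.var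
  2)) (.num (-2149051)))))

def CTnu : Ex := (.mul (.num 50) (.sub (.num 0) CTu))

def CTYl : Ex := (.add (.mul (.add (.mul (.num (-63029260)) (.var 0)) (.add (.mul (.num
  (-2511917)) (.var 1)) (.add (.mul (.num 1178063) (.var 2)) (.num 26570632)))) (.var 0)) (.add
  (.mul (.add (.mul (.num 33015) (.var 1)) (.add (.mul (.num 1142516) (.var 2)) (.num 511268)))
  (.var 1)) (.add (.mul (.add (.mul (.num (-1003702)) (.var 2)) (.num 4099825)) (.var 2)) (.num
  6411496))))

def CTQl : Ex := (.add (.mul (.add (.mul (.num (-1636069)) (.var 0)) (.add (.mul (.num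
  (-471319)) (.var 1)) (.add (.mul (.num (-1242117)) (.var 2)) (.num (-8292462))))) (.var 0))
  (.add (.mul (.add (.mul (.num (-4745)) (.var 1)) (.add (.mul (.num (-174900)) (.var 2)) (.num
  66047))) (.var 1)) (.add (.mul (.add (.mul (.num (-356027)) (.var 2)) (.num 564513)) (.var 2))
  (.num (-432845)))))

def CTXu : Ex := (.add (.mul (.add (.mul (.num 2030352) (.var 0)) (.add (.mul (.num (-279231))
  (.var 1)) (.add (.mul (.num 435380) (.var 2)) (.num (-1968860))))) (.var 0)) (.add (.mul (.add
  (.mul (.num (-13549)) (.var 1)) (.add (.mul (.num (-43433)) (.var 2)) (.num 225132))) (.var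
  1)) (.add (.mul (.add (.mul (.num 3728280) (.var 2)) (.num (-8240645))) (.var 2)) (.num
  5640648))))

def CTYu : Ex := (.add (.mul (.add (.mul (.num 62518706) (.var 0)) (.add (.mul (.num (-3637971))
  (.var 1)) (.add (.mul (.num (-7215997)) (.var 2)) (.num (-23846921))))) (.var 0)) (.add (.mul
  (.add (.mul (.num 29140) (.var 1)) (.add (.mul (.num 1015581) (.var 2)) (.num 869759))) (.var
  1)) (.add (.mul (.add (.mul (.num 1364502) (.var 2)) (.num 922813)) (.var 2)) (.num
  13975386))))

def CTQu : Ex := (.add (.mul (.add (.mul (.num 9248212) (.var 0)) (.add (.mul (.num (-663364))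
  (.var 1)) (.add (.mul (.num (-3253619)) (.var 2)) (.num (-12147931))))) (.var 0)) (.add (.mul
  (.add (.mul (.num (-5816)) (.var 1)) (.add (.mul (.num (-199193)) (.var 2)) (.num 130415)))
  (.var 1)) (.add (.mul (.add (.mul (.num 241055) (.var 2)) (.num (-256835))) (.var 2)) (.num
  532756))))

def CTT1 : Ex := (tT1 (.var 0))

def CTHn1 : Ex := (tHn CTS CTu CTv CTa CTb CTT1)

def CTHd : Ex := (tBCH CTb CTS)

def CTr0 : Ex := (.sub CTS0 (.num 6000))

def CTTA : Ex := (.add (.mul (.add (.mul (.add (.mul (.num (-36015616)) (.var 0)) (.add (.mul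
  (.num 3733404) (.var 1)) (.add (.mul (.num 1528482) (.var 2)) (.num 17275709)))) (.var 0))
  (.add (.mul (.add (.mul (.num (-44041)) (.var 1)) (.add (.mul (.num (-143407)) (.var 2)) (.num
  (-2079139)))) (.var 1)) (.add (.mul (.add (.mul (.num (-521521)) (.var 2)) (.num 489369))
  (.var 2)) (.num (-3821752))))) (.var 0)) (.add (.mul (.add (.mul (.add (.mul (.num (-3372))
  (.var 1)) (.add (.mul (.num (-3566)) (.var 2)) (.num 1642))) (.var 1)) (.add (.mul (.add (.mul
  (.num (-139715)) (.var 2)) (.num 327689)) (.var 2)) (.num 150632))) (.var 1)) (.add (.mul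
  (.add (.mul (.add (.mul (.num 198877) (.var 2)) (.num (-605852))) (.var 2)) (.num 680447))
  (.var 2)) (.num 142932))))

def CTGG : Ex := (.add (.mul (.add (.mul (.add (.mul (.add (.mul (.num (-48569217979)) (.var 0))
  (.add (.mul (.num 125017746) (.var 1)) (.add (.mul (.num (-4020649799)) (.var 2)) (.num
  40753645842)))) (.var 0)) (.add (.mul (.add (.mul (.num (-8660697)) (.var 1)) (.add (.mul
  (.num 57961192) (.var 2)) (.num (-105618790)))) (.var 1)) (.add (.mul (.add (.mul (.num
  (-1263984656)) (.var 2)) (.num 4701393521)) (.var 2)) (.num (-13870123118))))) (.var 0)) (.add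
  (.mul (.add (.mul (.add (.mul (.num 563630) (.var 1)) (.add (.mul (.num (-7065197)) (.var 2))
  (.num 9474324))) (.var 1)) (.add (.mul (.add (.mul (.num 142922058) (.var 2)) (.num
  (-300995591))) (.var 2)) (.num 161671740))) (.var 1)) (.add (.mul (.add (.mul (.add (.mul
  (.num 67597397) (.var 2)) (.num 193365944)) (.var 2)) (.num (-977350260))) (.var 2)) (.num
  2035876229)))) (.var 0)) (.add (.mul (.add (.mul (.add (.mul (.add (.mul (.num 144225) (.var
  1)) (.add (.mul (.num 486956) (.var 2)) (.num (-985765)))) (.var 1)) (.add (.mul (.add (.mul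
  (.num (-38774883)) (.var 2)) (.num 77458873)) (.var 2)) (.num (-38504604)))) (.var 1)) (.add
  (.mul (.add (.mul (.add (.mul (.num 279680371) (.var 2)) (.num (-795434110))) (.var 2)) (.num
  754893234)) (.var 2)) (.num (-238771848)))) (.var 1)) (.add (.mul (.add (.mul (.add (.mul
  (.add (.mul (.num (-595820487)) (.var 2)) (.num 2155718385)) (.var 2)) (.num (-2955507847)))
  (.var 2)) (.num 1848529909)) (.var 2)) (.num (-515637694)))))

def CTr1 : Ex := (.sub CTS1 (.num 6000))

def CTEG : Ex := (.add (.mul (.add (.mul (.add (.mul (.add (.mul (.add (.mul (.num 1101624784)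
  (.var 0)) (.add (.mul (.num (-434694562)) (.var 1)) (.add (.mul (.num 1284917328) (.var 2))
  (.num (-1967696614))))) (.var 0)) (.add (.mul (.add (.mul (.num (-12414405)) (.var 1)) (.add
  (.mul (.num 159726953) (.var 2)) (.num 187247167))) (.var 1)) (.add (.mul (.add (.mul (.num
  (-364700584)) (.var 2)) (.num (-377926566))) (.var 2)) (.num 859735343)))) (.var 0)) (.add
  (.mul (.add (.mul (.add (.mul (.num (-1127071)) (.var 1)) (.add (.mul (.num 14763804) (.var
  2)) (.num (-3300672)))) (.var 1)) (.add (.mul (.add (.mul (.num (-90311867)) (.var 2)) (.num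
  54229713)) (.var 2)) (.num (-72700340)))) (.var 1)) (.add (.mul (.add (.mul (.add (.mul (.num
  314736777) (.var 2)) (.num (-620883574))) (.var 2)) (.num 672548221)) (.var 2)) (.num
  (-357873488))))) (.var 0)) (.add (.mul (.add (.mul (.add (.mul (.add (.mul (.num (-834435))
  (.var 1)) (.add (.mul (.num 16033198) (.var 2)) (.num (-12422073)))) (.var 1)) (.add (.mul
  (.add (.mul (.num (-109978882)) (.var 2)) (.num 167992230)) (.var 2)) (.num (-65433764))))
  (.var 1)) (.add (.mul (.add (.mul (.add (.mul (.num 365837718) (.var 2)) (.num (-845713286)))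
  (.var 2)) (.num 668222621)) (.var 2)) (.num (-170353096)))) (.var 1)) (.add (.mul (.add (.mul
  (.add (.mul (.add (.mul (.num (-534388002)) (.var 2)) (.num 1651055178)) (.var 2)) (.num
  (-1936603729))) (.var 2)) (.num 987222067)) (.var 2)) (.num (-172191172))))) (.var 0)) (.add
  (.mul (.add (.mul (.add (.mul (.add (.mul (.add (.mul (.num 53592) (.var 1)) (.add (.mul (.num
  (-1165875)) (.var 2)) (.num 1127919))) (.var 1)) (.add (.mul (.add (.mul (.num 9638814) (.var
  2)) (.num (-18868481))) (.var 2)) (.num 8814349))) (.var 1)) (.add (.mul (.add (.mul (.add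
  (.mul (.num (-34536721)) (.var 2)) (.num 104109966)) (.var 2)) (.num (-98348445))) (.var 2))
  (.num 29812400))) (.var 1)) (.add (.mul (.add (.mul (.add (.mul (.add (.mul (.num 12622695)
  (.var 2)) (.num (-82277414))) (.var 2)) (.num 137031334)) (.var 2)) (.num (-87974250))) (.var
  2)) (.num 19245033))) (.var 1)) (.add (.mul (.add (.mul (.add (.mul (.add (.mul (.add (.mul
  (.num (-318709346)) (.var 2)) (.num 1658577053)) (.var 2)) (.num (-3370819467))) (.var 2))
  (.num 3376237038)) (.var 2)) (.num (-1674851588))) (.var 2)) (.num 330029560))))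

def CTME : Ex := (.add (.mul (.add (.mul (.add (.mul (.num 29554405) (.var 0)) (.add (.mul (.num
  169554) (.var 1)) (.add (.mul (.num (-112641)) (.var 2)) (.num (-16672915))))) (.var 0)) (.add
  (.mul (.add (.mul (.num (-10723)) (.var 1)) (.add (.mul (.num 17532) (.var 2)) (.num
  (-162523)))) (.var 1)) (.add (.mul (.add (.mul (.num (-571089)) (.var 2)) (.num 1327811))
  (.var 2)) (.num 2413644)))) (.var 0)) (.add (.mul (.add (.mul (.add (.mul (.num (-36)) (.var
  1)) (.add (.mul (.num 121) (.var 2)) (.num 3102))) (.var 1)) (.add (.mul (.add (.mul (.num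
  33772) (.var 2)) (.num (-79573))) (.var 2)) (.num 85181))) (.var 1)) (.add (.mul (.add (.mul
  (.add (.mul (.num 66757) (.var 2)) (.num 221240)) (.var 2)) (.num (-735822))) (.var 2)) (.num
  251833))))

/-- Scaled by `1000000000000000000000000000000000000000000000000000`. -/
def CTZl0 : Ex := (bZl (.var 0) CTS CTu CTv CTa CTb CTZl CTT0)

/-- Scaled by `1000000000000000000000000000000000000000000000000000`. -/
def CTZu0 : Ex := (bZu (.var 0) CTS CTu CTv CTa CTb CTZu CTT0)

/-- Scaled by `500000000000000000000000000`. -/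
def CTXl0 : Ex := (bXl (.var 0) CTS CTu CTv CTb CTXl CTv CTnu)

/-- Scaled by `2500000000000000000000000000000`. -/
def CTYl0 : Ex := (bYl (.var 0) CTS CTu CTv CTb CTYl CTv CTnu)

/-- Scaled by `50000000000000000000000000000`. -/
def CTQl0 : Ex := (bQl (.var 0) CTS CTu CTv CTb CTQl CTv CTnu)

/-- Scaled by `500000000000000000000000000`. -/
def CTXu0 : Ex := (bXu (.var 0) CTS CTu CTv CTb CTXu CTv CTnu)

/-- Scaled by `2500000000000000000000000000000`. -/
def CTYu0 : Ex := (bYu (.var 0) CTS CTu CTv CTb CTYu CTv CTnu)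

/-- Scaled by `50000000000000000000000000000`. -/
def CTQu0 : Ex := (bQu (.var 0) CTS CTu CTv CTb CTQu CTv CTnu)

/-- Scaled by `1000000000000000000000000000000000000000000000000000`. -/
def CTZl1 : Ex := (bZl (.var 0) CTS CTu CTv CTa CTb CTZl CTT1)

/-- Scaled by `1000000000000000000000000000000000000000000000000000`. -/
def CTZu1 : Ex := (bZu (.var 0) CTS CTu CTv CTa CTb CTZu CTT1)

/-- Scaled by `20000000000000000000000000000000000000000`. -/
def CTXl1 : Ex := (bXl (.var 0) CTS CTu CTv CTb CTXl CTHn1 CTHd)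

/-- Scaled by `100000000000000000000000000000000000000000000`. -/
def CTYl1 : Ex := (bYl (.var 0) CTS CTu CTv CTb CTYl CTHn1 CTHd)

/-- Scaled by `2000000000000000000000000000000000000000000`. -/
def CTQl1 : Ex := (bQl (.var 0) CTS CTu CTv CTb CTQl CTHn1 CTHd)

/-- Scaled by `20000000000000000000000000000000000000000`. -/
def CTXu1 : Ex := (bXu (.var 0) CTS CTu CTv CTb CTXu CTHn1 CTHd)

/-- Scaled by `100000000000000000000000000000000000000000000`. -/
def CTYu1 : Ex := (bYu (.var 0) CTS CTu CTv CTb CTYu CTHn1 CTHd)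

/-- Scaled by `2000000000000000000000000000000000000000000`. -/
def CTQu1 : Ex := (bQu (.var 0) CTS CTu CTv CTb CTQu CTHn1 CTHd)

/-- Scaled by `156250000000000000000000000000000000000000000000000000000000000000000`. -/
def CTTA0l : Ex := (.sub (qTA CTr0 CTv (.var 0) CTXu CTYl CTZu CTQu) (.mul (.num
  156250000000000000000000000000000000000000000000000000000000000000000) CTTA))

/-- Scaled by `6250000000000000000000000000000000000000000000000000000000000`. -/
def CTGG0l : Ex := (.sub (qGG CTr0 CTv (.var 0) CTXl) (.mul (.num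
  6250000000000000000000000000000000000000000000000000000000) CTGG))

/-- Scaled by `156250000000000000000000000000000000000000000000000000000000000000000`. -/
def CTTA0u : Ex := (.sub (qTA CTr0 CTv (.var 0) CTXu CTYu CTZu CTQu) (.mul (.num
  156250000000000000000000000000000000000000000000000000000000000000000) CTTA))

/-- Scaled by `6250000000000000000000000000000000000000000000000000000000000`. -/
def CTGG0u : Ex := (.sub (qGG CTr0 CTv (.var 0) CTXu) (.mul (.num
  6250000000000000000000000000000000000000000000000000000000) CTGG))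

/-- Scaled by `156250000000000000000000000000000000000000000000000000000000000000000`. -/
def CTTA1l : Ex := (.sub (qTA CTr1 CTv (.var 0) CTXu CTYl CTZu CTQu) (.mul (.num
  156250000000000000000000000000000000000000000000000000000000000000000) CTTA))

/-- Scaled by `6250000000000000000000000000000000000000000000000000000000000`. -/
def CTGG1l : Ex := (.sub (qGG CTr1 CTv (.var 0) CTXl) (.mul (.num
  6250000000000000000000000000000000000000000000000000000000) CTGG))

/-- Scaled by `156250000000000000000000000000000000000000000000000000000000000000000`. -/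
def CTTA1u : Ex := (.sub (qTA CTr1 CTv (.var 0) CTXu CTYu CTZu CTQu) (.mul (.num
  156250000000000000000000000000000000000000000000000000000000000000000) CTTA))

/-- Scaled by `6250000000000000000000000000000000000000000000000000000000000`. -/
def CTGG1u : Ex := (.sub (qGG CTr1 CTv (.var 0) CTXu) (.mul (.num
  6250000000000000000000000000000000000000000000000000000000) CTGG))

/-- Scaled by `6250000000000000000000000000000000000000000000000000000`. -/
def CTEGul : Ex := (.sub (.mul (.num 625000000000000000000000000000000000000000000000000000)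
  CTEG) (qEG CTr1 CTv (.var 0) CTXu CTYl))

/-- Scaled by `6250000000000000000000000000000000000000000000000000000`. -/
def CTEGll : Ex := (.add (.mul (.num 625000000000000000000000000000000000000000000000000000)
  CTEG) (qEG CTr0 CTv (.var 0) CTXl CTYl))

/-- Scaled by `6250000000000000000000000000000000000000000000000000000`. -/
def CTEGuu : Ex := (.sub (.mul (.num 625000000000000000000000000000000000000000000000000000)
  CTEG) (qEG CTr1 CTv (.var 0) CTXu CTYu))

/-- Scaled by `6250000000000000000000000000000000000000000000000000000`. -/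
def CTEGlu : Ex := (.add (.mul (.num 625000000000000000000000000000000000000000000000000000)
  CTEG) (qEG CTr0 CTv (.var 0) CTXl CTYu))

/-- Scaled by `500000000000000000000000000000000000000000`. -/
def CTMEnl : Ex := (.add (.mul (.num 50000000000000000000000000000000000000000) CTME) (qME CTr1
  CTv (.var 0) CTXu CTYl CTZl CTQl))

/-- Scaled by `500000000000000000000000000000000000000000`. -/
def CTMEpl : Ex := (.sub (.mul (.num 50000000000000000000000000000000000000000) CTME) (qME CTr0
  CTv (.var 0) CTXl CTYl CTZu CTQu))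

/-- Scaled by `500000000000000000000000000000000000000000`. -/
def CTMEnu : Ex := (.add (.mul (.num 50000000000000000000000000000000000000000) CTME) (qME CTr1
  CTv (.var 0) CTXu CTYu CTZl CTQl))

/-- Scaled by `500000000000000000000000000000000000000000`. -/
def CTMEpu : Ex := (.sub (.mul (.num 50000000000000000000000000000000000000000) CTME) (qME CTr0
  CTv (.var 0) CTXl CTYu CTZu CTQu))

/-- Scaled by `100000`. -/
def CTrgXl : Ex := (.sub CTXl (.num 900000))

/-- Scaled by `100000`. -/
def CTrgXu : Ex := (.sub (.num 1200000) CTXu)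

/-- Scaled by `100000`. -/
def CTrgYl : Ex := (.sub CTYl (.num 9900000))

/-- Scaled by `100000`. -/
def CTrgYu : Ex := (.sub (.num 14000000) CTYu)

/-- Scaled by `100000`. -/
def CTrgZl : Ex := (.sub CTZl (.num (-1300000)))

/-- Scaled by `100000`. -/
def CTrgZu : Ex := (.sub (.num (-500000)) CTZu)

/-- Scaled by `100000`. -/
def CTrgQl : Ex := (.sub CTQl (.num (-2500000)))

/-- Scaled by `100000`. -/
def CTrgQu : Ex := (.sub (.num (-950000)) CTQu)

/-- Scaled by `1`. -/
def CTgpos : Ex := (.sub CTGG (.num 1))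

/-- Scaled by `1`. -/
def CTUpos : Ex := (.sub CTU (.num 1))

/-- Scaled by `1250000000000000000000000000000000000`. -/
def CTF : Ex := (.sub (tF (.var 0) CTv CTS1 CTTA CTGG CTEG CTME CTXl CTYl) (.num 1))

/-- Scaled by `3200000000000000000000`. -/
def CTcut : Ex := (.sub (tCut (.var 0) CTS CTW CTU CTa CTb (.var 2)) (.num 1))

def CTC0 : ℕ → Chart
  | 0 => ⟨11, 61, 60, 304⟩
  | 1 => ⟨2, 501, 5, 500⟩
  | 2 => ⟨47, 501, 50, 500⟩
  | _ => ⟨0, 501, 1, 500⟩

def CTC1 : ℕ → Chart
  | 0 => ⟨11, 61, 60, 304⟩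
  | 1 => ⟨2, 501, 5, 500⟩
  | 2 => ⟨47, 33, 50, 34⟩
  | _ => ⟨0, 501, 1, 500⟩

def CTC2 : ℕ → Chart
  | 0 => ⟨11, 61, 60, 304⟩
  | 1 => ⟨2, 501, 5, 500⟩
  | 2 => ⟨33, 501, 34, 500⟩
  | _ => ⟨0, 501, 1, 500⟩

def CTC3 : ℕ → Chart
  | 0 => ⟨11, 61, 60, 304⟩
  | 1 => ⟨2, 40, 5, 57⟩
  | 2 => ⟨47, 501, 50, 500⟩
  | _ => ⟨0, 501, 1, 500⟩

def CTC4 : ℕ → Chart
  | 0 => ⟨11, 61, 60, 304⟩
  | 1 => ⟨40, 501, 57, 500⟩
  | 2 => ⟨47, 501, 50, 500⟩
  | _ => ⟨0, 501, 1, 500⟩

def CTC5 : ℕ → Chart
  | 0 => ⟨11, 61, 60, 304⟩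
  | 1 => ⟨2, 40, 5, 57⟩
  | 2 => ⟨0, 501, 1, 500⟩
  | _ => ⟨0, 501, 1, 500⟩

def CTC6 : ℕ → Chart
  | 0 => ⟨11, 61, 60, 304⟩
  | 1 => ⟨40, 501, 57, 500⟩
  | 2 => ⟨0, 501, 1, 500⟩
  | _ => ⟨0, 501, 1, 500⟩

theorem CTZl0_ok0 :
    checkFour CTC0 447 14 5 5 6 CTZl0 = true := by decide +kernel

theorem CTZu0_ok0 :
    checkFour CTC0 446 14 5 5 6 CTZu0 = true := by decide +kernel

theorem CTXl0_ok0 :
    checkFour CTC0 249 7 4 4 2 CTXl0 = true := by decide +kernel

theorem CTYl0_ok0 :
    checkFour CTC0 263 7 4 4 2 CTYl0 = true := by decide +kernel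

theorem CTQl0_ok0 :
    checkFour CTC0 263 8 4 4 2 CTQl0 = true := by decide +kernel

theorem CTXu0_ok0 :
    checkFour CTC1 239 7 4 4 2 CTXu0 = true := by decide +kernel

theorem CTXu0_ok1 :
    checkFour CTC2 249 7 4 4 2 CTXu0 = true := by decide +kernel

theorem CTYu0_ok0 :
    checkFour CTC0 263 7 4 4 2 CTYu0 = true := by decide +kernel

theorem CTQu0_ok0 :
    checkFour CTC0 263 8 4 4 2 CTQu0 = true := by decide +kernel

theorem CTZl1_ok0 :
    checkFour CTC0 420 13 4 4 6 CTZl1 = true := by decide +kernel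

theorem CTZu1_ok0 :
    checkFour CTC0 420 13 4 4 6 CTZu1 = true := by decide +kernel

theorem CTXl1_ok0 :
    checkFour CTC1 339 11 4 4 4 CTXl1 = true := by decide +kernel

theorem CTXl1_ok1 :
    checkFour CTC2 349 11 4 4 4 CTXl1 = true := by decide +kernel

theorem CTYl1_ok0 :
    checkFour CTC0 363 11 4 4 4 CTYl1 = true := by decide +kernel

theorem CTQl1_ok0 :
    checkFour CTC0 363 12 4 4 4 CTQl1 = true := by decide +kernel

theorem CTXu1_ok0 :
    checkFour CTC0 350 11 4 4 4 CTXu1 = true := by decide +kernel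

theorem CTYu1_ok0 :
    checkFour CTC0 363 11 4 4 4 CTYu1 = true := by decide +kernel

theorem CTQu1_ok0 :
    checkFour CTC0 364 12 4 4 4 CTQu1 = true := by decide +kernel

theorem CTTA0l_ok0 :
    checkFour CTC0 544 16 8 8 0 CTTA0l = true := by decide +kernel

theorem CTGG0l_ok0 :
    checkFour CTC0 478 14 7 7 0 CTGG0l = true := by decide +kernel

theorem CTTA0u_ok0 :
    checkFour CTC0 544 16 8 8 0 CTTA0u = true := by decide +kernel

theorem CTGG0u_ok0 :
    checkFour CTC0 478 14 7 7 0 CTGG0u = true := by decide +kernel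

theorem CTTA1l_ok0 :
    checkFour CTC0 553 17 8 8 0 CTTA1l = true := by decide +kernel

theorem CTGG1l_ok0 :
    checkFour CTC0 487 15 7 7 0 CTGG1l = true := by decide +kernel

theorem CTTA1u_ok0 :
    checkFour CTC0 553 17 8 8 0 CTTA1u = true := by decide +kernel

theorem CTGG1u_ok0 :
    checkFour CTC0 487 15 7 7 0 CTGG1u = true := by decide +kernel

theorem CTEGul_ok0 :
    checkFour CTC0 433 13 6 6 0 CTEGul = true := by decide +kernel

theorem CTEGll_ok0 :
    checkFour CTC0 425 12 6 6 0 CTEGll = true := by decide +kernel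

theorem CTEGuu_ok0 :
    checkFour CTC3 415 13 6 6 0 CTEGuu = true := by decide +kernel

theorem CTEGuu_ok1 :
    checkFour CTC4 434 13 6 6 0 CTEGuu = true := by decide +kernel

theorem CTEGlu_ok0 :
    checkFour CTC0 425 12 6 6 0 CTEGlu = true := by decide +kernel

theorem CTMEnl_ok0 :
    checkFour CTC0 348 11 5 5 0 CTMEnl = true := by decide +kernel

theorem CTMEpl_ok0 :
    checkFour CTC0 339 10 5 5 0 CTMEpl = true := by decide +kernel

theorem CTMEnu_ok0 :
    checkFour CTC0 348 11 5 5 0 CTMEnu = true := by decide +kernel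

theorem CTMEpu_ok0 :
    checkFour CTC0 339 10 5 5 0 CTMEpu = true := by decide +kernel

theorem CTrgXl_ok0 :
    checkFour CTC0 79 2 2 2 0 CTrgXl = true := by decide +kernel

theorem CTrgXu_ok0 :
    checkFour CTC0 79 2 2 2 0 CTrgXu = true := by decide +kernel

theorem CTrgYl_ok0 :
    checkFour CTC0 80 2 2 2 0 CTrgYl = true := by decide +kernel

theorem CTrgYu_ok0 :
    checkFour CTC0 80 2 2 2 0 CTrgYu = true := by decide +kernel

theorem CTrgZl_ok0 :
    checkFour CTC0 77 2 2 2 0 CTrgZl = true := by decide +kernel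

theorem CTrgZu_ok0 :
    checkFour CTC0 75 2 2 2 0 CTrgZu = true := by decide +kernel

theorem CTrgQl_ok0 :
    checkFour CTC0 77 2 2 2 0 CTrgQl = true := by decide +kernel

theorem CTrgQu_ok0 :
    checkFour CTC0 77 2 2 2 0 CTrgQu = true := by decide +kernel

theorem CTgpos_ok0 :
    checkFour CTC0 141 4 4 4 0 CTgpos = true := by decide +kernel

theorem CTUpos_ok0 :
    checkFour CTC0 35 1 1 0 0 CTUpos = true := by decide +kernel

theorem CTF_ok0 :
    checkFour CTC0 693 21 17 17 0 CTF = true := by decide +kernel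

theorem CTcut_ok0 :
    checkFour CTC5 196 8 2 2 2 CTcut = true := by decide +kernel

theorem CTcut_ok1 :
    checkFour CTC6 203 8 2 2 2 CTcut = true := by decide +kernel

end Vale.Agent.P100.Calib.NegCert
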