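import Mathlib
import Vale.Agent.P100.Calib.NegCert.PieceALSigns
import Vale.Agent.P100.Calib.NegCert.PieceAHSigns
import Vale.Agent.P100.Calib.NegCert.PieceBLaSigns
import Vale.Agent.P100.Calib.NegCert.PieceBLbSigns
import Vale.Agent.P100.Calib.NegCert.PieceBHSigns
import Vale.Agent.P100.Calib.NegCert.PieceBTSigns
import Vale.Agent.P100.Calib.NegCert.PieceCLaSigns
import Vale.Agent.P100.Calib.NegCert.PieceCLbSigns
import Vale.Agent.P100.Calib.NegCert.PieceCHSigns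
import Vale.Agent.P100.Calib.NegCert.PieceCTSigns

/-!
# The closed signs on `u ≤ 0`
-/

set_option linter.unusedVariables false

namespace Vale.Agent.P100.Calib.NegCert

/-- The position of `w` between `w₀` and `14/25 - d/20`. -/
noncomputable def pos (d S₁ w : ℝ) : ℝ :=
  (w - (239 / 250 + 1 / 16 * d - S₁)) / (14 / 25 - 1 / 20 * d - (239 / 250 + 1 / 16 * d - S₁))

theorem pos_eq {d S₁ w : ℝ} (hd : d ≤ 1 / 5) (hS : 3 / 5 ≤ S₁) :
    w = (239 / 250 + 1 / 16 * d - S₁) +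
      pos d S₁ w * (14 / 25 - 1 / 20 * d - (239 / 250 + 1 / 16 * d - S₁)) := by
  rw [pos, div_mul_cancel₀]
  · ring
  · linarith

theorem pos_nonneg {d S₁ w : ℝ} (hd : d ≤ 1 / 5) (hS : 3 / 5 ≤ S₁)
    (hw : 239 / 250 + 1 / 16 * d - S₁ ≤ w) : 0 ≤ pos d S₁ w :=
  div_nonneg (by linarith) (by linarith)

theorem pos_le_one {d S₁ w : ℝ} (hd : d ≤ 1 / 5) (hS : 3 / 5 ≤ S₁)
    (hw : w ≤ 14 / 25 - 1 / 20 * d) : pos d S₁ w ≤ 1 := by
  rw [pos, div_le_one (by linarith)]
  linarith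

theorem pos_mono {d S₁ S₂ w : ℝ} (hd : d ≤ 1 / 5) (hS : 3 / 5 ≤ S₁) (h : S₁ ≤ S₂)
    (hw : w ≤ 14 / 25 - 1 / 20 * d) : pos d S₁ w ≤ pos d S₂ w := by
  rw [pos, pos, div_le_div_iff₀ (by linarith) (by linarith)]
  nlinarith [mul_nonneg (sub_nonneg.2 h) (sub_nonneg.2 hw)]

theorem BTUr_eq (d ω : ℝ) : BTUr d ω = BHUr d ω := by
  simp [BTUr, BHUr, BTU, BHU, Pack.Ex.eval, pt]

theorem CTUr_eq (d ω : ℝ) : CTUr d ω = CHUr d ω := by
  simp [CTUr, CHUr, CTU, CHU, Pack.Ex.eval, pt]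

theorem signs_A {d S u v t : ℝ} (h : Hyp d S u v t) (d0 : 0 < d) (d1 : d ≤ 1 / 5) (s0 : 3 / 5 < S)
    (s1 : S < 307 / 507) (htri : d ≤ 2 - 3 * S)
    (hw₀ : 89 / 250 + 1 / 16 * d - (S - 3 / 5) ≤ v - 9 / 50 * u)
    (hw₁ : v - 9 / 50 * u ≤ 14 / 25 - 1 / 20 * d) (hu : u ≤ 0) (hA : d ≤ 3 / 25) :
    Closed.ChartSigns d S u v t := by
  have hd0 : (0 : ℝ) ≤ d := d0.le
  have e := pos_eq (w := v - 9 / 50 * u) (S₁ := 757 / 1250) d1 (by norm_num)
  have p0 := pos_nonneg (w := v - 9 / 50 * u) (S₁ := 757 / 1250) d1 (by norm_num) (by linarith)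
  have p1 := pos_le_one (w := v - 9 / 50 * u) (S₁ := 757 / 1250) d1 (by norm_num) (by linarith)
  rcases lt_or_ge (pos d (757 / 1250) (v - 9 / 50 * u)) (3 / 10) with hω | hω
  · exact AL_signs h hd0 (by linarith) s0.le (by linarith) e p0 (by linarith)
  · exact AH_signs h hd0 (by linarith) s0.le (by linarith) e hω (by linarith)

theorem signs_B {d S u v t : ℝ} (h : Hyp d S u v t) (d0 : 0 < d) (d1 : d ≤ 1 / 5) (s0 : 3 / 5 < S)
    (s1 : S < 307 / 507) (htri : d ≤ 2 - 3 * S)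
    (hw₀ : 89 / 250 + 1 / 16 * d - (S - 3 / 5) ≤ v - 9 / 50 * u)
    (hw₁ : v - 9 / 50 * u ≤ 14 / 25 - 1 / 20 * d) (hu : u ≤ 0) (hA : 3 / 25 < d) (hB : d ≤ 11 / 60) :
    Closed.ChartSigns d S u v t := by
  have e := pos_eq (w := v - 9 / 50 * u) (S₁ := 757 / 1250) d1 (by norm_num)
  have p1 := pos_le_one (w := v - 9 / 50 * u) (S₁ := 757 / 1250) d1 (by norm_num) (by linarith)
  rcases lt_or_ge (pos d (757 / 1250) (v - 9 / 50 * u)) (2 / 5) with hω | hω
  · rcases le_or_gt S (1507 / 2500) with hs | hs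
    · exact BLa_signs h hA.le (by linarith) s0.le (by linarith)
        (pos_eq (w := v - 9 / 50 * u) (S₁ := 1507 / 2500) d1 (by norm_num))
        (pos_nonneg d1 (by norm_num) (by linarith))
        (lt_of_le_of_lt (pos_mono d1 (by norm_num) (by norm_num) (by linarith))
          (by linarith : pos d (757 / 1250) (v - 9 / 50 * u) < 41 / 102))
    · exact BLb_signs h hA.le (by linarith) hs.le (by linarith) e
        (pos_nonneg d1 (by norm_num) (by linarith)) (by linarith)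
  · rcases lt_or_ge (-u) (16 / 17 * BHUr d (pos d (757 / 1250) (v - 9 / 50 * u))) with hσ | hσ
    · exact BH_signs h hA.le (by linarith) s0.le (by linarith) e hω (by linarith) hσ
    · refine BT_signs h hA.le (by linarith) s0.le (by linarith) e hω (by linarith) ?_
      rw [BTUr_eq]
      rcases le_total (BHUr d (pos d (757 / 1250) (v - 9 / 50 * u))) 0 with hU | hU <;> linarith

theorem signs_C {d S u v t : ℝ} (h : Hyp d S u v t) (d0 : 0 < d) (d1 : d ≤ 1 / 5) (s0 : 3 / 5 < S)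
    (s1 : S < 307 / 507) (htri : d ≤ 2 - 3 * S)
    (hw₀ : 89 / 250 + 1 / 16 * d - (S - 3 / 5) ≤ v - 9 / 50 * u)
    (hw₁ : v - 9 / 50 * u ≤ 14 / 25 - 1 / 20 * d) (hu : u ≤ 0) (hB : 11 / 60 < d) :
    Closed.ChartSigns d S u v t := by
  have hM : (3 : ℝ) / 5 ≤ 6333 / 10000 + -333 / 2000 * d := by linarith
  have hL : (3 : ℝ) / 5 ≤ 6667 / 10000 + -3333 / 10000 * d := by linarith
  have hS₁ : S ≤ 6667 / 10000 + -3333 / 10000 * d := by linarith
  have hwc : 239 / 250 + 1 / 16 * d - (6667 / 10000 + -3333 / 10000 * d) ≤ v - 9 / 50 * u := by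
    linarith
  have e := pos_eq (w := v - 9 / 50 * u) d1 hL
  have p1 := pos_le_one (w := v - 9 / 50 * u) d1 hL (by linarith)
  rcases lt_or_ge (pos d (6667 / 10000 + -3333 / 10000 * d) (v - 9 / 50 * u)) (2 / 5) with hω | hω
  · rcases le_or_gt S (6333 / 10000 + -333 / 2000 * d) with hs | hs
    · exact CLa_signs h hB.le (by linarith) s0.le hs
        (pos_eq (w := v - 9 / 50 * u) d1 hM)
        (pos_nonneg d1 hM (by linarith))
        (lt_of_le_of_lt (pos_mono d1 hM (by linarith) (by linarith))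
          (by linarith : pos d (6667 / 10000 + -3333 / 10000 * d) (v - 9 / 50 * u) < 41 / 102))
    · exact CLb_signs h hB.le (by linarith) hs.le hS₁ e
        (pos_nonneg d1 hL hwc) (by linarith)
  · rcases lt_or_ge (-u)
      (16 / 17 * CHUr d (pos d (6667 / 10000 + -3333 / 10000 * d) (v - 9 / 50 * u))) with hσ | hσ
    · exact CH_signs h hB.le (by linarith) s0.le hS₁ e hω (by linarith) hσ
    · refine CT_signs h hB.le (by linarith) s0.le hS₁ e hω (by linarith) ?_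
      rw [CTUr_eq]
      rcases le_total (CHUr d (pos d (6667 / 10000 + -3333 / 10000 * d) (v - 9 / 50 * u))) 0
        with hU | hU <;> linarith

/-- The closed signs past the crossing and at it. -/
theorem signsNeg : Closed.SignsNeg := by
  intro d S u v t box hu hw₀ hw₁ hum ht₀ ht₁ hcut
  have d0 := box.pos
  have d1 := box.diff
  have s0 := box.S_low
  have s1 := box.S_high
  have htri := box.tri
  have hu₁ : -41 / 100 ≤ u := by
    linarith [mul_le_mul_of_nonneg_left hw₁ (by linarith : (0 : ℝ) ≤ 5 / 8 + 1 / 5 * d),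
      mul_nonneg d0.le d0.le]
  have h : Hyp d S u v t :=
    ⟨d0, d1, s0, s1, hu, hu₁, by linarith, by linarith, hum, ht₀, ht₁, hcut⟩
  rcases le_or_gt d (3 / 25) with hA | hA
  · exact signs_A h d0 d1 s0 s1 htri hw₀ hw₁ hu hA
  rcases le_or_gt d (11 / 60) with hB | hB
  · exact signs_B h d0 d1 s0 s1 htri hw₀ hw₁ hu hA hB
  · exact signs_C h d0 d1 s0 s1 htri hw₀ hw₁ hu hB

end Vale.Agent.P100.Calib.NegCert
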