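import Mathlib
import Vale.Agent.P100.Pack.FastFour
import Vale.Agent.P100.Calib.NegCert.Coef
import Vale.Agent.P100.Calib.NegCert.Tpl

/-!
# Piece CH of the region `u ≤ 0`: data and checks
-/

set_option linter.unusedVariables false

namespace Vale.Agent.P100.Calib.NegCert

open Pack

def CHS0 : Ex := (.num 6000)

def CHS1 : Ex := (.add (.num 6667) (.mul (.num (-3333)) (.var 0)))

def CHS : Ex := (.add CHS0 (.mul (.var 3) (.sub CHS1 CHS0)))

def CHU : Ex := (.add (.mul (.add (.mul (.num (-28067)) (.var 1)) (.num 47820)) (.var 0)) (.add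
  (.mul (.num 17282) (.var 1)) (.num 18304)))

def CHu : Ex := (.sub (.num 0) (.mul (.var 2) CHU))

def CHW0 : Ex := (.sub (.add (.num 9560) (.mul (.num 625) (.var 0))) CHS1)

def CHW : Ex := (.add CHW0 (.mul (.var 1) (.sub (.sub (.num 5600) (.mul (.num 500) (.var 0)))
  CHW0)))

def CHv : Ex := (.add (.mul (.num 500) CHW) (.mul (.num 9) CHu))

def CHa : Ex := (.sub CHS (.mul (.num 10000) (.var 0)))

def CHb : Ex := (.add CHS (.mul (.num 10000) (.var 0)))

def CHZl : Ex := (.add (.mul (.add (.mul (.num (-15363867)) (.var 0)) (.add (.mul (.num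
  (-141631)) (.var 1)) (.add (.mul (.num 1465131) (.var 2)) (.num 6816179)))) (.var 0)) (.add
  (.mul (.add (.mul (.num (-6544)) (.var 1)) (.add (.mul (.num (-70085)) (.var 2)) (.num
  (-774)))) (.var 1)) (.add (.mul (.add (.mul (.num (-16612)) (.var 2)) (.num (-450743))) (.var
  2)) (.num (-1484859)))))

def CHT0 : Ex := (tT0 (.var 0) CHu)

def CHZu : Ex := (.add (.mul (.add (.mul (.num (-1505897)) (.var 0)) (.add (.mul (.num
  (-700655)) (.var 1)) (.add (.mul (.num (-244371)) (.var 2)) (.num (-632795))))) (.var 0))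
  (.add (.mul (.add (.mul (.num (-5709)) (.var 1)) (.add (.mul (.num 32576) (.var 2)) (.num
  103196))) (.var 1)) (.add (.mul (.add (.mul (.num 42051) (.var 2)) (.num 17302)) (.var 2))
  (.num (-435493)))))

def CHXl : Ex := (.add (.mul (.add (.mul (.num (-1685833)) (.var 0)) (.add (.mul (.num
  (-348678)) (.var 1)) (.add (.mul (.num 2092) (.var 2)) (.num 63326)))) (.var 0)) (.add (.mul
  (.add (.mul (.num 427) (.var 1)) (.add (.mul (.num 4632) (.var 2)) (.num 175561))) (.var 1))
  (.add (.mul (.add (.mul (.num (-48554)) (.var 2)) (.num 28350)) (.var 2)) (.num 975788))))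

def CHHn0 : Ex := (tHn CHS CHu CHv CHa CHb CHT0)

def CHHd : Ex := (tBCH CHb CHS)

def CHYl : Ex := (.add (.mul (.add (.mul (.num (-50878086)) (.var 0)) (.add (.mul (.num
  (-1213140)) (.var 1)) (.add (.mul (.num 1413279) (.var 2)) (.num 20650672)))) (.var 0)) (.add
  (.mul (.add (.mul (.num 16145) (.var 1)) (.add (.mul (.num 1172792) (.var 2)) (.num 255871)))
  (.var 1)) (.add (.mul (.add (.mul (.num (-38732)) (.var 2)) (.num 2180525)) (.var 2)) (.num
  8001465))))

def CHQl : Ex := (.add (.mul (.add (.mul (.num (-1540614)) (.var 0)) (.add (.mul (.num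
  (-244429)) (.var 1)) (.add (.mul (.num (-2837422)) (.var 2)) (.num (-6922276))))) (.var 0))
  (.add (.mul (.add (.mul (.num (-3982)) (.var 1)) (.add (.mul (.num (-210722)) (.var 2)) (.num
  52573))) (.var 1)) (.add (.mul (.add (.mul (.num (-266)) (.var 2)) (.num 120229)) (.var 2))
  (.num (-306263)))))

def CHXu : Ex := (.add (.mul (.add (.mul (.num 2124447) (.var 0)) (.add (.mul (.num (-424817))
  (.var 1)) (.add (.mul (.num (-249054)) (.var 2)) (.num (-1541425))))) (.var 0)) (.add (.mul
  (.add (.mul (.num 3536) (.var 1)) (.add (.mul (.num 33524) (.var 2)) (.num 183315))) (.var 1))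
  (.add (.mul (.add (.mul (.num (-9607)) (.var 2)) (.num 69681)) (.var 2)) (.num 1151100))))

def CHYu : Ex := (.add (.mul (.add (.mul (.num 64077038) (.var 0)) (.add (.mul (.num (-1831340))
  (.var 1)) (.add (.mul (.num (-1743985)) (.var 2)) (.num (-31088271))))) (.var 0)) (.add (.mul
  (.add (.mul (.num 21925) (.var 1)) (.add (.mul (.num 1201855) (.var 2)) (.num 365902))) (.var
  1)) (.add (.mul (.add (.mul (.num (-8599)) (.var 2)) (.num 2784876)) (.var 2)) (.num
  13776880))))

def CHQu : Ex := (.add (.mul (.add (.mul (.num 8690374) (.var 0)) (.add (.mul (.num (-334515))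
  (.var 1)) (.add (.mul (.num (-3348606)) (.var 2)) (.num (-12060349))))) (.var 0)) (.add (.mul
  (.add (.mul (.num (-2929)) (.var 1)) (.add (.mul (.num (-204841)) (.var 2)) (.num 68246)))
  (.var 1)) (.add (.mul (.add (.mul (.num 6879) (.var 2)) (.num 216425)) (.var 2)) (.num
  317404))))

def CHT1 : Ex := (tT1 (.var 0))

def CHHn1 : Ex := (tHn CHS CHu CHv CHa CHb CHT1)

def CHr0 : Ex := (.sub CHS0 (.num 6000))

def CHTA : Ex := (.add (.mul (.add (.mul (.add (.mul (.num (-48857803)) (.var 0)) (.add (.mul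
  (.num 2849047) (.var 1)) (.add (.mul (.num 757997) (.var 2)) (.num 26011623)))) (.var 0))
  (.add (.mul (.add (.mul (.num 9910) (.var 1)) (.add (.mul (.num (-309074)) (.var 2)) (.num
  (-1669057)))) (.var 1)) (.add (.mul (.add (.mul (.num 55033) (.var 2)) (.num (-365876))) (.var
  2)) (.num (-5138428))))) (.var 0)) (.add (.mul (.add (.mul (.add (.mul (.num (-1567)) (.var
  1)) (.add (.mul (.num (-10754)) (.var 2)) (.num (-7384)))) (.var 1)) (.add (.mul (.add (.mul
  (.num (-4461)) (.var 2)) (.num 68421)) (.var 2)) (.num 262254))) (.var 1)) (.add (.mul (.add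
  (.mul (.add (.mul (.num 1610) (.var 2)) (.num (-15031))) (.var 2)) (.num 44482)) (.var 2))
  (.num 487294))))

def CHGG : Ex := (.add (.mul (.add (.mul (.add (.mul (.add (.mul (.num (-46441218238)) (.var 0))
  (.add (.mul (.num 367128075) (.var 1)) (.add (.mul (.num 181790853) (.var 2)) (.num
  34903627643)))) (.var 0)) (.add (.mul (.add (.mul (.num (-4428480)) (.var 1)) (.add (.mul
  (.num (-3345792)) (.var 2)) (.num (-199321986)))) (.var 1)) (.add (.mul (.add (.mul (.num
  (-6761149)) (.var 2)) (.num (-95442093))) (.var 2)) (.num (-9841908645))))) (.var 0)) (.add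
  (.mul (.add (.mul (.add (.mul (.num 1554778) (.var 1)) (.add (.mul (.num 2947707) (.var 2))
  (.num (-1672220)))) (.var 1)) (.add (.mul (.add (.mul (.num 497249) (.var 2)) (.num
  (-2641940))) (.var 2)) (.num 37366386))) (.var 1)) (.add (.mul (.add (.mul (.add (.mul (.num
  35567) (.var 2)) (.num 2424630)) (.var 2)) (.num 17722011)) (.var 2)) (.num 1233790948))))
  (.var 0)) (.add (.mul (.add (.mul (.add (.mul (.add (.mul (.num 47303) (.var 1)) (.add (.mul
  (.num (-169724)) (.var 2)) (.num (-407458)))) (.var 1)) (.add (.mul (.add (.mul (.num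
  (-194308)) (.var 2)) (.num (-209115))) (.var 2)) (.num 534120))) (.var 1)) (.add (.mul (.add
  (.mul (.add (.mul (.num 17438) (.var 2)) (.num 204320)) (.var 2)) (.num 247907)) (.var 2))
  (.num (-2104033)))) (.var 1)) (.add (.mul (.add (.mul (.add (.mul (.add (.mul (.num (-9682))
  (.var 2)) (.num (-10133))) (.var 2)) (.num (-335250))) (.var 2)) (.num (-1105063))) (.var 2))
  (.num (-57927763)))))

def CHr1 : Ex := (.sub CHS1 (.num 6000))

def CHEG : Ex := (.add (.mul (.add (.mul (.add (.mul (.add (.mul (.num 15852879209) (.var 0))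
  (.add (.mul (.num 27634285) (.var 1)) (.add (.mul (.num 25067869) (.var 2)) (.num
  (-12111862015))))) (.var 0)) (.add (.mul (.add (.mul (.num 182327) (.var 1)) (.add (.mul (.num
  42097) (.var 2)) (.num (-15518281)))) (.var 1)) (.add (.mul (.add (.mul (.num (-17319)) (.var
  2)) (.num (-14047503))) (.var 2)) (.num 3469582883)))) (.var 0)) (.add (.mul (.add (.mul (.add
  (.mul (.num (-4466)) (.var 1)) (.add (.mul (.num (-30170)) (.var 2)) (.num (-71558)))) (.var
  1)) (.add (.mul (.add (.mul (.num (-9013)) (.var 2)) (.num (-73483))) (.var 2)) (.num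
  2687124))) (.var 1)) (.add (.mul (.add (.mul (.add (.mul (.num 761) (.var 2)) (.num 1160))
  (.var 2)) (.num 2558974)) (.var 2)) (.num (-441719832))))) (.var 0)) (.add (.mul (.add (.mul
  (.add (.mul (.add (.mul (.num 48) (.var 1)) (.add (.mul (.num 279) (.var 2)) (.num 790)))
  (.var 1)) (.add (.mul (.add (.mul (.num 859) (.var 2)) (.num 9256)) (.var 2)) (.num 9041)))
  (.var 1)) (.add (.mul (.add (.mul (.add (.mul (.num (-305)) (.var 2)) (.num 3724)) (.var 2))
  (.num 24081)) (.var 2)) (.num (-113682)))) (.var 1)) (.add (.mul (.add (.mul (.add (.mul (.add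
  (.mul (.num 19) (.var 2)) (.num (-687))) (.var 2)) (.num (-588))) (.var 2)) (.num (-150078)))
  (.var 2)) (.num 21084459))))

def CHME : Ex := (.add (.mul (.add (.mul (.add (.mul (.num 21967306) (.var 0)) (.add (.mul (.num
  197685) (.var 1)) (.add (.mul (.num 108114) (.var 2)) (.num (-12457884))))) (.var 0)) (.add
  (.mul (.add (.mul (.num (-9553)) (.var 1)) (.add (.mul (.num (-36472)) (.var 2)) (.num
  (-143026)))) (.var 1)) (.add (.mul (.add (.mul (.num (-4416)) (.var 2)) (.num (-55437))) (.var
  2)) (.num 2342961)))) (.var 0)) (.add (.mul (.add (.mul (.add (.mul (.num 123) (.var 1)) (.add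
  (.mul (.num 2115) (.var 2)) (.num 2503))) (.var 1)) (.add (.mul (.add (.mul (.num 357) (.var
  2)) (.num 12231)) (.var 2)) (.num 33422))) (.var 1)) (.add (.mul (.add (.mul (.add (.mul (.num
  (-208)) (.var 2)) (.num 179)) (.var 2)) (.num 8159)) (.var 2)) (.num (-140405)))))

/-- Scaled by `1000000000000000000000000000000000000000000000000000`. -/
def CHZl0 : Ex := (bZl (.var 0) CHS CHu CHv CHa CHb CHZl CHT0)

/-- Scaled by `1000000000000000000000000000000000000000000000000000`. -/
def CHZu0 : Ex := (bZu (.var 0) CHS CHu CHv CHa CHb CHZu CHT0)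

/-- Scaled by `20000000000000000000000000000000000000000`. -/
def CHXl0 : Ex := (bXl (.var 0) CHS CHu CHv CHb CHXl CHHn0 CHHd)

/-- Scaled by `100000000000000000000000000000000000000000000`. -/
def CHYl0 : Ex := (bYl (.var 0) CHS CHu CHv CHb CHYl CHHn0 CHHd)

/-- Scaled by `2000000000000000000000000000000000000000000`. -/
def CHQl0 : Ex := (bQl (.var 0) CHS CHu CHv CHb CHQl CHHn0 CHHd)

/-- Scaled by `20000000000000000000000000000000000000000`. -/
def CHXu0 : Ex := (bXu (.var 0) CHS CHu CHv CHb CHXu CHHn0 CHHd)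

/-- Scaled by `100000000000000000000000000000000000000000000`. -/
def CHYu0 : Ex := (bYu (.var 0) CHS CHu CHv CHb CHYu CHHn0 CHHd)

/-- Scaled by `2000000000000000000000000000000000000000000`. -/
def CHQu0 : Ex := (bQu (.var 0) CHS CHu CHv CHb CHQu CHHn0 CHHd)

/-- Scaled by `1000000000000000000000000000000000000000000000000000`. -/
def CHZl1 : Ex := (bZl (.var 0) CHS CHu CHv CHa CHb CHZl CHT1)

/-- Scaled by `1000000000000000000000000000000000000000000000000000`. -/
def CHZu1 : Ex := (bZu (.var 0) CHS CHu CHv CHa CHb CHZu CHT1)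

/-- Scaled by `20000000000000000000000000000000000000000`. -/
def CHXl1 : Ex := (bXl (.var 0) CHS CHu CHv CHb CHXl CHHn1 CHHd)

/-- Scaled by `100000000000000000000000000000000000000000000`. -/
def CHYl1 : Ex := (bYl (.var 0) CHS CHu CHv CHb CHYl CHHn1 CHHd)

/-- Scaled by `2000000000000000000000000000000000000000000`. -/
def CHQl1 : Ex := (bQl (.var 0) CHS CHu CHv CHb CHQl CHHn1 CHHd)

/-- Scaled by `20000000000000000000000000000000000000000`. -/
def CHXu1 : Ex := (bXu (.var 0) CHS CHu CHv CHb CHXu CHHn1 CHHd)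

/-- Scaled by `100000000000000000000000000000000000000000000`. -/
def CHYu1 : Ex := (bYu (.var 0) CHS CHu CHv CHb CHYu CHHn1 CHHd)

/-- Scaled by `2000000000000000000000000000000000000000000`. -/
def CHQu1 : Ex := (bQu (.var 0) CHS CHu CHv CHb CHQu CHHn1 CHHd)

/-- Scaled by `156250000000000000000000000000000000000000000000000000000000000000000`. -/
def CHTA0l : Ex := (.sub (qTA CHr0 CHv (.var 0) CHXu CHYl CHZu CHQu) (.mul (.num
  156250000000000000000000000000000000000000000000000000000000000000000) CHTA))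

/-- Scaled by `6250000000000000000000000000000000000000000000000000000000000`. -/
def CHGG0l : Ex := (.sub (qGG CHr0 CHv (.var 0) CHXl) (.mul (.num
  6250000000000000000000000000000000000000000000000000000000) CHGG))

/-- Scaled by `156250000000000000000000000000000000000000000000000000000000000000000`. -/
def CHTA0u : Ex := (.sub (qTA CHr0 CHv (.var 0) CHXu CHYu CHZu CHQu) (.mul (.num
  156250000000000000000000000000000000000000000000000000000000000000000) CHTA))

/-- Scaled by `6250000000000000000000000000000000000000000000000000000000000`. -/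
def CHGG0u : Ex := (.sub (qGG CHr0 CHv (.var 0) CHXu) (.mul (.num
  6250000000000000000000000000000000000000000000000000000000) CHGG))

/-- Scaled by `156250000000000000000000000000000000000000000000000000000000000000000`. -/
def CHTA1l : Ex := (.sub (qTA CHr1 CHv (.var 0) CHXu CHYl CHZu CHQu) (.mul (.num
  156250000000000000000000000000000000000000000000000000000000000000000) CHTA))

/-- Scaled by `6250000000000000000000000000000000000000000000000000000000000`. -/
def CHGG1l : Ex := (.sub (qGG CHr1 CHv (.var 0) CHXl) (.mul (.num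
  6250000000000000000000000000000000000000000000000000000000) CHGG))

/-- Scaled by `156250000000000000000000000000000000000000000000000000000000000000000`. -/
def CHTA1u : Ex := (.sub (qTA CHr1 CHv (.var 0) CHXu CHYu CHZu CHQu) (.mul (.num
  156250000000000000000000000000000000000000000000000000000000000000000) CHTA))

/-- Scaled by `6250000000000000000000000000000000000000000000000000000000000`. -/
def CHGG1u : Ex := (.sub (qGG CHr1 CHv (.var 0) CHXu) (.mul (.num
  6250000000000000000000000000000000000000000000000000000000) CHGG))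

/-- Scaled by `6250000000000000000000000000000000000000000000000000000`. -/
def CHEGul : Ex := (.sub (.mul (.num 625000000000000000000000000000000000000000000000000000)
  CHEG) (qEG CHr1 CHv (.var 0) CHXu CHYl))

/-- Scaled by `6250000000000000000000000000000000000000000000000000000`. -/
def CHEGll : Ex := (.add (.mul (.num 625000000000000000000000000000000000000000000000000000)
  CHEG) (qEG CHr0 CHv (.var 0) CHXl CHYl))

/-- Scaled by `6250000000000000000000000000000000000000000000000000000`. -/
def CHEGuu : Ex := (.sub (.mul (.num 625000000000000000000000000000000000000000000000000000)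
  CHEG) (qEG CHr1 CHv (.var 0) CHXu CHYu))

/-- Scaled by `6250000000000000000000000000000000000000000000000000000`. -/
def CHEGlu : Ex := (.add (.mul (.num 625000000000000000000000000000000000000000000000000000)
  CHEG) (qEG CHr0 CHv (.var 0) CHXl CHYu))

/-- Scaled by `500000000000000000000000000000000000000000`. -/
def CHMEnl : Ex := (.add (.mul (.num 50000000000000000000000000000000000000000) CHME) (qME CHr1
  CHv (.var 0) CHXu CHYl CHZl CHQl))

/-- Scaled by `500000000000000000000000000000000000000000`. -/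
def CHMEpl : Ex := (.sub (.mul (.num 50000000000000000000000000000000000000000) CHME) (qME CHr0
  CHv (.var 0) CHXl CHYl CHZu CHQu))

/-- Scaled by `500000000000000000000000000000000000000000`. -/
def CHMEnu : Ex := (.add (.mul (.num 50000000000000000000000000000000000000000) CHME) (qME CHr1
  CHv (.var 0) CHXu CHYu CHZl CHQl))

/-- Scaled by `500000000000000000000000000000000000000000`. -/
def CHMEpu : Ex := (.sub (.mul (.num 50000000000000000000000000000000000000000) CHME) (qME CHr0
  CHv (.var 0) CHXl CHYu CHZu CHQu))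

/-- Scaled by `100000`. -/
def CHrgXl : Ex := (.sub CHXl (.num 900000))

/-- Scaled by `100000`. -/
def CHrgXu : Ex := (.sub (.num 1200000) CHXu)

/-- Scaled by `100000`. -/
def CHrgYl : Ex := (.sub CHYl (.num 9900000))

/-- Scaled by `100000`. -/
def CHrgYu : Ex := (.sub (.num 14000000) CHYu)

/-- Scaled by `100000`. -/
def CHrgZl : Ex := (.sub CHZl (.num (-1300000)))

/-- Scaled by `100000`. -/
def CHrgZu : Ex := (.sub (.num (-500000)) CHZu)

/-- Scaled by `100000`. -/
def CHrgQl : Ex := (.sub CHQl (.num (-2500000)))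

/-- Scaled by `100000`. -/
def CHrgQu : Ex := (.sub (.num (-950000)) CHQu)

/-- Scaled by `1`. -/
def CHgpos : Ex := (.sub CHGG (.num 1))

/-- Scaled by `1`. -/
def CHUpos : Ex := (.sub CHU (.num 1))

/-- Scaled by `1250000000000000000000000000000000000`. -/
def CHF : Ex := (.sub (tF (.var 0) CHv CHS1 CHTA CHGG CHEG CHME CHXl CHYl) (.num 1))

/-- Scaled by `3200000000000000000000`. -/
def CHcut : Ex := (.sub (tCut (.var 0) CHS CHW CHU CHa CHb (.var 2)) (.num 1))

def CHC0 : ℕ → Chart
  | 0 => ⟨11, 61, 60, 304⟩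
  | 1 => ⟨2, 501, 5, 500⟩
  | 2 => ⟨0, 16, 1, 17⟩
  | _ => ⟨0, 501, 1, 500⟩

def CHC1 : ℕ → Chart
  | 0 => ⟨11, 61, 60, 304⟩
  | 1 => ⟨2, 501, 5, 500⟩
  | 2 => ⟨0, 8, 1, 17⟩
  | _ => ⟨0, 501, 1, 500⟩

def CHC2 : ℕ → Chart
  | 0 => ⟨11, 61, 60, 304⟩
  | 1 => ⟨2, 501, 5, 500⟩
  | 2 => ⟨8, 16, 17, 17⟩
  | _ => ⟨0, 501, 1, 500⟩

def CHC3 : ℕ → Chart
  | 0 => ⟨11, 61, 60, 304⟩
  | 1 => ⟨2, 40, 5, 57⟩
  | 2 => ⟨0, 501, 1, 500⟩
  | _ => ⟨0, 501, 1, 500⟩

def CHC4 : ℕ → Chart
  | 0 => ⟨11, 61, 60, 304⟩
  | 1 => ⟨40, 501, 57, 500⟩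
  | 2 => ⟨0, 501, 1, 500⟩
  | _ => ⟨0, 501, 1, 500⟩

theorem CHZl0_ok0 :
    checkFour CHC0 422 14 5 5 6 CHZl0 = true := by decide +kernel

theorem CHZu0_ok0 :
    checkFour CHC0 422 14 5 5 6 CHZu0 = true := by decide +kernel

theorem CHXl0_ok0 :
    checkFour CHC0 349 12 5 5 4 CHXl0 = true := by decide +kernel

theorem CHYl0_ok0 :
    checkFour CHC0 365 12 5 5 4 CHYl0 = true := by decide +kernel

theorem CHQl0_ok0 :
    checkFour CHC0 365 13 5 5 4 CHQl0 = true := by decide +kernel

theorem CHXu0_ok0 :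
    checkFour CHC1 349 12 5 5 4 CHXu0 = true := by decide +kernel

theorem CHXu0_ok1 :
    checkFour CHC2 354 12 5 5 4 CHXu0 = true := by decide +kernel

theorem CHYu0_ok0 :
    checkFour CHC0 365 12 5 5 4 CHYu0 = true := by decide +kernel

theorem CHQu0_ok0 :
    checkFour CHC0 365 13 5 5 4 CHQu0 = true := by decide +kernel

theorem CHZl1_ok0 :
    checkFour CHC0 400 13 4 4 6 CHZl1 = true := by decide +kernel

theorem CHZu1_ok0 :
    checkFour CHC0 400 13 4 4 6 CHZu1 = true := by decide +kernel

theorem CHXl1_ok0 :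
    checkFour CHC1 327 11 4 4 4 CHXl1 = true := by decide +kernel

theorem CHXl1_ok1 :
    checkFour CHC2 331 11 4 4 4 CHXl1 = true := by decide +kernel

theorem CHYl1_ok0 :
    checkFour CHC1 343 11 4 4 4 CHYl1 = true := by decide +kernel

theorem CHYl1_ok1 :
    checkFour CHC2 346 11 4 4 4 CHYl1 = true := by decide +kernel

theorem CHQl1_ok0 :
    checkFour CHC0 343 12 4 4 4 CHQl1 = true := by decide +kernel

theorem CHXu1_ok0 :
    checkFour CHC0 327 11 4 4 4 CHXu1 = true := by decide +kernel

theorem CHYu1_ok0 :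
    checkFour CHC0 343 11 4 4 4 CHYu1 = true := by decide +kernel

theorem CHQu1_ok0 :
    checkFour CHC0 344 12 4 4 4 CHQu1 = true := by decide +kernel

theorem CHTA0l_ok0 :
    checkFour CHC0 503 16 8 8 0 CHTA0l = true := by decide +kernel

theorem CHGG0l_ok0 :
    checkFour CHC0 440 14 7 7 0 CHGG0l = true := by decide +kernel

theorem CHTA0u_ok0 :
    checkFour CHC0 504 16 8 8 0 CHTA0u = true := by decide +kernel

theorem CHGG0u_ok0 :
    checkFour CHC0 441 14 7 7 0 CHGG0u = true := by decide +kernel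

theorem CHTA1l_ok0 :
    checkFour CHC0 512 17 8 8 0 CHTA1l = true := by decide +kernel

theorem CHGG1l_ok0 :
    checkFour CHC0 450 15 7 7 0 CHGG1l = true := by decide +kernel

theorem CHTA1u_ok0 :
    checkFour CHC0 513 17 8 8 0 CHTA1u = true := by decide +kernel

theorem CHGG1u_ok0 :
    checkFour CHC0 450 15 7 7 0 CHGG1u = true := by decide +kernel

theorem CHEGul_ok0 :
    checkFour CHC0 399 13 6 6 0 CHEGul = true := by decide +kernel

theorem CHEGll_ok0 :
    checkFour CHC0 390 12 6 6 0 CHEGll = true := by decide +kernel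

theorem CHEGuu_ok0 :
    checkFour CHC0 400 13 6 6 0 CHEGuu = true := by decide +kernel

theorem CHEGlu_ok0 :
    checkFour CHC0 391 12 6 6 0 CHEGlu = true := by decide +kernel

theorem CHMEnl_ok0 :
    checkFour CHC0 321 11 5 5 0 CHMEnl = true := by decide +kernel

theorem CHMEpl_ok0 :
    checkFour CHC0 312 10 5 5 0 CHMEpl = true := by decide +kernel

theorem CHMEnu_ok0 :
    checkFour CHC0 321 11 5 5 0 CHMEnu = true := by decide +kernel

theorem CHMEpu_ok0 :
    checkFour CHC0 312 10 5 5 0 CHMEpu = true := by decide +kernel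

theorem CHrgXl_ok0 :
    checkFour CHC0 66 2 2 2 0 CHrgXl = true := by decide +kernel

theorem CHrgXu_ok0 :
    checkFour CHC0 66 2 2 2 0 CHrgXu = true := by decide +kernel

theorem CHrgYl_ok0 :
    checkFour CHC0 70 2 2 2 0 CHrgYl = true := by decide +kernel

theorem CHrgYu_ok0 :
    checkFour CHC0 70 2 2 2 0 CHrgYu = true := by decide +kernel

theorem CHrgZl_ok0 :
    checkFour CHC0 67 2 2 2 0 CHrgZl = true := by decide +kernel

theorem CHrgZu_ok0 :
    checkFour CHC0 65 2 2 2 0 CHrgZu = true := by decide +kernel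

theorem CHrgQl_ok0 :
    checkFour CHC0 67 2 2 2 0 CHrgQl = true := by decide +kernel

theorem CHrgQu_ok0 :
    checkFour CHC0 67 2 2 2 0 CHrgQu = true := by decide +kernel

theorem CHgpos_ok0 :
    checkFour CHC0 118 4 4 4 0 CHgpos = true := by decide +kernel

theorem CHUpos_ok0 :
    checkFour CHC0 35 1 1 0 0 CHUpos = true := by decide +kernel

theorem CHF_ok0 :
    checkFour CHC0 552 19 15 15 0 CHF = true := by decide +kernel

theorem CHcut_ok0 :
    checkFour CHC3 196 8 2 2 2 CHcut = true := by decide +kernel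

theorem CHcut_ok1 :
    checkFour CHC4 203 8 2 2 2 CHcut = true := by decide +kernel

end Vale.Agent.P100.Calib.NegCert
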